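import Crest.Agent.R151.ALLB

/-! Row 151, part A: locality on the right by point reflection. -/

set_option autoImplicit false

namespace Crest.Agent.R151.PA

open MeasureTheory ProbabilityTheory Crest.ProbabilityR.FirstPassage Filter
open scoped Classical

variable {G : Measure ℝ} [Law G]

theorem ARR_rev_p (γ : Pth) (i : ℕ) : γ.rev.p i = γ.p (γ.n - i) := by
  rcases le_total i γ.n with h | h
  · exact γ.rev_p h
  · rw [γ.rev.p_of_ge (by simpa using h), Pth.rev_n, γ.rev_p le_rfl, Nat.sub_self,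
      Nat.sub_eq_zero_of_le h]

theorem ARR_p (γ : Pth) (x : V) (i : ℕ) : (γ.rev.map (ptR x)).p i = x - γ.p (γ.n - i) := by
  rw [Pth.map_p, ARR_rev_p, ptR_apply]

theorem rr_of_ll {k ε : ℤ} {M : ℕ} {x : V} {γ γ' : Pth}
    (h : LL (x.1 - 1 - k) M (γ.rev.map (ptR x)) (γ'.rev.map (ptR (x + (0, ε))))) :
    RR k M ε γ γ' := by
  obtain ⟨i, hi, hi', h1, h2⟩ := h
  refine ⟨i, hi, hi', fun l hl => ?_, fun l hl => ?_⟩
  · obtain ⟨ha, hb⟩ := h1 l hl
    rw [ARR_p, ARR_p] at ha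
    rw [ARR_p, Prod.fst_sub] at hb
    refine ⟨?_, by omega⟩
    linear_combination (norm := abel_nf) -ha
  · obtain ⟨ha, hb⟩ := h2 l hl
    rw [ARR_p, Prod.fst_sub] at ha
    rw [ARR_p, Prod.fst_sub, Prod.fst_add] at hb
    simp only [add_zero] at hb
    constructor <;> omega

theorem ARR_map_ptR (x : V) (γ : Pth) : (γ.map (ptR x)).map (ptR x) = γ := by
  refine Pth.ext' rfl fun i _ => ?_
  rw [Pth.map_p, Pth.map_p, ptR_apply, ptR_apply, sub_sub_cancel]

/-- `geo_act`, `geo_rev` -/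
theorem geo_ptR {t : Env} (ht : Nice G t) (x : V) :
    geo (act (ptR x) t) 0 x = (geo t 0 x).rev.map (ptR x) := by
  have h := geo_act G (isAut_ptR x) ht 0 x
  rw [ptR_apply, ptR_apply, sub_zero, sub_self] at h
  rw [geo_rev G ht, ← h, ARR_map_ptR]

/-- `geo_ptR` in the slipped environment, `slip_ptR` and `IsGeo.congr`, uniqueness -/
theorem geoS_ptR {t : Env} {k ε b : ℤ} {x : V} (h1 : Nice G (slip {k} ε b t))
    (h2 : Nice G (slip {x.1 - 1 - k} ε (ε - b) (act (ptR x) t))) :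
    geoS (x.1 - 1 - k) ε (ε - b) x (act (ptR x) t) =
      (geoS k ε b x t).rev.map (ptR (x + (0, ε))) := by
  unfold geoS
  rw [← geo_ptR h1]
  have h3 : Nice G (act (ptR (x + (0, ε))) (slip {k} ε b t)) :=
    (nice_act G (isAut_ptR _) _).2 h1
  obtain ⟨g1, g2, g3⟩ := geo_spec G h2.1 0 (x + (0, ε))
  have g4 := g1.congr (t' := act (ptR (x + (0, ε))) (slip {k} ε b t)) (by
    rintro e ⟨y, z, -, -, hyz, rfl⟩
    exact slip_ptR k ε b x t hyz)
  have g5 := Nice.eq_geo G h3 g4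
  rwa [g2, g3] at g5

/-- `ll_bound` for `b = 0` and for `b = ε` composed with `act (ptR x)` (`UE.comp`,
`mem_cuts_refl`) -/
theorem loc_bound {θ β : ℝ} (H : Hyp G θ β) {η : ℝ} (hη : 0 < η) : ∃ M : ℕ, ∀ᶠ N : ℕ in atTop,
    ∀ (x : V) (ε : ℤ), |ε| ≤ 1 → Tgt θ N x → Tgt θ N (x + (0, ε)) →
      UE G (fun t => cnt (cuts N) fun k => ¬ (LL k M (geo t 0 x) (geoS k ε 0 x t) ∧
        RR k M ε (geo t 0 x) (geoS k ε 0 x t))) (η * N) := by
  obtain ⟨M, hM⟩ := ll_bound H (half_pos hη)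
  refine ⟨M, ?_⟩
  filter_upwards [hM] with N hN x ε hε hx hx'
  have A := hN x ε 0 hε (Or.inl rfl) hx hx'
  have B := UE.comp (measurePreserving_act G (ptR x)) (hN x ε ε hε (Or.inr rfl) hx hx')
  refine (A.add B).mono ?_ (by ring_nf; rfl)
  filter_upwards [ae_typ_slip G, ae_act G (ptR x) (ae_typ_slip G)] with t ht ht'
  refine (cnt_or_le (q1 := fun k => ¬ LL k M (geo t 0 x) (geoS k ε 0 x t))
    (q2 := fun k => ¬ RR k M ε (geo t 0 x) (geoS k ε 0 x t))
    fun k _ hk => not_and_or.1 hk).trans ?_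
  refine add_le_add le_rfl ?_
  refine cnt_le_of_injOn (fun k => (N : ℤ) - 1 - k) (fun k hk hq => ⟨mem_cuts_refl hk, ?_⟩)
    (fun a _ b _ _ _ e => by omega)
  intro hL
  refine hq (rr_of_ll (x := x) ?_)
  have e1 := geoS_ptR (G := G) (x := x) (k := k) (ε := ε) (b := 0) (ht.2 {k} ε 0).1
    (ht'.2 _ _ _).1
  rw [← geo_ptR ht.1.1, ← e1, sub_zero, hx.1]
  exact hL

end Crest.Agent.R151.PA
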