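import Crest.Agent.R151.AMulti
import Crest.Agent.R151.ARR

/-! Row 151, part A: averaging the multiple slips over the residue classes.

`J = N / (4D)`, `a = N / 4`, classes `cls N D r = {a + r + j D : j < J}` for `r < D`; they are
pairwise disjoint subsets of `cuts N` with `J` elements and spacing `≥ D`.  Sum `multi_ineq` over
`r < D`; with `F = ⋃ cls r` and `Kf k = cls N D ((k - a) % D).toNat` the error terms add up to
`2L cnt (cuts N) ¬Loc + 2L Y''(L2) + 2 Y''(L) + 2 Y'(L) + ζ/N ∑_r (T''_r² + T²)`.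
Order: `L` (`zs_ui`), `M` (`loc_bound` with `η/L`), `L2` (`zs_ui` with `η/L`), `D`, `ζ`, `N`.
The left side minus the main terms is integrable with mean
`D (hm (x + J ε e2) - hm x - J (hm (x + ε e2) - hm x))` (`integral_shear`, `integrable_T`), and
`N ≤ 8 D J` for `N ≥ 8D`. -/

set_option autoImplicit false

namespace Crest.Agent.R151.PA

open MeasureTheory ProbabilityTheory Crest.ProbabilityR.FirstPassage Filter
open scoped Classical

/-- the residue class `r` of cuts -/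
noncomputable def cls (N D r : ℕ) : Finset ℤ :=
  (Finset.range (N / (4 * D))).image fun j : ℕ => (N : ℤ) / 4 + r + j * D

theorem card_cls (N : ℕ) {D : ℕ} (hD : 0 < D) (r : ℕ) : (cls N D r).card = N / (4 * D) := by
  rw [cls, Finset.card_image_of_injective, Finset.card_range]
  intro j j' h
  have hD' : (D : ℤ) ≠ 0 := by exact_mod_cast hD.ne'
  exact_mod_cast mul_right_cancel₀ hD' (add_left_cancel h)

theorem cls_subset (N : ℕ) {D r : ℕ} (hr : r < D) : cls N D r ⊆ cuts N := by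
  intro k hk
  obtain ⟨j, hj, rfl⟩ := Finset.mem_image.1 hk
  have h1 : (j + 1) * D ≤ N / (4 * D) * D := Nat.mul_le_mul_right D (Finset.mem_range.1 hj)
  have h2 : N / (4 * D) * (4 * D) ≤ N := Nat.div_mul_le_self N (4 * D)
  have h3 : 4 * (j * D + D) ≤ N := by nlinarith
  rw [mem_cuts, ← Nat.cast_mul]
  generalize j * D = P at h3
  omega

theorem cls_spacing (N D r : ℕ) :
    ∀ k ∈ cls N D r, ∀ k' ∈ cls N D r, k ≠ k' → (D : ℤ) ≤ |k - k'| := by
  intro k hk k' hk' hne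
  obtain ⟨j, -, rfl⟩ := Finset.mem_image.1 hk
  obtain ⟨j', -, rfl⟩ := Finset.mem_image.1 hk'
  have h1 : (j : ℤ) - j' ≠ 0 := fun h => hne (by rw [sub_eq_zero.1 h])
  rw [add_sub_add_left_eq_sub, ← sub_mul, abs_mul, Nat.abs_cast]
  exact le_mul_of_one_le_left (Nat.cast_nonneg D) (Int.one_le_abs h1)

theorem cls_res {N D r : ℕ} (hr : r < D) {k : ℤ} (hk : k ∈ cls N D r) :
    ((k - (N : ℤ) / 4) % D).toNat = r := by
  obtain ⟨j, -, rfl⟩ := Finset.mem_image.1 hk
  rw [add_assoc, add_sub_cancel_left, Int.add_mul_emod_self_right,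
    Int.emod_eq_of_lt (Nat.cast_nonneg r) (by exact_mod_cast hr), Int.toNat_natCast]

theorem AAvg_sum (N D : ℕ) (f : Finset ℤ → ℤ → ℝ) :
    ∑ r ∈ Finset.range D, ∑ k ∈ cls N D r, f (cls N D r) k =
      ∑ k ∈ (Finset.range D).biUnion (cls N D), f (cls N D ((k - (N : ℤ) / 4) % D).toNat) k := by
  rw [Finset.sum_biUnion]
  · refine Finset.sum_congr rfl fun r hr => Finset.sum_congr rfl fun k hk => ?_
    rw [cls_res (Finset.mem_range.1 hr) hk]
  · intro r hr r' hr' hne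
    refine Finset.disjoint_left.2 fun k hk hk' => hne ?_
    rw [← cls_res (Finset.mem_range.1 hr) hk, cls_res (Finset.mem_range.1 hr') hk']

theorem AAvg_cnt (N D : ℕ) (q : ℤ → Prop) :
    ∑ r ∈ Finset.range D, cnt (cls N D r) q ≤ cnt (cuts N) q := by
  simp only [cnt_eq_sum]
  rw [AAvg_sum N D fun _ k => if q k then (1 : ℝ) else 0]
  refine Finset.sum_le_sum_of_subset_of_nonneg
    (Finset.biUnion_subset.2 fun r hr => cls_subset N (Finset.mem_range.1 hr)) fun k _ _ => ?_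
  split_ifs <;> norm_num

theorem AAvg_ev {a : ℝ} (ha : 0 ≤ a) (ζ : ℝ) :
    ∀ᶠ N : ℕ in atTop, a + N + (N : ℝ) ^ 2 / ζ ≤ (N : ℝ) ^ 3 / 8 := by
  filter_upwards [tendsto_natCast_atTop_atTop.eventually_ge_atTop (1 : ℝ),
    tendsto_natCast_atTop_atTop.eventually_ge_atTop (8 * (a + 1 + ζ⁻¹))] with N h1 h2
  have h3 : (1 : ℝ) ≤ (N : ℝ) ^ 2 := one_le_pow₀ h1
  have h4 : (N : ℝ) ≤ (N : ℝ) ^ 2 := by nlinarith
  have h5 := mul_le_mul_of_nonneg_left h2 (sq_nonneg (N : ℝ))
  have h6 := mul_le_mul_of_nonneg_left h3 ha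
  rw [div_eq_mul_inv]
  nlinarith

theorem AAvg_int {G : Measure ℝ} [Law G] (K : Finset ℤ) (ε b : ℤ) (z : V) :
    Integrable (fun t => T (slip K ε b t) 0 z) (iidLaw G) ∧
      ∫ t, T (slip K ε b t) 0 z ∂(iidLaw G) = hm G z :=
  ⟨(integrable_shear G _ _ fun t => T t 0 z).2 (integrable_T G 0 z),
    integral_shear G _ _ fun t => T t 0 z⟩

/-- the mean of the main terms -/
theorem AAvg_mean {G : Measure ℝ} [Law G] (N : ℕ) {D : ℕ} (hD : 0 < D) (ε : ℤ) (x y z : V) {a : ℝ}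
    (h : UE G (fun t => ∑ r ∈ Finset.range D, (T (slip (cls N D r) ε 0 t) 0 z +
      ((N / (4 * D) : ℕ) - 1 : ℝ) * T t 0 x - ∑ k ∈ cls N D r, T (slip {k} ε 0 t) 0 y)) a) :
    D * (hm G z + ((N / (4 * D) : ℕ) - 1 : ℝ) * hm G x - (N / (4 * D) : ℕ) * hm G y) ≤ a := by
  have i1 := fun r => (AAvg_int (G := G) (cls N D r) ε 0 z).1
  have i2 := (integrable_T G 0 x).const_mul ((N / (4 * D) : ℕ) - 1 : ℝ)
  have i3 := fun r => integrable_finsetSum (cls N D r) fun k _ => (AAvg_int (G := G) {k} ε 0 y).1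
  have i5 : ∀ r, Integrable (fun t => T (slip (cls N D r) ε 0 t) 0 z +
      ((N / (4 * D) : ℕ) - 1 : ℝ) * T t 0 x) (iidLaw G) := fun r => (i1 r).add i2
  have i4 : ∀ r, Integrable (fun t => T (slip (cls N D r) ε 0 t) 0 z +
      ((N / (4 * D) : ℕ) - 1 : ℝ) * T t 0 x - ∑ k ∈ cls N D r, T (slip {k} ε 0 t) 0 y)
      (iidLaw G) := fun r => (i5 r).sub (i3 r)
  refine le_trans (le_of_eq ?_) (h.integral_le (integrable_finsetSum _ fun r _ => i4 r))
  rw [integral_finsetSum _ fun r _ => i4 r, Finset.sum_congr rfl (g := fun _ =>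
    hm G z + ((N / (4 * D) : ℕ) - 1 : ℝ) * hm G x - (N / (4 * D) : ℕ) * hm G y)]
  · rw [Finset.sum_const, Finset.card_range, nsmul_eq_mul]
  · intro r _
    rw [integral_sub (i5 r) (i3 r), integral_add (i1 r) i2, integral_const_mul,
      integral_finsetSum _ fun k _ => (AAvg_int (G := G) {k} ε 0 y).1, (AAvg_int _ ε 0 z).2]
    simp only [fun k : ℤ => (AAvg_int (G := G) {k} ε 0 y).2, Finset.sum_const, card_cls N hD,
      nsmul_eq_mul]
    rfl


theorem multi_bound {G : Measure ℝ} [Law G] {θ β : ℝ} (H : Hyp G θ β) {η : ℝ} (hη : 0 < η) :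
    ∃ D : ℕ, 0 < D ∧ ∀ᶠ N : ℕ in atTop, ∀ (x : V) (ε : ℤ), |ε| ≤ 1 → Tgt θ N x →
      Tgt θ N (x + (0, ε)) →
      hm G (x + (0, ε * (N / (4 * D) : ℕ))) - hm G x ≤
        (N / (4 * D) : ℕ) * (hm G (x + (0, ε)) - hm G x) + η * (N / (4 * D) : ℕ) := by
  have he0 : 0 < η / 80 := by positivity
  obtain ⟨L0, hL0, ev0⟩ := zs_ui H he0
  have hL : 0 < L0 + 1 := by linarith
  have he1 : 0 < η / 80 / (L0 + 1) := by positivity
  obtain ⟨M, ev1⟩ := loc_bound H he1
  obtain ⟨L2, hL2, ev2⟩ := zs_ui H he1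
  obtain ⟨C, hC, hsq⟩ := ue_T_sq G
  obtain ⟨D0, hD0⟩ := exists_nat_ge (2 * L2)
  set D := D0 + (2 * M + 2) with hDdef
  have hD : 0 < D := by omega
  have hDr : (0 : ℝ) < D := by exact_mod_cast hD
  have hD2 : 2 * L2 ≤ D := hD0.trans (by exact_mod_cast Nat.le_add_right _ _)
  have hζ : 0 < η / 80 / (13 * D * C) := by positivity
  refine ⟨D, hD, ?_⟩
  filter_upwards [ev0, ev1, ev2, AAvg_ev (a := L0 + 1 + L2) (by linarith) (η / 80 / (13 * D * C)),
    eventually_ge_atTop (8 * D)] with N h0 h1 h2 h3 h4 x ε hε hx hx'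
  have hN1 : 1 ≤ N := by omega
  have hNr : (0 : ℝ) < N := by exact_mod_cast hN1
  set J := N / (4 * D) with hJ
  have hJN : J ≤ N := Nat.div_le_self _ _
  have hNJ : N ≤ 8 * D * J := by
    have a1 : N < 4 * D * (J + 1) := Nat.lt_mul_div_succ N (by omega)
    have a2 : 1 ≤ J := (Nat.le_div_iff_mul_le (by omega)).2 (by omega)
    nlinarith
  set F := (Finset.range D).biUnion (cls N D) with hF
  set Kf : ℤ → Finset ℤ := fun k => cls N D ((k - (N : ℤ) / 4) % D).toNat with hKf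
  have u1 := (h1 x ε hε hx hx').const_mul (c := 2 * (L0 + 1)) (by positivity)
  have u2 := (h2 x hx ε 0 Kf F L2 hε (Or.inl rfl) le_rfl).const_mul (c := 2 * (L0 + 1))
    (by positivity)
  have u3 := (h0 x hx ε 0 Kf F (L0 + 1) hε (Or.inl rfl) (by linarith)).const_mul (c := 2)
    (by norm_num)
  have u4 := (ue_zs_slip (h0 _ hx' (-ε) (-0) (fun k => {k}) F (L0 + 1) (by rwa [abs_neg])
    (Or.inl neg_zero) (by linarith))).const_mul (c := 2) (by norm_num)
  have u5 := (UE.sum (Finset.range D) fun r _ =>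
    ((hsq (x + (0, ε * J))).comp (measurePreserving_slip G (cls N D r) ε 0)).add (hsq x)).const_mul
      (c := η / 80 / (13 * D * C) / N) (by positivity)
  have n1 : (nrm x : ℝ) ≤ 2 * N := by exact_mod_cast hx.nrm_le H.abs_le
  have n2 : (nrm (x + (0, ε * J)) : ℝ) ≤ 3 * N := by
    have a1 := nrm_add_le x (0, ε * J)
    have a2 : nrm ((0, ε * J) : V) ≤ N := by
      rw [nrm_le_iff]
      refine ⟨by simp, ?_⟩
      rw [abs_mul, Nat.abs_cast]
      exact (mul_le_of_le_one_left (Nat.cast_nonneg J) hε).trans (by exact_mod_cast hJN)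
    have a3 := hx.nrm_le H.abs_le
    exact_mod_cast (show nrm (x + (0, ε * J)) ≤ 3 * N by omega)
  have key := AAvg_mean (G := G) N hD ε x (x + (0, ε)) (x + (0, ε * J)) (a := η / 8 * N)
    (((((u1.add u2).add u3).add u4).add u5).mono ?_ ?_)
  · rw [← hJ] at key
    have b1 : η / 8 * N ≤ D * (η * J) := by
      have : (N : ℝ) ≤ 8 * D * J := by exact_mod_cast hNJ
      nlinarith
    have b2 := le_of_mul_le_mul_left (key.trans b1) hDr
    linarith
  · filter_upwards [ae_typ_slip G] with t ht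
    have m := fun r (hr : r ∈ Finset.range D) => multi_ineq (G := G) (M := M) (L := L0 + 1) hε hx.1
      (cls_subset N (Finset.mem_range.1 hr)) (cls_spacing N D r) (by omega) hD2 hL.le hL2 hζ hN1
      h3 ht.1 ht.2
    simp only [card_cls N hD, ← hJ] at m
    have s1 := Finset.sum_le_sum m
    simp only [Finset.sum_add_distrib, ← Finset.mul_sum] at s1
    have c1 := mul_le_mul_of_nonneg_left (AAvg_cnt N D fun k =>
      ¬ (LL k M (geo t 0 x) (geoS k ε 0 x t) ∧ RR k M ε (geo t 0 x) (geoS k ε 0 x t)))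
      (show 0 ≤ 2 * (L0 + 1) by positivity)
    rw [AAvg_sum N D fun K k => max (Zs G K ε 0 k (geo t 0 x) t - L2) 0,
      AAvg_sum N D fun K k => max (Zs G K ε 0 k (geo t 0 x) t - (L0 + 1)) 0,
      AAvg_sum N D fun _ k =>
        max (Zs G {k} (-ε) 0 k (geoS k ε 0 x t) (slip {k} ε 0 t) - (L0 + 1)) 0] at s1
    simp only [Finset.sum_add_distrib, Finset.sum_sub_distrib, ← Finset.mul_sum, neg_zero, ← hJ]
    linarith
  · simp only [Finset.sum_const, Finset.card_range, nsmul_eq_mul]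
    have b1 : 2 * (L0 + 1) * (η / 80 / (L0 + 1) * N) = η / 40 * N := by field_simp; ring
    have b2 : η / 80 / (13 * D * C) / N * (D * (C * (nrm (x + (0, ε * J)) : ℝ) ^ 2 +
        C * (nrm x : ℝ) ^ 2)) ≤ η / 80 / (13 * D * C) / N * (D * (C * (3 * N) ^ 2 +
        C * (2 * N) ^ 2)) := by gcongr
    have b3 : η / 80 / (13 * D * C) / N * (D * (C * (3 * (N : ℝ)) ^ 2 + C * (2 * N) ^ 2)) =
        η / 80 * N := by field_simp; ring
    have b4 := mul_pos hη hNr
    linarith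

end Crest.Agent.R151.PA
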