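import Crest.Agent.R151.APath

/-! Row 151, part A: a far almost optimal path produces a tie at some scale (deterministic). -/

set_option autoImplicit false

namespace Crest.Agent.R151.PA

open MeasureTheory ProbabilityTheory Crest.ProbabilityR.FirstPassage Filter
open scoped Classical

/-- Let `i = fv γ c`, `z = γ.p i`, `P s` := some `Gap` path avoids `band θ c s (anchor θ s z)`.
`P s1` holds; `P s` fails when `c ≤ ell s` (then `0` is in the band by `Gt.tube` with `j = 0`); take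
`s ≥ s1` with `P s`, `¬ P (s+1)`; `band_succ_subset`.  Let `j` be the last visit to column
`c - ell s` before `i` (`exists_last_level`): the times in `[j, i]` lie in the band (`Gt.tube`,
`abs_sub_anchor`), `j + ell s ≤ i`, and `nhi_ge_of_not_kesBad`, `card_hi_edges` finish. -/
theorem far_cases {G : Measure ℝ} {θ β lam : ℝ} {s1 N : ℕ} {x : V} {γ : Pth} {t : Env} {c : ℤ}
    (ht : NN t) (hγ : GeoXZ t 0 x γ) (hx : x.1 = N) (hc0 : 0 ≤ c) (hcN : c ≤ N)
    (hg : Gt θ β s1 γ (fv γ c)) (hf : Far θ s1 lam x γ t c) :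
    ∃ s, s1 ≤ s ∧ ell s ≤ N ∧ ((∃ y, t ∈ Tie G θ lam x c s y) ∨
      ∃ j, j ≤ γ.n ∧ (γ.p j).1 = c - ell s ∧ t ∈ KesBad G (γ.p j) (ell s)) := by
  obtain ⟨⟨hok, -, hsa, hgeo⟩, h0, hn⟩ := id hγ
  obtain ⟨-, hin, hic, hlt⟩ := fv_spec hok (c := c) (j := γ.n) (by rw [h0]; exact hc0)
    (by rw [hn, hx]; exact hcN)
  set i := fv γ c with hi
  set z := γ.p i with hz
  -- points of `γ` in the right columns are in the band
  have hmem : ∀ s, s1 ≤ s → ∀ l, l ≤ γ.n → c - ell s ≤ (γ.p l).1 → (γ.p l).1 ≤ c →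
      γ.p l ∈ band θ c s (anchor θ s z) := by
    intro s hs l hl h1 h2
    refine mem_band.2 ⟨h1, h2, ?_⟩
    have h3 := hg.tube s hs l hl (by rw [← hz, hic, abs_le]; constructor <;> omega)
    have h4 := abs_sub_anchor θ s z
    have h5 : (0 : ℝ) ≤ ww s := Nat.cast_nonneg _
    rw [← hz] at h3
    rw [abs_le] at h3 h4 ⊢
    constructor <;> linarith [h3.1, h3.2, h4.1, h4.2]
  let P : ℕ → Prop := fun s => ∃ δ, Gap t x lam δ ∧ ¬ Meets δ (band θ c s (anchor θ s z))
  have hP : ∀ s, s1 ≤ s → P s → (ell s : ℤ) < c := by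
    rintro s hs ⟨δ, h1, h2⟩
    by_contra hcon
    refine h2 ⟨0, Nat.zero_le _, ?_⟩
    rw [h1.1.2.2.1, ← h0]
    refine hmem s hs 0 (Nat.zero_le _) ?_ ?_
    · rw [h0]; simp only [Prod.fst_zero]; omega
    · rw [h0]; exact hc0
  have hex : ∃ k, ¬ P (s1 + k + 1) := by
    refine ⟨N, fun h => ?_⟩
    have h1 := hP _ (by omega) h
    have h2 := lt_ell (s1 + N + 1)
    omega
  have hk1 := Nat.find_spec hex
  have hk0 : P (s1 + Nat.find hex) := by
    rcases Nat.eq_zero_or_pos (Nat.find hex) with h | h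
    · rw [h]; exact hf
    · have := Nat.find_min hex (m := Nat.find hex - 1) (by omega)
      rw [not_not, show s1 + (Nat.find hex - 1) + 1 = s1 + Nat.find hex by omega] at this
      exact this
  set s := s1 + Nat.find hex with hs
  have hs1 : s1 ≤ s := Nat.le_add_right _ _
  have hlc := hP s hs1 hk0
  refine ⟨s, hs1, by omega, ?_⟩
  obtain ⟨j, -, hji, hj1, hj2⟩ := exists_last_level (fun k => (γ.p k).1) (Nat.zero_le i)
    (fun k _ _ => hok.col_step k) (c - ell s) (by simp only [h0, Prod.fst_zero]; omega)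
    (by simp only [← hz, hic]; omega)
  by_cases hb : t ∈ KesBad G (γ.p j) (ell s)
  · exact Or.inr ⟨j, hji.trans hin, hj1, hb⟩
  refine Or.inl ⟨anchor θ s z, ht, ⟨γ, hγ, ?_⟩, hk0, fun δ hδ => ?_⟩
  · have hcol := col_sub_le hok hji
    rw [min_eq_left hin, ← hz, hic, hj1] at hcol
    have hji' : j + ell s ≤ i := by
      have := le_abs_self (c - (c - (ell s : ℤ)))
      omega
    have h1 := nhi_ge_of_not_kesBad G hok hsa (hji'.trans hin) hb
    rw [← card_hi_edges G hok hsa (hji'.trans hin)] at h1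
    refine h1.trans (Nat.mul_le_mul_left 2 (Finset.card_le_card
      (Finset.filter_subset_filter _ fun e he => ?_)))
    obtain ⟨l, hl, rfl⟩ := Finset.mem_image.1 he
    obtain ⟨hl1, hl2⟩ := Finset.mem_Ico.1 hl
    have hin' : ∀ l, j ≤ l → l ≤ i → γ.p l ∈ band θ c s (anchor θ s z) := by
      intro l h1 h2
      refine hmem s hs1 l (h2.trans hin) ?_ ?_
      · rcases h1.eq_or_lt with rfl | h
        · exact hj1.ge
        · exact (hj2 l h h2).le
      · rcases h2.eq_or_lt with rfl | h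
        · exact hic.le
        · exact (hlt l h).le
    refine Finset.mem_inter.2 ⟨Pth.mem_edges.2 ⟨l, by omega, rfl⟩, ?_⟩
    exact Finset.mem_image.2 ⟨(γ.p l, γ.p (l + 1)), Finset.mem_filter.2
      ⟨Finset.mem_product.2 ⟨hin' l hl1 (by omega), hin' (l + 1) (by omega) (by omega)⟩,
        hok l (by omega)⟩, rfl⟩
  · by_contra hcon
    refine hk1 ⟨δ, hδ, fun ⟨l, h1, h2⟩ => hcon ⟨l, h1, band_succ_subset θ c s z h2⟩⟩

end Crest.Agent.R151.PA
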