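import Crest.Agent.R151.TMom1

/-! Row 151 toolkit: tails of the weights, local moves, moments of passage times. -/

set_option autoImplicit false

namespace Crest.Agent.R151

open MeasureTheory ProbabilityTheory Crest.ProbabilityR.FirstPassage
open scoped Classical

theorem tmom_of_lintegral {μ : Measure Env} {f : Env → ℝ} (hf : AEMeasurable f μ) (h0 : 0 ≤ᵐ[μ] f)
    {c : ℝ} (hc : 0 ≤ c) (h : ∫⁻ t, ENNReal.ofReal (f t) ∂μ ≤ ENNReal.ofReal c) :
    Integrable f μ ∧ ∫ t, f t ∂μ ≤ c := by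
  refine ⟨⟨hf.aestronglyMeasurable, ?_⟩, ?_⟩
  · rw [hasFiniteIntegral_iff_ofReal h0]
    exact h.trans_lt ENNReal.ofReal_lt_top
  · rw [integral_eq_lintegral_of_nonneg_ae h0 hf.aestronglyMeasurable]
    exact ENNReal.toReal_le_of_le_ofReal hc h

/-- layer cake with the tail `C λ^(-3/2)` -/
theorem tmom_layer {μ : Measure Env} [IsFiniteMeasure μ] {Z : Env → ℝ} (hZ : Measurable Z)
    (h0 : 0 ≤ᵐ[μ] Z) {C : ℝ} (hC : 0 ≤ C)
    (ht : ∀ lam : ℝ, 0 < lam → μ.real {t | lam < Z t} ≤ C / (lam * √lam)) {q : ℝ} (hq : 0 < q) :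
    Integrable Z μ ∧ ∫ t, Z t ∂μ ≤ μ.real Set.univ / q ^ 2 + 2 * C * q := by
  have hl : (0 : ℝ) < 1 / q ^ 2 := by positivity
  refine tmom_of_lintegral hZ.aemeasurable h0 (by positivity) ?_
  rw [lintegral_eq_lintegral_meas_lt μ h0 hZ.aemeasurable, ← Set.Ioc_union_Ioi_eq_Ioi hl.le]
  refine (lintegral_union_le _ _ _).trans ?_
  rw [ENNReal.ofReal_add (by positivity) (by positivity)]
  refine add_le_add ?_ ?_
  · calc ∫⁻ t in Set.Ioc 0 (1 / q ^ 2), μ {a | t < Z a}
        ≤ ∫⁻ _t in Set.Ioc 0 (1 / q ^ 2), μ Set.univ :=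
          lintegral_mono fun t => measure_mono (Set.subset_univ _)
      _ = ENNReal.ofReal (μ.real Set.univ / q ^ 2) := by
          rw [setLIntegral_const, Real.volume_Ioc, sub_zero, div_eq_mul_one_div (μ.real _),
            ENNReal.ofReal_mul measureReal_nonneg, ofReal_measureReal]
  · have hi : IntegrableOn (fun s : ℝ => C * s ^ (-(3 / 2) : ℝ)) (Set.Ioi (1 / q ^ 2)) :=
      (integrableOn_Ioi_rpow_of_lt (by norm_num) hl).const_mul C
    calc ∫⁻ t in Set.Ioi (1 / q ^ 2), μ {a | t < Z a}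
        ≤ ∫⁻ s in Set.Ioi (1 / q ^ 2), ENNReal.ofReal (C * s ^ (-(3 / 2) : ℝ)) := by
          refine setLIntegral_mono' measurableSet_Ioi fun s hs => ?_
          have hs0 : 0 < s := hl.trans hs
          rw [← ofReal_measureReal]
          refine ENNReal.ofReal_le_ofReal ((ht s hs0).trans (le_of_eq ?_))
          rw [Real.rpow_neg hs0.le, Real.sqrt_eq_rpow, div_eq_mul_inv]
          congr 2
          rw [show (3 / 2 : ℝ) = 1 + 1 / 2 by norm_num, Real.rpow_add hs0, Real.rpow_one]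
      _ = ENNReal.ofReal (∫ s in Set.Ioi (1 / q ^ 2), C * s ^ (-(3 / 2) : ℝ)) := by
          refine (ofReal_integral_eq_lintegral_ofReal hi ?_).symm
          filter_upwards [ae_restrict_mem measurableSet_Ioi] with s hs
          have hs0 : 0 < s := hl.trans hs
          positivity
      _ = ENNReal.ofReal (2 * C * q) := by
          rw [integral_const_mul, integral_Ioi_rpow_of_lt (by norm_num) hl]
          congr 1
          have : (1 / q ^ 2 : ℝ) ^ (-(3 / 2) + 1 : ℝ) = q := by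
            rw [one_div, Real.inv_rpow (by positivity), ← Real.rpow_natCast, ← Real.rpow_mul hq.le]
            norm_num [Real.rpow_neg_one]
          rw [this]; ring

variable (G : Measure ℝ) [Law G]

theorem tmom_ui {Z : Env → ℝ} (hZ : Measurable Z) (h0 : 0 ≤ᵐ[iidLaw G] Z) {C : ℝ} (hC : 0 ≤ C)
    (ht : ∀ lam : ℝ, 0 < lam → Pr G {t | lam < Z t} ≤ C / (lam * √lam)) :
    Integrable Z (iidLaw G) ∧ ∀ A : Set Env,
      ∫ t in A, Z t ∂(iidLaw G) ≤ (1 + 2 * C) * Pr G A ^ ((1 : ℝ) / 5) := by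
  refine ⟨(tmom_layer hZ h0 hC ht one_pos).1, fun A => ?_⟩
  rcases (Pr_nonneg G A).eq_or_lt with h | h
  · rw [Measure.restrict_eq_zero.2 ((Pr_eq_zero_iff G A).1 h.symm), integral_zero_measure]
    have := Pr_nonneg G A
    positivity
  · have hq : 0 < Pr G A ^ ((1 : ℝ) / 5) := Real.rpow_pos_of_pos h _
    have hq1 : Pr G A ^ ((1 : ℝ) / 5) ≤ 1 := Real.rpow_le_one h.le (Pr_le_one G A) (by norm_num)
    have h5 : (Pr G A ^ ((1 : ℝ) / 5)) ^ 5 = Pr G A := by
      rw [← Real.rpow_natCast, ← Real.rpow_mul h.le]; norm_num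
    have := (tmom_layer (μ := (iidLaw G).restrict A) hZ (ae_restrict_of_ae h0) hC (fun lam hl =>
      le_trans (ENNReal.toReal_mono (measure_ne_top _ _) (Measure.restrict_apply_le _ _))
        (ht lam hl)) hq).2
    have e : ((iidLaw G).restrict A).real Set.univ = Pr G A := by
      simp [Pr, Measure.real]
    rw [e] at this
    set q := Pr G A ^ ((1 : ℝ) / 5)
    have e2 : Pr G A / q ^ 2 = q ^ 3 := by
      rw [← h5]; field_simp
    have e3 : q ^ 3 ≤ q := by
      have := pow_le_pow_of_le_one hq.le hq1 (show 1 ≤ 3 by norm_num)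
      simpa using this
    rw [e2] at this
    linarith

omit [Law G] in
theorem tmom_stair (x z : V) : ∃ γ : Pth, γ.Ok ∧ γ.p 0 = x ∧ γ.p γ.n = z ∧ γ.n ≤ 2 * nrm (z - x) ∧
    ∀ i ≤ γ.n, nrm (γ.p i - x) ≤ nrm (z - x) ∧ min x.1 z.1 ≤ (γ.p i).1 ∧ (γ.p i).1 ≤ max x.1 z.1 := by
  obtain ⟨γ, -, hJ, -, hn, -⟩ := Pth.exists_stair x z
  refine ⟨γ, hJ.1, hJ.2.2.1, hJ.2.2.2, hn, fun i hi => ?_⟩
  obtain ⟨h1, h2, h3, h4⟩ := hJ.2.1 i hi
  refine ⟨?_, h1, h2⟩
  simp only [nrm, Prod.fst_sub, Prod.snd_sub]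
  omega

omit [Law G] in
theorem tmom_adj_box {x y : V} (h : Adj x y) : y ∈ box x 3 := by
  change nrm (y - x) ≤ 3
  rw [h.nrm_sub]; norm_num

/-- moves inside a strip with at least three columns: mean and uniform integrability -/
theorem strip_moment : ∃ C : ℝ, 0 < C ∧ ∀ a b : ℤ, a + 2 ≤ b → ∀ x z : V,
    x ∈ strip a b → z ∈ strip a b → ∀ D : Set V, strip a b ∩ box x (nrm (z - x) + 3) ⊆ D →
      Integrable (fun t => TD D t x z) (iidLaw G) ∧
      ∀ A : Set Env, MeasurableSet A →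
        ∫ t in A, TD D t x z ∂(iidLaw G) ≤ C * nrm (z - x) * Pr G A ^ ((1 : ℝ) / 5) := by
  obtain ⟨C, hC, H⟩ := local_strip_tail G
  refine ⟨2 * (1 + 2 * C), by positivity, fun a b hab x z hx hz D hD => ?_⟩
  obtain ⟨γ, hok, h0, hn, hlen, hin⟩ := tmom_stair x z
  have hs : ∀ i ≤ γ.n, γ.p i ∈ strip a b := fun i hi =>
    ⟨(le_min hx.1 hz.1).trans (hin i hi).2.1, (hin i hi).2.2.trans (max_le hx.2 hz.2)⟩
  have hZ : ∀ i ∈ Finset.range γ.n,
      Integrable (fun t => TD (strip a b ∩ box (γ.p i) 3) t (γ.p i) (γ.p (i + 1))) (iidLaw G) ∧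
      ∀ A : Set Env, ∫ t in A, TD (strip a b ∩ box (γ.p i) 3) t (γ.p i) (γ.p (i + 1)) ∂(iidLaw G) ≤
        (1 + 2 * C) * Pr G A ^ ((1 : ℝ) / 5) := by
    intro i hi
    have hi := Finset.mem_range.1 hi
    exact tmom_ui G (measurable_TD _ _ _) ((ae_nn G).mono fun t ht => TD_nonneg ht _ _ _) hC.le
      (H a b hab _ _ (hok i hi) (hs i hi.le) (hs (i + 1) hi))
  have hle : ∀ᵐ t ∂(iidLaw G), TD D t x z ≤
      ∑ i ∈ Finset.range γ.n, TD (strip a b ∩ box (γ.p i) 3) t (γ.p i) (γ.p (i + 1)) := by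
    filter_upwards [ae_nn G] with t ht
    have := TD_le_sum_steps ht (D := D) (γ := γ) (fun i => strip a b ∩ box (γ.p i) 3) (fun i hi =>
      ⟨(Set.inter_subset_inter_right _ (box_subset_box
          (Nat.add_le_add_right (hin i hi.le).1 3))).trans hD,
        conn_strip_inter_box ⟨hs i hi.le, mem_box_self _ _⟩
          ⟨hs (i + 1) hi, tmom_adj_box (hok i hi)⟩⟩)
      (by rw [h0]; exact hD ⟨hx, mem_box_self _ _⟩)
    rwa [h0, hn] at this
  have hsum := integrable_finsetSum (Finset.range γ.n) fun i hi => (hZ i hi).1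
  have hint : Integrable (fun t => TD D t x z) (iidLaw G) := by
    refine hsum.mono' (measurable_TD _ _ _).aestronglyMeasurable ?_
    filter_upwards [hle, ae_nn G] with t h ht
    rwa [Real.norm_eq_abs, abs_of_nonneg (TD_nonneg ht _ _ _)]
  refine ⟨hint, fun A _ => ?_⟩
  have hq : 0 ≤ Pr G A ^ ((1 : ℝ) / 5) := Real.rpow_nonneg (Pr_nonneg G A) _
  have hlen' : (γ.n : ℝ) ≤ 2 * nrm (z - x) := by exact_mod_cast hlen
  calc ∫ t in A, TD D t x z ∂(iidLaw G)
      ≤ ∫ t in A, ∑ i ∈ Finset.range γ.n,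
          TD (strip a b ∩ box (γ.p i) 3) t (γ.p i) (γ.p (i + 1)) ∂(iidLaw G) :=
        integral_mono_ae hint.integrableOn hsum.integrableOn (ae_restrict_of_ae hle)
    _ = ∑ i ∈ Finset.range γ.n, ∫ t in A,
          TD (strip a b ∩ box (γ.p i) 3) t (γ.p i) (γ.p (i + 1)) ∂(iidLaw G) :=
        integral_finsetSum _ fun i hi => (hZ i hi).1.integrableOn
    _ ≤ ∑ _i ∈ Finset.range γ.n, (1 + 2 * C) * Pr G A ^ ((1 : ℝ) / 5) :=
        Finset.sum_le_sum fun i hi => (hZ i hi).2 A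
    _ = γ.n * ((1 + 2 * C) * Pr G A ^ ((1 : ℝ) / 5)) := by simp
    _ ≤ (2 * nrm (z - x)) * ((1 + 2 * C) * Pr G A ^ ((1 : ℝ) / 5)) :=
        mul_le_mul_of_nonneg_right hlen' (by positivity)
    _ = _ := by ring

theorem T_L2 : ∃ C : ℝ, 0 < C ∧ ∀ x z : V, ∀ D : Set V, box x (nrm (z - x) + 3) ⊆ D →
    MemLp (fun t => TD D t x z) 2 (iidLaw G) ∧
      ∫ t, TD D t x z ^ 2 ∂(iidLaw G) ≤ C * (nrm (z - x) : ℝ) ^ 2 := by
  obtain ⟨C, hC, H⟩ := local_L2 G
  refine ⟨4 * C, by positivity, fun x z D hD => ?_⟩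
  obtain ⟨γ, hok, h0, hn, hlen, hin⟩ := tmom_stair x z
  have hZ := fun i (hi : i ∈ Finset.range γ.n) => H _ _ (hok i (Finset.mem_range.1 hi))
  have hle : ∀ᵐ t ∂(iidLaw G), TD D t x z ≤
      ∑ i ∈ Finset.range γ.n, TD (box (γ.p i) 3) t (γ.p i) (γ.p (i + 1)) := by
    filter_upwards [ae_nn G] with t ht
    have := TD_le_sum_steps ht (D := D) (γ := γ) (fun i => box (γ.p i) 3) (fun i hi =>
      ⟨(box_subset_box (Nat.add_le_add_right (hin i hi.le).1 3)).trans hD,
        conn_box (mem_box_self _ _) (tmom_adj_box (hok i hi))⟩)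
      (by rw [h0]; exact hD (mem_box_self _ _))
    rwa [h0, hn] at this
  have hsum := memLp_finsetSum (Finset.range γ.n) fun i hi => (hZ i hi).1
  have hmem : MemLp (fun t => TD D t x z) 2 (iidLaw G) := by
    refine hsum.mono' (measurable_TD _ _ _).aestronglyMeasurable ?_
    filter_upwards [hle, ae_nn G] with t h ht
    rwa [Real.norm_eq_abs, abs_of_nonneg (TD_nonneg ht _ _ _)]
  refine ⟨hmem, ?_⟩
  have hlen' : (γ.n : ℝ) ≤ 2 * nrm (z - x) := by exact_mod_cast hlen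
  have hsq := integrable_finsetSum (Finset.range γ.n) fun i hi => (hZ i hi).1.integrable_sq
  calc ∫ t, TD D t x z ^ 2 ∂(iidLaw G)
      ≤ ∫ t, γ.n * ∑ i ∈ Finset.range γ.n,
          TD (box (γ.p i) 3) t (γ.p i) (γ.p (i + 1)) ^ 2 ∂(iidLaw G) := by
        refine integral_mono_ae hmem.integrable_sq (hsq.const_mul _) ?_
        filter_upwards [hle, ae_nn G] with t h ht
        refine (pow_le_pow_left₀ (TD_nonneg ht _ _ _) h 2).trans ?_
        simpa using sq_sum_le_card_mul_sum_sq (s := Finset.range γ.n)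
          (f := fun i => TD (box (γ.p i) 3) t (γ.p i) (γ.p (i + 1)))
    _ = γ.n * ∑ i ∈ Finset.range γ.n, ∫ t,
          TD (box (γ.p i) 3) t (γ.p i) (γ.p (i + 1)) ^ 2 ∂(iidLaw G) := by
        rw [integral_const_mul, integral_finsetSum _ fun i hi => (hZ i hi).1.integrable_sq]
    _ ≤ γ.n * ∑ _i ∈ Finset.range γ.n, C :=
        mul_le_mul_of_nonneg_left (Finset.sum_le_sum fun i hi => (hZ i hi).2) (Nat.cast_nonneg _)
    _ = C * (γ.n : ℝ) ^ 2 := by simp; ring
    _ ≤ C * (2 * nrm (z - x)) ^ 2 := by gcongr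
    _ = _ := by ring

theorem memLp_T (x z : V) : MemLp (fun t => T t x z) 2 (iidLaw G) := by
  obtain ⟨C, -, H⟩ := T_L2 G
  exact (H x z Set.univ (Set.subset_univ _)).1
theorem integrable_T (x z : V) : Integrable (fun t => T t x z) (iidLaw G) :=
  (memLp_T G x z).integrable (by norm_num)

theorem hm_zero : hm G 0 = 0 := by
  unfold hm
  rw [integral_congr_ae ((ae_nn G).mono fun t ht => T_self ht 0), integral_zero]
theorem hm_nonneg (x : V) : 0 ≤ hm G x :=
  integral_nonneg_of_ae ((ae_nn G).mono fun _ ht => T_nonneg ht 0 x)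
theorem hm_neg (x : V) : hm G (-x) = hm G x :=
  hm_act G isAut_ngt (by simp) x
theorem hm_add_le (x y : V) : hm G (x + y) ≤ hm G x + hm G y := by
  have h := integral_T G x (x + y)
  rw [add_sub_cancel_left] at h
  rw [← h]
  unfold hm
  rw [← integral_add (integrable_T G _ _) (integrable_T G _ _)]
  exact integral_mono_ae (integrable_T G _ _) ((integrable_T G _ _).add (integrable_T G _ _))
    ((ae_nn G).mono fun t ht => T_triangle ht 0 x (x + y))
theorem hm_le : ∃ C : ℝ, 0 < C ∧ ∀ x, hm G x ≤ C * nrm x := by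
  obtain ⟨C, hC, H⟩ := strip_moment G
  refine ⟨C, hC, fun x => ?_⟩
  have := (H (min 0 x.1) (max 0 x.1 + 2) (by omega) 0 x
    ⟨by simp, by simp only [Prod.fst_zero]; omega⟩ ⟨by simp, by omega⟩ Set.univ
    (Set.subset_univ _)).2 Set.univ MeasurableSet.univ
  rw [Pr_univ, Real.one_rpow, mul_one, sub_zero, Measure.restrict_univ] at this
  exact this
theorem hm_lip : ∃ C : ℝ, 0 < C ∧ ∀ x y, |hm G x - hm G y| ≤ C * nrm (x - y) := by
  obtain ⟨C, hC, H⟩ := hm_le G
  refine ⟨C, hC, fun x y => abs_le.2 ⟨?_, ?_⟩⟩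
  · have h1 := hm_add_le G x (y - x)
    have h2 := H (y - x)
    rw [add_sub_cancel] at h1
    rw [nrm_sub_comm] at h2
    linarith
  · have h1 := hm_add_le G y (x - y)
    have h2 := H (x - y)
    rw [add_sub_cancel] at h1
    linarith
theorem hm_ge (x : V) : h1 G / 4 * nrm x ≤ hm G x := by
  rcases Nat.eq_zero_or_pos (nrm x) with h | h
  · rw [h]; simpa using hm_nonneg G x
  have hm' := (measurableSet_kesBad G 0 (nrm x)).compl
  have hh := h1_pos G
  have hP : 1 / 2 ≤ Pr G (KesBad G 0 (nrm x))ᶜ := by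
    have a1 := one_sub_Pr_le_compl G (KesBad G 0 (nrm x))
    have a2 := Pr_kesBad G 0 (nrm x)
    have a3 : ((1 : ℝ) / 2) ^ nrm x ≤ (1 / 2) ^ 1 :=
      pow_le_pow_of_le_one (by norm_num) (by norm_num) h
    linarith
  have hi : Integrable ((KesBad G 0 (nrm x))ᶜ.indicator fun _ => (1 : ℝ)) (iidLaw G) :=
    (integrable_const _).indicator hm'
  calc h1 G / 4 * nrm x = h1 G * nrm x / 2 * (1 / 2) := by ring
    _ ≤ h1 G * nrm x / 2 * Pr G (KesBad G 0 (nrm x))ᶜ :=
        mul_le_mul_of_nonneg_left hP (by positivity)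
    _ = ∫ t, h1 G * nrm x / 2 * (KesBad G 0 (nrm x))ᶜ.indicator (fun _ => (1 : ℝ)) t ∂(iidLaw G) := by
        rw [integral_const_mul, integral_indicator_Pr G hm']
    _ ≤ hm G x := by
        refine integral_mono_ae (hi.const_mul _) (integrable_T G _ _) ?_
        filter_upwards [ae_nn G] with t ht
        by_cases hb : t ∈ KesBad G 0 (nrm x)
        · rw [Set.indicator_of_notMem (by simpa using hb), mul_zero]
          exact T_nonneg ht _ _
        · rw [Set.indicator_of_mem (by simpa using hb), mul_one]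
          refine le_TD_of_sa ht (conn_univ _ _) fun γ hγ hs => ?_
          have hn := hγ.1.nrm_sub_le (Nat.zero_le γ.n)
          rw [hγ.2.2.1, hγ.2.2.2, sub_zero, Nat.sub_zero] at hn
          have := cost_ge_of_not_kesBad G ht hγ.1 hs (a := 0) (k := nrm x) (by omega)
            (by rw [hγ.2.2.1]; exact hb)
          exact this.trans (γ.cost_mono ht le_rfl (by omega))

theorem tmom_bad : ∃ S : ℝ, 0 ≤ S ∧ ∀ x z : V,
    Integrable (fun t => (KesBad G x (geo t x z).n).indicator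
      (fun _ => ((geo t x z).n : ℝ) ^ 2) t) (iidLaw G) ∧
    ∫ t, (KesBad G x (geo t x z).n).indicator (fun _ => ((geo t x z).n : ℝ) ^ 2) t ∂(iidLaw G) ≤ S := by
  have hs : Summable fun k : ℕ => (k : ℝ) ^ 2 * (1 / 2) ^ k :=
    summable_pow_mul_geometric_of_norm_lt_one 2 (by rw [Real.norm_eq_abs, abs_lt]; norm_num)
  have hS : 0 ≤ ∑' k : ℕ, (k : ℝ) ^ 2 * (1 / 2) ^ k := tsum_nonneg fun k => by positivity
  refine ⟨_, hS, fun x z => tmom_of_lintegral ?_ ?_ hS ?_⟩
  · exact ((measP_geo x z).measurable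
      (F := fun t γ => (KesBad G x γ.n).indicator (fun _ => (γ.n : ℝ) ^ 2) t)
      fun γ => measurable_const.indicator (measurableSet_kesBad G x γ.n)).aemeasurable
  · exact Filter.Eventually.of_forall fun t => Set.indicator_nonneg (fun _ _ => by positivity) t
  · calc ∫⁻ t, ENNReal.ofReal ((KesBad G x (geo t x z).n).indicator
          (fun _ => ((geo t x z).n : ℝ) ^ 2) t) ∂(iidLaw G)
        ≤ ∫⁻ t, ∑' k : ℕ, (KesBad G x k).indicator
            (fun _ => ENNReal.ofReal ((k : ℝ) ^ 2)) t ∂(iidLaw G) := by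
          refine lintegral_mono fun t => le_trans (le_of_eq ?_) (ENNReal.le_tsum (geo t x z).n)
          by_cases hb : t ∈ KesBad G x (geo t x z).n
          · rw [Set.indicator_of_mem hb, Set.indicator_of_mem hb]
          · rw [Set.indicator_of_notMem hb, Set.indicator_of_notMem hb, ENNReal.ofReal_zero]
      _ = ∑' k : ℕ, ENNReal.ofReal ((k : ℝ) ^ 2) * iidLaw G (KesBad G x k) := by
          rw [lintegral_tsum fun k =>
            (measurable_const.indicator (measurableSet_kesBad G x k)).aemeasurable]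
          exact tsum_congr fun k => lintegral_indicator_const (measurableSet_kesBad G x k) _
      _ ≤ ∑' k : ℕ, ENNReal.ofReal ((k : ℝ) ^ 2 * (1 / 2) ^ k) := by
          refine ENNReal.tsum_le_tsum fun k => ?_
          rw [ENNReal.ofReal_mul (by positivity), ← ofReal_measureReal]
          exact mul_le_mul_right (ENNReal.ofReal_le_ofReal (Pr_kesBad G x k)) _
      _ = _ := (ENNReal.ofReal_tsum_of_nonneg (fun k => by positivity) hs).symm

/-- length of the geodesic: second moment -/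
theorem geo_len_L2 : ∃ C : ℝ, 0 < C ∧ ∀ x z : V,
    MemLp (fun t => ((geo t x z).n : ℝ)) 2 (iidLaw G) ∧
      ∫ t, ((geo t x z).n : ℝ) ^ 2 ∂(iidLaw G) ≤ C * (nrm (z - x) : ℝ) ^ 2 := by
  obtain ⟨C, hC, H⟩ := T_L2 G
  obtain ⟨S, hS, HS⟩ := tmom_bad G
  have hh := h1_pos G
  refine ⟨(2 / h1 G) ^ 2 * C + S, by positivity, fun x z => ?_⟩
  have hm : Measurable fun t => ((geo t x z).n : ℝ) :=
    (measP_geo x z).measurable (F := fun _ γ => (γ.n : ℝ)) fun _ => measurable_const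
  have hT := H x z Set.univ (Set.subset_univ _)
  have hdom := (hT.1.integrable_sq.const_mul ((2 / h1 G) ^ 2)).add (HS x z).1
  have hle : ∀ᵐ t ∂(iidLaw G), ((geo t x z).n : ℝ) ^ 2 ≤ (2 / h1 G) ^ 2 * TD Set.univ t x z ^ 2 +
      (KesBad G x (geo t x z).n).indicator (fun _ => ((geo t x z).n : ℝ) ^ 2) t := by
    filter_upwards [ae_reg G] with t ht
    obtain ⟨hg, h0, hn⟩ := geo_spec G ht x z
    by_cases hb : t ∈ KesBad G x (geo t x z).n
    · rw [Set.indicator_of_mem hb]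
      exact le_add_of_nonneg_left (by positivity)
    · rw [Set.indicator_of_notMem hb, add_zero, ← mul_pow]
      refine pow_le_pow_left₀ (Nat.cast_nonneg _) ?_ 2
      have a1 := cost_ge_of_not_kesBad G ht.1.nn hg.1 hg.2.2.1 (a := 0) (k := (geo t x z).n)
        (by omega) (by rw [h0]; exact hb)
      have a2 := hg.2.2.2
      rw [h0, hn] at a2
      rw [zero_add] at a1
      rw [← a2, div_mul_eq_mul_div, le_div_iff₀ hh]
      unfold Pth.tot
      linarith
  have hint : Integrable (fun t => ((geo t x z).n : ℝ) ^ 2) (iidLaw G) := by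
    refine hdom.mono' (hm.pow_const 2).aestronglyMeasurable ?_
    filter_upwards [hle] with t h
    rwa [Real.norm_eq_abs, abs_of_nonneg (by positivity)]
  refine ⟨(memLp_two_iff_integrable_sq hm.aestronglyMeasurable).2 hint, ?_⟩
  rcases Nat.eq_zero_or_pos (nrm (z - x)) with h | h
  · have hz : z = x := sub_eq_zero.1 (nrm_eq_zero.1 h)
    have : ∀ᵐ t ∂(iidLaw G), ((geo t x z).n : ℝ) ^ 2 = 0 := by
      filter_upwards [ae_reg G] with t ht
      obtain ⟨hg, h0, hn⟩ := geo_spec G ht x z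
      rw [← hg.2.2.1 0 (Nat.zero_le _) _ le_rfl (by rw [h0, hn, hz])]
      simp
    rw [integral_congr_ae this, integral_zero]
    positivity
  · have h1' : (1 : ℝ) ≤ (nrm (z - x) : ℝ) ^ 2 := one_le_pow₀ (by exact_mod_cast h)
    calc ∫ t, ((geo t x z).n : ℝ) ^ 2 ∂(iidLaw G)
        ≤ ∫ t, (2 / h1 G) ^ 2 * TD Set.univ t x z ^ 2 + (KesBad G x (geo t x z).n).indicator
            (fun _ => ((geo t x z).n : ℝ) ^ 2) t ∂(iidLaw G) := integral_mono_ae hint hdom hle
      _ = (2 / h1 G) ^ 2 * ∫ t, TD Set.univ t x z ^ 2 ∂(iidLaw G) +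
            ∫ t, (KesBad G x (geo t x z).n).indicator
              (fun _ => ((geo t x z).n : ℝ) ^ 2) t ∂(iidLaw G) := by
          rw [integral_add (hT.1.integrable_sq.const_mul _) (HS x z).1, integral_const_mul]
      _ ≤ (2 / h1 G) ^ 2 * (C * (nrm (z - x) : ℝ) ^ 2) + S * (nrm (z - x) : ℝ) ^ 2 :=
          add_le_add (mul_le_mul_of_nonneg_left hT.2 (by positivity))
            ((HS x z).2.trans (le_mul_of_one_le_right hS h1'))
      _ = _ := by ring

theorem geo_len_L1 : ∃ C : ℝ, 0 < C ∧ ∀ x z : V,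
    Integrable (fun t => ((geo t x z).n : ℝ)) (iidLaw G) ∧
      ∫ t, ((geo t x z).n : ℝ) ∂(iidLaw G) ≤ C * nrm (z - x) := by
  obtain ⟨C, hC, H⟩ := geo_len_L2 G
  refine ⟨√C, Real.sqrt_pos.2 hC, fun x z => ⟨(H x z).1.integrable (by norm_num), ?_⟩⟩
  have := setIntegral_le_sqrt G (H x z).1 MeasurableSet.univ
  simp only [Nat.abs_cast, Measure.restrict_univ, Pr_univ, Real.sqrt_one, mul_one] at this
  refine this.trans ((Real.sqrt_le_sqrt (H x z).2).trans (le_of_eq ?_))
  rw [Real.sqrt_mul hC.le, Real.sqrt_sq (Nat.cast_nonneg _)]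

end Crest.Agent.R151
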