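import Crest.Agent.R151.TPeierls2
import Crest.Agent.R151.TMom

/-! Row 151 toolkit: mean number of bad cells (K9b mean version, K9c). -/

set_option autoImplicit false

namespace Crest.Agent.R151

open MeasureTheory ProbabilityTheory Crest.ProbabilityR.FirstPassage
open scoped Classical

theorem tpe_int_pow (G : Measure ℝ) [IsProbabilityMeasure G] {M : Env → ℕ} (hM : Measurable M)
    {N : ℕ} (hN : ∀ t, M t ≤ N) (q : ℕ) : Integrable (fun t => (M t : ℝ) ^ q) (iidLaw G) := by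
  have hm : Measurable (fun t => (M t : ℝ) ^ q) :=
    ((measurable_from_nat (f := fun k : ℕ => (k : ℝ))).comp hM).pow_const q
  refine Integrable.of_bound hm.aestronglyMeasurable ((N : ℝ) ^ q) (Filter.Eventually.of_forall ?_)
  intro t
  rw [Real.norm_of_nonneg (by positivity)]
  exact pow_le_pow_left₀ (by positivity) (by exact_mod_cast hN t) q

theorem tpe_int_ind (G : Measure ℝ) [IsProbabilityMeasure G] {B : Set Env} (hB : MeasurableSet B)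
    (c : ℝ) : Integrable (B.indicator (fun _ => c)) (iidLaw G) ∧
      ∫ t, B.indicator (fun _ => c) t ∂(iidLaw G) = c * Pr G B := by
  refine ⟨(integrable_const c).indicator hB, ?_⟩
  rw [integral_indicator_const c hB, smul_eq_mul, mul_comm]
  rfl

/-- moments of a bounded counting variable from a geometric tail -/
theorem tpe_moment (q : ℕ) (hq : 1 ≤ q) : ∃ S : ℝ, 0 < S ∧ ∀ (G : Measure ℝ) [IsProbabilityMeasure G]
    (M : Env → ℕ) (N L r0 : ℕ) (u w : ℝ), Measurable M → (∀ t, M t ≤ N) → 1 ≤ L → 0 ≤ w →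
      Pr G {t | 1 ≤ M t} ≤ u → (∀ r, r0 ≤ r → Pr G {t | L * r ≤ M t} ≤ w * (1 / 4) ^ r) →
      ∫ t, (M t : ℝ) ^ q ∂(iidLaw G) ≤ (L : ℝ) ^ q * ((r0 : ℝ) ^ q * u + S * w) := by
  have hs0 : Summable (fun r : ℕ => (r : ℝ) ^ q * (1 / 4 : ℝ) ^ r) :=
    summable_pow_mul_geometric_of_norm_lt_one q (by norm_num)
  have hs : Summable (fun r : ℕ => ((r : ℝ) + 1) ^ q * (1 / 4 : ℝ) ^ r) := by
    have h1 := ((summable_nat_add_iff 1).2 hs0).mul_left 4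
    refine h1.congr (fun r => ?_)
    push_cast
    ring
  set S0 : ℝ := ∑' r : ℕ, ((r : ℝ) + 1) ^ q * (1 / 4 : ℝ) ^ r with hS0
  have hS0nn : 0 ≤ S0 := tsum_nonneg (fun r => by positivity)
  refine ⟨S0 + 1, by linarith, ?_⟩
  intro G _ M N L r0 u w hM hN hL hw hu htail
  have mB : ∀ k : ℕ, MeasurableSet {t | k ≤ M t} := fun k => measurableSet_le measurable_const hM
  set F : Finset ℕ := (Finset.range (N + 1)).filter (fun r => r0 ≤ r) with hF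
  have hpt : ∀ t, (M t : ℝ) ^ q ≤ {t | 1 ≤ M t}.indicator (fun _ => ((L : ℝ) * r0) ^ q) t +
      ∑ r ∈ F, {t | L * r ≤ M t}.indicator (fun _ => ((L : ℝ) * (r + 1)) ^ q) t := by
    intro t
    have hsum : ∀ r ∈ F, 0 ≤ {t | L * r ≤ M t}.indicator (fun _ => ((L : ℝ) * (r + 1)) ^ q) t :=
      fun r _ => Set.indicator_nonneg (fun _ _ => by positivity) _
    have h1 : 0 ≤ {t | 1 ≤ M t}.indicator (fun _ => ((L : ℝ) * r0) ^ q) t :=
      Set.indicator_nonneg (fun _ _ => by positivity) _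
    have h2 := Finset.sum_nonneg hsum
    rcases Nat.eq_zero_or_pos (M t) with h0 | h0
    · rw [h0, Nat.cast_zero, zero_pow (by omega)]
      linarith
    by_cases hle : M t ≤ L * r0
    · rw [Set.indicator_of_mem (show t ∈ {t | 1 ≤ M t} from h0)]
      have : (M t : ℝ) ^ q ≤ ((L : ℝ) * r0) ^ q :=
        pow_le_pow_left₀ (by positivity) (by exact_mod_cast hle) q
      linarith
    · push Not at hle
      have hr0 : r0 ≤ M t / L := by
        rw [Nat.le_div_iff_mul_le (by omega), mul_comm]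
        exact hle.le
      have hmem : M t / L ∈ F := by
        rw [hF, Finset.mem_filter, Finset.mem_range]
        exact ⟨Nat.lt_succ_of_le ((Nat.div_le_self _ _).trans (hN t)), hr0⟩
      have h3 := Finset.single_le_sum hsum hmem
      rw [Set.indicator_of_mem (show t ∈ {s | L * (M t / L) ≤ M s} from Nat.mul_div_le _ _)] at h3
      have h4 : M t ≤ L * (M t / L + 1) := (Nat.lt_mul_div_succ _ (by omega)).le
      have h5 : (M t : ℝ) ^ q ≤ ((L : ℝ) * ((M t / L : ℕ) + 1)) ^ q :=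
        pow_le_pow_left₀ (by positivity) (by exact_mod_cast h4) q
      linarith
  have i1 := tpe_int_ind G (mB 1) (((L : ℝ) * r0) ^ q)
  have i2 := fun r : ℕ => tpe_int_ind G (mB (L * r)) (((L : ℝ) * (r + 1)) ^ q)
  have hint := integral_mono (tpe_int_pow G hM hN q)
    (i1.1.add (integrable_finsetSum F (fun r _ => (i2 r).1))) hpt
  rw [integral_add' i1.1 (integrable_finsetSum F (fun r _ => (i2 r).1)),
    integral_finsetSum F (fun r _ => (i2 r).1), i1.2] at hint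
  have h6 : ∑ r ∈ F, ∫ t, {t | L * r ≤ M t}.indicator (fun _ => ((L : ℝ) * (r + 1)) ^ q) t
      ∂(iidLaw G) ≤ ∑ r ∈ F, (L : ℝ) ^ q * w * (((r : ℝ) + 1) ^ q * (1 / 4 : ℝ) ^ r) := by
    refine Finset.sum_le_sum (fun r hr => ?_)
    rw [(i2 r).2]
    have := htail r (Finset.mem_filter.1 hr).2
    calc ((L : ℝ) * (r + 1)) ^ q * Pr G {t | L * r ≤ M t}
        ≤ ((L : ℝ) * (r + 1)) ^ q * (w * (1 / 4) ^ r) :=
          mul_le_mul_of_nonneg_left this (by positivity)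
      _ = _ := by rw [mul_pow]; ring
  rw [← Finset.mul_sum] at h6
  have h7 : ∑ r ∈ F, ((r : ℝ) + 1) ^ q * (1 / 4 : ℝ) ^ r ≤ S0 :=
    hs.sum_le_tsum F (fun r _ => by positivity)
  have h8 : (L : ℝ) ^ q * w * ∑ r ∈ F, ((r : ℝ) + 1) ^ q * (1 / 4 : ℝ) ^ r ≤
      (L : ℝ) ^ q * w * (S0 + 1) := mul_le_mul_of_nonneg_left (by linarith) (by positivity)
  have h9 : ((L : ℝ) * r0) ^ q * Pr G {t | 1 ≤ M t} ≤ ((L : ℝ) * r0) ^ q * u :=
    mul_le_mul_of_nonneg_left hu (by positivity)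
  calc ∫ t, (M t : ℝ) ^ q ∂(iidLaw G) ≤ ((L : ℝ) * r0) ^ q * u + (L : ℝ) ^ q * w * (S0 + 1) := by
        linarith
    _ = _ := by rw [mul_pow]; ring

theorem tpe_p_nonneg {G : Measure ℝ} [IsProbabilityMeasure G] {ℓ K : ℕ} {p : ℝ} {A : V → Set Env}
    (hA : LocFam G ℓ K p A) : 0 ≤ p := (Pr_nonneg G _).trans (hA 0).2.2

theorem tpe_one (G : Measure ℝ) [IsProbabilityMeasure G] {ℓ K : ℕ} (hℓ : 1 ≤ ℓ) {p : ℝ}
    {A : V → Set Env} (hA : LocFam G ℓ K p A) (x : V) (n : ℕ) :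
    Pr G {t | 1 ≤ maxbad ℓ A x n t} ≤ 9 * (((n : ℝ) / ℓ + 1) * √p) ^ 2 := by
  have hp := tpe_p_nonneg hA
  set k : ℕ := n / ℓ + 1 with hk
  have hnk : n ≤ k * ℓ := by
    rw [mul_comm]
    exact (Nat.lt_mul_div_succ n (by omega)).le
  have h1 : Pr G {t | 1 ≤ maxbad ℓ A x n t} ≤ (boxF (cell ℓ x) k).card * p := by
    refine Pr_le_card_mul G (boxF (cell ℓ x) k) A (Filter.Eventually.of_forall ?_)
      (fun c _ => (hA c).2.2)
    intro t ht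
    obtain ⟨γ, hγ, h0, hn, he⟩ := exists_nbad_eq_maxbad ℓ A x n t
    have h2 : 1 ≤ γ.nbad ℓ A t := he ▸ ht
    obtain ⟨c, hc⟩ := Finset.card_pos.1 h2
    obtain ⟨hc1, hc2⟩ := Finset.mem_filter.1 hc
    obtain ⟨i, hi, rfl⟩ := Finset.mem_image.1 hc1
    refine ⟨_, ?_, hc2⟩
    rw [mem_boxF]
    refine nrm_cell_sub hℓ _ _ k ?_
    have h3 := hγ.nrm_sub_le (Nat.zero_le i)
    rw [h0] at h3
    have := Finset.mem_range.1 hi
    omega
  rw [card_boxF] at h1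
  have hk' : (k : ℝ) ≤ (n : ℝ) / ℓ + 1 := by
    rw [hk]
    push_cast
    have := Nat.cast_div_le (α := ℝ) (m := n) (n := ℓ)
    linarith
  have hk1 : (1 : ℝ) ≤ k := by exact_mod_cast Nat.le_add_left 1 (n / ℓ)
  have h4 : (((2 * k + 1) ^ 2 : ℕ) : ℝ) ≤ 9 * ((n : ℝ) / ℓ + 1) ^ 2 := by
    push_cast
    have : (2 * (k : ℝ) + 1) ≤ 3 * ((n : ℝ) / ℓ + 1) := by linarith
    calc (2 * (k : ℝ) + 1) ^ 2 ≤ (3 * ((n : ℝ) / ℓ + 1)) ^ 2 :=
          pow_le_pow_left₀ (by positivity) this 2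
      _ = _ := by ring
  rw [mul_pow, Real.sq_sqrt hp, ← mul_assoc]
  exact h1.trans (mul_le_mul_of_nonneg_right h4 hp)

theorem tpe_tail (G : Measure ℝ) [IsProbabilityMeasure G] {ℓ K : ℕ} (hℓ : 1 ≤ ℓ) {p : ℝ}
    {A : V → Set Env} (hA : LocFam G ℓ K p A) (x : V) (n r : ℕ)
    (hr : ⌈700 * (((n : ℝ) / ℓ + 1) * √p)⌉₊ + 1 ≤ r) :
    Pr G {t | (2 * K + 1) ^ 2 * r ≤ maxbad ℓ A x n t} ≤
      min (400000 * (((n : ℝ) / ℓ + 1) * √p) ^ 2) 1 * (1 / 4) ^ r := by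
  have hp := tpe_p_nonneg hA
  set b : ℝ := ((n : ℝ) / ℓ + 1) * √p with hb
  have hb0 : 0 ≤ b := by positivity
  have hr1 : 1 ≤ r := by omega
  have h1 : Pr G {t | (2 * K + 1) ^ 2 * r ≤ maxbad ℓ A x n t} ≤
      (100000 * ((n : ℝ) / ℓ + 1) ^ 2 * p / (r : ℝ) ^ 2) ^ r := by
    refine le_trans (Pr_mono G ?_) (peierls_path G hℓ hA x n r hr1)
    intro t ht
    obtain ⟨γ, hγ, h0, hn, he⟩ := exists_nbad_eq_maxbad ℓ A x n t
    exact ⟨γ, hγ, h0, hn, he ▸ ht⟩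
  have hb2 : 100000 * ((n : ℝ) / ℓ + 1) ^ 2 * p = 100000 * b ^ 2 := by
    rw [hb, mul_pow, Real.sq_sqrt hp, mul_assoc]
  rw [hb2] at h1
  have hr1' : (1 : ℝ) ≤ r := by exact_mod_cast hr1
  have hrb : 700 * b ≤ r := by
    have h2 := Nat.le_ceil (700 * b)
    have h3 : ((⌈700 * b⌉₊ : ℕ) : ℝ) ≤ r := by exact_mod_cast (by omega : ⌈700 * b⌉₊ ≤ r)
    linarith
  set y : ℝ := 100000 * b ^ 2 / (r : ℝ) ^ 2 with hy
  have hy0 : 0 ≤ y := by positivity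
  have hy1 : y ≤ 1 / 4 := by
    rw [hy, div_le_iff₀ (by positivity)]
    have : (700 * b) ^ 2 ≤ (r : ℝ) ^ 2 := pow_le_pow_left₀ (by positivity) hrb 2
    nlinarith [sq_nonneg b]
  have hy2 : y ≤ 100000 * b ^ 2 := div_le_self (by positivity) (one_le_pow₀ hr1')
  obtain ⟨s, rfl⟩ : ∃ s, r = s + 1 := ⟨r - 1, by omega⟩
  have h5 : y ^ s ≤ (1 / 4) ^ s := pow_le_pow_left₀ hy0 hy1 s
  have h6 : 4 * y ≤ min (400000 * b ^ 2) 1 := le_min (by linarith) (by linarith)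
  calc _ ≤ y ^ (s + 1) := h1
    _ = y * y ^ s := by ring
    _ ≤ y * (1 / 4) ^ s := mul_le_mul_of_nonneg_left h5 hy0
    _ = 4 * y * (1 / 4) ^ (s + 1) := by ring
    _ ≤ _ := mul_le_mul_of_nonneg_right h6 (by positivity)

theorem tpe_bound (q : ℕ) (hq : 1 ≤ q) : ∃ S : ℝ, 0 < S ∧ ∀ (G : Measure ℝ) [IsProbabilityMeasure G]
    (ℓ K : ℕ) (p : ℝ) (A : V → Set Env), 1 ≤ ℓ → LocFam G ℓ K p A → ∀ (x : V) (n : ℕ) (b : ℝ),
      b = ((n : ℝ) / ℓ + 1) * √p →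
      ∫ t, (maxbad ℓ A x n t : ℝ) ^ q ∂(iidLaw G) ≤ (4 * ((K : ℝ) + 1) ^ 2) ^ q *
        ((700 * b + 2) ^ q * min (9 * b ^ 2) 1 + S * min (400000 * b ^ 2) 1) := by
  obtain ⟨S, hS, h⟩ := tpe_moment q hq
  refine ⟨S, hS, ?_⟩
  intro G _ ℓ K p A hℓ hA x n b hb
  have hb0 : 0 ≤ b := by rw [hb]; positivity
  have hu : Pr G {t | 1 ≤ maxbad ℓ A x n t} ≤ min (9 * b ^ 2) 1 :=
    le_min (hb ▸ tpe_one G hℓ hA x n) (Pr_le_one G _)
  have hw : 0 ≤ min (400000 * b ^ 2) 1 := le_min (by positivity) zero_le_one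
  have hu0 : 0 ≤ min (9 * b ^ 2) 1 := le_min (by positivity) zero_le_one
  have h1 := h G (maxbad ℓ A x n) (n + 1) ((2 * K + 1) ^ 2) (⌈700 * b⌉₊ + 1) _ _
    (measurable_maxbad ℓ (fun c => (hA c).1) x n) (maxbad_le ℓ A x n)
    (Nat.one_le_pow _ _ (by omega)) hw hu (fun r hr => by
      subst hb
      exact tpe_tail G hℓ hA x n r hr)
  refine h1.trans ?_
  have h2 : ((((2 * K + 1) ^ 2 : ℕ) : ℝ)) ≤ 4 * ((K : ℝ) + 1) ^ 2 := by
    push_cast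
    have : (0 : ℝ) ≤ K := by positivity
    nlinarith
  have h3 : ((⌈700 * b⌉₊ + 1 : ℕ) : ℝ) ≤ 700 * b + 2 := by
    push_cast
    have := Nat.ceil_lt_add_one (a := 700 * b) (by positivity)
    linarith
  gcongr

theorem maxbad_mean : ∃ C : ℝ, 0 < C ∧ ∀ (G : Measure ℝ) [IsProbabilityMeasure G] (ℓ K : ℕ) (p : ℝ)
    (A : V → Set Env), 1 ≤ ℓ → LocFam G ℓ K p A → ∀ (x : V) (n : ℕ),
      Integrable (fun t => (maxbad ℓ A x n t : ℝ)) (iidLaw G) ∧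
      ∫ t, (maxbad ℓ A x n t : ℝ) ∂(iidLaw G) ≤
        C * ((K : ℝ) + 1) ^ 2 * ((n : ℝ) / ℓ + 1) * √p := by
  obtain ⟨S, hS, h⟩ := tpe_bound 1 le_rfl
  refine ⟨4 * (706 + 700 * S), by positivity, ?_⟩
  intro G _ ℓ K p A hℓ hA x n
  have hi := tpe_int_pow G (measurable_maxbad ℓ (fun c => (hA c).1) x n) (maxbad_le ℓ A x n) 1
  simp only [pow_one] at hi
  refine ⟨hi, ?_⟩
  have h1 := h G ℓ K p A hℓ hA x n _ rfl
  simp only [pow_one] at h1
  refine h1.trans ?_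
  set b : ℝ := ((n : ℝ) / ℓ + 1) * √p with hb
  have hb0 : 0 ≤ b := by positivity
  have e1 : min (9 * b ^ 2) 1 ≤ 3 * b := by
    by_cases h3 : 3 * b ≤ 1
    · exact (min_le_left _ _).trans (by nlinarith)
    · exact (min_le_right _ _).trans (by linarith)
  have e2 : min (400000 * b ^ 2) 1 ≤ 700 * b := by
    by_cases h3 : 700 * b ≤ 1
    · exact (min_le_left _ _).trans (by nlinarith)
    · exact (min_le_right _ _).trans (by linarith)
  have e3 : 700 * b * min (9 * b ^ 2) 1 ≤ 700 * b * 1 :=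
    mul_le_mul_of_nonneg_left (min_le_right _ _) (by positivity)
  have e4 : S * min (400000 * b ^ 2) 1 ≤ S * (700 * b) := mul_le_mul_of_nonneg_left e2 hS.le
  have e5 : (700 * b + 2) * min (9 * b ^ 2) 1 + S * min (400000 * b ^ 2) 1 ≤
      (706 + 700 * S) * b := by nlinarith
  calc _ ≤ 4 * ((K : ℝ) + 1) ^ 2 * ((706 + 700 * S) * b) :=
        mul_le_mul_of_nonneg_left e5 (by positivity)
    _ = _ := by rw [hb]; ring

theorem maxbad_fourth : ∃ C : ℝ, 0 < C ∧ ∀ (G : Measure ℝ) [IsProbabilityMeasure G] (ℓ K : ℕ)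
    (p : ℝ) (A : V → Set Env), 1 ≤ ℓ → LocFam G ℓ K p A → ∀ (x : V) (n : ℕ),
      ∫ t, (maxbad ℓ A x n t : ℝ) ^ 4 ∂(iidLaw G) ≤
        C * ((K : ℝ) + 1) ^ 8 *
          ((((n : ℝ) / ℓ + 1) * √p) ^ 4 + (((n : ℝ) / ℓ + 1) * √p) ^ 2) := by
  obtain ⟨S, hS, h⟩ := tpe_bound 4 (by norm_num)
  refine ⟨256 * (8 * 700 ^ 4 + 400000 * S), by positivity, ?_⟩
  intro G _ ℓ K p A hℓ hA x n
  refine (h G ℓ K p A hℓ hA x n _ rfl).trans ?_
  set b : ℝ := ((n : ℝ) / ℓ + 1) * √p with hb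
  have hb0 : 0 ≤ b := by positivity
  have hu0 : 0 ≤ min (9 * b ^ 2) 1 := le_min (by positivity) zero_le_one
  have e1 : (700 * b + 2) ^ 4 ≤ 8 * ((700 * b) ^ 4 + 2 ^ 4) := by
    have := add_pow_le (a := 700 * b) (b := 2) (by positivity) (by positivity) 4
    norm_num at this ⊢
    linarith
  have e2 : (700 * b) ^ 4 * min (9 * b ^ 2) 1 ≤ (700 * b) ^ 4 * 1 :=
    mul_le_mul_of_nonneg_left (min_le_right _ _) (by positivity)
  have e3 : min (9 * b ^ 2) 1 ≤ 9 * b ^ 2 := min_le_left _ _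
  have e4 : S * min (400000 * b ^ 2) 1 ≤ S * (400000 * b ^ 2) :=
    mul_le_mul_of_nonneg_left (min_le_left _ _) hS.le
  have e5 : (700 * b + 2) ^ 4 * min (9 * b ^ 2) 1 ≤
      8 * ((700 * b) ^ 4 + 2 ^ 4) * min (9 * b ^ 2) 1 := mul_le_mul_of_nonneg_right e1 hu0
  have hb4 : 0 ≤ b ^ 4 := by positivity
  have hb2 : 0 ≤ b ^ 2 := by positivity
  have hSb : 0 ≤ S * b ^ 4 := by positivity
  have e6 : (700 * b + 2) ^ 4 * min (9 * b ^ 2) 1 + S * min (400000 * b ^ 2) 1 ≤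
      (8 * 700 ^ 4 + 400000 * S) * (b ^ 4 + b ^ 2) := by nlinarith
  calc _ ≤ (4 * ((K : ℝ) + 1) ^ 2) ^ 4 * ((8 * 700 ^ 4 + 400000 * S) * (b ^ 4 + b ^ 2)) :=
        mul_le_mul_of_nonneg_left e6 (by positivity)
    _ = _ := by ring

theorem tpe_young {M lam : ℝ} (hM : 0 ≤ M) (hl : 0 < lam) : M ≤ lam + M ^ 4 / lam ^ 3 := by
  by_cases h : M ≤ lam
  · have : 0 ≤ M ^ 4 / lam ^ 3 := by positivity
    linarith
  · push Not at h
    have h1 : lam ^ 3 ≤ M ^ 3 := pow_le_pow_left₀ hl.le h.le 3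
    have h2 : M ≤ M ^ 4 / lam ^ 3 := by
      rw [le_div_iff₀ (by positivity)]
      calc M * lam ^ 3 ≤ M * M ^ 3 := mul_le_mul_of_nonneg_left h1 hM
        _ = M ^ 4 := by ring
    linarith

/-- the pointwise dyadic decomposition -/
theorem tpe_dyadic (ℓ : ℕ) (A : V → Set Env) {x : V} (t : Env) {γ : Pth} (hγ : γ.Ok)
    (h0 : γ.p 0 = x) (N J : ℕ) (hN : 1 ≤ N) {Λ : ℝ} (hΛ : 0 < Λ) :
    (γ.nbad ℓ A t : ℝ) ≤ Λ + (maxbad ℓ A x N t : ℝ) ^ 4 / Λ ^ 3 +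
      ∑ i ∈ Finset.range J, (3 ^ i * Λ / ((2 : ℝ) ^ i * N) ^ 2 * (γ.n : ℝ) ^ 2 +
        (maxbad ℓ A x (2 ^ (i + 1) * N) t : ℝ) ^ 4 / (3 ^ i * Λ) ^ 3) +
      2 / ((2 : ℝ) ^ J * N) * (γ.n : ℝ) ^ 2 := by
  have hN' : (0 : ℝ) < N := by exact_mod_cast hN
  have hsum : ∀ i ∈ Finset.range J, 0 ≤ 3 ^ i * Λ / ((2 : ℝ) ^ i * N) ^ 2 * (γ.n : ℝ) ^ 2 +
      (maxbad ℓ A x (2 ^ (i + 1) * N) t : ℝ) ^ 4 / (3 ^ i * Λ) ^ 3 := fun i _ => by positivity
  have p1 := Finset.sum_nonneg hsum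
  have p2 : 0 ≤ (maxbad ℓ A x N t : ℝ) ^ 4 / Λ ^ 3 := by positivity
  have p3 : 0 ≤ 2 / ((2 : ℝ) ^ J * N) * (γ.n : ℝ) ^ 2 := by positivity
  by_cases c0 : γ.n ≤ N
  · have h1 : (γ.nbad ℓ A t : ℝ) ≤ maxbad ℓ A x N t := by
      exact_mod_cast nbad_le_maxbad ℓ A t hγ h0 c0
    have h2 := tpe_young (M := (maxbad ℓ A x N t : ℝ)) (by positivity) hΛ
    linarith
  by_cases cJ : 2 ^ J * N < γ.n
  · have h1 : γ.nbad ℓ A t ≤ γ.n + 1 := by
      refine (Finset.card_filter_le _ _).trans (Finset.card_image_le.trans ?_)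
      rw [Finset.card_range]
    have h2 : (γ.nbad ℓ A t : ℝ) ≤ 2 * γ.n := by exact_mod_cast (by omega : γ.nbad ℓ A t ≤ 2 * γ.n)
    have h3 : (2 : ℝ) ^ J * N ≤ γ.n := by exact_mod_cast cJ.le
    have h4 : 2 * (γ.n : ℝ) ≤ 2 / ((2 : ℝ) ^ J * N) * (γ.n : ℝ) ^ 2 := by
      rw [div_mul_eq_mul_div, le_div_iff₀ (by positivity)]
      have : (0 : ℝ) ≤ γ.n := by positivity
      nlinarith
    linarith
  have hex : ∃ i, γ.n ≤ 2 ^ i * N := ⟨J, by omega⟩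
  have hspec := Nat.find_spec hex
  have hJ : Nat.find hex ≤ J := Nat.find_min' hex (by omega)
  have hpos : Nat.find hex ≠ 0 := by
    intro h
    rw [h] at hspec
    omega
  obtain ⟨i, hi⟩ : ∃ i, Nat.find hex = i + 1 := ⟨Nat.find hex - 1, by omega⟩
  have hlt : ¬ γ.n ≤ 2 ^ i * N := Nat.find_min hex (by omega)
  rw [hi] at hspec
  have h1 : (γ.nbad ℓ A t : ℝ) ≤ maxbad ℓ A x (2 ^ (i + 1) * N) t := by
    exact_mod_cast nbad_le_maxbad ℓ A t hγ h0 hspec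
  have h2 := tpe_young (M := (maxbad ℓ A x (2 ^ (i + 1) * N) t : ℝ)) (lam := 3 ^ i * Λ)
    (by positivity) (by positivity)
  have h3 : (2 : ℝ) ^ i * N ≤ γ.n := by exact_mod_cast (by omega : 2 ^ i * N ≤ γ.n)
  have h4 : 3 ^ i * Λ ≤ 3 ^ i * Λ / ((2 : ℝ) ^ i * N) ^ 2 * (γ.n : ℝ) ^ 2 := by
    rw [div_mul_eq_mul_div, le_div_iff₀ (by positivity)]
    exact mul_le_mul_of_nonneg_left (pow_le_pow_left₀ (by positivity) h3 2) (by positivity)
  have h5 := Finset.single_le_sum hsum (Finset.mem_range.2 (by omega : i < J))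
  linarith

theorem tpe_geom {y : ℝ} (h0 : 0 ≤ y) (h1 : y ≤ 3 / 4) (J : ℕ) :
    ∑ i ∈ Finset.range J, y ^ i ≤ 4 := by
  have h2 : ∑ i ∈ Finset.range J, y ^ i ≤ ∑ i ∈ Finset.range J, (3 / 4 : ℝ) ^ i :=
    Finset.sum_le_sum (fun i _ => pow_le_pow_left₀ h0 h1 i)
  have h3 := (summable_geometric_of_lt_one (r := (3 / 4 : ℝ)) (by norm_num) (by norm_num)).sum_le_tsum
    (Finset.range J) (fun i _ => by positivity)
  rw [tsum_geometric_of_lt_one (by norm_num) (by norm_num)] at h3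
  norm_num at h3
  linarith

/-- K9c: bad cells visited by the geodesic -/
theorem geo_nbad (G : Measure ℝ) [Law G] : ∃ C : ℝ, 0 < C ∧ ∀ (ℓ K : ℕ) (p : ℝ) (A : V → Set Env),
    1 ≤ ℓ → p ≤ 1 → LocFam G ℓ K p A → ∀ x z : V,
      Integrable (fun t => ((geo t x z).nbad ℓ A t : ℝ)) (iidLaw G) ∧
      ∫ t, ((geo t x z).nbad ℓ A t : ℝ) ∂(iidLaw G) ≤
        C * ((K : ℝ) + 1) ^ 2 * ((nrm (z - x) : ℝ) / ℓ + 1) * p ^ ((1 : ℝ) / 4) := by
  obtain ⟨C4, hC4, h4⟩ := maxbad_fourth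
  obtain ⟨C2, hC2, h2⟩ := geo_len_L2 G
  obtain ⟨C1, hC1, h1⟩ := geo_len_L1 G
  refine ⟨1 + 32 * C4 + 4 * C2 + 4 * (512 * C4), by positivity, ?_⟩
  intro ℓ K p A hℓ hp1 hA x z
  have hp := tpe_p_nonneg hA
  have mA : ∀ c, MeasurableSet (A c) := fun c => (hA c).1
  have hmeas : Measurable (fun t => ((geo t x z).nbad ℓ A t : ℝ)) :=
    (measurable_from_nat (f := fun k : ℕ => (k : ℝ))).comp
      ((measP_geo x z).measurable (F := fun t γ => γ.nbad ℓ A t) (fun γ => measurable_nbad γ ℓ mA))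
  have hint : Integrable (fun t => ((geo t x z).nbad ℓ A t : ℝ)) (iidLaw G) := by
    refine Integrable.mono' ((h1 x z).1.add (integrable_const 1)) hmeas.aestronglyMeasurable
      (Filter.Eventually.of_forall (fun t => ?_))
    rw [Real.norm_of_nonneg (by positivity)]
    have h5 : (geo t x z).nbad ℓ A t ≤ (geo t x z).n + 1 := by
      refine (Finset.card_filter_le _ _).trans (Finset.card_image_le.trans ?_)
      rw [Finset.card_range]
    show _ ≤ ((geo t x z).n : ℝ) + 1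
    exact_mod_cast h5
  refine ⟨hint, ?_⟩
  set s : ℝ := p ^ ((1 : ℝ) / 4) with hs
  have hs0 : 0 ≤ s := Real.rpow_nonneg hp _
  have hs4 : s ^ 4 = p := by
    rw [hs, ← Real.rpow_natCast, ← Real.rpow_mul hp]
    norm_num
  set n' : ℝ := (nrm (z - x) : ℝ) / ℓ + 1 with hn'
  have hℓ' : (1 : ℝ) ≤ ℓ := by exact_mod_cast hℓ
  have hn1 : 1 ≤ n' := by
    have : (0 : ℝ) ≤ (nrm (z - x) : ℝ) / ℓ := by positivity
    linarith
  set N : ℕ := nrm (z - x) + 1 with hN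
  have hN1 : 1 ≤ N := by omega
  have hN' : (0 : ℝ) < N := by exact_mod_cast hN1
  set Λ0 : ℝ := ((K : ℝ) + 1) ^ 2 * n' * s with hΛ0
  have hΛ00 : 0 ≤ Λ0 := by positivity
  -- fourth moments
  have m4 : ∀ i : ℕ, ∫ t, (maxbad ℓ A x (2 ^ i * N) t : ℝ) ^ 4 ∂(iidLaw G) ≤
      32 * C4 * 16 ^ i * Λ0 ^ 4 := by
    intro i
    refine (h4 G ℓ K p A hℓ hA x (2 ^ i * N)).trans ?_
    have e0 : (1 : ℝ) ≤ 2 ^ i := one_le_pow₀ (by norm_num)
    have e1 : ((2 ^ i * N : ℕ) : ℝ) / ℓ + 1 ≤ 2 ^ i * (2 * n') := by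
      rw [hN, hn']
      push_cast
      have e2 : (1 : ℝ) / ℓ ≤ 1 := (div_le_one (by positivity)).2 hℓ'
      have e3 : (0 : ℝ) ≤ (nrm (z - x) : ℝ) / ℓ := by positivity
      have e4 : (2 : ℝ) ^ i * ((nrm (z - x) : ℝ) + 1) / ℓ =
          2 ^ i * ((nrm (z - x) : ℝ) / ℓ + 1 / ℓ) := by ring
      rw [e4]
      nlinarith
    set m : ℝ := 2 ^ i * (2 * n') with hm
    have hm1 : 1 ≤ m := by nlinarith
    have hsq : √p ^ 2 = p := Real.sq_sqrt hp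
    have e5 : ((((2 ^ i * N : ℕ) : ℝ) / ℓ + 1) * √p) ^ 2 ≤ m ^ 4 * p := by
      calc ((((2 ^ i * N : ℕ) : ℝ) / ℓ + 1) * √p) ^ 2 ≤ (m * √p) ^ 2 := by gcongr
        _ = m ^ 2 * p := by rw [mul_pow, hsq]
        _ ≤ m ^ 4 * p := mul_le_mul_of_nonneg_right (pow_le_pow_right₀ hm1 (by norm_num)) hp
    have e6 : ((((2 ^ i * N : ℕ) : ℝ) / ℓ + 1) * √p) ^ 4 ≤ m ^ 4 * p := by
      calc ((((2 ^ i * N : ℕ) : ℝ) / ℓ + 1) * √p) ^ 4 ≤ (m * √p) ^ 4 := by gcongr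
        _ = m ^ 4 * (√p ^ 2) ^ 2 := by ring
        _ = m ^ 4 * (p * p) := by rw [hsq]; ring
        _ ≤ m ^ 4 * p := mul_le_mul_of_nonneg_left (by nlinarith) (by positivity)
    calc _ ≤ C4 * ((K : ℝ) + 1) ^ 8 * (m ^ 4 * p + m ^ 4 * p) :=
          mul_le_mul_of_nonneg_left (add_le_add e6 e5) (by positivity)
      _ = _ := by
          have e7 : (16 : ℝ) ^ i = (2 ^ i) ^ 4 := by
            rw [← pow_mul, mul_comm, pow_mul]; norm_num
          rw [hm, hΛ0, ← hs4, e7]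
          ring
  have i4 : ∀ n : ℕ, Integrable (fun t => (maxbad ℓ A x n t : ℝ) ^ 4) (iidLaw G) := fun n =>
    tpe_int_pow G (measurable_maxbad ℓ mA x n) (maxbad_le ℓ A x n) 4
  have i2 : Integrable (fun t => ((geo t x z).n : ℝ) ^ 2) (iidLaw G) := (h2 x z).1.integrable_sq
  have m2 : ∫ t, ((geo t x z).n : ℝ) ^ 2 ∂(iidLaw G) ≤ C2 * (N : ℝ) ^ 2 := by
    refine (h2 x z).2.trans (mul_le_mul_of_nonneg_left ?_ hC2.le)
    refine pow_le_pow_left₀ (by positivity) ?_ 2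
    exact_mod_cast (by omega : nrm (z - x) ≤ N)
  have key : ∀ (Λ : ℝ), 0 < Λ → Λ0 ≤ Λ → ∀ J : ℕ,
      ∫ t, ((geo t x z).nbad ℓ A t : ℝ) ∂(iidLaw G) ≤
        (1 + 32 * C4 + 4 * C2 + 4 * (512 * C4)) * Λ + 2 * C2 * N * (1 / 2) ^ J := by
    intro Λ hΛ hle J
    have hΛ4 : Λ0 ^ 4 ≤ Λ ^ 4 := pow_le_pow_left₀ hΛ00 hle 4
    have j1 : Integrable (fun t => Λ + (maxbad ℓ A x N t : ℝ) ^ 4 / Λ ^ 3) (iidLaw G) :=
      (integrable_const Λ).add ((i4 N).div_const _)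
    have j2 : ∀ i : ℕ, Integrable (fun t => 3 ^ i * Λ / ((2 : ℝ) ^ i * N) ^ 2 *
        ((geo t x z).n : ℝ) ^ 2 +
        (maxbad ℓ A x (2 ^ (i + 1) * N) t : ℝ) ^ 4 / (3 ^ i * Λ) ^ 3) (iidLaw G) := fun i =>
      (i2.const_mul _).add ((i4 _).div_const _)
    have j3 : Integrable (fun t => 2 / ((2 : ℝ) ^ J * N) * ((geo t x z).n : ℝ) ^ 2) (iidLaw G) :=
      i2.const_mul _
    have j4 := integrable_finsetSum (Finset.range J) (fun i _ => j2 i)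
    have hae : ∀ᵐ t ∂(iidLaw G), ((geo t x z).nbad ℓ A t : ℝ) ≤
        Λ + (maxbad ℓ A x N t : ℝ) ^ 4 / Λ ^ 3 +
        ∑ i ∈ Finset.range J, (3 ^ i * Λ / ((2 : ℝ) ^ i * N) ^ 2 * ((geo t x z).n : ℝ) ^ 2 +
          (maxbad ℓ A x (2 ^ (i + 1) * N) t : ℝ) ^ 4 / (3 ^ i * Λ) ^ 3) +
        2 / ((2 : ℝ) ^ J * N) * ((geo t x z).n : ℝ) ^ 2 := by
      filter_upwards [ae_reg G] with t ht
      obtain ⟨g1, g2, -⟩ := geo_spec G ht x z
      exact tpe_dyadic ℓ A t g1.1 g2 N J hN1 hΛ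
    have hI := integral_mono_ae hint ((j1.add j4).add j3) hae
    rw [integral_add' (j1.add j4) j3, integral_add' j1 j4,
      integral_finsetSum _ (fun i _ => j2 i), integral_const_mul,
      integral_add (integrable_const Λ) ((i4 N).div_const _), integral_div] at hI
    simp only [integral_const, probReal_univ, smul_eq_mul, one_mul] at hI
    have b1 : (∫ t, (maxbad ℓ A x N t : ℝ) ^ 4 ∂(iidLaw G)) / Λ ^ 3 ≤ 32 * C4 * Λ := by
      rw [div_le_iff₀ (by positivity)]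
      have := m4 0
      simp only [pow_zero, one_mul, mul_one] at this
      calc _ ≤ 32 * C4 * Λ0 ^ 4 := this
        _ ≤ 32 * C4 * Λ ^ 4 := mul_le_mul_of_nonneg_left hΛ4 (by positivity)
        _ = _ := by ring
    have b2 : ∀ i ∈ Finset.range J, ∫ t, (3 ^ i * Λ / ((2 : ℝ) ^ i * N) ^ 2 *
        ((geo t x z).n : ℝ) ^ 2 +
        (maxbad ℓ A x (2 ^ (i + 1) * N) t : ℝ) ^ 4 / (3 ^ i * Λ) ^ 3) ∂(iidLaw G) ≤
        C2 * Λ * (3 / 4 : ℝ) ^ i + 512 * C4 * Λ * (16 / 27 : ℝ) ^ i := by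
      intro i _
      rw [integral_add (i2.const_mul _) ((i4 _).div_const _), integral_const_mul, integral_div]
      refine add_le_add ?_ ?_
      · calc _ ≤ 3 ^ i * Λ / ((2 : ℝ) ^ i * N) ^ 2 * (C2 * (N : ℝ) ^ 2) :=
              mul_le_mul_of_nonneg_left m2 (by positivity)
          _ = _ := by
              have e7 : (4 : ℝ) ^ i = (2 ^ i) ^ 2 := by
                rw [← pow_mul, mul_comm, pow_mul]; norm_num
              rw [div_pow, e7]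
              field_simp
      · rw [div_le_iff₀ (by positivity)]
        calc _ ≤ 32 * C4 * 16 ^ (i + 1) * Λ0 ^ 4 := m4 (i + 1)
          _ ≤ 32 * C4 * 16 ^ (i + 1) * Λ ^ 4 := mul_le_mul_of_nonneg_left hΛ4 (by positivity)
          _ = _ := by
              have e7 : (27 : ℝ) ^ i = (3 ^ i) ^ 3 := by
                rw [← pow_mul, mul_comm, pow_mul]; norm_num
              rw [div_pow, e7]
              field_simp
              ring
    have b3 := Finset.sum_le_sum b2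
    rw [Finset.sum_add_distrib, ← Finset.mul_sum, ← Finset.mul_sum] at b3
    have b4 : C2 * Λ * ∑ i ∈ Finset.range J, (3 / 4 : ℝ) ^ i ≤ C2 * Λ * 4 :=
      mul_le_mul_of_nonneg_left (tpe_geom (by norm_num) le_rfl J) (by positivity)
    have b5 : 512 * C4 * Λ * ∑ i ∈ Finset.range J, (16 / 27 : ℝ) ^ i ≤ 512 * C4 * Λ * 4 :=
      mul_le_mul_of_nonneg_left (tpe_geom (by norm_num) (by norm_num) J) (by positivity)
    have b6 : 2 / ((2 : ℝ) ^ J * N) * ∫ t, ((geo t x z).n : ℝ) ^ 2 ∂(iidLaw G) ≤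
        2 * C2 * N * (1 / 2) ^ J := by
      calc _ ≤ 2 / ((2 : ℝ) ^ J * N) * (C2 * (N : ℝ) ^ 2) :=
            mul_le_mul_of_nonneg_left m2 (by positivity)
        _ = _ := by
            rw [div_pow, one_pow]
            field_simp
    linarith
  set C : ℝ := 1 + 32 * C4 + 4 * C2 + 4 * (512 * C4) with hC
  have hC0 : 0 < C := by positivity
  have key2 : ∀ (Λ : ℝ), 0 < Λ → Λ0 ≤ Λ →
      ∫ t, ((geo t x z).nbad ℓ A t : ℝ) ∂(iidLaw G) ≤ C * Λ := by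
    intro Λ hΛ hle
    have ht : Filter.Tendsto (fun J : ℕ => C * Λ + 2 * C2 * N * (1 / 2 : ℝ) ^ J) Filter.atTop
        (nhds (C * Λ + 2 * C2 * N * 0)) :=
      tendsto_const_nhds.add ((tendsto_pow_atTop_nhds_zero_of_lt_one (by norm_num)
        (by norm_num)).const_mul _)
    rw [mul_zero, add_zero] at ht
    exact ge_of_tendsto' ht (key Λ hΛ hle)
  have hfin : ∫ t, ((geo t x z).nbad ℓ A t : ℝ) ∂(iidLaw G) ≤ C * Λ0 := by
    refine le_of_forall_pos_le_add (fun ε hε => ?_)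
    have := key2 (Λ0 + ε / C) (by positivity) (by linarith [div_pos hε hC0])
    rwa [mul_add, mul_div_cancel₀ _ hC0.ne'] at this
  calc _ ≤ C * Λ0 := hfin
    _ = _ := by rw [hΛ0]; ring

end Crest.Agent.R151
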