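import Crest.Agent.R151.ABase
import Crest.Agent.R151.TPeierls

/-! Row 151, part A: times at which a local event occurs along the geodesic. -/

set_option autoImplicit false

namespace Crest.Agent.R151.PA

open MeasureTheory ProbabilityTheory Crest.ProbabilityR.FirstPassage Filter
open scoped Classical

variable (G : Measure ℝ) [Law G]

/-- `geo_nbad` with cells of side `R`, `K = 2`, `A c = ⋃_{cell R y = c} B y` (at most `R²` points
`y`, all in `boxF (R • c) R`), probability `min 1 (R² p⁴)`; `card_bad_times_le`. -/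
theorem vis_bound : ∃ C : ℝ, 0 < C ∧ ∀ (x : V) (R : ℕ) (p : ℝ) (B : V → Set Env), 1 ≤ R → 0 ≤ p →
    (∀ y, MeasurableSet (B y) ∧ Dep (ED (box y R)) (B y) ∧ Pr G (B y) ≤ p ^ 4) →
    UE G (fun t => nt (geo t 0 x) fun j => t ∈ B ((geo t 0 x).p j))
      (C * ((nrm x : ℝ) + 1) * (R : ℝ) ^ 3 * p) := by
  obtain ⟨C0, hC0, h0⟩ := geo_nbad G
  refine ⟨9 * C0, by positivity, ?_⟩
  intro x R p B hR hp hB
  set F : V → Finset V := fun c => (boxF ((R : ℤ) • c) R).filter (fun y => cell R y = c) with hF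
  set A : V → Set Env := fun c => ⋃ y ∈ F c, B y with hA
  have hR' : (1 : ℝ) ≤ R := by exact_mod_cast hR
  set q : ℝ := min 1 ((R : ℝ) ^ 2 * p ^ 4) with hq
  have hq0 : 0 ≤ q := le_min zero_le_one (by positivity)
  have hloc : LocFam G R 2 q A := by
    intro c
    refine ⟨Finset.measurableSet_biUnion _ fun y _ => (hB y).1, ?_, le_min (Pr_le_one G _) ?_⟩
    · refine Dep.iUnion fun y => Dep.iUnion fun hy => (hB y).2.1.mono (ED_mono (box_subset_box ?_))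
      have h1 : nrm (y - (R : ℤ) • c) ≤ R := mem_boxF.1 (Finset.mem_filter.1 hy).1
      omega
    · refine (Pr_biUnion_le G _ _).trans ?_
      refine (Finset.sum_le_card_nsmul _ _ (p ^ 4) fun y _ => (hB y).2.2).trans ?_
      rw [nsmul_eq_mul]
      have h1 : ((F c).card : ℝ) ≤ (R : ℝ) ^ 2 := by
        exact_mod_cast card_filter_cell_le hR c (boxF ((R : ℤ) • c) R)
      gcongr
  obtain ⟨hi, hle⟩ := h0 R 2 q A hR (min_le_left _ _) hloc 0 x
  have hue := (UE.of_integrable hi hle).const_mul (c := (R : ℝ) ^ 2) (by positivity)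
  refine hue.mono ?_ ?_
  · filter_upwards [ae_geoXZ G] with t ht
    have hs := (ht.2 0 x).sa
    have h1 := card_bad_times_le hR hs A t
    have h2 : nt (geo t 0 x) (fun j => t ∈ B ((geo t 0 x).p j)) ≤
        nt (geo t 0 x) (fun j => t ∈ A (cell R ((geo t 0 x).p j))) := by
      refine nt_mono fun i _ hi => ?_
      refine Set.mem_biUnion (x := (geo t 0 x).p i) ?_ hi
      refine Finset.mem_coe.2 (Finset.mem_filter.2 ⟨mem_boxF.2 ?_, rfl⟩)
      exact (nrm_sub_cell hR _).le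
    refine h2.trans ?_
    unfold nt cnt
    exact_mod_cast h1
  · have h1 : q ^ ((1 : ℝ) / 4) ≤ R * p := by
      have h2 : q ≤ ((R : ℝ) * p) ^ 4 := by
        refine (min_le_right _ _).trans ?_
        rw [mul_pow]
        have : (R : ℝ) ^ 2 ≤ (R : ℝ) ^ 4 := pow_le_pow_right₀ hR' (by norm_num)
        gcongr
      calc q ^ ((1 : ℝ) / 4) ≤ (((R : ℝ) * p) ^ 4) ^ ((1 : ℝ) / 4) :=
            Real.rpow_le_rpow hq0 h2 (by norm_num)
        _ = R * p := by
            rw [one_div]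
            exact_mod_cast Real.pow_rpow_inv_natCast (by positivity : (0 : ℝ) ≤ R * p)
              (n := 4) (by norm_num)
    have h3 : ((nrm (x - 0) : ℕ) : ℝ) / R + 1 ≤ (nrm x : ℝ) + 1 := by
      rw [sub_zero]
      have := div_le_self (Nat.cast_nonneg (α := ℝ) (nrm x)) hR'
      linarith
    calc (R : ℝ) ^ 2 * (C0 * (((2 : ℕ) : ℝ) + 1) ^ 2 * (((nrm (x - 0) : ℕ) : ℝ) / R + 1) *
            q ^ ((1 : ℝ) / 4))
        ≤ (R : ℝ) ^ 2 * (C0 * (((2 : ℕ) : ℝ) + 1) ^ 2 * ((nrm x : ℝ) + 1) * (R * p)) := by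
          gcongr
      _ = 9 * C0 * ((nrm x : ℝ) + 1) * (R : ℝ) ^ 3 * p := by push_cast; ring

/-- `(1/2) ≤ (7/8)^4` -/
theorem vis_kes : ∃ C : ℝ, 0 < C ∧ ∀ (x : V) (n : ℕ), 1 ≤ n →
    UE G (fun t => nt (geo t 0 x) fun j => t ∈ KesBad G ((geo t 0 x).p j) n)
      (C * ((nrm x : ℝ) + 1) * (n : ℝ) ^ 3 * (7 / 8) ^ n) := by
  obtain ⟨C, hC, h⟩ := vis_bound G
  refine ⟨C, hC, fun x n hn => h x n _ (fun y => KesBad G y n) hn (by positivity) fun y =>
    ⟨measurableSet_kesBad G y n, (dep_kesBad G y n).mono (LE_subset_ED _),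
      (Pr_kesBad G y n).trans ?_⟩⟩
  rw [← pow_mul, mul_comm, pow_mul]
  gcongr
  norm_num

theorem vis_noSq : ∃ C : ℝ, 0 < C ∧ ∀ (x : V) (a b : ℕ), 1 ≤ b →
    UE G (fun t => nt (geo t 0 x) fun j => t ∈ NoSq G ((geo t 0 x).p j) a b)
      (C * ((nrm x : ℝ) + 1) * (b : ℝ) ^ 3 * (7 / 8) ^ (b - a)) := by
  obtain ⟨C, hC, h⟩ := vis_bound G
  refine ⟨C, hC, fun x a b hb => h x b _ (fun y => NoSq G y a b) hb (by positivity) fun y =>
    ⟨measurableSet_noSq G y a b, (dep_noSq G y a b).mono (LE_subset_ED _),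
      (Pr_noSq G y a b).trans ?_⟩⟩
  rw [← pow_mul, mul_comm, pow_mul]
  gcongr
  norm_num

omit [Law G] in
/-- polynomial against geometric -/
theorem exists_pow_mul_geom_le (k : ℕ) : ∃ C : ℝ, 0 < C ∧ ∀ n : ℕ,
    ((n : ℝ) + 1) ^ k * (7 / 8) ^ n ≤ C * (15 / 16) ^ n := by
  have h1 : Tendsto (fun n : ℕ => (n : ℝ) ^ k * (14 / 15 : ℝ) ^ n) atTop (nhds 0) :=
    tendsto_pow_const_mul_const_pow_of_abs_lt_one k (by rw [abs_of_pos] <;> norm_num)
  obtain ⟨M, hM⟩ := h1.bddAbove_range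
  have hM' : ∀ n : ℕ, (n : ℝ) ^ k * (14 / 15 : ℝ) ^ n ≤ M := fun n => hM ⟨n, rfl⟩
  refine ⟨2 * (|M| + 1), by positivity, fun n => ?_⟩
  have h2 := hM' (n + 1)
  have h3 : ((n : ℝ) + 1) ^ k * (14 / 15 : ℝ) ^ n ≤ 2 * (|M| + 1) := by
    push_cast at h2
    rw [pow_succ (14 / 15 : ℝ) n] at h2
    have := le_abs_self M
    have h4 : 0 ≤ ((n : ℝ) + 1) ^ k * (14 / 15 : ℝ) ^ n := by positivity
    nlinarith
  calc ((n : ℝ) + 1) ^ k * (7 / 8) ^ n
      = ((n : ℝ) + 1) ^ k * (14 / 15 : ℝ) ^ n * (15 / 16) ^ n := by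
        rw [mul_assoc, ← mul_pow]; norm_num
    _ ≤ 2 * (|M| + 1) * (15 / 16) ^ n := by gcongr

end Crest.Agent.R151.PA
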