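import Crest.Agent.R151.ANear
import Crest.Agent.R151.AVis

/-! Row 151, part A: near almost optimal paths are rare. -/

set_option autoImplicit false

namespace Crest.Agent.R151.PA

open MeasureTheory ProbabilityTheory Crest.ProbabilityR.FirstPassage Filter
open scoped Classical

variable {G : Measure ℝ} [Law G]

omit [Law G] in
theorem measurableSet_special (G : Measure ℝ) (lam : ℝ) (m R1 R2 : ℕ) (x : V) (γ : Pth) (i : ℕ) :
    MeasurableSet {t | Special G lam m R1 R2 x γ t i} := by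
  refine (MeasurableSet.const _).inter (MeasurableSet.inter ?_ ?_)
  · exact measurableSet_le measurable_const ((measurable_nhi γ G i (i + R1)).const_mul 2)
  · exact measurableSet_exists_pth fun δ =>
      (measurableSet_gap x lam δ).inter (MeasurableSet.const _)

omit [Law G] in
theorem measurableSet_fb (lam : ℝ) (m R1 R2 : ℕ) (x : V) (γ : Pth) (i : ℕ) :
    MeasurableSet {t | FB lam m R1 R2 x γ t i} := by
  refine (MeasurableSet.const _).inter (MeasurableSet.inter ?_ ?_)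
  · refine measurableSet_forall_pth (q := fun t δ => Gap t x lam δ →
      ∃ l j, i ≤ l ∧ l < i + R1 ∧ j ≤ δ.n ∧ δ.p j = γ.p l) fun δ => ?_
    by_cases hP : ∃ l j, i ≤ l ∧ l < i + R1 ∧ j ≤ δ.n ∧ δ.p j = γ.p l
    · have e : {t | Gap t x lam δ → ∃ l j, i ≤ l ∧ l < i + R1 ∧ j ≤ δ.n ∧ δ.p j = γ.p l} =
          Set.univ := Set.eq_univ_of_forall fun _ _ => hP
      rw [e]
      exact MeasurableSet.univ
    · have e : {t | Gap t x lam δ → ∃ l j, i ≤ l ∧ l < i + R1 ∧ j ≤ δ.n ∧ δ.p j = γ.p l} =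
          {t | Gap t x lam δ}ᶜ := by
        ext t
        exact ⟨fun h h' => hP (h h'), fun h h' => absurd h' h⟩
      rw [e]
      exact (measurableSet_gap x lam δ).compl
  · exact measurableSet_exists_pth fun δ =>
      (measurableSet_gap x lam δ).inter (MeasurableSet.const _)

omit [Law G] in
theorem ABar_meas (x : V) (R1 : ℕ) (σ : Pth) {q : Pth → Env → ℕ → Prop}
    (hq : ∀ γ i, MeasurableSet {t | q γ t i}) :
    MeasurableSet {t | ∃ i, (geo t 0 x).sub i (i + R1) = σ ∧ q (geo t 0 x) t i} := by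
  refine (measP_geo 0 x).measurableSet
    (q := fun t γ => ∃ i, γ.sub i (i + R1) = σ ∧ q γ t i) fun γ => ?_
  have e : {t | ∃ i, γ.sub i (i + R1) = σ ∧ q γ t i} =
      ⋃ i, {_t | γ.sub i (i + R1) = σ} ∩ {t | q γ t i} := by
    ext t
    simp only [Set.mem_ofPred_eq, Set.mem_iUnion, Set.mem_inter_iff]
  rw [e]
  exact MeasurableSet.iUnion fun i => (MeasurableSet.const _).inter (hq γ i)

omit [Law G] in
/-- polynomial times geometric is eventually small -/
theorem ABar_small (C ε : ℝ) (hε : 0 < ε) (w : ℕ) :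
    ∀ᶠ R : ℕ in atTop, C * (R : ℝ) ^ 3 * (7 / 8) ^ (R - w) ≤ ε := by
  have h1 := (tendsto_pow_const_mul_const_pow_of_abs_lt_one 3 (r := 7 / 8)
    (by rw [abs_of_pos] <;> norm_num)).const_mul (C * (8 / 7) ^ w)
  rw [mul_zero] at h1
  filter_upwards [h1.eventually (ge_mem_nhds hε), eventually_ge_atTop w] with R h hR
  refine le_trans (le_of_eq ?_) h
  obtain ⟨n, rfl⟩ := Nat.exists_eq_add_of_le hR
  rw [Nat.add_sub_cancel_left, pow_add]
  have e : ((8 : ℝ) / 7) ^ w * (7 / 8) ^ w = 1 := by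
    rw [← mul_pow]; norm_num
  calc C * ((w + n : ℕ) : ℝ) ^ 3 * (7 / 8) ^ n
      = C * ((w + n : ℕ) : ℝ) ^ 3 * (7 / 8) ^ n * (((8 : ℝ) / 7) ^ w * (7 / 8) ^ w) := by
        rw [e, mul_one]
    _ = _ := by ring

/-- `UE.transfer` over `σ : Pth`: `A σ = {Nice t ∧ ∃ i, (geo t 0 x).sub i (i+R1) = σ ∧ Special i}`,
`B σ = {∃ i, (geo t 0 x).sub i (i+R1) = σ ∧ FB i}`; `resample_hi` with `F = σ.edges`
(`σ.n = R1` if `A σ ≠ ∅`), `Ω0 = Nice`, `special_lower`, `GeoXZ.eq_geo`; `fb_count`, `ue_len`;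
`i ↦ sub i (i+R1)` is injective because the geodesic is self-avoiding. -/
theorem special_bound (G : Measure ℝ) [Law G] {lam : ℝ} {R1 : ℕ} (R2 : ℕ)
    (hR : 2 * lam < R1 * (h1 G - h0 G)) : ∃ C : ℝ, 0 < C ∧ ∀ (m : ℕ) (x : V), 1 ≤ m →
      UE G (fun t => nt (geo t 0 x) (Special G lam m R1 R2 x (geo t 0 x) t))
        (C * ((nrm x : ℝ) / m + 1)) := by
  obtain ⟨C0, hC0, hlen⟩ := ue_len G
  have hp : 0 < G.real (lo G) / 2 := half_pos (lo_pos G)
  have hp1 : G.real (lo G) / 2 ≤ 1 := by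
    have : G.real (lo G) ≤ 1 := measureReal_le_one
    linarith
  have hκ0 : 0 < (G.real (lo G) / 2) ^ R1 := pow_pos hp R1
  set κ : ℝ := ((G.real (lo G) / 2) ^ R1)⁻¹ with hκ
  have hκp : 0 < κ := inv_pos.2 hκ0
  refine ⟨κ * (((R1 : ℝ) + R2 + 1) * (C0 + 1)), by positivity, fun m x hm => ?_⟩
  have hm0 : (0 : ℝ) < m := by exact_mod_cast hm
  have hg : UE G (fun t => ((R1 : ℝ) + R2) * ((m : ℝ)⁻¹ * ((geo t 0 x).n : ℝ) + 1))
      (((R1 : ℝ) + R2) * ((m : ℝ)⁻¹ * (C0 * nrm x) + 1)) :=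
    (((hlen x).const_mul (inv_nonneg.2 hm0.le)).add (UE.const 1)).const_mul (by positivity)
  have key := UE.transfer (G := G) (ι := Pth)
    (f := fun t => nt (geo t 0 x) (Special G lam m R1 R2 x (geo t 0 x) t))
    (A := fun σ => {t | Nice G t} ∩ {t | ∃ i, (geo t 0 x).sub i (i + R1) = σ ∧
      Special G lam m R1 R2 x (geo t 0 x) t i})
    (B := fun σ => {t | ∃ i, (geo t 0 x).sub i (i + R1) = σ ∧ FB lam m R1 R2 x (geo t 0 x) t i})
    (fun σ => ABar_meas x R1 σ (q := fun γ t i => FB lam m R1 R2 x γ t i)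
      fun γ i => measurableSet_fb lam m R1 R2 x γ i) hκp.le (fun σ => ?_) hg ?_ ?_
  · refine key.mono (Eventually.of_forall fun _ => le_rfl) ?_
    rw [mul_assoc]
    refine mul_le_mul_of_nonneg_left ?_ hκp.le
    have h1 : (0 : ℝ) ≤ (nrm x : ℝ) / m := by positivity
    have h2 : (m : ℝ)⁻¹ * (C0 * nrm x) + 1 ≤ (C0 + 1) * ((nrm x : ℝ) / m + 1) := by
      have e : (m : ℝ)⁻¹ * (C0 * nrm x) = C0 * ((nrm x : ℝ) / m) := by
        rw [div_eq_mul_inv]; ring
      rw [e]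
      nlinarith
    rw [mul_assoc]
    exact mul_le_mul (by linarith) h2 (by positivity) (by positivity)
  · by_cases hσ : σ.n = R1
    · have h1 := resample_hi G σ.edges
        (A := {t | Nice G t} ∩ {t | ∃ i, (geo t 0 x).sub i (i + R1) = σ ∧
          Special G lam m R1 R2 x (geo t 0 x) t i})
        (B := {t | ∃ i, (geo t 0 x).sub i (i + R1) = σ ∧ FB lam m R1 R2 x (geo t 0 x) t i})
        ((measurableSet_nice G).inter
          (ABar_meas x R1 σ (q := fun γ t i => Special G lam m R1 R2 x γ t i)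
            fun γ i => measurableSet_special G lam m R1 R2 x γ i))
        (ABar_meas x R1 σ (q := fun γ t i => FB lam m R1 R2 x γ t i)
          fun γ i => measurableSet_fb lam m R1 R2 x γ i)
        (measurableSet_nice G) (ae_nice G) ?_
      · have h2 : (G.real (lo G) / 2) ^ R1 ≤ (G.real (lo G) / 2) ^ σ.edges.card :=
          pow_le_pow_of_le_one hp.le hp1 (hσ ▸ σ.card_edges_le)
        rw [hκ, le_inv_mul_iff₀ hκ0]
        exact (mul_le_mul_of_nonneg_right h2 (Pr_nonneg G _)).trans h1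
      · rintro t ⟨ht, i, rfl, hs⟩ t' ht' e1 e2
        obtain ⟨h2, h3⟩ := special_lower (Nice.nn G ht) (geoXZ_geo ht.1 0 x) hs hR e1 e2
        have h4 := h2.eq_geo (G := G) ht'
        exact ⟨i, by rw [← h4], by rw [← h4]; exact h3⟩
    · have e : {t | Nice G t} ∩ {t | ∃ i, (geo t 0 x).sub i (i + R1) = σ ∧
          Special G lam m R1 R2 x (geo t 0 x) t i} = (∅ : Set Env) := by
        refine Set.eq_empty_of_forall_notMem ?_
        rintro t ⟨-, i, rfl, -⟩
        exact hσ (by rw [Pth.sub_n, Nat.add_sub_cancel_left])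
      simp only [e, Pr_empty]
      exact mul_nonneg hκp.le (Pr_nonneg G _)
  · refine Eventually.of_forall fun t F hF => ?_
    have h1 : F ⊆ ((Finset.range ((geo t 0 x).n + 1)).filter
        (FB lam m R1 R2 x (geo t 0 x) t)).image fun i => (geo t 0 x).sub i (i + R1) := by
      intro σ hσ
      obtain ⟨i, h2, h3⟩ := hF σ hσ
      refine Finset.mem_image.2 ⟨i, Finset.mem_filter.2 ⟨Finset.mem_range.2 ?_, h3⟩, h2⟩
      have := h3.1
      omega
    have h2 : (F.card : ℝ) ≤ nt (geo t 0 x) (FB lam m R1 R2 x (geo t 0 x) t) := by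
      unfold nt cnt
      exact_mod_cast (Finset.card_le_card h1).trans Finset.card_image_le
    refine h2.trans ((fb_count hm x _ t).trans (le_of_eq ?_))
    rw [div_eq_mul_inv, mul_comm ((geo t 0 x).n : ℝ)]
  · filter_upwards [ae_nice G] with t ht
    have hsa := (geoXZ_geo ht.1 0 x).sa
    refine ⟨((Finset.range ((geo t 0 x).n + 1)).filter
        (Special G lam m R1 R2 x (geo t 0 x) t)).image fun i => (geo t 0 x).sub i (i + R1),
      fun σ hσ => ?_, le_of_eq ?_⟩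
    · obtain ⟨i, h1, h2⟩ := Finset.mem_image.1 hσ
      exact ⟨ht, i, h2, (Finset.mem_filter.1 h1).2⟩
    · unfold nt cnt
      rw [Finset.card_image_of_injOn]
      intro i hi j hj e
      have h1 := Finset.mem_range.1 (Finset.mem_filter.1 (Finset.mem_coe.1 hi)).1
      have h2 := Finset.mem_range.1 (Finset.mem_filter.1 (Finset.mem_coe.1 hj)).1
      have h3 : ((geo t 0 x).sub i (i + R1)).p 0 = ((geo t 0 x).sub j (j + R1)).p 0 :=
        congrArg (fun γ : Pth => γ.p 0) e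
      rw [Pth.sub_p_zero, Pth.sub_p_zero] at h3
      exact hsa i (by omega) j (by omega) h3

/-- choose `R0`, then `R1`, `R2`, then `m0`; `near_cases`, `cnt_fv_le`, `vis_noSq`, `vis_kes`,
`special_bound` -/
theorem near_bound (G : Measure ℝ) [Law G] {θ β η : ℝ} (hθ : |θ| ≤ 1) (hβ : 0 < β) (hη : 0 < η)
    (lam : ℝ) (s1 : ℕ) : ∃ m0 : ℕ, ∀ m, m0 ≤ m → ∀ᶠ N : ℕ in atTop, ∀ x, Tgt θ N x →
      UE G (fun t => cnt (cuts N) fun k => Gt θ β s1 (geo t 0 x) (fv (geo t 0 x) (k - m)) ∧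
        Near s1 lam m x (geo t 0 x) t (k - m)) (η * N) := by
  obtain ⟨C1, hC1, H1⟩ := vis_noSq G
  obtain ⟨C2, hC2, H2⟩ := vis_kes G
  have hη9 : 0 < η / 9 := by positivity
  obtain ⟨R0, hR0, hR01⟩ :=
    ((ABar_small C1 (η / 9) hη9 (2 * ww s1)).and (eventually_ge_atTop 1)).exists
  set lam' : ℝ := lam + 16 * kap G * (R0 : ℝ) ^ 3 with hlam'
  have hh : 0 < h1 G - h0 G := sub_pos.2 (h0_lt_h1 G)
  have ev1 : ∀ᶠ R : ℕ in atTop, 2 * lam' < R * (h1 G - h0 G) :=
    (tendsto_natCast_atTop_atTop.atTop_mul_const hh).eventually (eventually_gt_atTop _)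
  obtain ⟨R1, ⟨hR1, hR11⟩, hR12⟩ :=
    (((ABar_small C2 (η / 9) hη9 0).and (eventually_ge_atTop 1)).and ev1).exists
  rw [Nat.sub_zero] at hR1
  have ev2 : ∀ᶠ R : ℕ in atTop, 2 * ((R0 : ℝ) + dd s1) ≤ β * R :=
    (tendsto_natCast_atTop_atTop.const_mul_atTop hβ).eventually (eventually_ge_atTop _)
  obtain ⟨R2, hR2⟩ := ev2.exists
  obtain ⟨C3, hC3, H3⟩ := special_bound G R2 hR12
  refine ⟨⌈12 * C3 / η⌉₊ + 1, fun m hm => ?_⟩
  have hm1 : 1 ≤ m := by omega
  have hm0 : (0 : ℝ) < m := by exact_mod_cast hm1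
  have hm2 : 12 * C3 / η ≤ m :=
    (Nat.le_ceil _).trans (by exact_mod_cast (by omega : ⌈12 * C3 / η⌉₊ ≤ m))
  have ev3 : ∀ᶠ N : ℕ in atTop, 6 * C3 / η ≤ (N : ℝ) :=
    tendsto_natCast_atTop_atTop.eventually (eventually_ge_atTop _)
  filter_upwards [ev3, eventually_ge_atTop (4 * (m + R0 + R1 + 1))] with N hN3 hN x hx
  have hxN : (nrm x : ℝ) ≤ 2 * N := by exact_mod_cast hx.nrm_le hθ
  have hN1 : (1 : ℝ) ≤ N := by exact_mod_cast (by omega : 1 ≤ N)
  have hx3 : (nrm x : ℝ) + 1 ≤ 3 * N := by linarith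
  refine (((H1 x (2 * ww s1) R0 hR01).add (H2 x R1 hR11)).add (H3 m x hm1)).mono ?_ ?_
  · filter_upwards [ae_geoXZ G] with t ⟨ht, hgeo⟩
    have hγ := hgeo 0 x
    have hF : ∀ k ∈ cuts N, (R0 : ℤ) ≤ k - m ∧ k - m + R1 ≤ N := by
      intro k hk
      rw [mem_cuts] at hk
      omega
    refine le_trans (cnt_mono (q' := fun k =>
      (fun j => (t ∈ NoSq G ((geo t 0 x).p j) (2 * ww s1) R0 ∨
        t ∈ KesBad G ((geo t 0 x).p j) R1) ∨
        Special G lam' m R1 R2 x (geo t 0 x) t j) (fv (geo t 0 x) (k - m))) fun k hk hq => ?_) ?_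
    · exact or_assoc.2 (near_cases ht hγ hx.1 hβ (hF k hk).1 (hF k hk).2 hR2 hq.1 hq.2)
    · refine (cnt_fv_le hγ.ok (N := N) hγ.2.1 (by rw [hγ.2.2]; exact hx.1) (cuts N) m
        (fun k hk => ?_) (fun j => (t ∈ NoSq G ((geo t 0 x).p j) (2 * ww s1) R0 ∨
          t ∈ KesBad G ((geo t 0 x).p j) R1) ∨
          Special G lam' m R1 R2 x (geo t 0 x) t j)).trans ?_
      · have := hF k hk
        omega
      · unfold nt
        exact (cnt_or_le fun _ _ h => h).trans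
          (add_le_add (cnt_or_le fun _ _ h => h) le_rfl)
  · have a1 : C1 * ((nrm x : ℝ) + 1) * (R0 : ℝ) ^ 3 * (7 / 8) ^ (R0 - 2 * ww s1) ≤ η / 3 * N := by
      calc _ = (C1 * (R0 : ℝ) ^ 3 * (7 / 8) ^ (R0 - 2 * ww s1)) * ((nrm x : ℝ) + 1) := by ring
        _ ≤ η / 9 * (3 * N) := mul_le_mul hR0 hx3 (by positivity) hη9.le
        _ = _ := by ring
    have a2 : C2 * ((nrm x : ℝ) + 1) * (R1 : ℝ) ^ 3 * (7 / 8) ^ R1 ≤ η / 3 * N := by
      calc _ = (C2 * (R1 : ℝ) ^ 3 * (7 / 8) ^ R1) * ((nrm x : ℝ) + 1) := by ring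
        _ ≤ η / 9 * (3 * N) := mul_le_mul hR1 hx3 (by positivity) hη9.le
        _ = _ := by ring
    have a3 : C3 * ((nrm x : ℝ) / m + 1) ≤ η / 3 * N := by
      have b1 : C3 ≤ η / 6 * N := by
        rw [div_le_iff₀ hη] at hN3
        linarith
      have b2 : C3 / m ≤ η / 12 := by
        rw [div_le_iff₀ hη] at hm2
        rw [div_le_iff₀ hm0]
        linarith
      have b3 : C3 / m * nrm x ≤ η / 12 * (2 * N) :=
        mul_le_mul b2 hxN (by positivity) (by positivity)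
      have e : C3 * ((nrm x : ℝ) / m + 1) = C3 / m * nrm x + C3 := by ring
      rw [e]
      linarith
    linarith

end Crest.Agent.R151.PA
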