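import Crest.Agent.R151.AUE

/-! Row 151, part A: heights, scales, bands, radii of good squares, typical environments. -/

set_option autoImplicit false

namespace Crest.Agent.R151.PA

open MeasureTheory ProbabilityTheory Crest.ProbabilityR.FirstPassage Filter
open scoped Classical

theorem ht_zero (θ : ℝ) : ht θ 0 = 0 := by simp [ht]
theorem ht_add (θ : ℝ) (x y : V) : ht θ (x + y) = ht θ x + ht θ y := by
  simp only [ht, Prod.fst_add, Prod.snd_add, Int.cast_add]; ring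
theorem ht_sub (θ : ℝ) (x y : V) : ht θ (x - y) = ht θ x - ht θ y := by
  simp only [ht, Prod.fst_sub, Prod.snd_sub, Int.cast_sub]; ring
theorem ht_eq_rv (θ : ℝ) (x : V) : ht θ x = (rv x).2 - θ * (rv x).1 := rfl
theorem abs_ht_sub_le {θ : ℝ} (hθ : |θ| ≤ 1) (x y : V) :
    |ht θ x - ht θ y| ≤ 2 * nrm (x - y) := by
  rw [← ht_sub]
  have h1 : |((x - y).1 : ℝ)| ≤ nrm (x - y) := by exact_mod_cast abs_fst_le_nrm (x - y)
  have h2 : |((x - y).2 : ℝ)| ≤ nrm (x - y) := by exact_mod_cast abs_snd_le_nrm (x - y)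
  have h3 : |θ * ((x - y).1 : ℝ)| ≤ nrm (x - y) := by
    rw [abs_mul]
    exact (mul_le_of_le_one_left (abs_nonneg _) hθ).trans h1
  unfold ht
  have := abs_sub ((x - y).2 : ℝ) (θ * ((x - y).1 : ℝ))
  linarith
theorem ht_sub_of_col {θ : ℝ} {x y : V} (h : x.1 = y.1) :
    ht θ x - ht θ y = (x.2 : ℝ) - y.2 := by
  simp only [ht, h]; ring
theorem Tgt.nrm_le {θ : ℝ} (hθ : |θ| ≤ 1) {N : ℕ} {x : V} (h : Tgt θ N x) : nrm x ≤ 2 * N := by
  obtain ⟨h1, h2⟩ := h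
  have hN : (N : ℝ) ≤ (N : ℝ) ^ 2 := by exact_mod_cast Nat.le_self_pow (by norm_num) N
  have h3 : |ht θ x| ≤ N := abs_le_of_sq_le_sq' (h2.trans hN) (Nat.cast_nonneg N) |> abs_le.2
  have h4 : |θ * (x.1 : ℝ)| ≤ N := by
    rw [abs_mul, h1]
    simp only [Int.cast_natCast, Nat.abs_cast]
    exact mul_le_of_le_one_left (Nat.cast_nonneg N) hθ
  have h5 : |(x.2 : ℝ)| ≤ 2 * N := by
    have e : (x.2 : ℝ) = ht θ x + θ * (x.1 : ℝ) := by unfold ht; ring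
    rw [e]
    linarith [abs_add_le (ht θ x) (θ * (x.1 : ℝ))]
  have h6 : |x.2| ≤ 2 * (N : ℤ) := by exact_mod_cast h5
  rw [nrm_le_iff, h1]
  refine ⟨?_, by exact_mod_cast h6⟩
  rw [Nat.abs_cast]; push_cast; omega
theorem Tgt.le_nrm {θ : ℝ} {N : ℕ} {x : V} (h : Tgt θ N x) : N ≤ nrm x := by
  have h1 := abs_fst_le_nrm x
  rw [h.1, Nat.abs_cast] at h1
  exact_mod_cast h1

theorem one_le_ell (s : ℕ) : 1 ≤ ell s := Nat.one_le_two_pow
theorem one_le_dd (s : ℕ) : 1 ≤ dd s := Nat.one_le_two_pow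
theorem one_le_ww (s : ℕ) : 1 ≤ ww s := Nat.one_le_two_pow
theorem ell_succ (s : ℕ) : ell (s + 1) = 2 ^ 20 * ell s := by
  unfold ell; ring
theorem dd_succ (s : ℕ) : dd (s + 1) = 2 ^ 17 * dd s := by
  unfold dd; ring
theorem ww_succ (s : ℕ) : ww (s + 1) = 2 ^ 18 * ww s := by
  unfold ww; ring
theorem ell_mono : Monotone ell := fun _ _ h =>
  Nat.pow_le_pow_right (by norm_num) (Nat.mul_le_mul_left _ h)
theorem dd_mono : Monotone dd := fun _ _ h =>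
  Nat.pow_le_pow_right (by norm_num) (Nat.mul_le_mul_left _ h)
theorem ww_mono : Monotone ww := fun _ _ h =>
  Nat.pow_le_pow_right (by norm_num) (Nat.mul_le_mul_left _ h)
theorem lt_ell (s : ℕ) : s < ell s :=
  lt_of_lt_of_le Nat.lt_two_pow_self (Nat.pow_le_pow_right (by norm_num) (by omega))
theorem ell_eq_dd (s : ℕ) : ell s = 8 ^ s * dd s := by
  unfold ell dd
  rw [show (8 : ℕ) = 2 ^ 3 by norm_num, ← pow_mul, ← pow_add]; congr 1; ring
theorem ell_eq_ww (s : ℕ) : ell s = 4 ^ s * ww s := by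
  unfold ell ww
  rw [show (4 : ℕ) = 2 ^ 2 by norm_num, ← pow_mul, ← pow_add]; congr 1; ring
theorem ww_eq_dd (s : ℕ) : ww s = 2 ^ s * dd s := by
  unfold ww dd
  rw [← pow_add]; congr 1; ring
theorem dd_eq (s : ℕ) : dd s = 32 ^ s * 2 ^ (12 * s) := by
  unfold dd
  rw [show (32 : ℕ) = 2 ^ 5 by norm_num, ← pow_mul, ← pow_add]; congr 1; ring

theorem mem_cuts {N : ℕ} {k : ℤ} : k ∈ cuts N ↔ (N : ℤ) / 4 ≤ k ∧ k ≤ N - 1 - (N : ℤ) / 4 := by
  simp only [cuts, Finset.mem_Icc]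
theorem mem_cuts_refl {N : ℕ} {k : ℤ} (h : k ∈ cuts N) : (N : ℤ) - 1 - k ∈ cuts N := by
  rw [mem_cuts] at h ⊢; omega
theorem card_cuts_le (N : ℕ) : (cuts N).card ≤ N := by
  simp only [cuts, Int.card_Icc]; omega

theorem mem_bandF {θ : ℝ} {a b : ℤ} {h w : ℝ} {z : V} :
    z ∈ bandF θ a b h w ↔ a ≤ z.1 ∧ z.1 ≤ b ∧ |ht θ z - h| ≤ w := by
  obtain ⟨u, v⟩ := z
  simp only [bandF, Finset.mem_biUnion, Finset.mem_Icc, Finset.mem_image, Prod.mk.injEq,
    Int.ceil_le, Int.le_floor, ht, abs_le]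
  constructor
  · rintro ⟨u', ⟨h1, h2⟩, v', ⟨h3, h4⟩, rfl, rfl⟩
    exact ⟨h1, h2, by linarith, by linarith⟩
  · rintro ⟨h1, h2, h3, h4⟩
    exact ⟨u, ⟨h1, h2⟩, v, ⟨by linarith, by linarith⟩, rfl, rfl⟩
theorem mem_band {θ : ℝ} {c : ℤ} {s : ℕ} {y : ℤ} {z : V} : z ∈ band θ c s y ↔
    c - ell s ≤ z.1 ∧ z.1 ≤ c ∧ |ht θ z - y * (ww s : ℝ)| ≤ ww s := mem_bandF
theorem mem_bandW {θ : ℝ} {c : ℤ} {s : ℕ} {y : ℤ} {z : V} : z ∈ bandW θ c s y ↔
    c - ell (s + 1) ≤ z.1 ∧ z.1 ≤ c ∧ |ht θ z - y * (ww s : ℝ)| ≤ 2 * (ww (s + 1) : ℝ) := mem_bandF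
theorem card_band_le (θ : ℝ) (c : ℤ) (s : ℕ) (y : ℤ) :
    (band θ c s y).card ≤ 6 * (ell s * ww s) := by
  unfold band bandF
  have h1 := one_le_ell s
  have h2 := one_le_ww s
  refine (Finset.card_biUnion_le_card_mul _ _ (3 * ww s) (fun u _ => ?_)).trans ?_
  · refine Finset.card_image_le.trans ?_
    rw [Int.card_Icc, Int.floor_add_natCast, Int.ceil_sub_natCast]
    have := Int.floor_le_ceil (θ * u + y * (ww s : ℝ))
    omega
  · rw [Int.card_Icc]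
    have : (c + 1 - (c - (ell s : ℤ))).toNat ≤ 2 * ell s := by omega
    calc _ ≤ 2 * ell s * (3 * ww s) := Nat.mul_le_mul_right _ this
      _ = 6 * (ell s * ww s) := by ring
theorem band_subset_bandW (θ : ℝ) (c : ℤ) (s : ℕ) (y : ℤ) : band θ c s y ⊆ bandW θ c s y := by
  intro z hz
  rw [mem_band] at hz
  rw [mem_bandW]
  have h1 : (ell s : ℤ) ≤ ell (s + 1) := by exact_mod_cast ell_mono (Nat.le_succ s)
  have h2 : (ww s : ℝ) ≤ ww (s + 1) := by exact_mod_cast ww_mono (Nat.le_succ s)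
  have h3 : (0 : ℝ) ≤ ww (s + 1) := Nat.cast_nonneg _
  exact ⟨by linarith [hz.1], hz.2.1, by linarith [hz.2.2]⟩
theorem abs_sub_anchor (θ : ℝ) (s : ℕ) (z : V) :
    |ht θ z - anchor θ s z * (ww s : ℝ)| ≤ (ww s : ℝ) / 2 := by
  have hw : (0 : ℝ) < ww s := by exact_mod_cast one_le_ww s
  have h := abs_sub_round (ht θ z / ww s)
  have e : ht θ z - anchor θ s z * (ww s : ℝ) =
      (ht θ z / ww s - round (ht θ z / ww s)) * ww s := by
    unfold anchor; field_simp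
  rw [e, abs_mul, abs_of_pos hw]
  nlinarith
theorem band_succ_subset (θ : ℝ) (c : ℤ) (s : ℕ) (z : V) :
    band θ c (s + 1) (anchor θ (s + 1) z) ⊆ bandW θ c s (anchor θ s z) := by
  intro z' hz
  rw [mem_band] at hz
  rw [mem_bandW]
  refine ⟨hz.1, hz.2.1, ?_⟩
  have h1 := abs_sub_anchor θ s z
  have h2 := abs_sub_anchor θ (s + 1) z
  have h3 : (ww s : ℝ) ≤ ww (s + 1) := by exact_mod_cast ww_mono (Nat.le_succ s)
  have h4 := hz.2.2
  rw [abs_le] at h1 h2 h4 ⊢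
  constructor <;> linarith [h1.1, h1.2, h2.1, h2.2, h4.1, h4.2]

variable {G : Measure ℝ}

theorem rad_spec {t : Env} (h : AllSq G t) (c : V) : 1 ≤ rad G t c ∧ GoodSq G t c (rad G t c) :=
  Nat.sInf_mem (s := {r | 1 ≤ r ∧ GoodSq G t c r}) (h c)
theorem noSq_of_lt_rad {t : Env} {c : V} {r : ℕ} (h : r < rad G t c) : t ∈ NoSq G c 0 r := by
  intro r' h0 hr hg
  have : rad G t c ≤ r' := Nat.sInf_le (s := {r | 1 ≤ r ∧ GoodSq G t c r}) ⟨h0, hg⟩
  omega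
theorem measurable_rad (G : Measure ℝ) (c : V) : Measurable fun t => rad G t c := by
  refine measurable_of_Ioi (fun n => ?_)
  have : (fun t => rad G t c) ⁻¹' Set.Ioi n =
      NoSq G c 0 n ∩ ⋃ r : ℕ, {t | GoodSq G t c (r + 1)} := by
    ext t
    simp only [Set.mem_preimage, Set.mem_Ioi, Set.mem_inter_iff, Set.mem_iUnion,
      Set.mem_ofPred_eq]
    constructor
    · intro h
      refine ⟨noSq_of_lt_rad h, ?_⟩
      have hne : {r | 1 ≤ r ∧ GoodSq G t c r}.Nonempty :=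
        Nat.nonempty_of_pos_sInf (lt_of_le_of_lt (Nat.zero_le n) h)
      obtain ⟨r, h1, h2⟩ := hne
      exact ⟨r - 1, by rwa [Nat.sub_add_cancel h1]⟩
    · rintro ⟨h1, r, h2⟩
      have hm := Nat.sInf_mem (s := {r | 1 ≤ r ∧ GoodSq G t c r}) ⟨r + 1, by omega, h2⟩
      by_contra hcon
      exact h1 _ hm.1 (not_lt.1 hcon) hm.2
  rw [this]
  exact (measurableSet_noSq G c 0 n).inter
    (MeasurableSet.iUnion fun r => measurableSet_goodSq G c (r + 1))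
theorem ae_typ (G : Measure ℝ) [Law G] : ∀ᵐ t ∂(iidLaw G), Typ G t := by
  filter_upwards [ae_nice G, ae_exists_goodSq G] with t h1 h2
  exact ⟨h1, fun c => h2 c 0⟩
theorem Typ.nn {t : Env} (h : Typ G t) : NN t := Nice.nn G h.1
theorem geoXZ_geo [Law G] {t : Env} (h : Reg G t) (x z : V) : GeoXZ t x z (geo t x z) := geo_spec G h x z
theorem ae_geoXZ (G : Measure ℝ) [Law G] :
    ∀ᵐ t ∂(iidLaw G), NN t ∧ ∀ x z, GeoXZ t x z (geo t x z) := by
  filter_upwards [ae_reg G] with t h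
  exact ⟨h.1.nn, fun x z => geoXZ_geo h x z⟩
theorem GeoXZ.ok {t : Env} {x z : V} {γ : Pth} (h : GeoXZ t x z γ) : γ.Ok := h.1.1
theorem GeoXZ.sa {t : Env} {x z : V} {γ : Pth} (h : GeoXZ t x z γ) : γ.SA := h.1.2.2.1
theorem GeoXZ.tot {t : Env} {x z : V} {γ : Pth} (h : GeoXZ t x z γ) : γ.tot t = T t x z := by
  have := h.1.2.2.2
  rwa [h.2.2, h.2.1] at this
theorem GeoXZ.joins {t : Env} {x z : V} {γ : Pth} (h : GeoXZ t x z γ) :
    γ.Joins Set.univ x z :=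
  ⟨h.1.1, h.1.2.1, h.2.1, h.2.2⟩
theorem GeoXZ.eq_geo [Law G] {t : Env} (ht : Nice G t) {x z : V} {γ : Pth} (h : GeoXZ t x z γ) :
    γ = geo t x z := by
  have := Nice.eq_geo G ht h.1
  rwa [h.2.2, h.2.1] at this
theorem GeoXZ.gap {t : Env} {x : V} {γ : Pth} (h : GeoXZ t 0 x γ) {lam : ℝ} (hl : 0 ≤ lam) :
    Gap t x lam γ :=
  ⟨h.joins, by rw [h.tot]; linarith⟩
theorem measurableSet_geoXZ (x z : V) (γ : Pth) : MeasurableSet {t | GeoXZ t x z γ} :=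
  (measurableSet_isGeo Set.univ γ).inter (MeasurableSet.const _)
theorem measurableSet_gap (x : V) (lam : ℝ) (δ : Pth) : MeasurableSet {t | Gap t x lam δ} :=
  (MeasurableSet.const _).inter
    (measurableSet_le (measurable_tot δ) ((measurable_T 0 x).add_const lam))
/-- any function of the geodesic alone is measurable -/
theorem measurable_geo_fun (x z : V) (F : Pth → ℝ) : Measurable fun t => F (geo t x z) :=
  (measP_geo x z).measurable (F := fun _ γ => F γ) (fun _ => measurable_const)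
theorem ue_len (G : Measure ℝ) [Law G] : ∃ C : ℝ, 0 < C ∧ ∀ x : V,
    UE G (fun t => ((geo t 0 x).n : ℝ)) (C * nrm x) := by
  obtain ⟨C, hC, h⟩ := geo_len_L1 G
  refine ⟨C, hC, fun x => UE.of_integrable (h 0 x).1 ?_⟩
  simpa only [sub_zero] using (h 0 x).2
theorem ue_T_sq (G : Measure ℝ) [Law G] : ∃ C : ℝ, 0 < C ∧ ∀ x : V,
    UE G (fun t => T t 0 x ^ 2) (C * (nrm x : ℝ) ^ 2) := by
  obtain ⟨C, hC, h⟩ := T_L2 G
  refine ⟨C, hC, fun x => ?_⟩
  obtain ⟨h1, h2⟩ := h 0 x Set.univ (Set.subset_univ _)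
  refine UE.of_integrable h1.integrable_sq ?_
  simpa only [sub_zero, T] using h2

end Crest.Agent.R151.PA
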