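import Crest.Agent.R151.TSq

/-!
# Row 151, part A (differentiability of the time constant): definitions

Outline (a streamlined form of `PlanA.lean`).  Suppose `mu G` has a corner (`Corner`).
* `AGeo`: non-differentiability gives a corner.
* `ANice`, `AIrr`, `AHyp`, `AReg`: the geodesic `0 → x`, `x ≈ (N, θ N)`, is regular at most times
  at all scales `ell s = 2^(20 s)` (`RegS`, `Gt`, `Hyp`).
* `AShear`, `ARep`, `AZ`: slips `slip K ε b` of the environment along the cuts `k ∈ K`; a path is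
  repaired across a cut along a good square at cost `Zs`, uniformly integrable on average.
* `ABand`, `ATie`, `ANear`, `ABar`, `ALL`, `ARR`: the geodesics of `t` and of `slip {k} ε b t`
  coincide away from the cut `k` for most `k` (`LL`, `RR`).
* `AMulti`, `AAvg`, `AFinal`: many slips at once; contradiction with the corner.

Everything lives in the namespace `Crest.Agent.R151.PA`.  All expectations are *upper* expectations `UE G f a` (no measurability needed).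
-/

set_option autoImplicit false

namespace Crest.Agent.R151.PA

open MeasureTheory Crest.ProbabilityR.FirstPassage Filter
open scoped Classical

/-- `f` has upper expectation at most `a` -/
def UE (G : Measure ℝ) (f : Env → ℝ) (a : ℝ) : Prop :=
  ∃ g : Env → ℝ, Integrable g (iidLaw G) ∧ (∀ᵐ t ∂(iidLaw G), f t ≤ g t) ∧
    ∫ t, g t ∂(iidLaw G) ≤ a

/-- number of elements of `F` with property `q`, as a real number -/
noncomputable def cnt {α : Type} (F : Finset α) (q : α → Prop) : ℝ := ((F.filter q).card : ℝ)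

/-- number of times `i ≤ γ.n` with property `q` -/
noncomputable def nt (γ : Pth) (q : ℕ → Prop) : ℝ := cnt (Finset.range (γ.n + 1)) q

/-- slanted height -/
def ht (θ : ℝ) (z : V) : ℝ := (z.2 : ℝ) - θ * (z.1 : ℝ)

/-- the unit sphere of `μ` has a corner in the direction `(1, θ)` -/
structure Corner (μ : ℝ × ℝ → ℝ) (θ : ℝ) (ρ : ℝ × ℝ) (c : ℝ) : Prop where
  abs_le : |θ| ≤ 1
  pos : 0 < c
  eq : μ (1, θ) = dot ρ (1, θ)
  dev : ∀ v : ℝ × ℝ, c * |v.2 - θ * v.1| ≤ μ v - dot ρ v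
  back : ∀ v : ℝ × ℝ, c * (-v.1) ≤ μ v - dot ρ v

/-- targets in column `N` close to the line of slope `θ` -/
def Tgt (θ : ℝ) (N : ℕ) (x : V) : Prop := x.1 = N ∧ ht θ x ^ 2 ≤ N

/-- time (and column) scale -/
def ell (s : ℕ) : ℕ := 2 ^ (20 * s)
/-- deviation scale -/
def dd (s : ℕ) : ℕ := 2 ^ (17 * s)
/-- width of the bands -/
def ww (s : ℕ) : ℕ := 2 ^ (18 * s)

/-- excess cost -/
noncomputable def exc (ρ : ℝ × ℝ) (γ : Pth) (t : Env) : ℝ :=
  γ.tot t - dot ρ (rv (γ.p γ.n) - rv (γ.p 0))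

/-- in `box y r` deviation and lack of progress are paid for by the excess -/
def NiceB (θ : ℝ) (ρ : ℝ × ℝ) (β c E : ℝ) (y : V) (r : ℕ) : Set Env :=
  {t | ∀ δ : Pth, δ.Ok → δ.SA → δ.In (box y r) →
    c * |ht θ (δ.p δ.n) - ht θ (δ.p 0)| - E ≤ exc ρ δ t ∧
    c * (β * δ.n - (((δ.p δ.n).1 : ℝ) - (δ.p 0).1)) - E ≤ exc ρ δ t}

/-- small deviation and linear progress between the times `j` and `j'` -/
def Ctl (θ β d : ℝ) (γ : Pth) (j j' : ℕ) : Prop :=
  |ht θ (γ.p j') - ht θ (γ.p j)| ≤ d ∧ β * ((j' : ℝ) - j) - d ≤ ((γ.p j').1 : ℝ) - (γ.p j).1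

/-- the time `i` is regular at scale `s` -/
def RegS (θ β : ℝ) (s : ℕ) (γ : Pth) (i : ℕ) : Prop :=
  ∀ j j', i ≤ j + ell s → j ≤ j' → j' ≤ i + ell s → j' ≤ γ.n → Ctl θ β (dd s) γ j j'

/-- the time `i` is good (consequences of regularity at all scales `≥ s1`) -/
structure Gt (θ β : ℝ) (s1 : ℕ) (γ : Pth) (i : ℕ) : Prop where
  fwd : ∀ j, i ≤ j → j ≤ γ.n → β / 2 * ((j : ℝ) - i) - dd s1 ≤ ((γ.p j).1 : ℝ) - (γ.p i).1
  bwd : ∀ j, j ≤ i → β / 2 * ((i : ℝ) - j) - dd s1 ≤ ((γ.p i).1 : ℝ) - (γ.p j).1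
  tube : ∀ s, s1 ≤ s → ∀ j, j ≤ γ.n → |(γ.p j).1 - (γ.p i).1| ≤ (ell s : ℤ) →
    |ht θ (γ.p j) - ht θ (γ.p i)| ≤ (ww s : ℝ) / 4

/-- what is used of the corner after `AHyp`: few irregular times at every scale -/
structure Hyp (G : Measure ℝ) (θ β : ℝ) : Prop where
  abs_le : |θ| ≤ 1
  pos : 0 < β
  le_one : β ≤ 1
  irr : ∀ A : ℝ, ∃ C : ℝ, 0 ≤ C ∧ ∀ᶠ N : ℕ in atTop, ∀ x, Tgt θ N x → ∀ s, (ell s : ℝ) ≤ A * N →
    UE G (fun t => nt (geo t 0 x) fun i => ¬ RegS θ β s (geo t 0 x) i) (C * N / 4 ^ s)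

/-- first visit to column `c` -/
noncomputable def fv (γ : Pth) (c : ℤ) : ℕ := sInf {j | (γ.p j).1 = c}

/-- there is a path in `D` from `u` to `z` of cost at most `a` -/
def Reach (D : Set V) (t : Env) (u z : V) (a : ℝ) : Prop :=
  ∃ δ : Pth, δ.Joins D u z ∧ δ.tot t ≤ a

/-- smallest radius of a good square -/
noncomputable def rad (G : Measure ℝ) (t : Env) (c : V) : ℕ := sInf {r | 1 ≤ r ∧ GoodSq G t c r}

/-- every point is surrounded by a good square -/
def AllSq (G : Measure ℝ) (t : Env) : Prop := ∀ c, ∃ r, 1 ≤ r ∧ GoodSq G t c r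

/-- typical environment -/
def Typ (G : Measure ℝ) (t : Env) : Prop := Nice G t ∧ AllSq G t

/-- `γ` is a geodesic from `x` to `z` -/
def GeoXZ (t : Env) (x z : V) (γ : Pth) : Prop := IsGeo Set.univ t γ ∧ γ.p 0 = x ∧ γ.p γ.n = z

/-- vertical displacement of column `c` in the slip with cuts `K` (cut `k` lies between the
columns `k` and `k + 1`) -/
noncomputable def mσ (K : Finset ℤ) (ε : ℤ) (c : ℤ) : ℤ := ε * ((K.filter (· < c)).card : ℤ)

/-- vertical displacement of the horizontal edges between the columns `c` and `c + 1` -/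
noncomputable def mη (K : Finset ℤ) (ε b : ℤ) (c : ℤ) : ℤ := mσ K ε c + if c ∈ K then b else 0

/-- the slipped environment -/
noncomputable def slip (K : Finset ℤ) (ε b : ℤ) (t : Env) : Env := shear (mσ K ε) (mη K ε b) t

/-- image of a point under the slip -/
noncomputable def slV (K : Finset ℤ) (ε : ℤ) (z : V) : V := shV (mσ K ε) z

/-- radius, in the slipped environment, of the good square around the image of `z` -/
noncomputable def srad (G : Measure ℝ) (K : Finset ℤ) (ε b : ℤ) (t : Env) (z : V) : ℕ :=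
  rad G (slip K ε b t) (slV K ε z)

/-- `z` is next to the cut `k` -/
def AtCut (k : ℤ) (z : V) : Prop := z.1 = k ∨ z.1 = k + 1

/-- cost of repairing `γ` across the cut `k` in `slip K ε b t` -/
noncomputable def Zs (G : Measure ℝ) (K : Finset ℤ) (ε b k : ℤ) (γ : Pth) (t : Env) : ℝ :=
  ∑ i ∈ (Finset.range (γ.n + 1)).filter (fun i => AtCut k (γ.p i)),
    8 * kap G * (srad G K ε b t (γ.p i) : ℝ) ^ 3

/-- the part of `Zs` due to radii `> r0` -/
noncomputable def Zt (G : Measure ℝ) (r0 : ℕ) (K : Finset ℤ) (ε b k : ℤ) (γ : Pth) (t : Env) : ℝ :=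
  ∑ i ∈ (Finset.range (γ.n + 1)).filter
      (fun i => AtCut k (γ.p i) ∧ r0 < srad G K ε b t (γ.p i)),
    8 * kap G * (srad G K ε b t (γ.p i) : ℝ) ^ 3

/-- the admissible cuts (symmetric under `k ↦ N - 1 - k`) -/
noncomputable def cuts (N : ℕ) : Finset ℤ := Finset.Icc ((N : ℤ) / 4) (N - 1 - (N : ℤ) / 4)

/-- `γ, γ'` have a common initial piece left of the cut `k`, after which they stay right of
column `k - M` -/
def LL (k : ℤ) (M : ℕ) (γ γ' : Pth) : Prop :=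
  ∃ i, i ≤ γ.n ∧ i ≤ γ'.n ∧ (∀ l, l ≤ i → γ'.p l = γ.p l ∧ (γ.p l).1 ≤ k) ∧
    ∀ l, i ≤ l → k - M ≤ (γ.p l).1 ∧ k - M ≤ (γ'.p l).1

/-- the same for the final pieces, up to the shift `(0, ε)` -/
def RR (k : ℤ) (M : ℕ) (ε : ℤ) (γ γ' : Pth) : Prop :=
  ∃ j, j ≤ γ.n ∧ j ≤ γ'.n ∧
    (∀ l, l ≤ j → γ'.p (γ'.n - l) = γ.p (γ.n - l) + (0, ε) ∧ k + 1 ≤ (γ.p (γ.n - l)).1) ∧
    ∀ l, j ≤ l → (γ.p (γ.n - l)).1 ≤ k + 1 + M ∧ (γ'.p (γ'.n - l)).1 ≤ k + 1 + M

/-- the geodesic of the environment slipped at the single cut `k` -/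
noncomputable def geoS (k ε b : ℤ) (x : V) (t : Env) : Pth :=
  geo (slip {k} ε b t) 0 (x + (0, ε))

/-- the lattice points with column in `[a,b]` and slanted height within `w` of `h` -/
noncomputable def bandF (θ : ℝ) (a b : ℤ) (h w : ℝ) : Finset V :=
  (Finset.Icc a b).biUnion fun u =>
    (Finset.Icc ⌈θ * u + h - w⌉ ⌊θ * u + h + w⌋).image fun v => (u, v)

/-- the band of scale `s` ending at column `c`, with height index `y` -/
noncomputable def band (θ : ℝ) (c : ℤ) (s : ℕ) (y : ℤ) : Finset V :=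
  bandF θ (c - ell s) c (y * (ww s : ℝ)) (ww s)

/-- the wide band (it contains the band of the next scale) -/
noncomputable def bandW (θ : ℝ) (c : ℤ) (s : ℕ) (y : ℤ) : Finset V :=
  bandF θ (c - ell (s + 1)) c (y * (ww s : ℝ)) (2 * (ww (s + 1) : ℝ))

/-- height index of a point -/
noncomputable def anchor (θ : ℝ) (s : ℕ) (z : V) : ℤ := round (ht θ z / ww s)

/-- a path from `0` to `x` with cost within `lam` of the optimum -/
def Gap (t : Env) (x : V) (lam : ℝ) (δ : Pth) : Prop :=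
  δ.Joins Set.univ 0 x ∧ δ.tot t ≤ T t 0 x + lam

/-- `γ` visits `B` -/
def Meets (γ : Pth) (B : Finset V) : Prop := ∃ j, j ≤ γ.n ∧ γ.p j ∈ B

/-- an almost optimal path avoids the band around the first visit of `γ` to column `c` -/
def Far (θ : ℝ) (s1 : ℕ) (lam : ℝ) (x : V) (γ : Pth) (t : Env) (c : ℤ) : Prop :=
  ∃ δ, Gap t x lam δ ∧ ¬ Meets δ (band θ c s1 (anchor θ s1 (γ.p (fv γ c))))

/-- an almost optimal path comes close to the first visit of `γ` to column `c` but is disjoint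
from `γ` in the columns `[c - m, c]` -/
def Near (s1 : ℕ) (lam : ℝ) (m : ℕ) (x : V) (γ : Pth) (t : Env) (c : ℤ) : Prop :=
  ∃ δ, Gap t x lam δ ∧ (∃ j, j ≤ δ.n ∧ nrm (δ.p j - γ.p (fv γ c)) ≤ 2 * ww s1) ∧
    ∀ j, j ≤ δ.n → ∀ l, l ≤ γ.n → c - m ≤ (γ.p l).1 → (γ.p l).1 ≤ c → δ.p j ≠ γ.p l

/-- near tie between a geodesic through the band and a path avoiding it -/
def Tie (G : Measure ℝ) (θ lam : ℝ) (x : V) (c : ℤ) (s : ℕ) (y : ℤ) : Set Env :=
  {t | NN t ∧
    (∃ γ, GeoXZ t 0 x γ ∧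
      ell s ≤ 2 * ((γ.edges ∩ edgesIn (band θ c s y)).filter fun e => t e ∈ hi G).card) ∧
    (∃ δ, Gap t x lam δ ∧ ¬ Meets δ (band θ c s y)) ∧
    ∀ δ, Gap t x lam δ → Meets δ (bandW θ c s y)}

/-- the geodesic visits the wide band -/
def Mev (G : Measure ℝ) (θ : ℝ) (x : V) (c : ℤ) (s : ℕ) (y : ℤ) : Set Env :=
  {t | Nice G t → Meets (geo t 0 x) (bandW θ c s y)}

/-- `δ` avoids the points of `γ` with times in `[i - m, i - R)` -/
def AvoidB (m R : ℕ) (γ δ : Pth) (i : ℕ) : Prop :=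
  ∀ l, i ≤ l + m → l + R < i → ∀ j, j ≤ δ.n → δ.p j ≠ γ.p l

/-- many high edges just after time `i`, and an almost optimal detour around the past -/
def Special (G : Measure ℝ) (lam : ℝ) (m R1 R2 : ℕ) (x : V) (γ : Pth) (t : Env) (i : ℕ) : Prop :=
  i + R1 ≤ γ.n ∧ R1 ≤ 2 * γ.nhi G t i (i + R1) ∧
    ∃ δ, Gap t x lam δ ∧ (∀ l, i ≤ l → l < i + R1 → γ.edge l ∈ δ.edges) ∧ AvoidB m R2 γ δ i

/-- a barrier at time `i` after a stretch without barrier -/
def FB (lam : ℝ) (m R1 R2 : ℕ) (x : V) (γ : Pth) (t : Env) (i : ℕ) : Prop :=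
  i + R1 ≤ γ.n ∧
    (∀ δ, Gap t x lam δ → ∃ l j, i ≤ l ∧ l < i + R1 ∧ j ≤ δ.n ∧ δ.p j = γ.p l) ∧
    ∃ δ, Gap t x lam δ ∧ AvoidB m R2 γ δ i

/-- the point reflection exchanging `0` and `x` -/
def ptR (x : V) : V ≃ V := Equiv.subLeft x

end Crest.Agent.R151.PA
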