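import Crest.Agent.R151.APath

/-! Row 151, part A: the number of wide bands visited by a path (deterministic).

Group the times `j ≤ n` into blocks `j / ℓ = a` (`ℓ = ell s`, `w = ww s`, at most `n/ℓ + 1`
blocks).  In a block all columns are within `ℓ` of the first one, and all slanted heights are within
`w + 2 I_a` of one number, `I_a` the number of irregular times of the block: if the block has a
regular time `i` use `RegS` (`dd s ≤ ww s`), otherwise `I_a` is the size of the block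
(`abs_ht_sub_le`, `Pth.Ok.nrm_sub_le`).  So a block meets at most
`((2^20+2)ℓ + 1)(2^20 + 3 + 4 I_a / w)` wide bands, and `ℓ / w = 4^s`. -/

set_option autoImplicit false

namespace Crest.Agent.R151.PA

open MeasureTheory ProbabilityTheory Crest.ProbabilityR.FirstPassage Filter
open scoped Classical

/-- integers in an interval -/
theorem card_int_le {F : Finset ℤ} {h w r : ℝ} (hw : 0 < w) (hr : 0 ≤ r)
    (hF : ∀ y ∈ F, |y * w - h| ≤ r) : (F.card : ℝ) ≤ 2 * r / w + 1 := by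
  rcases F.eq_empty_or_nonempty with rfl | hne
  · simp only [Finset.card_empty, Nat.cast_zero]
    positivity
  have hsub : F ⊆ Finset.Icc (F.min' hne) (F.max' hne) := fun y hy =>
    Finset.mem_Icc.2 ⟨F.min'_le y hy, F.le_max' y hy⟩
  have h1 := Finset.card_le_card hsub
  have hle : F.min' hne ≤ F.max' hne := F.min'_le_max' hne
  have h2 : ((Finset.Icc (F.min' hne) (F.max' hne)).card : ℤ) = F.max' hne + 1 - F.min' hne :=
    Int.card_Icc_of_le _ _ (by omega)
  have h3 : (F.card : ℝ) ≤ (F.max' hne : ℝ) + 1 - F.min' hne := by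
    have : (F.card : ℤ) ≤ F.max' hne + 1 - F.min' hne := by omega
    exact_mod_cast this
  have h4 := abs_le.1 (hF _ (F.min'_mem hne))
  have h5 := abs_le.1 (hF _ (F.max'_mem hne))
  have h6 : (F.max' hne : ℝ) - F.min' hne ≤ 2 * r / w := by
    rw [le_div_iff₀ hw]
    linarith
  linarith

/-- the number of irregular times of the block `a` -/
noncomputable def AMev_I (θ β : ℝ) (s : ℕ) (γ : Pth) (a : ℕ) : ℕ :=
  (((Finset.range (γ.n + 1)).filter fun i => ¬ RegS θ β s γ i).filter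
    fun i => i / ell s = a).card

theorem AMev_blk {s a j : ℕ} (h : j / ell s = a) : a * ell s ≤ j ∧ j < a * ell s + ell s := by
  subst h
  exact ⟨Nat.div_mul_le_self _ _, Nat.lt_div_mul_add (one_le_ell s)⟩

theorem AMev_ht {θ : ℝ} (β : ℝ) (s : ℕ) {γ : Pth} (hθ : |θ| ≤ 1) (hγ : γ.Ok) (a : ℕ) :
    ∃ H : ℝ, ∀ j, j ≤ γ.n → j / ell s = a →
      |ht θ (γ.p j) - H| ≤ ww s + 2 * (AMev_I θ β s γ a : ℝ) := by
  have hI : (0 : ℝ) ≤ AMev_I θ β s γ a := Nat.cast_nonneg _
  by_cases hreg : ∃ i, i ≤ γ.n ∧ i / ell s = a ∧ RegS θ β s γ i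
  · obtain ⟨i, hi, hia, hr⟩ := hreg
    have hd : (dd s : ℝ) ≤ ww s := by
      rw [ww_eq_dd]
      exact_mod_cast Nat.le_mul_of_pos_left _ (by positivity)
    refine ⟨ht θ (γ.p i), fun j hj hja => ?_⟩
    have b1 := AMev_blk hia
    have b2 := AMev_blk hja
    rcases le_total i j with h | h
    · have := (hr i j (by omega) h (by omega) hj).1
      linarith
    · have := (hr j i (by omega) h (by omega) hi).1
      rw [abs_sub_comm] at this
      linarith
  · refine ⟨ht θ (γ.p (a * ell s)), fun j hj hja => ?_⟩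
    have b2 := AMev_blk hja
    have h1 : j - a * ell s ≤ AMev_I θ β s γ a := by
      rw [← Nat.card_Ico]
      refine Finset.card_le_card fun i hi => ?_
      have hi' := Finset.mem_Ico.1 hi
      have hia : i / ell s = a := by
        apply Nat.div_eq_of_lt_le hi'.1
        rw [add_mul, one_mul]
        omega
      exact Finset.mem_filter.2 ⟨Finset.mem_filter.2 ⟨Finset.mem_range.2 (by omega),
        fun hr => hreg ⟨i, by omega, hia, hr⟩⟩, hia⟩
    have h2 : (nrm (γ.p j - γ.p (a * ell s)) : ℝ) ≤ AMev_I θ β s γ a := by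
      exact_mod_cast (hγ.nrm_sub_le b2.1).trans h1
    have h3 := abs_ht_sub_le hθ (γ.p j) (γ.p (a * ell s))
    have h4 : (0 : ℝ) ≤ ww s := Nat.cast_nonneg _
    linarith

theorem AMev_block {θ : ℝ} (β : ℝ) (s : ℕ) {γ : Pth} (hθ : |θ| ≤ 1) (hγ : γ.Ok) (a : ℕ)
    (F : Finset (ℤ × ℤ))
    (hF : ∀ q ∈ F, ∃ j, j ≤ γ.n ∧ j / ell s = a ∧ γ.p j ∈ bandW θ q.1 s q.2) :
    (F.card : ℝ) ≤ (2 ^ 20 + 3) ^ 2 * (ell s + 4 ^ s * (AMev_I θ β s γ a : ℝ)) := by
  obtain ⟨H, hH⟩ := AMev_ht β s hθ hγ a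
  have hI : (0 : ℝ) ≤ AMev_I θ β s γ a := Nat.cast_nonneg _
  generalize (AMev_I θ β s γ a : ℝ) = J at hH hI ⊢
  have hw : (1 : ℝ) ≤ ww s := by exact_mod_cast one_le_ww s
  have hl : (1 : ℝ) ≤ ell s := by exact_mod_cast one_le_ell s
  have e1 : (ell (s + 1) : ℝ) = 2 ^ 20 * ell s := by rw [ell_succ]; push_cast; ring
  have e2 : (ww (s + 1) : ℝ) = 2 ^ 18 * ww s := by rw [ww_succ]; push_cast; ring
  have e3 : (ell s : ℝ) = 4 ^ s * ww s := by rw [ell_eq_ww]; push_cast; ring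
  have h1 : ((F.image Prod.fst).card : ℝ) ≤ 2 * ((2 ^ 19 + 1) * ell s) / 1 + 1 := by
    refine card_int_le (h := ((γ.p (a * ell s)).1 : ℝ) + 2 ^ 19 * ell s) one_pos (by positivity)
      fun y hy => ?_
    obtain ⟨q, hq, rfl⟩ := Finset.mem_image.1 hy
    obtain ⟨j, hj, hja, hm⟩ := hF q hq
    obtain ⟨m1, m2, -⟩ := mem_bandW.1 hm
    have b2 := AMev_blk hja
    have c1 := abs_le.1 (col_sub_le hγ b2.1)
    have c2 : (γ.p j).1 - (γ.p (a * ell s)).1 ≤ ell s := by omega
    have c3 : -(ell s : ℤ) ≤ (γ.p j).1 - (γ.p (a * ell s)).1 := by omega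
    have d1 : (q.1 : ℝ) - ell (s + 1) ≤ (γ.p j).1 := by exact_mod_cast m1
    have d2 : ((γ.p j).1 : ℝ) ≤ q.1 := by exact_mod_cast m2
    have d3 : ((γ.p j).1 : ℝ) - (γ.p (a * ell s)).1 ≤ ell s := by exact_mod_cast c2
    have d4 : -(ell s : ℝ) ≤ ((γ.p j).1 : ℝ) - (γ.p (a * ell s)).1 := by exact_mod_cast c3
    rw [abs_le]
    constructor <;> linarith
  have h2 : ((F.image Prod.snd).card : ℝ) ≤
      2 * ((2 ^ 19 + 1) * ww s + 2 * J) / ww s + 1 := by
    refine card_int_le (h := H) (by linarith) (by positivity) fun y hy => ?_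
    obtain ⟨q, hq, rfl⟩ := Finset.mem_image.1 hy
    obtain ⟨j, hj, hja, hm⟩ := hF q hq
    obtain ⟨-, -, m2⟩ := mem_bandW.1 hm
    have m3 := abs_le.1 m2
    have m4 := abs_le.1 (hH j hj hja)
    rw [abs_le]
    constructor <;> linarith
  have h3 : (F.card : ℝ) ≤ (F.image Prod.fst).card * (F.image Prod.snd).card := by
    have := Finset.card_le_card (Finset.subset_product (s := F))
    rw [Finset.card_product] at this
    exact_mod_cast this
  have h4 : ((F.image Prod.fst).card : ℝ) ≤ (2 ^ 20 + 3) * ell s := by linarith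
  have h5 : ell s * (2 * ((2 ^ 19 + 1) * ww s + 2 * J) / ww s + 1) =
      (2 ^ 20 + 3) * ell s + 4 * (4 ^ s * J) := by
    rw [e3]
    field_simp
    ring
  have h6 : (0 : ℝ) ≤ 4 ^ s * J := by positivity
  calc (F.card : ℝ) ≤ ((2 ^ 20 + 3) * ell s) *
        (2 * ((2 ^ 19 + 1) * ww s + 2 * J) / ww s + 1) :=
        h3.trans (mul_le_mul h4 h2 (Nat.cast_nonneg _) (by positivity))
    _ = (2 ^ 20 + 3) * ((2 ^ 20 + 3) * ell s + 4 * (4 ^ s * J)) := by
        rw [mul_assoc, h5]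
    _ ≤ _ := by linarith

theorem mev_count : ∃ C : ℝ, 0 < C ∧ ∀ (θ β : ℝ) (s : ℕ) (γ : Pth), |θ| ≤ 1 → γ.Ok →
    ∀ F : Finset (ℤ × ℤ), (∀ q ∈ F, Meets γ (bandW θ q.1 s q.2)) →
      (F.card : ℝ) ≤ C * (γ.n + ell s + 4 ^ s * nt γ fun i => ¬ RegS θ β s γ i) := by
  refine ⟨(2 ^ 20 + 3) ^ 2, by positivity, fun θ β s γ hθ hγ F hF => ?_⟩
  have h1 : F ⊆ (Finset.range (γ.n / ell s + 1)).biUnion fun a =>
      F.filter fun q => ∃ j, j ≤ γ.n ∧ j / ell s = a ∧ γ.p j ∈ bandW θ q.1 s q.2 := by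
    intro q hq
    obtain ⟨j, hj, hm⟩ := hF q hq
    exact Finset.mem_biUnion.2 ⟨j / ell s,
      Finset.mem_range.2 (Nat.lt_succ_of_le (Nat.div_le_div_right hj)),
      Finset.mem_filter.2 ⟨hq, j, hj, rfl, hm⟩⟩
  have h2 : (F.card : ℝ) ≤ ∑ a ∈ Finset.range (γ.n / ell s + 1), ((F.filter fun q =>
      ∃ j, j ≤ γ.n ∧ j / ell s = a ∧ γ.p j ∈ bandW θ q.1 s q.2).card : ℝ) := by
    exact_mod_cast (Finset.card_le_card h1).trans Finset.card_biUnion_le
  have h3 : ∑ a ∈ Finset.range (γ.n / ell s + 1), (AMev_I θ β s γ a : ℝ) =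
      nt γ fun i => ¬ RegS θ β s γ i := by
    have := Finset.card_eq_sum_card_fiberwise (f := fun i => i / ell s)
      (s := (Finset.range (γ.n + 1)).filter fun i => ¬ RegS θ β s γ i)
      (t := Finset.range (γ.n / ell s + 1)) fun i hi => by
        have := Finset.mem_range.1 (Finset.mem_filter.1 (Finset.mem_coe.1 hi)).1
        exact Finset.mem_coe.2 (Finset.mem_range.2
          (Nat.lt_succ_of_le (Nat.div_le_div_right (by omega))))
    rw [nt, cnt, ← Nat.cast_sum]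
    congr 1
    convert this.symm
    rw [AMev_I]
  refine h2.trans ((Finset.sum_le_sum fun a _ => AMev_block β s hθ hγ a _ fun q hq =>
    (Finset.mem_filter.1 hq).2).trans ?_)
  rw [← Finset.mul_sum, Finset.sum_add_distrib, ← Finset.mul_sum, h3, Finset.sum_const,
    Finset.card_range, nsmul_eq_mul]
  have h4 : ((γ.n / ell s + 1 : ℕ) : ℝ) * ell s ≤ γ.n + ell s := by
    have : (γ.n / ell s + 1) * ell s ≤ γ.n + ell s := by
      rw [add_mul, one_mul]
      exact Nat.add_le_add_right (Nat.div_mul_le_self _ _) _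
    exact_mod_cast this
  gcongr

end Crest.Agent.R151.PA
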