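import Crest.Agent.R151.TCoup0

/-! Row 151 toolkit: number of flips between two tilts. -/

set_option autoImplicit false

namespace Crest.Agent.R151

open MeasureTheory ProbabilityTheory Crest.ProbabilityR.FirstPassage
open scoped Classical

theorem tc2_update_mp {ι α : Type*} [DecidableEq ι] [MeasurableSpace α] (ν : Measure α)
    [IsProbabilityMeasure ν] (e : ι) :
    MeasurePreserving (fun p : (ι → α) × α => Function.update p.1 e p.2)
      ((Measure.infinitePi fun _ : ι => ν).prod ν) (Measure.infinitePi fun _ : ι => ν) := by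
  have hm : Measurable (fun p : (ι → α) × α => Function.update p.1 e p.2) := measurable_update'
  refine ⟨hm, ?_⟩
  apply Measure.eq_infinitePi
  intro s t ht
  rw [Measure.map_apply hm (.pi s.countable_toSet fun i _ => ht i)]
  have : (fun p : (ι → α) × α => Function.update p.1 e p.2) ⁻¹' (Set.pi s t) =
      (Set.pi (s.erase e) t) ×ˢ (if e ∈ s then t e else Set.univ) := by
    ext p
    simp only [Set.mem_preimage, Set.mem_pi, Finset.mem_coe, Set.mem_prod, Finset.mem_erase]
    constructor
    · intro h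
      refine ⟨fun i hi => by simpa [Function.update_of_ne hi.1] using h i hi.2, ?_⟩
      split_ifs with he
      · simpa using h e he
      · trivial
    · intro h i hi
      by_cases hie : i = e
      · subst hie
        have := h.2
        rw [if_pos hi] at this
        simpa using this
      · rw [Function.update_of_ne hie]
        exact h.1 i ⟨hie, hi⟩
  rw [this, Measure.prod_prod, Measure.infinitePi_pi _ fun i _ => ht i]
  split_ifs with he
  · exact Finset.prod_erase_mul s (fun i => ν (t i)) he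
  · rw [Finset.erase_eq_of_notMem he, measure_univ, mul_one]

theorem tc2_unif {p q : ℝ} (hp : 0 ≤ p) (hq : q ≤ 1) (hpq : p ≤ q) :
    (volume.restrict (Set.Icc (0 : ℝ) 1)).real (Set.Ico p q) = q - p := by
  have : Set.Ico p q ⊆ Set.Icc (0 : ℝ) 1 := fun x hx => ⟨hp.trans hx.1, hx.2.le.trans hq⟩
  rw [measureReal_restrict_apply measurableSet_Ico, Set.inter_eq_left.2 this,
    Real.volume_real_Ico_of_le hpq]

variable (G : Measure ℝ) [Law G]

omit [Law G] in
theorem tc2_meas_cpl (s : ℝ) : Measurable (cpl G s) :=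
  (measurable_cpl G).comp (measurable_const.prodMk measurable_id)

theorem tc2_mass {s : ℝ} (hs : |s| ≤ s0 G) {B : Set ℝ} (hB : MeasurableSet B) (hBhi : B ⊆ hi G) :
    (nuC G).real {a | cpl G s a ∈ B} = (1 - s / pHi G) * G.real B := by
  have h1 : (nuC G) {a | cpl G s a ∈ B} = ((nuC G).map (cpl G s)) B := by
    rw [Measure.map_apply (tc2_meas_cpl G s) hB]; rfl
  have hp := pHi_ge G
  have hs0 := s0_le G
  have hs1 := abs_le.1 hs
  have h0 : 0 ≤ 1 - s / pHi G := by
    rw [sub_nonneg, div_le_one (by linarith)]; linarith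
  have h2 : ∫⁻ x in B, ENNReal.ofReal (fS G s x) ∂G = ENNReal.ofReal (1 - s / pHi G) * G B := by
    rw [← setLIntegral_const]
    refine setLIntegral_congr_fun hB fun x hx => ?_
    have hx1 : x ∈ hi G := hBhi hx
    have hx2 : x ∉ lo G := fun h => Set.disjoint_left.1 (disjoint_lo_hi G) h hx1
    simp only [fS, Set.indicator_of_mem hx1, Set.indicator_of_notMem hx2]
    congr 1
    ring
  rw [Measure.real, h1, map_cpl G hs, withDensity_apply _ hB, h2, ENNReal.toReal_mul,
    ENNReal.toReal_ofReal h0]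
  rfl

/-- one edge: given a high value at tilt `s`, the value at tilt `s'` is low with conditional
probability at least `s' - s`, whatever the value -/
theorem flip_one {s s' : ℝ} (hs : |s| ≤ s0 G) (hs' : |s'| ≤ s0 G) (h : s ≤ s') {B : Set ℝ}
    (hB : MeasurableSet B) (hBhi : B ⊆ hi G) :
    (s' - s) * (nuC G).real {a | cpl G s a ∈ B} ≤
      (nuC G).real {a | cpl G s a ∈ B ∧ cpl G s' a ∈ lo G} := by
  have hp := pHi_ge G
  have hl := pLo_pos G
  have hs0 := s0_le G
  have hs1 := abs_le.1 hs
  have hs1' := abs_le.1 hs'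
  have hpH : 0 < pHi G := by linarith
  have hdis : ∀ x, x ∈ lo G → x ∉ hi G := fun x h => Set.disjoint_left.1 (disjoint_lo_hi G) h
  have hlo0 : G (lo G) ≠ 0 := fun h => by
    have : pLo G = 0 := by simp [pLo, Measure.real, h]
    linarith
  have hhi0 : G (hi G) ≠ 0 := fun h => by
    have : pHi G = 0 := by simp [pHi, Measure.real, h]
    linarith
  have : IsProbabilityMeasure (G[|lo G]) := cond_isProbabilityMeasure hlo0
  have : IsProbabilityMeasure (G[|hi G]) := cond_isProbabilityMeasure hhi0
  set E1 : Set Cp := B ×ˢ (Set.Ico (max s 0 / pHi G) (max s' 0 / pHi G) ×ˢ (lo G ×ˢ Set.univ)) with hE1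
  set E2 : Set Cp := lo G ×ˢ (Set.Ico (max (-s') 0 / pLo G) (max (-s) 0 / pLo G) ×ˢ (Set.univ ×ˢ B))
    with hE2
  have m1 : (nuC G).real E1 = G.real B * ((max s' 0 - max s 0) / pHi G) := by
    rw [nuC, hE1, measureReal_prod_prod, measureReal_prod_prod, measureReal_prod_prod,
      tc2_unif (by positivity) (by
        rw [div_le_one hpH]; exact max_le (by linarith) hpH.le) (by gcongr)]
    have : (G[|lo G]).real (lo G) = 1 := by
      rw [Measure.real, cond_apply_self hlo0 (measure_ne_top _ _)]; rfl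
    rw [this, probReal_univ]
    ring
  have m2 : (nuC G).real E2 = (max (-s) 0 - max (-s') 0) * (G.real B / pHi G) := by
    rw [nuC, hE2, measureReal_prod_prod, measureReal_prod_prod, measureReal_prod_prod,
      tc2_unif (by positivity) (by
        rw [div_le_one hl]; exact max_le (by linarith) hl.le) (by gcongr)]
    have : (G[|hi G]).real B = G.real B / pHi G := by
      rw [Measure.real, cond_apply (measurableSet_hi G), Set.inter_eq_right.2 hBhi,
        ENNReal.toReal_mul, ENNReal.toReal_inv, div_eq_inv_mul]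
      rfl
    rw [this, probReal_univ]
    change pLo G * _ = _
    field_simp
  have hd : Disjoint E1 E2 :=
    Set.disjoint_left.2 fun a h1 h2 => hdis _ h2.1 (hBhi h1.1)
  have hm2 : MeasurableSet E2 := (measurableSet_lo G).prod
    (measurableSet_Ico.prod (MeasurableSet.univ.prod hB))
  have hsub : E1 ∪ E2 ⊆ {a | cpl G s a ∈ B ∧ cpl G s' a ∈ lo G} := by
    rintro a (ha | ha)
    · obtain ⟨h1, ⟨h2, h3⟩, h4, -⟩ := ha
      rw [div_le_iff₀ hpH] at h2
      rw [lt_div_iff₀ hpH] at h3
      have h5 : a.2.1 * pHi G < s' := by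
        rcases lt_max_iff.1 h3 with h | h
        · exact h
        · linarith [le_max_right s 0]
      have h6 : ¬ a.2.1 * pHi G < s := by linarith [le_max_left s 0]
      have h7 : a.1 ∉ lo G := fun h => hdis _ h (hBhi h1)
      constructor
      · unfold cpl
        rw [if_neg (fun h => h6 h.2), if_neg (fun h => h7 h.1)]
        exact h1
      · unfold cpl
        rw [if_pos ⟨hBhi h1, h5⟩]
        exact h4
    · obtain ⟨h1, ⟨h2, h3⟩, -, h4⟩ := ha
      rw [div_le_iff₀ hl] at h2
      rw [lt_div_iff₀ hl] at h3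
      have h5 : a.2.1 * pLo G < -s := by
        rcases lt_max_iff.1 h3 with h | h
        · exact h
        · linarith [le_max_right (-s') 0]
      have h6 : ¬ a.2.1 * pLo G < -s' := by linarith [le_max_left (-s') 0]
      have h7 : a.1 ∉ hi G := hdis _ h1
      constructor
      · unfold cpl
        rw [if_neg (fun h => h7 h.1), if_pos ⟨h1, h5⟩]
        exact h4
      · unfold cpl
        rw [if_neg (fun h => h7 h.1), if_neg (fun h => h6 h.2)]
        exact h1
  refine le_trans ?_ (measureReal_mono hsub)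
  rw [measureReal_union hd hm2, m1, m2, tc2_mass G hs hB hBhi]
  have e1 : max s' 0 - max s 0 + (max (-s) 0 - max (-s') 0) = s' - s := by
    have a1 := max_zero_sub_max_neg_zero_eq_self s
    have a2 := max_zero_sub_max_neg_zero_eq_self s'
    linarith
  have e2 : G.real B * ((max s' 0 - max s 0) / pHi G) +
      (max (-s) 0 - max (-s') 0) * (G.real B / pHi G) = (s' - s) * (1 / pHi G * G.real B) := by
    rw [← e1]; ring
  rw [e2]
  have hB0 : 0 ≤ G.real B := measureReal_nonneg
  have h3 : 1 - s / pHi G ≤ 1 / pHi G := by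
    rw [le_div_iff₀ hpH, sub_mul, div_mul_cancel₀ _ hpH.ne']
    linarith
  have h4 : 0 ≤ s' - s := sub_nonneg.2 h
  gcongr

/-- the Markov weight of one edge -/
noncomputable def tc2_w (G : Measure ℝ) (s' : ℝ) (a : Cp) : ENNReal :=
  if cpl G s' a ∈ lo G then ENNReal.ofReal (Real.exp (-1)) else 1

omit [Law G] in
theorem tc2_meas_w (s' : ℝ) : Measurable (tc2_w G s') :=
  Measurable.ite (tc2_meas_cpl G s' (measurableSet_lo G)) measurable_const measurable_const

theorem tc2_one {s s' : ℝ} (hs : |s| ≤ s0 G) (hs' : |s'| ≤ s0 G) (h : s ≤ s') {B : Set ℝ}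
    (hB : MeasurableSet B) (hBhi : B ⊆ hi G) :
    ∫⁻ a, B.indicator 1 (cpl G s a) * tc2_w G s' a ∂(nuC G) ≤
      ENNReal.ofReal (Real.exp (-((s' - s) / 2))) * ∫⁻ a, B.indicator 1 (cpl G s a) ∂(nuC G) := by
  set E : Set Cp := cpl G s ⁻¹' B with hE
  set F : Set Cp := cpl G s' ⁻¹' lo G with hF
  have mE : MeasurableSet E := tc2_meas_cpl G s hB
  have mF : MeasurableSet F := tc2_meas_cpl G s' (measurableSet_lo G)
  have e1 : ∫⁻ a, B.indicator 1 (cpl G s a) ∂(nuC G) = nuC G E := by
    rw [← lintegral_indicator_one mE]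
    rfl
  have e2 : ∫⁻ a, B.indicator 1 (cpl G s a) * tc2_w G s' a ∂(nuC G) =
      ENNReal.ofReal (Real.exp (-1)) * nuC G (E ∩ F) + nuC G (E \ F) := by
    rw [← lintegral_indicator_const (mE.inter mF), ← lintegral_indicator_one (mE.diff mF),
      ← lintegral_add_left (measurable_const.indicator (mE.inter mF))]
    refine lintegral_congr fun a => ?_
    by_cases h1 : cpl G s a ∈ B <;> by_cases h2 : cpl G s' a ∈ lo G <;>
      simp [Set.indicator, tc2_w, hE, hF, h1, h2]
  have f1 := flip_one G hs hs' h hB hBhi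
  change (s' - s) * (nuC G).real E ≤ (nuC G).real (E ∩ F) at f1
  have f2 := measureReal_inter_add_sdiff (μ := nuC G) (s := E) mF
  have p1 : 0 ≤ (nuC G).real (E ∩ F) := measureReal_nonneg
  have p2 : 0 ≤ (nuC G).real (E \ F) := measureReal_nonneg
  have p3 : 0 ≤ (nuC G).real E := measureReal_nonneg
  rw [e1, e2, ← ofReal_measureReal (μ := nuC G) (s := E ∩ F), ← ofReal_measureReal (μ := nuC G) (s := E \ F),
    ← ofReal_measureReal (μ := nuC G) (s := E), ← ENNReal.ofReal_mul (Real.exp_pos _).le,
    ← ENNReal.ofReal_mul (Real.exp_pos _).le, ← ENNReal.ofReal_add (by positivity) p2]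
  refine ENNReal.ofReal_le_ofReal ?_
  have q1 : Real.exp (-1) ≤ 1 / 2 := by
    rw [Real.exp_neg, one_div]
    refine inv_anti₀ (by norm_num) ?_
    linarith [Real.add_one_le_exp (1 : ℝ)]
  have q2 := Real.add_one_le_exp (-((s' - s) / 2))
  nlinarith [mul_le_mul_of_nonneg_right q1 p1, mul_le_mul_of_nonneg_right q2 p3]

omit [Law G] in
theorem tc2_tS_update {U : Finset (Sym2 V)} {e : Sym2 V} (he : e ∈ U) (s : ℝ) (ω : CΩ) (a : Cp) :
    tS G U s (Function.update ω e a) = Function.update (tS G U s ω) e (cpl G s a) := by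
  funext i
  by_cases hi : i = e
  · subst hi
    simp [tS, he]
  · simp [tS, Function.update_of_ne hi]

theorem tc2_ind (U H : Finset (Sym2 V)) (hH : H ⊆ U) {s s' : ℝ} (hs : |s| ≤ s0 G)
    (hs' : |s'| ≤ s0 G) (h : s ≤ s') {A : Set Env} (hA : MeasurableSet A)
    (hhi : ∀ t ∈ A, ∀ e ∈ H, t e ∈ hi G) :
    ∫⁻ ω, A.indicator 1 (tS G U s ω) * ∏ e ∈ H, tc2_w G s' (ω e) ∂(Qc G) ≤
      ENNReal.ofReal (Real.exp (-((s' - s) / 2))) ^ H.card * Qc G (tS G U s ⁻¹' A) := by
  have mA : Measurable fun ω => A.indicator (1 : Env → ENNReal) (tS G U s ω) :=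
    (measurable_one.indicator hA).comp (measurable_tS G U s)
  have mP : ∀ K : Finset (Sym2 V), Measurable fun ω : CΩ => ∏ e ∈ K, tc2_w G s' (ω e) := fun K =>
    Finset.measurable_prod _ fun e _ => (tc2_meas_w G s').comp (measurable_pi_apply e)
  have mF : ∀ K : Finset (Sym2 V), Measurable fun ω : CΩ =>
      A.indicator (1 : Env → ENNReal) (tS G U s ω) * ∏ e ∈ K, tc2_w G s' (ω e) := fun K => mA.mul (mP K)
  induction H using Finset.induction_on with
  | empty =>
    simp only [Finset.prod_empty, mul_one, Finset.card_empty, pow_zero, one_mul]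
    rw [← lintegral_indicator_one (measurable_tS G U s hA)]
    rfl
  | insert e K he ih =>
    have heU : e ∈ U := hH (Finset.mem_insert_self _ _)
    have ih' := ih (fun x hx => hH (Finset.mem_insert_of_mem hx))
      (fun t ht x hx => hhi t ht x (Finset.mem_insert_of_mem hx))
    have mp : MeasurePreserving (fun p : CΩ × Cp => Function.update p.1 e p.2)
      ((Qc G).prod (nuC G)) (Qc G) := tc2_update_mp (nuC G) e
    rw [Finset.card_insert_of_notMem he, pow_succ', mul_assoc]
    refine le_trans ?_ (mul_le_mul_right ih' _)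
    have mF' : ∀ K : Finset (Sym2 V), AEMeasurable (fun p : CΩ × Cp =>
        A.indicator (1 : Env → ENNReal) (tS G U s (Function.update p.1 e p.2)) *
          ∏ i ∈ K, tc2_w G s' (Function.update p.1 e p.2 i)) ((Qc G).prod (nuC G)) :=
      fun K => ((mF K).comp mp.measurable).aemeasurable
    rw [← mp.lintegral_comp (mF (insert e K)), ← mp.lintegral_comp (mF K),
      lintegral_prod _ (mF' _), lintegral_prod _ (mF' _),
      ← lintegral_const_mul' _ _ ENNReal.ofReal_ne_top]
    refine lintegral_mono fun ω => ?_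
    set B : Set ℝ := {x | Function.update (tS G U s ω) e x ∈ A} with hB
    have mB : MeasurableSet B := measurable_update _ hA
    have hBhi : B ⊆ hi G := fun x hx => by
      simpa using hhi _ hx e (Finset.mem_insert_self _ _)
    have e1 : ∀ a : Cp, ∏ i ∈ K, tc2_w G s' (Function.update ω e a i) = ∏ i ∈ K, tc2_w G s' (ω i) :=
      fun a => Finset.prod_congr rfl fun i hi => by
        rw [Function.update_of_ne (fun h : i = e => he (h ▸ hi))]
    have e2 : ∀ a : Cp, A.indicator (1 : Env → ENNReal) (tS G U s (Function.update ω e a)) =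
        B.indicator 1 (cpl G s a) := fun a => by
      rw [tc2_tS_update G heU]
      rfl
    have mB1 : Measurable fun a => B.indicator (1 : ℝ → ENNReal) (cpl G s a) :=
      (measurable_one.indicator mB).comp (tc2_meas_cpl G s)
    have mB2 : Measurable fun a => B.indicator (1 : ℝ → ENNReal) (cpl G s a) * tc2_w G s' a :=
      mB1.mul (tc2_meas_w G s')
    simp only [Finset.prod_insert he, Function.update_self, e1, e2]
    simp only [← mul_assoc]
    rw [lintegral_mul_const _ mB2, lintegral_mul_const _ mB1, ← mul_assoc]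
    exact mul_le_mul_left (tc2_one G hs hs' h mB hBhi) _

theorem flips_bound (U H : Finset (Sym2 V)) (hH : H ⊆ U) {s s' : ℝ} (hs : |s| ≤ s0 G)
    (hs' : |s'| ≤ s0 G) (h : s ≤ s') {A : Set Env} (hA : MeasurableSet A)
    (hhi : ∀ t ∈ A, ∀ e ∈ H, t e ∈ hi G) (J : ℝ) :
    (Qc G).real {ω | tS G U s ω ∈ A ∧ ((H.filter (fun e => tS G U s' ω e ∈ lo G)).card : ℝ) < J} ≤
      (Qc G).real (tS G U s ⁻¹' A) * Real.exp (J - H.card * (s' - s) / 2) := by
  have h1 := tc2_ind G U H hH hs hs' h hA hhi
  have mF : Measurable fun ω : CΩ =>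
      A.indicator (1 : Env → ENNReal) (tS G U s ω) * ∏ e ∈ H, tc2_w G s' (ω e) :=
    ((measurable_one.indicator hA).comp (measurable_tS G U s)).mul
      (Finset.measurable_prod _ fun e _ => (tc2_meas_w G s').comp (measurable_pi_apply e))
  have h2 := mul_meas_ge_le_lintegral (μ := Qc G) mF (ENNReal.ofReal (Real.exp (-J)))
  set E := {ω | tS G U s ω ∈ A ∧ ((H.filter (fun e => tS G U s' ω e ∈ lo G)).card : ℝ) < J} with hE
  have hsub : E ⊆ {ω | ENNReal.ofReal (Real.exp (-J)) ≤
      A.indicator (1 : Env → ENNReal) (tS G U s ω) * ∏ e ∈ H, tc2_w G s' (ω e)} := by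
    intro ω hω
    have e1 : ∏ e ∈ H, tc2_w G s' (ω e) = ENNReal.ofReal (Real.exp (-1)) ^
        (H.filter (fun e => tS G U s' ω e ∈ lo G)).card := by
      rw [← Finset.prod_const, Finset.prod_filter]
      refine Finset.prod_congr rfl fun e he => ?_
      simp only [tc2_w, tS, if_pos (hH he)]
    simp only [Set.mem_ofPred_eq]
    rw [Set.indicator_of_mem hω.1, e1, Pi.one_apply, one_mul,
      ← ENNReal.ofReal_pow (Real.exp_pos _).le, ← Real.exp_nat_mul]
    refine ENNReal.ofReal_le_ofReal (Real.exp_le_exp.2 ?_)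
    linarith [hω.2]
  have h3 := (mul_le_mul_right (measure_mono (μ := Qc G) hsub) _).trans (h2.trans h1)
  rw [← ofReal_measureReal (μ := Qc G) (s := E), ← ofReal_measureReal (μ := Qc G) (s := tS G U s ⁻¹' A),
    ← ENNReal.ofReal_pow (Real.exp_pos _).le, ← ENNReal.ofReal_mul (Real.exp_pos _).le,
    ← ENNReal.ofReal_mul (by positivity), ENNReal.ofReal_le_ofReal_iff (by positivity),
    ← Real.exp_nat_mul] at h3
  have e2 : Real.exp (J - H.card * (s' - s) / 2) =
      Real.exp J * Real.exp (H.card * -((s' - s) / 2)) := by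
    rw [← Real.exp_add]; congr 1; ring
  have e3 : Real.exp J * Real.exp (-J) = 1 := by rw [← Real.exp_add]; simp
  calc (Qc G).real E = Real.exp J * (Real.exp (-J) * (Qc G).real E) := by
        rw [← mul_assoc, e3, one_mul]
    _ ≤ Real.exp J * (Real.exp (H.card * -((s' - s) / 2)) * (Qc G).real (tS G U s ⁻¹' A)) := by
        gcongr
    _ = _ := by rw [e2]; ring

end Crest.Agent.R151
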