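import Crest.Agent.R151.TCoup1
import Crest.Agent.R151.TCoup2

/-! Row 151 toolkit: the tie lemma. -/

set_option autoImplicit false

namespace Crest.Agent.R151

open MeasureTheory ProbabilityTheory Crest.ProbabilityR.FirstPassage
open scoped Classical

/-- second moment method -/
theorem tie_sm {Ω : Type*} [MeasurableSpace Ω] (Q : Measure Ω) [IsProbabilityMeasure Q] (n : ℕ)
    (E : ℕ → Set Ω) (hE : ∀ k, MeasurableSet (E k)) {M : Set Ω} (hM : MeasurableSet M)
    (hsub : ∀ k < n, ∀ᵐ ω ∂Q, ω ∈ E k → ω ∈ M) {K : ℝ} (hK : 0 < K)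
    (h2 : ∑ k ∈ Finset.range n, ∑ k' ∈ Finset.range n, Q.real (E k ∩ E k')
      ≤ K * ∑ k ∈ Finset.range n, Q.real (E k)) :
    ∑ k ∈ Finset.range n, Q.real (E k) ≤ K * Q.real M := by
  have hind : ∀ {S : Set Ω}, MeasurableSet S → Integrable (S.indicator fun _ => (1 : ℝ)) Q :=
    fun hS => (integrable_const (1 : ℝ)).indicator hS
  have hint : ∀ {S : Set Ω}, MeasurableSet S → ∫ ω, S.indicator (fun _ => (1 : ℝ)) ω ∂Q = Q.real S :=
    fun hS => by rw [integral_indicator hS]; simp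
  have hall : ∀ᵐ ω ∂Q, ∀ k, k < n → ω ∈ E k → ω ∈ M := by
    rw [ae_all_iff]
    intro k
    by_cases hk : k < n
    · filter_upwards [hsub k hk] with ω h _ using h
    · exact Filter.Eventually.of_forall fun ω h => absurd h hk
  have i1 : Integrable (fun ω => ∑ k ∈ Finset.range n, (E k).indicator (fun _ => (1 : ℝ)) ω) Q :=
    integrable_finsetSum _ fun k _ => hind (hE k)
  have i2 : ∀ k, Integrable
      (fun ω => ∑ k' ∈ Finset.range n, (E k ∩ E k').indicator (fun _ => (1 : ℝ)) ω) Q :=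
    fun k => integrable_finsetSum _ fun k' _ => hind ((hE k).inter (hE k'))
  have i3 : Integrable (fun ω => ∑ k ∈ Finset.range n,
      ∑ k' ∈ Finset.range n, (E k ∩ E k').indicator (fun _ => (1 : ℝ)) ω) Q :=
    integrable_finsetSum _ fun k _ => i2 k
  have key : ∫ ω, ∑ k ∈ Finset.range n, (E k).indicator (fun _ => (1 : ℝ)) ω ∂Q ≤
      ∫ ω, (K / 2 * M.indicator (fun _ => (1 : ℝ)) ω + 1 / (2 * K) * ∑ k ∈ Finset.range n,
        ∑ k' ∈ Finset.range n, (E k ∩ E k').indicator (fun _ => (1 : ℝ)) ω) ∂Q := by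
    refine integral_mono_ae i1 (((hind hM).const_mul _).add (i3.const_mul _)) ?_
    filter_upwards [hall] with ω hω
    have e : ∑ k ∈ Finset.range n, ∑ k' ∈ Finset.range n,
        (E k ∩ E k').indicator (fun _ => (1 : ℝ)) ω
          = (∑ k ∈ Finset.range n, (E k).indicator (fun _ => (1 : ℝ)) ω) ^ 2 := by
      rw [sq, Finset.sum_mul_sum]
      refine Finset.sum_congr rfl fun k _ => Finset.sum_congr rfl fun k' _ => ?_
      by_cases h1 : ω ∈ E k <;> by_cases h2 : ω ∈ E k' <;> simp [h1, h2]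
    rw [e]
    by_cases hωM : ω ∈ M
    · rw [Set.indicator_of_mem hωM]
      set N := ∑ k ∈ Finset.range n, (E k).indicator (fun _ => (1 : ℝ)) ω
      have : K / 2 * 1 + 1 / (2 * K) * N ^ 2 - N = (N - K) ^ 2 / (2 * K) := by
        field_simp
        ring
      have h0 : 0 ≤ (N - K) ^ 2 / (2 * K) := by positivity
      linarith
    · have h0 : ∑ k ∈ Finset.range n, (E k).indicator (fun _ => (1 : ℝ)) ω = 0 :=
        Finset.sum_eq_zero fun k hk =>
          Set.indicator_of_notMem (fun h => hωM (hω k (Finset.mem_range.1 hk) h)) _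
      rw [h0, Set.indicator_of_notMem hωM]
      simp
  rw [integral_add ((hind hM).const_mul _) (i3.const_mul _), integral_const_mul, integral_const_mul,
    integral_finsetSum _ (fun k _ => hind (hE k)), integral_finsetSum _ (fun k _ => i2 k),
    hint hM] at key
  simp only [hint (hE _)] at key
  have e2 : ∀ k, ∫ ω, ∑ k' ∈ Finset.range n, (E k ∩ E k').indicator (fun _ => (1 : ℝ)) ω ∂Q
      = ∑ k' ∈ Finset.range n, Q.real (E k ∩ E k') := fun k => by
    rw [integral_finsetSum _ (fun k' _ => hind ((hE k).inter (hE k')))]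
    exact Finset.sum_congr rfl fun k' _ => hint ((hE k).inter (hE k'))
  simp only [e2] at key
  have h3 : 1 / (2 * K) * ∑ k ∈ Finset.range n, ∑ k' ∈ Finset.range n, Q.real (E k ∩ E k')
      ≤ 1 / (2 * K) * (K * ∑ k ∈ Finset.range n, Q.real (E k)) :=
    mul_le_mul_of_nonneg_left h2 (by positivity)
  have h4 : 1 / (2 * K) * (K * ∑ k ∈ Finset.range n, Q.real (E k))
      = (∑ k ∈ Finset.range n, Q.real (E k)) / 2 := by
    field_simp
  linarith

theorem tie_geo_inj {r : ℝ} (h0 : 0 ≤ r) (h1 : r < 1) (S : Finset ℕ) (f : ℕ → ℕ)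
    (hf : Set.InjOn f S) : ∑ k ∈ S, r ^ f k ≤ (1 - r)⁻¹ := by
  rw [← tsum_geometric_of_lt_one h0 h1, ← Finset.sum_image (f := fun j => r ^ j) hf]
  exact (summable_geometric_of_lt_one h0 h1).sum_le_tsum _ fun _ _ => by positivity

theorem tie_geo {r : ℝ} (h0 : 0 ≤ r) (h1 : r < 1) (n k : ℕ) :
    ∑ k' ∈ Finset.range n, r ^ (k - k' + (k' - k)) ≤ 2 * (1 - r)⁻¹ := by
  rw [← Finset.sum_filter_add_sum_filter_not (Finset.range n) (fun k' => k' ≤ k), two_mul]
  refine add_le_add (tie_geo_inj h0 h1 _ _ ?_) (tie_geo_inj h0 h1 _ _ ?_)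
  · intro a ha b hb h
    simp only [Finset.coe_filter, Set.mem_ofPred_eq] at ha hb h
    omega
  · intro a ha b hb h
    simp only [Finset.coe_filter, Set.mem_ofPred_eq] at ha hb h
    omega

theorem tie_dbl {r c : ℝ} (h0 : 0 ≤ r) (h1 : r < 1) (hc : 0 ≤ c) (n : ℕ) (a : ℕ → ℝ)
    (ha : ∀ k, 0 ≤ a k) (b : ℕ → ℕ → ℝ)
    (hb : ∀ k < n, ∀ k' < n, b k k' ≤ (a k + a k') * (c * r ^ (k - k' + (k' - k)))) :
    ∑ k ∈ Finset.range n, ∑ k' ∈ Finset.range n, b k k'
      ≤ 4 * c * (1 - r)⁻¹ * ∑ k ∈ Finset.range n, a k := by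
  have h2 : ∑ k ∈ Finset.range n, ∑ k' ∈ Finset.range n, a k * (c * r ^ (k - k' + (k' - k)))
      ≤ 2 * c * (1 - r)⁻¹ * ∑ k ∈ Finset.range n, a k := by
    rw [Finset.mul_sum]
    refine Finset.sum_le_sum fun k _ => ?_
    rw [← Finset.mul_sum, ← Finset.mul_sum]
    have := mul_le_mul_of_nonneg_left (mul_le_mul_of_nonneg_left (tie_geo h0 h1 n k) hc) (ha k)
    linarith
  have h3 : ∑ k ∈ Finset.range n, ∑ k' ∈ Finset.range n, a k' * (c * r ^ (k - k' + (k' - k)))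
      ≤ 2 * c * (1 - r)⁻¹ * ∑ k ∈ Finset.range n, a k := by
    rw [Finset.sum_comm]
    refine le_trans (le_of_eq ?_) h2
    refine Finset.sum_congr rfl fun k _ => Finset.sum_congr rfl fun k' _ => ?_
    rw [add_comm]
  have h4 : ∑ k ∈ Finset.range n, ∑ k' ∈ Finset.range n, b k k' ≤
      ∑ k ∈ Finset.range n, ∑ k' ∈ Finset.range n, a k * (c * r ^ (k - k' + (k' - k))) +
      ∑ k ∈ Finset.range n, ∑ k' ∈ Finset.range n, a k' * (c * r ^ (k - k' + (k' - k))) := by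
    rw [← Finset.sum_add_distrib]
    refine Finset.sum_le_sum fun k hk => ?_
    rw [← Finset.sum_add_distrib]
    refine Finset.sum_le_sum fun k' hk' => ?_
    rw [← add_mul]
    exact hb k (Finset.mem_range.1 hk) k' (Finset.mem_range.1 hk')
  linarith

theorem tie_disj {α ι : Type*} [MeasurableSpace α] [Countable ι] (A : ι → Set α)
    (hA : ∀ i, MeasurableSet (A i)) : ∃ B : ι → Set α, (∀ i, MeasurableSet (B i)) ∧
      (∀ i, B i ⊆ A i) ∧ Pairwise (fun i j => Disjoint (B i) (B j)) ∧ ⋃ i, B i = ⋃ i, A i := by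
  obtain ⟨f, hf⟩ := exists_injective_nat ι
  refine ⟨fun i => A i \ ⋃ j, ⋃ (_ : f j < f i), A j,
    fun i => (hA i).diff (MeasurableSet.iUnion fun j => MeasurableSet.iUnion fun _ => hA j),
    fun i => Set.sdiff_subset, ?_, ?_⟩
  · intro i j hij
    rw [Set.disjoint_left]
    rintro x ⟨hi, hi'⟩ ⟨hj, hj'⟩
    simp only [Set.mem_iUnion, not_exists] at hi' hj'
    rcases lt_or_gt_of_ne (hf.ne hij) with h | h
    · exact hj' i h hi
    · exact hi' j h hj
  · refine Set.Subset.antisymm (Set.iUnion_mono fun i => Set.sdiff_subset) ?_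
    intro x hx
    obtain ⟨i, hi⟩ := Set.mem_iUnion.1 hx
    have hex : ∃ n, ∃ j, f j = n ∧ x ∈ A j := ⟨f i, i, rfl, hi⟩
    obtain ⟨j, hj, hxj⟩ := Nat.find_spec hex
    refine Set.mem_iUnion.2 ⟨j, hxj, ?_⟩
    simp only [Set.mem_iUnion, not_exists]
    intro k hk hxk
    exact Nat.find_min hex (hj ▸ hk) ⟨k, rfl, hxk⟩

theorem tie_pair (G : Measure ℝ) [Law G] (J : ℕ) (U : Finset (Sym2 V)) (m : ℕ) {ι : Type}
    [Countable ι] (A : ι → Set Env) (H : ι → Finset (Sym2 V)) (Ω0 : Set Env)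
    (hA : ∀ i, MeasurableSet (A i)) (hΩ : ∀ᵐ t ∂(iidLaw G), t ∈ Ω0)
    (hH : ∀ i, H i ⊆ U ∧ m ≤ (H i).card) (hhi : ∀ i, ∀ t ∈ A i, ∀ e ∈ H i, t e ∈ hi G)
    (hJ : ∀ i, ∀ t ∈ A i, t ∈ Ω0 → ∀ t' ∈ Ω0, Low G U t t' →
        J ≤ ((H i).filter (fun e => t' e ∈ lo G)).card → t' ∉ ⋃ j, A j)
    {s s' : ℝ} (hs : |s| ≤ s0 G) (hs' : |s'| ≤ s0 G) (h : s ≤ s') :
    (Qc G).real (tS G U s ⁻¹' (⋃ i, A i) ∩ tS G U s' ⁻¹' (⋃ i, A i)) ≤
      (Qc G).real (tS G U s ⁻¹' (⋃ i, A i)) * Real.exp (J - m * (s' - s) / 2) := by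
  obtain ⟨B, hBm, hBA, hBd, hBU⟩ := tie_disj A hA
  set c := Real.exp (J - m * (s' - s) / 2) with hc
  have hc0 : 0 ≤ c := (Real.exp_pos _).le
  set X : ι → Set CΩ := fun i => {ω | tS G U s ω ∈ B i ∧
    (((H i).filter (fun e => tS G U s' ω e ∈ lo G)).card : ℝ) < J} with hX
  have h1 : Qc G (tS G U s ⁻¹' (⋃ i, A i) ∩ tS G U s' ⁻¹' (⋃ i, A i)) ≤ Qc G (⋃ i, X i) := by
    refine measure_mono_ae ?_
    filter_upwards [ae_goodC G, ae_tS G U hs hΩ, ae_tS G U hs' hΩ] with ω hg h1 h2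
    rintro ⟨h3, h4⟩
    rw [Set.mem_preimage, ← hBU] at h3
    obtain ⟨i, hi⟩ := Set.mem_iUnion.1 h3
    refine Set.mem_iUnion.2 ⟨i, hi, ?_⟩
    by_contra hcon
    rw [not_lt] at hcon
    exact hJ i _ (hBA i hi) h1 _ h2 (low_tS G U h hg) (by exact_mod_cast hcon) h4
  have h2 : ∀ i, Qc G (X i) ≤ Qc G (tS G U s ⁻¹' B i) * ENNReal.ofReal c := by
    intro i
    have h3 := flips_bound G U (H i) (hH i).1 hs hs' h (hBm i)
      (fun t ht => hhi i t (hBA i ht)) (J : ℝ)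
    have h4 : Real.exp (J - (H i).card * (s' - s) / 2) ≤ c := by
      rw [hc, Real.exp_le_exp]
      have : (m : ℝ) ≤ (H i).card := by exact_mod_cast (hH i).2
      nlinarith
    rw [← ofReal_measureReal (measure_ne_top (Qc G) (X i)),
      ← ofReal_measureReal (measure_ne_top (Qc G) (tS G U s ⁻¹' B i)),
      ← ENNReal.ofReal_mul measureReal_nonneg]
    exact ENNReal.ofReal_le_ofReal
      (h3.trans (mul_le_mul_of_nonneg_left h4 measureReal_nonneg))
  have h3 : ∑' i, Qc G (tS G U s ⁻¹' B i) = Qc G (tS G U s ⁻¹' (⋃ i, A i)) := by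
    rw [← hBU, Set.preimage_iUnion]
    refine (measure_iUnion (fun i j hij => (hBd hij).preimage _) fun i => ?_).symm
    exact measurable_tS G U s (hBm i)
  have h4 := h1.trans ((measure_iUnion_le X).trans (ENNReal.tsum_le_tsum h2))
  rw [ENNReal.tsum_mul_right, h3,
    ← ofReal_measureReal (measure_ne_top (Qc G) (tS G U s ⁻¹' (⋃ i, A i))),
    ← ENNReal.ofReal_mul measureReal_nonneg] at h4
  exact ENNReal.toReal_le_of_le_ofReal (mul_nonneg measureReal_nonneg hc0) h4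

theorem tie_lemma (G : Measure ℝ) [Law G] (J : ℕ) : ∃ C : ℝ, 0 < C ∧
    ∀ (U : Finset (Sym2 V)) (m : ℕ) (ι : Type) [Countable ι] (A : ι → Set Env)
      (H : ι → Finset (Sym2 V)) (M Ω0 : Set Env), 1 ≤ m → (∀ i, MeasurableSet (A i)) →
      MeasurableSet M → MeasurableSet Ω0 → (∀ᵐ t ∂(iidLaw G), t ∈ Ω0) →
      (∀ i, H i ⊆ U ∧ m ≤ (H i).card) → (∀ i, ∀ t ∈ A i, ∀ e ∈ H i, t e ∈ hi G) →
      (∀ i, ∀ t ∈ A i, t ∈ Ω0 → ∀ t' ∈ Ω0, Low G U t t' →
        J ≤ ((H i).filter (fun e => t' e ∈ lo G)).card → t' ∉ ⋃ j, A j) →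
      (∀ i, ∀ t ∈ A i, t ∈ Ω0 → ∀ t' ∈ Ω0, Low G U t t' → t' ∈ M) →
      (∀ i, ∀ t ∈ A i, t ∈ Ω0 → ∀ t' ∈ Ω0, Low G U t' t → t' ∈ M) →
      Pr G (⋃ i, A i) ≤ C * √(U.card) / m * Pr G M := by
  obtain ⟨C, hC, hmw⟩ := mw_sq G
  have hs0 := s0_pos G
  have hs1 : s0 G ≤ 1 := (s0_le G).2.2.trans (by norm_num)
  refine ⟨24 * Real.exp C * Real.exp J / s0 G, by positivity, ?_⟩
  intro U m ι _ A H M Ω0 hm hA hM _ hΩ hH hhi hJ hM1 hM2
  have hm0 : (0 : ℝ) < m := by exact_mod_cast hm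
  rcases isEmpty_or_nonempty ι with hι | ⟨⟨i0⟩⟩
  · rw [Set.iUnion_of_empty, Pr_empty]
    exact mul_nonneg (by positivity) (Pr_nonneg G M)
  have hU : (1 : ℝ) ≤ U.card := by
    exact_mod_cast hm.trans ((hH i0).2.trans (Finset.card_le_card (hH i0).1))
  have hq1 : 1 ≤ √(U.card : ℝ) := Real.one_le_sqrt.2 hU
  set q := √(U.card : ℝ) with hq
  have hqq : q ^ 2 = U.card := Real.sq_sqrt (by linarith)
  set τ := s0 G / q with hτ
  have hτ0 : 0 < τ := by positivity
  have hτs : τ ≤ s0 G := div_le_self hs0.le hq1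
  set r := Real.exp (-(τ / 2)) with hr
  have hr0 : 0 < r := Real.exp_pos _
  have hr1 : r < 1 := Real.exp_lt_one_iff.2 (by linarith)
  have hrτ : (1 - r)⁻¹ ≤ 3 / τ := by
    have h1 : r * (1 + τ / 2) ≤ 1 := by
      have h2 := Real.add_one_le_exp (τ / 2)
      have h3 : r * Real.exp (τ / 2) = 1 := by rw [hr, ← Real.exp_add]; simp
      nlinarith
    rw [inv_le_comm₀ (by linarith) (by positivity), inv_div, div_le_iff₀ (by norm_num)]
    nlinarith
  have hAm : MeasurableSet (⋃ i, A i) := MeasurableSet.iUnion hA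
  have habs : ∀ (σ : ℝ), |σ| = 1 → ∀ k < m, |σ * (k * (τ / m))| ≤ τ := by
    intro σ hσ k hk
    have hk' : (k : ℝ) ≤ m := by exact_mod_cast hk.le
    rw [abs_mul, hσ, one_mul, abs_of_nonneg (by positivity)]
    calc (k : ℝ) * (τ / m) ≤ m * (τ / m) := mul_le_mul_of_nonneg_right hk' (by positivity)
      _ = τ := by field_simp
  have hpair : ∀ {s s' : ℝ} (d : ℕ), |s| ≤ s0 G → |s'| ≤ s0 G → |s' - s| = d * (τ / m) →
      (Qc G).real (tS G U s ⁻¹' (⋃ i, A i) ∩ tS G U s' ⁻¹' (⋃ i, A i)) ≤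
        ((Qc G).real (tS G U s ⁻¹' (⋃ i, A i)) + (Qc G).real (tS G U s' ⁻¹' (⋃ i, A i))) *
          (Real.exp J * r ^ d) := by
    intro s s' d hs hs' hd
    have e : Real.exp J * r ^ d = Real.exp (J - m * |s' - s| / 2) := by
      rw [hr, ← Real.exp_nat_mul, ← Real.exp_add, hd]
      congr 1
      field_simp
      ring
    rw [e]
    rcases le_total s s' with h | h
    · rw [abs_of_nonneg (by linarith)]
      refine (tie_pair G J U m A H Ω0 hA hΩ hH hhi hJ hs hs' h).trans ?_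
      exact mul_le_mul_of_nonneg_right (le_add_of_nonneg_right measureReal_nonneg)
        (Real.exp_pos _).le
    · rw [abs_sub_comm, abs_of_nonneg (by linarith), Set.inter_comm]
      refine (tie_pair G J U m A H Ω0 hA hΩ hH hhi hJ hs' hs h).trans ?_
      exact mul_le_mul_of_nonneg_right (le_add_of_nonneg_left measureReal_nonneg)
        (Real.exp_pos _).le
  have h00 : |(0 : ℝ)| ≤ s0 G := by simpa using hs0.le
  have hsum : ∀ (σ : ℝ), |σ| = 1 →
      ∑ k ∈ Finset.range m, (Qc G).real (tS G U (σ * (k * (τ / m))) ⁻¹' (⋃ i, A i))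
        ≤ 4 * Real.exp J * (1 - r)⁻¹ * Pr G M := by
    intro σ hσ
    have hPM : Pr G M = (Qc G).real (tS G U 0 ⁻¹' M) :=
      ((measurePreserving_tS_zero G U).measureReal_preimage hM.nullMeasurableSet).symm
    rw [hPM]
    refine tie_sm (Qc G) m (fun k => tS G U (σ * (k * (τ / m))) ⁻¹' (⋃ i, A i))
      (fun k => measurable_tS G U _ hAm) (measurable_tS G U 0 hM) (fun k hk => ?_)
      (by have : 0 < 1 - r := by linarith
          positivity) ?_
    · have hs := (habs σ hσ k hk).trans hτs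
      filter_upwards [ae_goodC G, ae_tS G U hs hΩ, ae_tS G U h00 hΩ] with ω hg h1 h2 h3
      obtain ⟨i, hi⟩ := Set.mem_iUnion.1 h3
      rcases le_total (σ * (k * (τ / m))) 0 with h | h
      · exact hM1 i _ hi h1 _ h2 (low_tS G U h hg)
      · exact hM2 i _ hi h1 _ h2 (low_tS G U h hg)
    · refine tie_dbl hr0.le hr1 (Real.exp_pos _).le m _ (fun _ => measureReal_nonneg) _
        fun k hk k' hk' => hpair _ ((habs σ hσ k hk).trans hτs) ((habs σ hσ k' hk').trans hτs) ?_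
      rw [← mul_sub, ← sub_mul, abs_mul, hσ, one_mul, abs_mul, abs_of_pos (by positivity : 0 < τ / m)]
      congr 1
      rcases le_total k k' with h | h
      · have h' : (k : ℝ) ≤ k' := by exact_mod_cast h
        rw [abs_of_nonneg (by linarith), Nat.sub_eq_zero_of_le h, zero_add, Nat.cast_sub h]
      · have h' : (k' : ℝ) ≤ k := by exact_mod_cast h
        rw [abs_sub_comm, abs_of_nonneg (by linarith), Nat.sub_eq_zero_of_le h, add_zero,
          Nat.cast_sub h]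
  have hone : ∀ k ∈ Finset.range m, Pr G (⋃ i, A i) ≤ Real.exp C *
      ((Qc G).real (tS G U (1 * (k * (τ / m))) ⁻¹' (⋃ i, A i)) +
        (Qc G).real (tS G U (-1 * (k * (τ / m))) ⁻¹' (⋃ i, A i))) := by
    intro k hk
    have hs := habs 1 abs_one k (Finset.mem_range.1 hk)
    have h1 := hmw U _ (hs.trans hτs) _ hAm
    rw [show -(1 * (k * (τ / m))) = -1 * (k * (τ / m)) by ring] at h1
    set a := (Qc G).real (tS G U (1 * (k * (τ / m))) ⁻¹' (⋃ i, A i))
    set b := (Qc G).real (tS G U (-1 * (k * (τ / m))) ⁻¹' (⋃ i, A i))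
    have ha : 0 ≤ a := measureReal_nonneg
    have hb : 0 ≤ b := measureReal_nonneg
    have h2 : (1 * (k * (τ / m))) ^ 2 * (U.card : ℝ) ≤ 1 := by
      have h3 : (1 * (k * (τ / m))) ^ 2 ≤ τ ^ 2 := by
        rw [← sq_abs]
        exact pow_le_pow_left₀ (abs_nonneg _) hs 2
      have h4 : τ ^ 2 * (U.card : ℝ) = s0 G ^ 2 := by
        rw [hτ, ← hqq]
        field_simp
      nlinarith
    have h3 : Real.exp (C * (1 * (k * (τ / m))) ^ 2 * U.card) ≤ Real.exp C ^ 2 := by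
      rw [← Real.exp_nat_mul, Real.exp_le_exp, mul_assoc]
      push_cast
      nlinarith
    refine (sq_le_sq₀ (Pr_nonneg G _) (by positivity)).1 (h1.trans ?_)
    rw [mul_pow (Real.exp C)]
    exact mul_le_mul h3 (by nlinarith) (by positivity) (by positivity)
  have h5 := Finset.card_nsmul_le_sum _ _ _ hone
  rw [Finset.card_range, nsmul_eq_mul, ← Finset.mul_sum, Finset.sum_add_distrib] at h5
  have h6 := hsum 1 abs_one
  have h7 := hsum (-1) (by simp)
  have hP := Pr_nonneg G M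
  have h8 : 4 * Real.exp J * (1 - r)⁻¹ * Pr G M ≤ 4 * Real.exp J * (3 / τ) * Pr G M := by
    gcongr
  have h9 : m * Pr G (⋃ i, A i) ≤ Real.exp C * (2 * (4 * Real.exp J * (3 / τ) * Pr G M)) :=
    h5.trans (mul_le_mul_of_nonneg_left (by linarith) (Real.exp_pos _).le)
  rw [mul_comm, ← le_div_iff₀ hm0] at h9
  refine h9.trans (le_of_eq ?_)
  rw [hτ]
  field_simp
  ring

end Crest.Agent.R151
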