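import Crest.Agent.R151.ABase
import Crest.Agent.R151.TTie

/-! Row 151, part A: probability of a tie.

`tie_lemma` with `U = edgesIn (band …)` (`|U| ≤ 24 ℓ w = 24 · 2^(38 s)`), `m = (ℓ+1)/2`,
`ι = {H // H ⊆ U ∧ m ≤ H.card}`, `A H = Tie ∩ {∃ γ, GeoXZ t 0 x γ ∧ H ⊆ γ.edges ∧ H high}`,
`Ω0 = Nice`, `J (h1 - h0) > lam`.
* `J` flips: `T' ≤ T - J (h1-h0)` (`Low.tot_le`) while a path avoiding the band keeps its cost `≥ T`.
* lowering (`t ∈ A H`, `Low U t t'`): if `geo t'` used no edge of `U`, then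
  `γ.tot t' ≤ T t ≤ (geo t').tot t = T t'`, so `γ = geo t'` by uniqueness; but `γ` uses `H ≠ ∅`.
* raising (`t ∈ A H`, `Low U t' t`): if `geo t'` uses no edge of `U`, its `t`-cost is
  `T t' ≤ δ.tot t' = δ.tot t ≤ T t + lam` for the avoiding path `δ`, so it meets the wide band. -/

set_option autoImplicit false

namespace Crest.Agent.R151.PA

open MeasureTheory ProbabilityTheory Crest.ProbabilityR.FirstPassage Filter
open scoped Classical

theorem ATie_meets {γ : Pth} {B : Finset V} {i : ℕ} (hi : i < γ.n) (he : γ.edge i ∈ edgesIn B) :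
    Meets γ B := by
  obtain ⟨u, v, hu, hv, -, h⟩ := mem_edgesIn.1 he
  refine ⟨i, hi.le, ?_⟩
  rcases Sym2.eq_iff.1 h with h | h
  · rw [h.1]; exact hu
  · rw [h.1]; exact hv

theorem ATie_tot {γ : Pth} {B : Finset V} (h : ¬ Meets γ B) {t t' : Env}
    (he : ∀ e, e ∉ edgesIn B → t' e = t e) : γ.tot t' = γ.tot t :=
  γ.cost_congr fun _ _ hi => he _ fun h' => h (ATie_meets hi h')

theorem ATie_mev {G : Measure ℝ} [Law G] {θ lam : ℝ} {x : V} {c : ℤ} {s : ℕ} {y : ℤ} {t t' : Env}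
    (ht : t ∈ Tie G θ lam x c s y) (he : ∀ e, e ∉ edgesIn (band θ c s y) → t' e = t e) :
    t' ∈ Mev G θ x c s y := by
  intro hn
  obtain ⟨-, -, ⟨δ, hδ, hδ'⟩, hall⟩ := ht
  have hg := geoXZ_geo hn.1 0 x
  by_cases hm : Meets (geo t' 0 x) (band θ c s y)
  · obtain ⟨j, hj, hj'⟩ := hm
    exact ⟨j, hj, band_subset_bandW θ c s y hj'⟩
  · refine hall _ ⟨hg.joins, ?_⟩
    have h1 : T t' 0 x ≤ δ.tot t' := TD_le (hn.nn G) hδ.1
    rw [← ATie_tot hm he, hg.tot]
    rw [ATie_tot hδ' he] at h1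
    exact h1.trans hδ.2

theorem measurableSet_tie (G : Measure ℝ) (θ lam : ℝ) (x : V) (c : ℤ) (s : ℕ) (y : ℤ) :
    MeasurableSet (Tie G θ lam x c s y) := by
  refine measurableSet_nn.inter (MeasurableSet.inter ?_ (MeasurableSet.inter ?_ ?_))
  · refine measurableSet_exists_pth fun γ => (measurableSet_geoXZ 0 x γ).inter ?_
    exact measurableSet_le measurable_const ((measurable_card_filter _
      (A := fun e => {t : Env | t e ∈ hi G})
      fun e => measurable_pi_apply e (measurableSet_hi G)).const_mul 2)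
  · exact measurableSet_exists_pth fun δ => (measurableSet_gap x lam δ).inter (MeasurableSet.const _)
  · refine measurableSet_forall_pth fun δ => ?_
    by_cases h : Meets δ (bandW θ c s y)
    · simp [h]
    · simp only [h, imp_false]
      exact (measurableSet_gap x lam δ).compl

theorem measurableSet_mev (G : Measure ℝ) (θ : ℝ) (x : V) (c : ℤ) (s : ℕ) (y : ℤ) :
    MeasurableSet (Mev G θ x c s y) := by
  have h1 : MeasurableSet {t | Meets (geo t 0 x) (bandW θ c s y)} :=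
    (measP_geo 0 x).measurableSet (q := fun _ γ => Meets γ (bandW θ c s y))
      fun _ => MeasurableSet.const _
  have : Mev G θ x c s y = {t | Nice G t}ᶜ ∪ {t | Meets (geo t 0 x) (bandW θ c s y)} := by
    ext t
    simp only [Mev, Set.mem_ofPred_eq, Set.mem_union, Set.mem_compl_iff]
    exact imp_iff_not_or
  rw [this]
  exact (measurableSet_nice G).compl.union h1

theorem tie_prob (G : Measure ℝ) [Law G] (lam : ℝ) : ∃ C : ℝ, 0 < C ∧
    ∀ (θ : ℝ) (x : V) (c : ℤ) (s : ℕ) (y : ℤ),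
      Pr G (Tie G θ lam x c s y) ≤ C / 2 ^ s * Pr G (Mev G θ x c s y) := by
  have hh := h0_lt_h1 G
  have hd : 0 < h1 G - h0 G := sub_pos.2 hh
  obtain ⟨J, hJ⟩ := exists_nat_gt (lam / (h1 G - h0 G))
  rw [div_lt_iff₀ hd] at hJ
  obtain ⟨C, hC, H⟩ := tie_lemma G J
  refine ⟨10 * C, by positivity, fun θ x c s y => ?_⟩
  set U := edgesIn (band θ c s y) with hU
  set m := (ell s + 1) / 2 with hm
  have hell := one_le_ell s
  let A : {K : Finset (Sym2 V) // K ⊆ U ∧ m ≤ K.card} → Set Env := fun K =>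
    Tie G θ lam x c s y ∩ {t | ∃ γ, GeoXZ t 0 x γ ∧ K.1 ⊆ γ.edges ∧ ∀ e ∈ K.1, t e ∈ hi G}
  have hA : ∀ K, MeasurableSet (A K) := fun K => by
    refine (measurableSet_tie G θ lam x c s y).inter (measurableSet_exists_pth fun γ =>
      (measurableSet_geoXZ 0 x γ).inter ((MeasurableSet.const _).inter ?_))
    have : {t : Env | ∀ e ∈ K.1, t e ∈ hi G} = ⋂ e ∈ K.1, {t : Env | t e ∈ hi G} := by
      ext t; simp
    change MeasurableSet {t : Env | ∀ e ∈ K.1, t e ∈ hi G}
    rw [this]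
    exact Finset.measurableSet_biInter _ fun e _ => measurable_pi_apply e (measurableSet_hi G)
  have key := H U m _ A (fun K => K.1) (Mev G θ x c s y) {t | Nice G t} (by omega) hA
    (measurableSet_mev G θ x c s y) (measurableSet_nice G) (ae_nice G) (fun K => K.2)
    (fun K t ht => by obtain ⟨-, γ, -, -, h⟩ := ht; exact h)
    (fun K t ht _ t' hn' hl hc hmem => by
      obtain ⟨K', hK'⟩ := Set.mem_iUnion.1 hmem
      obtain ⟨-, -, ⟨δ, hδ, hδ'⟩, -⟩ := hK'.1
      obtain ⟨ht, γ, hγ, h1', h2⟩ := ht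
      have e1 := ATie_tot hδ' (fun e he => hl.eq_of_notMem he)
      have e2 : T t 0 x ≤ δ.tot t := TD_le ht.1 hδ.1
      have e3 := hl.tot_le hh hγ.ok hγ.sa h1' h2
      have e4 : T t' 0 x ≤ γ.tot t' := TD_le (Nice.nn G hn') hγ.joins
      have e5 := hγ.tot
      have e6 := hδ.2
      have e7 : (J : ℝ) ≤ ((K.1.filter fun e => t' e ∈ lo G).card : ℝ) := by exact_mod_cast hc
      nlinarith [mul_le_mul_of_nonneg_right e7 hd.le])
    (fun K t ht _ t' _ hl => ATie_mev ht.1 fun e he => hl.eq_of_notMem he)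
    (fun K t ht _ t' _ hl => ATie_mev ht.1 fun e he => (hl.eq_of_notMem he).symm)
  have hsub : Tie G θ lam x c s y ⊆ ⋃ K, A K := by
    intro t ht
    obtain ⟨γ, hγ, hc⟩ := ht.2.1
    have hk : ∀ k, ell s ≤ 2 * k → m ≤ k := fun k hk => by omega
    refine Set.mem_iUnion.2 ⟨⟨_, fun e he => ?_, hk _ hc⟩, ht, γ, hγ, fun e he => ?_, fun e he => ?_⟩
    all_goals simp only [Finset.mem_filter, Finset.mem_inter] at he
    exacts [he.1.2, he.1.1, he.2]
  refine (Pr_mono G hsub).trans (key.trans (mul_le_mul_of_nonneg_right ?_ (Pr_nonneg G _)))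
  have h1 : (U.card : ℝ) ≤ 24 * (2 ^ (20 * s) * 2 ^ (18 * s)) := by
    have a1 := card_edgesIn_le (band θ c s y)
    have a2 := card_band_le θ c s y
    have : U.card ≤ 24 * (ell s * ww s) := by rw [hU]; omega
    unfold ell ww at this
    exact_mod_cast this
  have h2 : √(U.card : ℝ) ≤ 5 * 2 ^ (19 * s) := by
    refine Real.sqrt_le_iff.2 ⟨by positivity, h1.trans ?_⟩
    rw [mul_pow, ← pow_add, ← pow_mul, show 19 * s * 2 = 20 * s + 18 * s by ring]
    gcongr
    norm_num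
  have h3 : (2 : ℝ) ^ (20 * s) ≤ 2 * m := by
    have : ell s ≤ 2 * m := by omega
    unfold ell at this
    exact_mod_cast this
  have hm0 : (0 : ℝ) < m := by exact_mod_cast (by omega : 0 < m)
  rw [div_le_div_iff₀ hm0 (by positivity)]
  have h4 : (2 : ℝ) ^ (20 * s) = 2 ^ (19 * s) * 2 ^ s := by rw [← pow_add]; congr 1; ring
  calc C * √(U.card : ℝ) * 2 ^ s ≤ C * (5 * 2 ^ (19 * s)) * 2 ^ s := by gcongr
    _ = 5 * C * 2 ^ (20 * s) := by rw [h4]; ring
    _ ≤ 5 * C * (2 * m) := by gcongr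
    _ = _ := by ring

end Crest.Agent.R151.PA
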