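import Crest.Agent.R151.ABand
import Crest.Agent.R151.AMev
import Crest.Agent.R151.ATie
import Crest.Agent.R151.AVis

/-! Row 151, part A: far almost optimal paths are rare. -/

set_option autoImplicit false

namespace Crest.Agent.R151.PA

open MeasureTheory ProbabilityTheory Crest.ProbabilityR.FirstPassage Filter
open scoped Classical

variable {G : Measure ℝ} [Law G] {θ β : ℝ}

theorem AFar_geom (s1 : ℕ) (S : Finset ℕ) (hS : ∀ s ∈ S, s1 ≤ s) :
    ∑ s ∈ S, (1 / 2 : ℝ) ^ s ≤ 2 * (1 / 2 : ℝ) ^ s1 := by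
  have h1 : S ⊆ Finset.Ico s1 (S.sup id + 1) := fun s hs =>
    Finset.mem_Ico.2 ⟨hS s hs, Nat.lt_succ_of_le (Finset.le_sup (f := id) hs)⟩
  refine (Finset.sum_le_sum_of_subset_of_nonneg h1 fun _ _ _ => by positivity).trans ?_
  refine (geom_sum_Ico_le_of_lt_one (by norm_num) (by norm_num)).trans (le_of_eq ?_)
  ring

theorem AFar_kes : ∃ C : ℝ, 0 < C ∧ ∀ s : ℕ,
    (ell s : ℝ) ^ 3 * (7 / 8) ^ ell s ≤ C * (1 / 2) ^ s := by
  obtain ⟨C, hC, h⟩ := exists_pow_mul_geom_le 3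
  refine ⟨C, hC, fun s => ?_⟩
  have h1 : (ell s : ℝ) ^ 3 * (7 / 8) ^ ell s ≤ ((ell s : ℝ) + 1) ^ 3 * (7 / 8) ^ ell s :=
    mul_le_mul_of_nonneg_right
      (pow_le_pow_left₀ (Nat.cast_nonneg _) (by linarith) 3) (by positivity)
  refine h1.trans ((h _).trans (mul_le_mul_of_nonneg_left ?_ hC.le))
  have h2 : 20 * s ≤ ell s := Nat.lt_two_pow_self.le
  calc (15 / 16 : ℝ) ^ ell s ≤ (15 / 16 : ℝ) ^ (20 * s) :=
        pow_le_pow_of_le_one (by norm_num) (by norm_num) h2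
    _ = ((15 / 16 : ℝ) ^ 20) ^ s := pow_mul _ _ _
    _ ≤ (1 / 2) ^ s := pow_le_pow_left₀ (by positivity) (by norm_num) s

/-- `UE.transfer` over `ι = ℤ × ℤ` with `tie_prob`, `mev_count`, `ue_len`, `H.irr 1` -/
theorem tie_count (H : Hyp G θ β) (lam : ℝ) : ∃ C : ℝ, 0 < C ∧ ∀ᶠ N : ℕ in atTop, ∀ x, Tgt θ N x →
    ∀ (s : ℕ) (F : Finset ℤ), ell s ≤ N →
      UE G (fun t => cnt F fun c => ∃ y, t ∈ Tie G θ lam x c s y) (C * N / 2 ^ s) := by
  obtain ⟨C1, hC1, h1⟩ := tie_prob G lam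
  obtain ⟨C2, hC2, h2⟩ := mev_count
  obtain ⟨C3, hC3, h3⟩ := ue_len G
  obtain ⟨C4, hC4, h4⟩ := H.irr 1
  refine ⟨C1 * (C2 * (2 * C3 + 1 + C4)), by positivity, ?_⟩
  filter_upwards [h4] with N hN x hx s F hs
  have hsR : (ell s : ℝ) ≤ N := by exact_mod_cast hs
  have hn : (nrm x : ℝ) ≤ 2 * N := by exact_mod_cast hx.nrm_le H.abs_le
  have hg := (((h3 x).add (UE.const (G := G) (ell s : ℝ))).add
    ((hN x hx s (by rwa [one_mul])).const_mul (c := 4 ^ s) (by positivity))).const_mul hC2.le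
  have key := UE.transfer (G := G) (ι := ℤ × ℤ) (A := fun q => Tie G θ lam x q.1 s q.2)
    (B := fun q => Mev G θ x q.1 s q.2)
    (f := fun t => cnt F fun c => ∃ y, t ∈ Tie G θ lam x c s y)
    (fun q => measurableSet_mev G θ x q.1 s q.2) (κ := C1 / 2 ^ s) (by positivity)
    (fun q => h1 θ x q.1 s q.2) hg ?_ ?_
  · refine key.mono (Eventually.of_forall fun _ => le_rfl) ?_
    have e : (4 : ℝ) ^ s * (C4 * N / 4 ^ s) = C4 * N := by field_simp
    rw [e, div_mul_eq_mul_div, mul_assoc, mul_assoc]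
    refine div_le_div_of_nonneg_right (mul_le_mul_of_nonneg_left
      (mul_le_mul_of_nonneg_left ?_ hC2.le) hC1.le) (by positivity)
    nlinarith [mul_le_mul_of_nonneg_left hn hC3.le]
  · filter_upwards [ae_nice G, ae_geoXZ G] with t ht ht' F' hF'
    exact h2 θ β s _ H.abs_le (ht'.2 0 x).ok F' fun q hq => hF' q hq ht
  · refine Eventually.of_forall fun t => ?_
    have hch : ∀ c : ℤ, ∃ y : ℤ, (∃ y, t ∈ Tie G θ lam x c s y) → t ∈ Tie G θ lam x c s y := by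
      intro c
      by_cases hc : ∃ y, t ∈ Tie G θ lam x c s y
      · obtain ⟨y, hy⟩ := hc
        exact ⟨y, fun _ => hy⟩
      · exact ⟨0, fun h => absurd h hc⟩
    choose y hy using hch
    refine ⟨(F.filter fun c => ∃ y, t ∈ Tie G θ lam x c s y).image fun c => (c, y c), ?_, ?_⟩
    · intro q hq
      obtain ⟨c, hc, rfl⟩ := Finset.mem_image.1 hq
      exact hy c (Finset.mem_filter.1 hc).2
    · rw [Finset.card_image_of_injective _ fun c c' h => congrArg Prod.fst h]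
      exact le_rfl

/-- `far_cases`, `tie_count`, `vis_kes` (`ℓ³ (7/8)^ℓ ≤ C / 2^s` since `s < ℓ`); sum over
`s1 ≤ s ≤ N` with `ell s ≤ N` -/
theorem far_bound (H : Hyp G θ β) {η : ℝ} (hη : 0 < η) (lam : ℝ) :
    ∃ s0 : ℕ, ∀ s1, s0 ≤ s1 → ∀ᶠ N : ℕ in atTop, ∀ x, Tgt θ N x →
      UE G (fun t => cnt (Finset.Icc (0 : ℤ) N) fun c =>
        Gt θ β s1 (geo t 0 x) (fv (geo t 0 x) c) ∧ Far θ s1 lam x (geo t 0 x) t c) (η * N) := by
  obtain ⟨C1, hC1, h1⟩ := tie_count H lam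
  obtain ⟨C2, hC2, h2⟩ := vis_kes G
  obtain ⟨C3, hC3, h3⟩ := AFar_kes
  have hK : 0 < 2 * (C1 + 3 * C2 * C3) := by positivity
  obtain ⟨s0, hs0⟩ := exists_pow_lt_of_lt_one (div_pos hη hK) (show (1 / 2 : ℝ) < 1 by norm_num)
  refine ⟨s0, fun s1 hs1 => ?_⟩
  filter_upwards [h1, eventually_ge_atTop 1] with N hN hN1 x hx
  have hN1' : (1 : ℝ) ≤ N := by exact_mod_cast hN1
  have hn : (nrm x : ℝ) ≤ 2 * N := by exact_mod_cast hx.nrm_le H.abs_le
  set S := (Finset.range (N + 1)).filter fun s => s1 ≤ s ∧ ell s ≤ N with hS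
  have hsum := UE.sum (G := G) S fun s hs =>
    (hN x hx s (Finset.Icc (0 : ℤ) N) (Finset.mem_filter.1 hs).2.2).add
      (h2 x (ell s) (one_le_ell s))
  refine hsum.mono ?_ ?_
  · filter_upwards [ae_geoXZ G] with t ht
    refine (cnt_le_sum_cnt S (q' := fun s c => (∃ y, t ∈ Tie G θ lam x c s y) ∨
      ∃ j, j ≤ (geo t 0 x).n ∧ ((geo t 0 x).p j).1 = c - ell s ∧
        t ∈ KesBad G ((geo t 0 x).p j) (ell s)) ?_).trans (Finset.sum_le_sum fun s _ => ?_)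
    · intro c hc hq
      obtain ⟨hc0, hcN⟩ := Finset.mem_Icc.1 hc
      obtain ⟨s, hs, hs', h⟩ := far_cases (G := G) ht.1 (ht.2 0 x) hx.1 hc0 hcN hq.1 hq.2
      exact ⟨s, Finset.mem_filter.2 ⟨Finset.mem_range.2
        (by have := lt_ell s; omega), hs, hs'⟩, h⟩
    · refine (cnt_or_le fun c _ h => h).trans (add_le_add le_rfl ?_)
      have hch : ∀ c : ℤ, ∃ j : ℕ, (∃ j, j ≤ (geo t 0 x).n ∧ ((geo t 0 x).p j).1 = c - ell s ∧
          t ∈ KesBad G ((geo t 0 x).p j) (ell s)) →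
          j ≤ (geo t 0 x).n ∧ ((geo t 0 x).p j).1 = c - ell s ∧
            t ∈ KesBad G ((geo t 0 x).p j) (ell s) := by
        intro c
        by_cases hc : ∃ j, j ≤ (geo t 0 x).n ∧ ((geo t 0 x).p j).1 = c - ell s ∧
          t ∈ KesBad G ((geo t 0 x).p j) (ell s)
        · obtain ⟨j, hj⟩ := hc
          exact ⟨j, fun _ => hj⟩
        · exact ⟨0, fun h => absurd h hc⟩
      choose j hj using hch
      refine cnt_le_of_injOn j (fun c _ hc => ⟨Finset.mem_range.2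
        (Nat.lt_succ_of_le (hj c hc).1), (hj c hc).2.2⟩) fun c _ c' _ hc hc' e => ?_
      have e1 := (hj c hc).2.1
      have e2 := (hj c' hc').2.1
      rw [e] at e1
      omega
  · have hb : ∀ s ∈ S, C1 * N / 2 ^ s + C2 * ((nrm x : ℝ) + 1) * (ell s : ℝ) ^ 3 * (7 / 8) ^ ell s
        ≤ (C1 + 3 * C2 * C3) * N * (1 / 2) ^ s := by
      intro s _
      have e1 : C1 * N / 2 ^ s = C1 * N * (1 / 2 : ℝ) ^ s := by
        rw [one_div, inv_pow, div_eq_mul_inv]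
      have e2 : C2 * ((nrm x : ℝ) + 1) * (ell s : ℝ) ^ 3 * (7 / 8) ^ ell s ≤
          C2 * (3 * N) * (C3 * (1 / 2) ^ s) := by
        rw [mul_assoc (C2 * ((nrm x : ℝ) + 1))]
        exact mul_le_mul (mul_le_mul_of_nonneg_left (by linarith) hC2.le) (h3 s) (by positivity)
          (by positivity)
      rw [e1]
      nlinarith
    refine (Finset.sum_le_sum hb).trans ?_
    rw [← Finset.mul_sum]
    have hg := AFar_geom s1 S fun s hs => (Finset.mem_filter.1 hs).2.1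
    have hp : (1 / 2 : ℝ) ^ s1 ≤ (1 / 2 : ℝ) ^ s0 :=
      pow_le_pow_of_le_one (by norm_num) (by norm_num) hs1
    have hq : 2 * (C1 + 3 * C2 * C3) * (1 / 2 : ℝ) ^ s1 ≤ η := by
      rw [lt_div_iff₀ hK] at hs0
      nlinarith
    calc (C1 + 3 * C2 * C3) * N * ∑ s ∈ S, (1 / 2 : ℝ) ^ s
        ≤ (C1 + 3 * C2 * C3) * N * (2 * (1 / 2 : ℝ) ^ s1) :=
          mul_le_mul_of_nonneg_left hg (by positivity)
      _ = 2 * (C1 + 3 * C2 * C3) * (1 / 2 : ℝ) ^ s1 * N := by ring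
      _ ≤ η * N := mul_le_mul_of_nonneg_right hq (by positivity)

end Crest.Agent.R151.PA
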