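import Crest.Agent.R151.TPath0

/-! Row 151 toolkit: elementary consequences of `NormOK`. -/

set_option autoImplicit false

namespace Crest.Agent.R151

open Filter Topology

namespace NormOK
variable {μ : ℝ × ℝ → ℝ}

theorem zero (h : NormOK μ) : μ 0 = 0 := by
  have := h.smul 0 0 le_rfl
  simpa using this
theorem nonneg (h : NormOK μ) (v : ℝ × ℝ) : 0 ≤ μ v := by
  obtain ⟨c, hc, hl⟩ := h.lower
  exact le_trans (by positivity) (hl v)
theorem pos (h : NormOK μ) {v : ℝ × ℝ} (hv : v ≠ 0) : 0 < μ v := by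
  obtain ⟨c, hc, hl⟩ := h.lower
  exact lt_of_lt_of_le (mul_pos hc (norm_pos_iff.2 hv)) (hl v)
theorem neg (h : NormOK μ) (v : ℝ × ℝ) : μ (-v) = μ v := by
  obtain ⟨a, b⟩ := v
  rw [Prod.neg_mk, h.refl1, h.refl2]
theorem smul_abs (h : NormOK μ) (c : ℝ) (v : ℝ × ℝ) : μ (c • v) = |c| * μ v := by
  rcases le_total 0 c with hc | hc
  · rw [h.smul c v hc, abs_of_nonneg hc]
  · rw [← h.neg, ← neg_smul, h.smul _ v (neg_nonneg.2 hc), abs_of_nonpos hc]
theorem sub_le (h : NormOK μ) (v w : ℝ × ℝ) : μ v - μ w ≤ μ (v - w) := by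
  have := h.add_le (v - w) w
  rw [sub_add_cancel] at this
  linarith
theorem lip (h : NormOK μ) : ∃ C : ℝ, 0 < C ∧ ∀ v w, |μ v - μ w| ≤ C * ‖v - w‖ := by
  obtain ⟨C, hC, hu⟩ := h.upper
  refine ⟨C, hC, fun v w => abs_le.2 ⟨?_, (h.sub_le v w).trans (hu _)⟩⟩
  have h1 := (h.sub_le w v).trans (hu _)
  rw [norm_sub_rev] at h1
  linarith
theorem continuous (h : NormOK μ) : Continuous μ := by
  obtain ⟨C, hC, hl⟩ := h.lip
  refine (LipschitzWith.of_dist_le_mul (K := ⟨C, hC.le⟩) fun v w => ?_).continuous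
  rw [Real.dist_eq, dist_eq_norm]
  exact hl v w
theorem convexOn (h : NormOK μ) : ConvexOn ℝ Set.univ μ := by
  refine ⟨convex_univ, fun x _ y _ a b ha hb _ => ?_⟩
  refine (h.add_le _ _).trans ?_
  rw [h.smul a x ha, h.smul b y hb]
  exact le_rfl
theorem sum_le {ι : Type*} (h : NormOK μ) (s : Finset ι) (v : ι → ℝ × ℝ) :
    μ (∑ i ∈ s, v i) ≤ ∑ i ∈ s, μ (v i) := by
  classical
  induction s using Finset.induction_on with
  | empty => simp [h.zero]
  | insert i s hi ih =>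
    rw [Finset.sum_insert hi, Finset.sum_insert hi]
    exact (h.add_le _ _).trans (add_le_add le_rfl ih)
theorem axis_le (h : NormOK μ) (v : ℝ × ℝ) : μ (0, 1) * ‖v‖ ≤ μ v := by
  have key : ∀ a b : ℝ, μ (0, 1) * |b| ≤ μ (a, b) := by
    intro a b
    have h1 := h.add_le (a, b) (-a, b)
    have e : ((a, b) : ℝ × ℝ) + (-a, b) = (2 * b) • ((0, 1) : ℝ × ℝ) := by
      ext
      · simp
      · simp; ring
    rw [e, h.smul_abs, h.refl1, abs_mul, abs_two] at h1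
    linarith
  obtain ⟨a, b⟩ := v
  rw [Prod.norm_mk, Real.norm_eq_abs, Real.norm_eq_abs]
  rcases le_total |a| |b| with hab | hab
  · rw [max_eq_right hab]
    exact key a b
  · rw [max_eq_left hab, h.swap b a]
    exact key b a
theorem le_axis (h : NormOK μ) (v : ℝ × ℝ) : μ v ≤ 2 * μ (0, 1) * ‖v‖ := by
  obtain ⟨a, b⟩ := v
  have e : ((a, b) : ℝ × ℝ) = a • ((1, 0) : ℝ × ℝ) + b • ((0, 1) : ℝ × ℝ) := by
    ext <;> simp
  have h1 := h.add_le (a • ((1, 0) : ℝ × ℝ)) (b • ((0, 1) : ℝ × ℝ))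
  rw [← e, h.smul_abs, h.smul_abs, h.swap 0 1] at h1
  have h2 : |a| ≤ ‖((a, b) : ℝ × ℝ)‖ := norm_fst_le ((a, b) : ℝ × ℝ)
  have h3 : |b| ≤ ‖((a, b) : ℝ × ℝ)‖ := norm_snd_le ((a, b) : ℝ × ℝ)
  have h4 := h.nonneg (0, 1)
  nlinarith
theorem axis_pos (h : NormOK μ) : 0 < μ (0, 1) := by
  exact h.pos (by simp)
theorem axis_eq (h : NormOK μ) : μ (1, 0) = μ (0, 1) := by
  exact h.swap 0 1
theorem homog (h : NormOK μ) {a : ℝ} (ha : 0 < a) (b : ℝ) : μ (a, b) = a * μ (1, b / a) := by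
  rw [← h.smul a _ ha.le]
  congr 1
  ext
  · simp
  · simp only [Prod.smul_mk, smul_eq_mul]
    field_simp
theorem convexOn_slope (h : NormOK μ) : ConvexOn ℝ Set.univ (fun θ : ℝ => μ (1, θ)) := by
  refine ⟨convex_univ, fun x _ y _ a b ha hb hab => ?_⟩
  have h1 := h.convexOn.2 (Set.mem_univ ((1, x) : ℝ × ℝ)) (Set.mem_univ ((1, y) : ℝ × ℝ)) ha hb hab
  have e : a • ((1, x) : ℝ × ℝ) + b • ((1, y) : ℝ × ℝ) = (1, a • x + b • y) := by
    ext
    · simpa using hab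
    · simp
  rwa [e] at h1
/-- supporting functional at any vector -/
theorem exists_support (h : NormOK μ) (v : ℝ × ℝ) :
    ∃ ρ : ℝ × ℝ, dot ρ v = μ v ∧ ∀ w, dot ρ w ≤ μ w := by
  by_cases hv : v = 0
  · subst hv
    exact ⟨0, by simp [dot, h.zero], fun w => by simpa [dot] using h.nonneg w⟩
  obtain ⟨g, hg1, hg2⟩ := exists_extension_of_le_sublinear
    (LinearPMap.mkSpanSingleton v (μ v) hv) μ (fun c hc x => h.smul c x hc.le) h.add_le (by
      rintro ⟨x, hx⟩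
      obtain ⟨c, rfl⟩ := Submodule.mem_span_singleton.1 hx
      rw [LinearPMap.mkSpanSingleton'_apply]
      show c • μ v ≤ μ (c • v)
      rw [h.smul_abs, smul_eq_mul]
      exact mul_le_mul_of_nonneg_right (le_abs_self c) (h.nonneg v))
  have hd : ∀ w : ℝ × ℝ, dot (g (1, 0), g (0, 1)) w = g w := by
    rintro ⟨a, b⟩
    have e : ((a, b) : ℝ × ℝ) = a • ((1, 0) : ℝ × ℝ) + b • ((0, 1) : ℝ × ℝ) := by
      ext <;> simp
    conv_rhs => rw [e, map_add, map_smul, map_smul]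
    simp only [dot, smul_eq_mul]
    ring
  refine ⟨(g (1, 0), g (0, 1)), ?_, fun w => (hd w).trans_le (hg2 w)⟩
  rw [hd]
  have := hg1 ⟨v, Submodule.mem_span_singleton_self v⟩
  rw [LinearPMap.mkSpanSingleton_apply] at this
  exact this
theorem support_bound (h : NormOK μ) {ρ : ℝ × ℝ} (hρ : ∀ w, dot ρ w ≤ μ w) :
    ‖ρ‖ ≤ μ (0, 1) := by
  have h1 := hρ (1, 0)
  have h2 := hρ (-1, 0)
  have h3 := hρ (0, 1)
  have h4 := hρ (0, -1)
  rw [h.refl1] at h2
  rw [h.refl2] at h4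
  rw [h.axis_eq] at h1 h2
  simp only [dot, mul_one, mul_zero, add_zero, zero_add, mul_neg] at h1 h2 h3 h4
  rw [Prod.norm_def, Real.norm_eq_abs, Real.norm_eq_abs]
  exact max_le (abs_le.2 ⟨by linarith, h1⟩) (abs_le.2 ⟨by linarith, h3⟩)
/-- a line below the slope function gives a supporting functional -/
theorem support_of_slope (h : NormOK μ) {ρ : ℝ × ℝ} (hρ : ∀ θ : ℝ, ρ.1 + ρ.2 * θ ≤ μ (1, θ))
    (hρ1 : 0 ≤ ρ.1) (w : ℝ × ℝ) : dot ρ w ≤ μ w := by
  have key : ∀ a b : ℝ, 0 < a → ρ.1 * a + ρ.2 * b ≤ μ (a, b) := by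
    intro a b ha
    rw [h.homog ha]
    have h1 := mul_le_mul_of_nonneg_left (hρ (b / a)) ha.le
    have e : a * (ρ.1 + ρ.2 * (b / a)) = ρ.1 * a + ρ.2 * b := by field_simp
    rwa [e] at h1
  obtain ⟨a, b⟩ := w
  show ρ.1 * a + ρ.2 * b ≤ μ (a, b)
  rcases lt_trichotomy a 0 with ha | ha | ha
  · have h1 := key (-a) b (neg_pos.2 ha)
    rw [h.refl1] at h1
    nlinarith
  · subst ha
    have hp := h.axis_pos
    refine le_of_forall_pos_le_add fun e he => ?_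
    have h1 := key (e / μ (0, 1)) b (by positivity)
    have h2 := h.add_le (0, b) ((e / μ (0, 1)) • ((1, 0) : ℝ × ℝ))
    have e1 : ((0, b) : ℝ × ℝ) + (e / μ (0, 1)) • ((1, 0) : ℝ × ℝ) = (e / μ (0, 1), b) := by
      ext <;> simp
    rw [e1, h.smul _ _ (by positivity), h.axis_eq, div_mul_cancel₀ _ hp.ne'] at h2
    have h3 : 0 ≤ ρ.1 * (e / μ (0, 1)) := by positivity
    linarith
  · exact key a b ha

end NormOK

end Crest.Agent.R151
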