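import Crest.Agent.R151.ADefs
import Crest.Agent.R151.TMu2

/-! Row 151, part A: a point of non-differentiability gives a corner (pure convex geometry).

Let `g θ = μ (1, θ)` (convex, `NormOK.convexOn_slope`).  If the left derivative `a` and the right
derivative `b` of `g` at some `|θ| ≤ 1` differ, take `s = (a+b)/2`, `c0 = (b-a)/2`,
`ρ = (g θ - s θ, s)`: `c0 |v.2 - θ v.1| ≤ μ v - dot ρ v` for `v.1 > 0` by homogeneity, and for all
`v` by adding a large multiple of `(1,θ)` (subadditivity; both sides are unchanged).  Testing with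
`v = (-1, θ)` gives `ρ.1 ≥ c0 |θ|`, so `ρ.1 > 0` (if `θ = 0`, `ρ.1 = μ (1,0) > 0`), and
`μ v = μ (-v.1, v.2) ≥ dot ρ v + 2 ρ.1 (-v.1)`.  If there is no such `θ`, `g` is differentiable on
`[-1,1]`, and `μ (a,b) = |a| g (b/|a|)` near `v` when `|v.2| ≤ |v.1|`; swap otherwise. -/

set_option autoImplicit false

namespace Crest.Agent.R151.PA

open MeasureTheory ProbabilityTheory Crest.ProbabilityR.FirstPassage Filter
open scoped Classical

theorem AGeo_slope {g : ℝ → ℝ} (hg : ConvexOn ℝ Set.univ g) {θ : ℝ}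
    (hd : ¬ DifferentiableAt ℝ g θ) :
    ∃ s c : ℝ, 0 < c ∧ ∀ t, c * |t - θ| ≤ g t - g θ - s * (t - θ) := by
  have hθ : θ ∈ interior (Set.univ : Set ℝ) := by simp
  have h1 := hg.hasDerivWithinAt_leftDeriv_of_mem_interior hθ
  have h2 := hg.hasDerivWithinAt_rightDeriv_of_mem_interior hθ
  have h3 := hg.leftDeriv_le_rightDeriv_of_mem_interior hθ
  have h4 := fun t (ht : t < θ) => hg.slope_le_leftDeriv_of_mem_interior (Set.mem_univ t) hθ ht
  have h5 := fun t (ht : θ < t) => hg.rightDeriv_le_slope_of_mem_interior hθ (Set.mem_univ t) ht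
  generalize derivWithin g (Set.Iio θ) θ = a at h1 h3 h4
  generalize derivWithin g (Set.Ioi θ) θ = b at h2 h3 h5
  have hab : a < b := by
    refine lt_of_le_of_ne h3 fun hab => hd ?_
    subst hab
    have h6 := h1.Iic_of_Iio.union h2.Ici_of_Ioi
    rw [Set.Iic_union_Ici, hasDerivWithinAt_univ] at h6
    exact h6.differentiableAt
  refine ⟨(a + b) / 2, (b - a) / 2, by linarith, fun t => ?_⟩
  rcases lt_trichotomy t θ with ht | rfl | ht
  · have := h4 t ht
    rw [slope_def_field, div_le_iff₀ (sub_pos.2 ht)] at this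
    rw [abs_of_neg (sub_neg.2 ht)]
    linarith
  · simp
  · have := h5 t ht
    rw [slope_def_field, le_div_iff₀ (sub_pos.2 ht)] at this
    rw [abs_of_pos (sub_pos.2 ht)]
    linarith

theorem AGeo_corner {μ : ℝ × ℝ → ℝ} (h : NormOK μ) {θ : ℝ} (hθ : |θ| ≤ 1)
    (hd : ¬ DifferentiableAt ℝ (fun t : ℝ => μ (1, t)) θ) : ∃ ρ c, Corner μ θ ρ c := by
  obtain ⟨s, c, hc, h1⟩ := AGeo_slope h.convexOn_slope hd
  have h2 : ∀ a b : ℝ, 0 < a → c * |b - θ * a| ≤ μ (a, b) - ((μ (1, θ) - s * θ) * a + s * b) := by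
    intro a b ha
    have h3 := mul_le_mul_of_nonneg_left (h1 (b / a)) ha.le
    have e : b - θ * a = a * (b / a - θ) := by field_simp
    have e' : a * (b / a) = b := by field_simp
    rw [h.homog ha, e, abs_mul, abs_of_pos ha]
    calc c * (a * |b / a - θ|) = a * (c * |b / a - θ|) := by ring
      _ ≤ _ := h3
      _ = a * μ (1, b / a) - ((μ (1, θ) - s * θ) * a + s * (a * (b / a))) := by ring
      _ = _ := by rw [e']
  have h3 : ∀ a b : ℝ, c * |b - θ * a| ≤ μ (a, b) - ((μ (1, θ) - s * θ) * a + s * b) := by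
    intro a b
    have hT : 0 ≤ |a| + 1 := by positivity
    have h4 := h2 (a + (|a| + 1)) (b + (|a| + 1) * θ) (by linarith [neg_abs_le a])
    have h5 := h.add_le (a, b) ((|a| + 1) • (1, θ))
    rw [h.smul _ _ hT, Prod.smul_mk, Prod.mk_add_mk, smul_eq_mul, smul_eq_mul, mul_one] at h5
    have e : b + (|a| + 1) * θ - θ * (a + (|a| + 1)) = b - θ * a := by ring
    rw [e] at h4
    linarith
  have h4 : ∀ a b : ℝ, 0 ≤ μ (a, b) - ((μ (1, θ) - s * θ) * a + s * b) := fun a b =>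
    le_trans (by positivity) (h3 a b)
  have hρ : 0 < μ (1, θ) - s * θ := by
    rcases eq_or_ne θ 0 with rfl | h0
    · rw [mul_zero, sub_zero]
      exact h.pos (by simp)
    · have h5 := h3 (-1) θ
      have h6 : 0 < c * |θ - θ * -1| :=
        mul_pos hc (abs_pos.2 fun h7 => h0 (by linarith))
      rw [h.refl1] at h5
      linarith
  refine ⟨(μ (1, θ) - s * θ, s), min c (2 * (μ (1, θ) - s * θ)), hθ, lt_min hc (by linarith),
    by simp [dot], fun v => ?_, fun v => ?_⟩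
  · exact (mul_le_mul_of_nonneg_right (min_le_left _ _) (abs_nonneg _)).trans (h3 v.1 v.2)
  · rcases le_total 0 (-v.1) with hv | hv
    · refine (mul_le_mul_of_nonneg_right (min_le_right _ _) hv).trans ?_
      have h5 := h4 (-v.1) v.2
      rw [h.refl1] at h5
      simp only [dot]
      linarith
    · exact (mul_nonpos_of_nonneg_of_nonpos (lt_min hc (by linarith)).le hv).trans (h4 v.1 v.2)

theorem AGeo_diff {μ : ℝ × ℝ → ℝ} (h : NormOK μ)
    (hg : ∀ θ : ℝ, |θ| ≤ 1 → DifferentiableAt ℝ (fun t : ℝ => μ (1, t)) θ) {a b : ℝ} (ha : 0 < a)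
    (hb : |b| ≤ a) : DifferentiableAt ℝ μ (a, b) := by
  have h1 : DifferentiableAt ℝ (fun w : ℝ × ℝ => w.2 / w.1) (a, b) := by
    simp only [div_eq_mul_inv]
    exact differentiableAt_snd.mul (differentiableAt_fst.inv ha.ne')
  have h2 : DifferentiableAt ℝ (fun w : ℝ × ℝ => w.1 * μ (1, w.2 / w.1)) (a, b) :=
    differentiableAt_fst.mul (DifferentiableAt.comp (g := fun t : ℝ => μ (1, t))
      ((a, b) : ℝ × ℝ) (hg (b / a) (by
        rw [abs_div, abs_of_pos ha, div_le_one ha]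
        exact hb)) h1)
  refine h2.congr_of_eventuallyEq ?_
  filter_upwards [(isOpen_lt continuous_const continuous_fst).mem_nhds
    (show ((a, b) : ℝ × ℝ) ∈ {w : ℝ × ℝ | 0 < w.1} from ha)] with w hw
  exact h.homog hw w.2

theorem AGeo_diff' {μ : ℝ × ℝ → ℝ} (h : NormOK μ)
    (hg : ∀ θ : ℝ, |θ| ≤ 1 → DifferentiableAt ℝ (fun t : ℝ => μ (1, t)) θ) {a b : ℝ} (ha : a ≠ 0)
    (hb : |b| ≤ |a|) : DifferentiableAt ℝ μ (a, b) := by
  rcases ha.lt_or_gt with ha | ha
  · have h1 := AGeo_diff h hg (neg_pos.2 ha) (by rwa [abs_of_neg ha] at hb)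
    have h2 : DifferentiableAt ℝ (fun w : ℝ × ℝ => ((-w.1, w.2) : ℝ × ℝ)) (a, b) := by fun_prop
    have h3 := DifferentiableAt.comp ((a, b) : ℝ × ℝ) (g := μ) h1 h2
    exact h3.congr_of_eventuallyEq (Eventually.of_forall fun w => (h.refl1 w.1 w.2).symm)
  · exact AGeo_diff h hg ha (by rwa [abs_of_pos ha] at hb)

theorem exists_corner {μ : ℝ × ℝ → ℝ} (h : NormOK μ) {v : ℝ × ℝ} (hv : v ≠ 0)
    (hd : ¬ DifferentiableAt ℝ μ v) : ∃ θ ρ c, Corner μ θ ρ c := by
  by_contra hc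
  have hg : ∀ θ : ℝ, |θ| ≤ 1 → DifferentiableAt ℝ (fun t : ℝ => μ (1, t)) θ := fun θ hθ => by
    by_contra h1
    exact hc ⟨θ, AGeo_corner h hθ h1⟩
  obtain ⟨a, b⟩ := v
  refine hd ?_
  rcases le_total |b| |a| with hab | hab
  · refine AGeo_diff' h hg (fun ha => hv ?_) hab
    rw [ha, abs_zero, abs_nonpos_iff] at hab
    rw [ha, hab]
    rfl
  · have h1 := AGeo_diff' h hg (a := b) (b := a) (fun hb => hv (by
      rw [hb, abs_zero, abs_nonpos_iff] at hab
      rw [hb, hab]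
      rfl)) hab
    have h2 : DifferentiableAt ℝ (fun w : ℝ × ℝ => ((w.2, w.1) : ℝ × ℝ)) (a, b) := by fun_prop
    have h3 := DifferentiableAt.comp ((a, b) : ℝ × ℝ) (g := μ) h1 h2
    exact h3.congr_of_eventuallyEq (Eventually.of_forall fun w => (h.swap w.1 w.2).symm)

end Crest.Agent.R151.PA
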