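import Crest.Agent.R151.TPath0

/-! Row 151 toolkit: the time constant is a norm with the symmetries of the lattice. -/

set_option autoImplicit false

namespace Crest.Agent.R151

open MeasureTheory ProbabilityTheory Crest.ProbabilityR.FirstPassage
open scoped Classical

open Filter Topology

/-- coordinatewise floor -/
noncomputable def tmu1_fl (v : ℝ × ℝ) : V := (⌊v.1⌋, ⌊v.2⌋)

theorem tmu1_nrm (x : V) : (nrm x : ℝ) = ‖rv x‖ := by
  simp [nrm, rv, Prod.norm_def, Nat.cast_natAbs]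

theorem tmu1_add (x y : V) : rv (x + y) = rv x + rv y := by simp [rv]

theorem tmu1_sub (x y : V) : rv (x - y) = rv x - rv y := by simp [rv]

theorem tmu1_fl_le (v : ℝ × ℝ) : ‖rv (tmu1_fl v) - v‖ ≤ 1 := by
  have h : ∀ a : ℝ, ‖(⌊a⌋ : ℝ) - a‖ ≤ 1 := fun a => by
    rw [Real.norm_eq_abs, abs_le]
    constructor <;> linarith [Int.floor_le a, Int.lt_floor_add_one a]
  exact max_le (h _) (h _)

/-- deterministic limit-norm lemma for a subadditive Lipschitz function on the lattice -/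
theorem exists_limit_norm (h : V → ℝ) (hadd : ∀ x y, h (x + y) ≤ h x + h y)
    (hup : ∃ C : ℝ, 0 < C ∧ ∀ x, h x ≤ C * nrm x) (hlo : ∃ c : ℝ, 0 < c ∧ ∀ x, c * nrm x ≤ h x)
    (h1 : ∀ a b : ℤ, h (-a, b) = h (a, b)) (h2 : ∀ a b : ℤ, h (a, -b) = h (a, b))
    (h3 : ∀ a b : ℤ, h (b, a) = h (a, b)) :
    ∃ μ : ℝ × ℝ → ℝ, NormOK μ ∧ (∀ x, μ (rv x) ≤ h x) ∧
      ∀ v : ℝ × ℝ, Tendsto (fun n : ℕ => h (⌊(n : ℝ) * v.1⌋, ⌊(n : ℝ) * v.2⌋) / n) atTop (𝓝 (μ v)) := by
  obtain ⟨C, hC0, hC⟩ := hup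
  obtain ⟨c, hc0, hc⟩ := hlo
  simp only [tmu1_nrm] at hC hc
  have hnn : ∀ x, 0 ≤ h x := fun x => le_trans (by positivity) (hc x)
  have lip : ∀ x y, h x ≤ h y + C * ‖rv x - rv y‖ := fun x y => by
    have h4 := hadd y (x - y)
    have h5 := hC (x - y)
    rw [tmu1_sub] at h5
    rw [add_sub_cancel] at h4
    linarith
  have K : ∀ x v, |h x - h (tmu1_fl v)| ≤ C * (‖rv x - v‖ + 1) := fun x v => by
    have h4 := lip x (tmu1_fl v)
    have h5 := lip (tmu1_fl v) x
    have h6 : ‖rv x - rv (tmu1_fl v)‖ ≤ ‖rv x - v‖ + 1 := by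
      have := norm_sub_le_norm_sub_add_norm_sub (rv x) v (rv (tmu1_fl v))
      rw [norm_sub_rev v] at this
      linarith [tmu1_fl_le v]
    rw [norm_sub_rev] at h5
    have := mul_le_mul_of_nonneg_left h6 hC0.le
    rw [abs_le]
    constructor <;> linarith
  have hsum : ∀ v w : ℝ × ℝ, ‖rv (tmu1_fl v + tmu1_fl w) - (v + w)‖ ≤ 2 := fun v w => by
    rw [tmu1_add, add_sub_add_comm]
    linarith [norm_add_le (rv (tmu1_fl v) - v) (rv (tmu1_fl w) - w), tmu1_fl_le v, tmu1_fl_le w]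
  have hex : ∀ v : ℝ × ℝ, ∃ L, Tendsto (fun n : ℕ => h (tmu1_fl ((n : ℝ) • v)) / n) atTop (𝓝 L) := by
    intro v
    have hs : Subadditive fun n : ℕ => h (tmu1_fl ((n : ℝ) • v)) + 3 * C := fun m n => by
      have h4 := (abs_le.1 (K (tmu1_fl ((m : ℝ) • v) + tmu1_fl ((n : ℝ) • v))
        ((m : ℝ) • v + (n : ℝ) • v))).1
      have h5 := hadd (tmu1_fl ((m : ℝ) • v)) (tmu1_fl ((n : ℝ) • v))
      have h6 := mul_le_mul_of_nonneg_left (hsum ((m : ℝ) • v) ((n : ℝ) • v)) hC0.le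
      simp only [Nat.cast_add, add_smul]
      linarith
    have h4 := hs.tendsto_lim ⟨0, by
      rintro _ ⟨n, rfl⟩
      have := hnn (tmu1_fl ((n : ℝ) • v))
      positivity⟩
    refine ⟨_, (h4.sub (tendsto_const_div_atTop_nhds_zero_nat (3 * C))).congr fun n => ?_⟩
    ring
  choose μ hμ using hex
  have T : ∀ (v : ℝ × ℝ) (x : ℕ → V) (B : ℝ), (∀ n, ‖rv (x n) - (n : ℝ) • v‖ ≤ B) →
      Tendsto (fun n : ℕ => h (x n) / n) atTop (𝓝 (μ v)) := by
    intro v x B hB
    have h4 : Tendsto (fun n : ℕ => (h (x n) - h (tmu1_fl ((n : ℝ) • v))) / n) atTop (𝓝 0) := by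
      refine squeeze_zero_norm (fun n => ?_) (tendsto_const_div_atTop_nhds_zero_nat (C * (B + 1)))
      rw [norm_div, Real.norm_natCast, Real.norm_eq_abs]
      gcongr
      refine (K _ _).trans ?_
      gcongr
      exact hB n
    have h5 := h4.add (hμ v)
    rw [zero_add] at h5
    exact h5.congr fun n => by ring
  have hn : ∀ (v : ℝ × ℝ) (n : ℕ), |‖rv (tmu1_fl ((n : ℝ) • v))‖ - n * ‖v‖| ≤ 1 := fun v n => by
    have := (abs_norm_sub_norm_le _ _).trans (tmu1_fl_le ((n : ℝ) • v))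
    rwa [norm_smul, Real.norm_natCast] at this
  refine ⟨μ, ⟨fun v w => ?_, fun r v hr => ?_, fun a b => ?_, fun a b => ?_, fun a b => ?_,
    ⟨c, hc0, fun v => ?_⟩, ⟨C, hC0, fun v => ?_⟩⟩, fun x => ?_, hμ⟩
  · refine le_of_tendsto_of_tendsto' (T (v + w)
      (fun n => tmu1_fl ((n : ℝ) • v) + tmu1_fl ((n : ℝ) • w)) 2 fun n => ?_) ((hμ v).add (hμ w))
      fun n => ?_
    · rw [smul_add]
      exact hsum _ _
    · rw [← add_div]
      gcongr
      exact hadd _ _
  · rcases hr.eq_or_lt with rfl | hr'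
    · rw [zero_smul, zero_mul]
      refine tendsto_nhds_unique (hμ 0) ?_
      simp only [smul_zero]
      exact tendsto_const_div_atTop_nhds_zero_nat _
    have h4 : Tendsto (fun n : ℕ => ⌊r * n⌋₊) atTop atTop :=
      tendsto_nat_floor_atTop.comp (tendsto_natCast_atTop_atTop.const_mul_atTop hr')
    have h5 : Tendsto (fun n : ℕ => (⌊r * n⌋₊ : ℝ) / n) atTop (𝓝 r) :=
      (tendsto_nat_floor_mul_div_atTop hr).comp tendsto_natCast_atTop_atTop
    refine tendsto_nhds_unique (T (r • v) (fun n => tmu1_fl ((⌊r * n⌋₊ : ℝ) • v)) (1 + ‖v‖)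
      fun n => ?_) ((h5.mul ((hμ v).comp h4)).congr' ?_)
    · refine (norm_sub_le_norm_sub_add_norm_sub _ ((⌊r * n⌋₊ : ℝ) • v) _).trans
        (add_le_add (tmu1_fl_le _) ?_)
      rw [smul_smul, ← sub_smul, norm_smul, mul_comm (n : ℝ)]
      refine mul_le_of_le_one_left (norm_nonneg _) ?_
      have h6 := Nat.floor_le (show 0 ≤ r * n by positivity)
      have h7 := Nat.lt_floor_add_one (r * n)
      rw [Real.norm_eq_abs, abs_le]
      constructor <;> linarith
    · filter_upwards [h4.eventually_gt_atTop 0] with n hn0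
      have : (⌊r * n⌋₊ : ℝ) ≠ 0 := by exact_mod_cast hn0.ne'
      simp only [Function.comp]
      field_simp
  · refine tendsto_nhds_unique (T (-a, b) (fun n => (-⌊(n : ℝ) * a⌋, ⌊(n : ℝ) * b⌋)) 1 fun n => ?_)
      ((hμ (a, b)).congr fun n => by rw [h1]; rfl)
    refine le_trans (le_of_eq ?_) (tmu1_fl_le ((n : ℝ) • (a, b)))
    simp only [rv, tmu1_fl, Prod.norm_def, Prod.smul_mk, smul_eq_mul, Prod.mk_sub_mk]
    rw [← norm_neg]
    congr 2
    push_cast
    ring
  · refine tendsto_nhds_unique (T (a, -b) (fun n => (⌊(n : ℝ) * a⌋, -⌊(n : ℝ) * b⌋)) 1 fun n => ?_)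
      ((hμ (a, b)).congr fun n => by rw [h2]; rfl)
    refine le_trans (le_of_eq ?_) (tmu1_fl_le ((n : ℝ) • (a, b)))
    simp only [rv, tmu1_fl, Prod.norm_def, Prod.smul_mk, smul_eq_mul, Prod.mk_sub_mk]
    rw [← norm_neg ((⌊(n : ℝ) * b⌋ : ℝ) - _)]
    congr 2
    push_cast
    ring
  · exact tendsto_nhds_unique (hμ (b, a)) ((hμ (a, b)).congr fun n => by
      congr 1
      exact (h3 _ _).symm)
  · have h4 := (tendsto_const_div_atTop_nhds_zero_nat c).const_sub (c * ‖v‖)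
    rw [sub_zero] at h4
    refine le_of_tendsto_of_tendsto h4 (hμ v) ?_
    filter_upwards [eventually_gt_atTop 0] with n hn0
    have h0 : (0 : ℝ) < n := by exact_mod_cast hn0
    have h5 := mul_le_mul_of_nonneg_left (abs_le.1 (hn v n)).1 hc0.le
    have h6 := hc (tmu1_fl ((n : ℝ) • v))
    rw [le_div_iff₀ h0, sub_mul, div_mul_cancel₀ _ h0.ne']
    linarith
  · have h4 := (tendsto_const_div_atTop_nhds_zero_nat C).const_add (C * ‖v‖)
    rw [add_zero] at h4
    refine le_of_tendsto_of_tendsto (hμ v) h4 ?_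
    filter_upwards [eventually_gt_atTop 0] with n hn0
    have h0 : (0 : ℝ) < n := by exact_mod_cast hn0
    have h5 := mul_le_mul_of_nonneg_left (abs_le.1 (hn v n)).2 hC0.le
    have h6 := hC (tmu1_fl ((n : ℝ) • v))
    rw [div_le_iff₀ h0, add_mul, div_mul_cancel₀ _ h0.ne']
    linarith
  · have h4 : ∀ n : ℕ, h (n • x) ≤ n * h x := fun n => by
      induction n with
      | zero => simpa [rv] using hC 0
      | succ n ih =>
        rw [succ_nsmul]
        push_cast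
        linarith [hadd (n • x) x]
    refine le_of_tendsto (T (rv x) (fun n => n • x) 0 fun n => by simp [rv]) ?_
    filter_upwards [eventually_gt_atTop 0] with n hn0
    have h0 : (0 : ℝ) < n := by exact_mod_cast hn0
    rw [div_le_iff₀' h0]
    exact h4 n

end Crest.Agent.R151
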