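import Crest.Agent.R151.TMom
import Crest.Agent.R151.TMu1
import Crest.Agent.R151.TMu2

/-! Row 151 toolkit: the time constant is a norm with the symmetries of the lattice. -/

set_option autoImplicit false

namespace Crest.Agent.R151

open MeasureTheory ProbabilityTheory Crest.ProbabilityR.FirstPassage
open scoped Classical

open Filter Topology

theorem mu_aux (G : Measure ℝ) [Law G] : NormOK (mu G) ∧ (∀ x, mu G (rv x) ≤ hm G x) ∧
    ∀ v : ℝ × ℝ,
      Tendsto (fun n : ℕ => hm G (⌊(n : ℝ) * v.1⌋, ⌊(n : ℝ) * v.2⌋) / n) atTop (𝓝 (mu G v)) := by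
  obtain ⟨μ, h⟩ := exists_limit_norm (hm G) (hm_add_le G) (hm_le G)
    ⟨h1 G / 4, div_pos (h1_pos G) (by norm_num), hm_ge G⟩
    (fun a b => hm_act G isAut_reflX rfl (a, b)) (fun a b => hm_act G isAut_reflY rfl (a, b))
    (fun a b => hm_act G isAut_swp rfl (a, b))
  have e : mu G = μ := funext fun v => (h.2.2 v).limUnder_eq
  rwa [e]

theorem mu_ok (G : Measure ℝ) [Law G] : NormOK (mu G) := by
  exact (mu_aux G).1
theorem mu_le_hm (G : Measure ℝ) [Law G] (x : V) : mu G (rv x) ≤ hm G x := by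
  exact (mu_aux G).2.1 x
theorem tendsto_mu (G : Measure ℝ) [Law G] (v : ℝ × ℝ) :
    Tendsto (fun n : ℕ => hm G (⌊(n : ℝ) * v.1⌋, ⌊(n : ℝ) * v.2⌋) / n) atTop (𝓝 (mu G v)) := by
  exact (mu_aux G).2.2 v
/-- the mean of a restricted passage time dominates the norm -/
theorem mu_le_integral_TD (G : Measure ℝ) [Law G] {D : Set V} {x z : V} (hc : Conn D x z)
    (hi : Integrable (fun t => TD D t x z) (iidLaw G)) :
    mu G (rv (z - x)) ≤ ∫ t, TD D t x z ∂(iidLaw G) := by
  refine (mu_le_hm G _).trans ?_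
  rw [← integral_T]
  exact integral_mono_ae (integrable_T G x z) hi ((ae_nn G).mono fun t ht => T_le_TD ht hc)

end Crest.Agent.R151
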