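import Crest.Agent.R151.TConc3
import Crest.Agent.R151.TMu

/-! Row 151 toolkit: local lower tail, `L¹` fluctuations, long geodesics. -/

set_option autoImplicit false

namespace Crest.Agent.R151

open MeasureTheory ProbabilityTheory Crest.ProbabilityR.FirstPassage
open scoped Classical

/-- some path inside `box c r` is cheaper than the norm of its displacement by `r^(3/5)` -/
def LowBad (G : Measure ℝ) (c : V) (r : ℕ) : Set Env :=
  {t | ∃ γ : Pth, γ.Ok ∧ γ.In (box c r) ∧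
    γ.tot t < mu G (rv (γ.p γ.n - γ.p 0)) - (r : ℝ) ^ ((3 : ℝ) / 5)}

theorem measurableSet_lowBad (G : Measure ℝ) (c : V) (r : ℕ) : MeasurableSet (LowBad G c r) := by
  refine measurableSet_exists_pth (q := fun t γ => γ.Ok ∧ γ.In (box c r) ∧
    γ.tot t < mu G (rv (γ.p γ.n - γ.p 0)) - (r : ℝ) ^ ((3 : ℝ) / 5)) fun γ => ?_
  exact (MeasurableSet.const _).inter ((MeasurableSet.const _).inter
    (measurableSet_lt (measurable_tot γ) measurable_const))
theorem dep_lowBad (G : Measure ℝ) (c : V) (r : ℕ) : Dep (LE (box c r)) (LowBad G c r) := by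
  rintro t t' h ⟨γ, h1, h2, h3⟩
  refine ⟨γ, h1, h2, ?_⟩
  have : γ.tot t = γ.tot t' := depF_tot h1 h2 t t' h
  rwa [← this]
theorem cost_ge_of_not_lowBad {G : Measure ℝ} {c : V} {r : ℕ} {t : Env} (h : t ∉ LowBad G c r)
    {γ : Pth} (hγ : γ.Ok) {a b : ℕ} (hab : a ≤ b) (hb : b ≤ γ.n)
    (hin : ∀ i, a ≤ i → i ≤ b → γ.p i ∈ box c r) :
    mu G (rv (γ.p b - γ.p a)) - (r : ℝ) ^ ((3 : ℝ) / 5) ≤ γ.cost t a b := by
  by_contra hlt
  refine h ⟨γ.sub a b, hγ.sub a hb, Pth.sub_in hab hin, ?_⟩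
  rw [Pth.sub_tot γ t hab, Pth.sub_p_last γ hab, Pth.sub_p_zero]
  exact not_le.1 hlt

variable (G : Measure ℝ) [Law G]

/-- lower tail relative to the mean, uniformly over a box -/
theorem Pr_lowH : ∃ C : ℝ, 0 < C ∧ ∀ (c : V) (r : ℕ), 1 ≤ r →
    Pr G {t | ∃ x ∈ box c r, ∃ z ∈ box c r, T t x z < hm G (z - x) - (r : ℝ) ^ ((3 : ℝ) / 5)} ≤
      C / (r : ℝ) ^ 100 := by
  obtain ⟨C1, C, -, hC, h⟩ := Pr_not_goodK G
  refine ⟨C, hC, fun c r hr => le_trans (Pr_mono G ?_) (h c r hr)⟩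
  rintro t ⟨x, hx, z, hz, hlt⟩ hg
  have h1 := (abs_le.1 (hg.2.1 x hx z hz).1).1
  have h2 := T_trunc_le hg.1.1.nn (KL r) x z
  linarith

theorem Pr_lowT : ∃ C : ℝ, 0 < C ∧ ∀ (c : V) (r : ℕ), 1 ≤ r →
    Pr G {t | ∃ x ∈ box c r, ∃ z ∈ box c r,
      T t x z < mu G (rv (z - x)) - (r : ℝ) ^ ((3 : ℝ) / 5)} ≤ C / (r : ℝ) ^ 100 := by
  obtain ⟨C, hC, h⟩ := Pr_lowH G
  refine ⟨C, hC, fun c r hr => le_trans (Pr_mono G ?_) (h c r hr)⟩
  rintro t ⟨x, hx, z, hz, hlt⟩
  exact ⟨x, hx, z, hz, by linarith [mu_le_hm G (z - x)]⟩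

theorem Pr_lowBad : ∃ C : ℝ, 0 < C ∧ ∀ (c : V) (r : ℕ), 1 ≤ r →
    Pr G (LowBad G c r) ≤ C / (r : ℝ) ^ 100 := by
  obtain ⟨C, hC, h⟩ := Pr_lowT G
  refine ⟨C, hC, fun c r hr => le_trans (Pr_mono_ae G ((ae_nn G).mono ?_)) (h c r hr)⟩
  rintro t ht ⟨γ, h1, h2, h3⟩
  exact ⟨γ.p 0, h2 0 (Nat.zero_le _), γ.p γ.n, h2 _ le_rfl,
    (T_le_cost ht h1 (Nat.zero_le _) le_rfl).trans_lt h3⟩

theorem integral_abs_T_sub : ∃ C : ℝ, 0 < C ∧ ∀ x z : V,
    ∫ t, |T t x z - hm G (z - x)| ∂(iidLaw G) ≤ C * (nrm (z - x) : ℝ) ^ ((3 : ℝ) / 5) := by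
  obtain ⟨C, hC, h⟩ := Pr_lowH G
  obtain ⟨Ch, hCh, hh⟩ := hm_le G
  refine ⟨2 * (1 + Ch * C), by positivity, fun x z => ?_⟩
  rcases Nat.eq_zero_or_pos (nrm (z - x)) with h0 | hL
  · have hz : z = x := sub_eq_zero.1 (nrm_eq_zero.1 h0)
    subst hz
    rw [integral_congr_ae (g := fun _ => 0) ((ae_nn G).mono fun t ht => by
      simp [T_self ht, hm_zero])]
    simp only [integral_zero]
    positivity
  set L := nrm (z - x) with hLdef
  set m := hm G (z - x) with hm'
  have hL1 : (1 : ℝ) ≤ L := by exact_mod_cast hL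
  have hp1 : (1 : ℝ) ≤ (L : ℝ) ^ ((3 : ℝ) / 5) := Real.one_le_rpow hL1 (by norm_num)
  have hm0 : 0 ≤ m := hm_nonneg G _
  set B : Set Env := {t | T t x z < m - (L : ℝ) ^ ((3 : ℝ) / 5)} with hB
  have hBm : MeasurableSet B := measurableSet_lt (measurable_T x z) measurable_const
  have hPB : Pr G B ≤ C / (L : ℝ) ^ 100 :=
    le_trans (Pr_mono G fun t ht => by exact ⟨x, mem_box_self x L, z, (le_rfl : L ≤ L), ht⟩)
      (h x L hL)
  have hi1 : Integrable (fun t => T t x z - m) (iidLaw G) :=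
    (integrable_T G x z).sub (integrable_const _)
  have hi2 : Integrable (fun t => B.indicator (fun _ => (1 : ℝ)) t) (iidLaw G) :=
    (integrable_const _).indicator hBm
  have hi3 : Integrable (fun t => 2 * ((L : ℝ) ^ ((3 : ℝ) / 5) +
      m * B.indicator (fun _ => (1 : ℝ)) t)) (iidLaw G) :=
    ((integrable_const _).add (hi2.const_mul m)).const_mul 2
  have h1 : ∫ t, |T t x z - m| ∂(iidLaw G) ≤ ∫ t, ((T t x z - m) + 2 * ((L : ℝ) ^ ((3 : ℝ) / 5) +
      m * B.indicator (fun _ => (1 : ℝ)) t)) ∂(iidLaw G) := by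
    refine integral_mono_ae hi1.abs (hi1.add hi3) ((ae_nn G).mono fun t ht => ?_)
    have h2 := T_nonneg ht x z
    by_cases hb : t ∈ B
    · simp only [Set.indicator_of_mem hb]
      rw [abs_le]; constructor <;> linarith
    · simp only [Set.indicator_of_notMem hb]
      have : m - (L : ℝ) ^ ((3 : ℝ) / 5) ≤ T t x z := not_lt.1 hb
      rw [abs_le]; constructor <;> linarith
  rw [integral_add hi1 hi3, integral_sub (integrable_T G x z) (integrable_const _), integral_T,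
    integral_const_mul, integral_add (integrable_const _) (hi2.const_mul m), integral_const_mul,
    integral_indicator_Pr G hBm] at h1
  simp only [integral_const, probReal_univ, smul_eq_mul, one_mul] at h1
  have h3 : m * Pr G B ≤ Ch * C := by
    calc m * Pr G B ≤ (Ch * L) * (C / (L : ℝ) ^ 100) :=
          mul_le_mul (hh _) hPB (Pr_nonneg G _) (by positivity)
      _ = Ch * C * ((L : ℝ) / (L : ℝ) ^ 100) := by ring
      _ ≤ Ch * C * 1 := by
          refine mul_le_mul_of_nonneg_left ?_ (by positivity)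
          rw [div_le_one (by positivity)]
          exact le_self_pow₀ hL1 (by norm_num)
      _ = Ch * C := mul_one _
  have h4 : Ch * C ≤ Ch * C * (L : ℝ) ^ ((3 : ℝ) / 5) := le_mul_of_one_le_right (by positivity) hp1
  linarith

/-- geodesics much longer than the distance of their endpoints are negligible in mean -/
theorem geo_long : ∃ (C1 : ℕ) (C : ℝ), 1 ≤ C1 ∧ 0 < C ∧ ∀ x z : V,
    ∫ t in {t | C1 * nrm (z - x) < (geo t x z).n}, ((geo t x z).n : ℝ) ∂(iidLaw G) ≤
      C * (nrm (z - x) : ℝ) ^ ((3 : ℝ) / 5) := by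
  obtain ⟨C, hC, h⟩ := integral_abs_T_sub G
  obtain ⟨Ch, hCh, hh⟩ := hm_le G
  obtain ⟨S, hS, hb⟩ := tmom_bad G
  obtain ⟨C0, -, hlen⟩ := geo_len_L1 G
  have hh1 := h1_pos G
  refine ⟨⌈4 * Ch / h1 G⌉₊ + 1, 4 / h1 G * C + S, by omega, by positivity, fun x z => ?_⟩
  set C1 := ⌈4 * Ch / h1 G⌉₊ + 1 with hC1
  have hC1' : 4 * Ch ≤ h1 G * C1 := by
    have : 4 * Ch / h1 G ≤ C1 := (Nat.le_ceil _).trans (by rw [hC1]; push_cast; linarith)
    rwa [div_le_iff₀ hh1, mul_comm (C1 : ℝ)] at this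
  rcases Nat.eq_zero_or_pos (nrm (z - x)) with h0 | hL
  · have hz : z = x := sub_eq_zero.1 (nrm_eq_zero.1 h0)
    subst hz
    rw [integral_congr_ae (g := fun _ => 0) (ae_restrict_of_ae ((ae_reg G).mono fun t ht => by
      obtain ⟨h1, h2, h3⟩ := geo_spec G ht z z
      have := h1.2.2.1 _ le_rfl 0 (Nat.zero_le _) (h3.trans h2.symm)
      simp [this]))]
    simp only [integral_zero]
    positivity
  set L := nrm (z - x) with hLdef
  have hL1 : (1 : ℝ) ≤ L := by exact_mod_cast hL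
  have hp1 : (1 : ℝ) ≤ (L : ℝ) ^ ((3 : ℝ) / 5) := Real.one_le_rpow hL1 (by norm_num)
  have hA : MeasurableSet {t | C1 * L < (geo t x z).n} :=
    (measP_geo x z).measurableSet (q := fun _ γ => C1 * L < γ.n) fun _ => MeasurableSet.const _
  have hi1 : Integrable (fun t => 4 / h1 G * |T t x z - hm G (z - x)|) (iidLaw G) :=
    ((integrable_T G x z).sub (integrable_const _)).abs.const_mul _
  rw [← integral_indicator hA]
  refine le_trans (integral_mono_ae ((hlen x z).1.indicator hA) (hi1.add (hb x z).1)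
    ((ae_reg G).mono fun t ht => ?_)) ?_
  · have hind : 0 ≤ (KesBad G x (geo t x z).n).indicator
        (fun _ => ((geo t x z).n : ℝ) ^ 2) t := Set.indicator_nonneg (fun _ _ => by positivity) t
    have habs : 0 ≤ 4 / h1 G * |T t x z - hm G (z - x)| := by positivity
    by_cases hA' : t ∈ {t | C1 * L < (geo t x z).n}
    swap
    · simp only [Set.indicator_of_notMem hA', Pi.add_apply]
      linarith
    simp only [Set.indicator_of_mem hA', Pi.add_apply]
    by_cases hk : t ∈ KesBad G x (geo t x z).n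
    · rw [Set.indicator_of_mem hk]
      have : ((geo t x z).n : ℝ) ≤ ((geo t x z).n : ℝ) ^ 2 := by
        exact_mod_cast Nat.le_self_pow two_ne_zero _
      linarith
    · obtain ⟨g1, g2, g3⟩ := geo_spec G ht x z
      have e1 := cost_ge_of_not_kesBad G ht.1.nn g1.1 g1.2.2.1 (a := 0) (k := (geo t x z).n)
        (by omega) (by rwa [g2])
      rw [zero_add] at e1
      have e2 : (geo t x z).cost t 0 (geo t x z).n = T t x z := by
        have := g1.2.2.2
        rwa [g2, g3] at this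
      have e3 : (C1 : ℝ) * L ≤ (geo t x z).n := by exact_mod_cast (show C1 * L < _ from hA').le
      have e4 := hh (z - x)
      rw [← hLdef] at e4
      have e5 : 4 * Ch * L ≤ h1 G * (geo t x z).n := by
        calc 4 * Ch * L ≤ h1 G * C1 * L := mul_le_mul_of_nonneg_right hC1' (by positivity)
          _ = h1 G * (C1 * L) := by ring
          _ ≤ _ := mul_le_mul_of_nonneg_left e3 hh1.le
      have e6 : h1 G * (geo t x z).n ≤ 4 * |T t x z - hm G (z - x)| := by
        have := le_abs_self (T t x z - hm G (z - x))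
        linarith
      have e7 : ((geo t x z).n : ℝ) ≤ 4 / h1 G * |T t x z - hm G (z - x)| := by
        rw [div_mul_eq_mul_div, le_div_iff₀ hh1]
        linarith
      linarith
  · simp only [Pi.add_apply]
    rw [integral_add hi1 (hb x z).1, integral_const_mul]
    have e1 := mul_le_mul_of_nonneg_left (h x z) (show 0 ≤ 4 / h1 G by positivity)
    have e2 := (hb x z).2
    have e3 : S ≤ S * (L : ℝ) ^ ((3 : ℝ) / 5) := le_mul_of_one_le_right hS hp1
    rw [← hLdef] at e1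
    linarith

end Crest.Agent.R151
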