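import Crest.Agent.R151.ABase
import Crest.Agent.R151.TConc

/-! Row 151, part A: the local event `NiceB` has overwhelming probability.

Let `X` be the excess of a self-avoiding path with `m` steps and displacement `v` in `box y r`,
`e = r^(3/5)`, `A = 2‖ρ‖ + 1`.  Off `LowBad`: `X ≥ c|dev v| - e` and `X ≥ c(-v.1) - e`.  If no
point of the box is `KesBad` for lengths `≥ m0`: `X ≥ h1 (m - m0)/2 - A(|v.1| + |dev v|)`.  A convex
combination with weights `λ = c/(c+3A)`, `Aλ/c`, `2Aλ/c` gives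
`X ≥ λA(β m - v.1) - e - h1 m0/2` for `β = min 1 (h1/(2A))`; take `c2 = min c (λA)` (when
`β m - v.1 < 0` use `X ≥ -e`). -/

set_option autoImplicit false

namespace Crest.Agent.R151.PA

open MeasureTheory ProbabilityTheory Crest.ProbabilityR.FirstPassage Filter
open scoped Classical

theorem ANice_real {c A H X e m m0 a d : ℝ} (hc : 0 < c) (hA : 0 < A) (hH : 0 < H) (he : 0 ≤ e)
    (hm : 0 ≤ m) (hm0 : 0 ≤ m0) (h1 : c * |d| - e ≤ X) (h2 : c * (-a) - e ≤ X)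
    (h3 : H * (m - m0) / 2 - A * (|a| + |d|) ≤ X) :
    min c (c * A / (c + 3 * A)) * (min 1 (H / (2 * A)) * m - a) - (e + H * m0) ≤ X := by
  have hD : 0 < c + 3 * A := by positivity
  have h0 : -e ≤ X := by have := mul_nonneg hc.le (abs_nonneg d); linarith
  have hHm : 0 ≤ H * m0 := by positivity
  set c2 := min c (c * A / (c + 3 * A)) with hc2
  set β := min 1 (H / (2 * A)) with hβ
  have hc20 : 0 < c2 := by positivity
  have hc21 : c2 * (c + 3 * A) ≤ c * A := (le_div_iff₀ hD).1 (min_le_right _ _)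
  have hβ1 : β * (2 * A) ≤ H := (le_div_iff₀ (by positivity)).1 (min_le_right _ _)
  rcases le_total (β * m - a) 0 with hY | hY
  · have := mul_nonpos_of_nonneg_of_nonpos hc20.le hY
    linarith
  have q1 := mul_le_mul_of_nonneg_left h1 hA.le
  have q2 := mul_le_mul_of_nonneg_left h2 hA.le
  have q0 := mul_le_mul_of_nonneg_left h0 hA.le
  have q3 := mul_le_mul_of_nonneg_left h3 hc.le
  have key : c * H * (m - m0) / 2 - c * A * a - 3 * A * e ≤ (c + 3 * A) * X := by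
    rcases le_total 0 a with ha | ha
    · rw [abs_of_nonneg ha] at q3; linarith
    · rw [abs_of_nonpos ha] at q3; linarith
  have q4 := mul_le_mul_of_nonneg_right hc21 hY
  have q5 := mul_le_mul_of_nonneg_right hβ1 (mul_nonneg hc.le hm)
  have q6 := mul_nonneg hc.le he
  have q7 := mul_nonneg hc.le hHm
  have q8 := mul_nonneg hA.le hHm
  refine le_of_mul_le_mul_left ?_ hD
  linarith

theorem ANice_mono {θ : ℝ} {ρ : ℝ × ℝ} {β c E E' : ℝ} {y : V} {r : ℕ} (h : E ≤ E') :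
    NiceB θ ρ β c E y r ⊆ NiceB θ ρ β c E' y r := fun t ht δ h1 h2 h3 => by
  have := ht δ h1 h2 h3
  constructor <;> linarith [this.1, this.2]

theorem ANice_rpow (s : ℕ) : (ell s : ℝ) ^ ((3 : ℝ) / 5) = 2 ^ (12 * s) := by
  unfold ell
  push_cast
  rw [← Real.rpow_natCast, ← Real.rpow_mul (by norm_num), ← Real.rpow_natCast]
  congr 1
  push_cast
  ring

theorem ANice_num (s : ℕ) :
    2 * (((2 * ell s + 1) ^ 2 : ℕ) : ℝ) * (1 / 2) ^ (2 ^ (12 * s)) ≤ 18 / (ell s : ℝ) ^ 100 := by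
  have hl : (1 : ℝ) ≤ ell s := by exact_mod_cast one_le_ell s
  have h1 : 2040 * s ≤ 2 ^ (12 * s) := by
    have := one_add_mul_le_pow (a := (4095 : ℝ)) (by norm_num) s
    have h2 : ((2040 * s : ℕ) : ℝ) ≤ ((2 ^ (12 * s) : ℕ) : ℝ) := by
      push_cast
      rw [pow_mul]
      have hs : (0 : ℝ) ≤ s := Nat.cast_nonneg s
      norm_num at this ⊢
      linarith
    exact_mod_cast h2
  have h2 : (ell s : ℝ) ^ 102 ≤ 2 ^ (2 ^ (12 * s)) := by
    unfold ell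
    push_cast
    rw [← pow_mul]
    exact pow_le_pow_right₀ (by norm_num) (by omega)
  rw [le_div_iff₀ (by positivity), one_div, inv_pow]
  push_cast
  have h3 : (2 * (ell s : ℝ) + 1) ^ 2 ≤ 9 * (ell s : ℝ) ^ 2 := by nlinarith
  have h4 : (0 : ℝ) < 2 ^ (2 ^ (12 * s)) := by positivity
  calc 2 * (2 * (ell s : ℝ) + 1) ^ 2 * (2 ^ (2 ^ (12 * s)))⁻¹ * (ell s : ℝ) ^ 100
      ≤ 2 * (9 * (ell s : ℝ) ^ 2) * (2 ^ (2 ^ (12 * s)))⁻¹ * (ell s : ℝ) ^ 100 := by gcongr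
    _ = 18 * ((ell s : ℝ) ^ 102 / 2 ^ (2 ^ (12 * s))) := by ring
    _ ≤ 18 * 1 := by gcongr; exact (div_le_one h4).2 h2
    _ = 18 := by ring

theorem measurableSet_niceB (θ : ℝ) (ρ : ℝ × ℝ) (β c E : ℝ) (y : V) (r : ℕ) :
    MeasurableSet (NiceB θ ρ β c E y r) := by
  refine measurableSet_forall_pth (q := fun t δ => δ.Ok → δ.SA → δ.In (box y r) →
    c * |ht θ (δ.p δ.n) - ht θ (δ.p 0)| - E ≤ exc ρ δ t ∧
    c * (β * δ.n - (((δ.p δ.n).1 : ℝ) - (δ.p 0).1)) - E ≤ exc ρ δ t) fun δ => ?_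
  have hm : Measurable fun t => exc ρ δ t := (measurable_tot δ).sub measurable_const
  by_cases h : δ.Ok ∧ δ.SA ∧ δ.In (box y r)
  · simp only [h.1, h.2.1, h.2.2, forall_const]
    exact (measurableSet_le measurable_const hm).inter (measurableSet_le measurable_const hm)
  · have : ∀ P : Prop, (δ.Ok → δ.SA → δ.In (box y r) → P) ↔ True := fun P =>
      iff_true_intro fun h1 h2 h3 => absurd ⟨h1, h2, h3⟩ h
    simp only [this, Set.ofPred_true]
    exact MeasurableSet.univ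

theorem dep_niceB (θ : ℝ) (ρ : ℝ × ℝ) (β c E : ℝ) (y : V) (r : ℕ) :
    Dep (ED (box y r)) (NiceB θ ρ β c E y r) := by
  intro t t' h ht δ h1 h2 h3
  have e : δ.tot t = δ.tot t' := depF_tot h1 h3 t t' fun e he => h e (LE_subset_ED _ he)
  have e' : exc ρ δ t' = exc ρ δ t := by unfold exc; rw [e]
  rw [e']
  exact ht δ h1 h2 h3

variable {G : Measure ℝ} [Law G] {θ c : ℝ} {ρ : ℝ × ℝ}

theorem niceB_of (h : Corner (mu G) θ ρ c) : ∃ β c2 : ℝ, 0 < β ∧ β ≤ 1 ∧ 0 < c2 ∧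
    ∀ (t : Env) (y : V) (r m0 : ℕ), NN t → t ∉ LowBad G y r →
      (∀ z ∈ box y r, ∀ k, m0 ≤ k → t ∉ KesBad G z k) →
      t ∈ NiceB θ ρ β c2 ((r : ℝ) ^ ((3 : ℝ) / 5) + h1 G * m0) y r := by
  have hc := h.pos
  have hH := h1_pos G
  set A : ℝ := |ρ.1| + |ρ.2| + 1 with hA
  have hA0 : 0 < A := by positivity
  refine ⟨min 1 (h1 G / (2 * A)), min c (c * A / (c + 3 * A)), by positivity, min_le_left _ _,
    by positivity, fun t y r m0 hnn hl hk δ hok hsa hin => ?_⟩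
  set v : ℝ × ℝ := rv (δ.p δ.n) - rv (δ.p 0) with hv
  have he : 0 ≤ (r : ℝ) ^ ((3 : ℝ) / 5) := by positivity
  have hlow : mu G v - (r : ℝ) ^ ((3 : ℝ) / 5) ≤ δ.tot t := by
    have := cost_ge_of_not_lowBad hl hok (Nat.zero_le _) le_rfl fun i _ hi => hin i hi
    rwa [rv_sub] at this
  have hd : ht θ (δ.p δ.n) - ht θ (δ.p 0) = v.2 - θ * v.1 := by
    simp only [hv, ht, rv, Prod.fst_sub, Prod.snd_sub]; ring
  have ha : ((δ.p δ.n).1 : ℝ) - (δ.p 0).1 = v.1 := by simp only [hv, rv, Prod.fst_sub]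
  have hX : exc ρ δ t = δ.tot t - dot ρ v := rfl
  have h1' : c * |v.2 - θ * v.1| - (r : ℝ) ^ ((3 : ℝ) / 5) ≤ δ.tot t - dot ρ v := by
    linarith [h.dev v]
  have h2' : c * (-v.1) - (r : ℝ) ^ ((3 : ℝ) / 5) ≤ δ.tot t - dot ρ v := by
    linarith [h.back v]
  have htot : h1 G * ((δ.n : ℝ) - m0) / 2 ≤ δ.tot t := by
    by_cases hm : m0 ≤ δ.n
    · have := cost_ge_of_not_kesBad G hnn hok hsa (a := 0) (k := δ.n) (by omega)
        (hk _ (hin 0 (Nat.zero_le _)) _ hm)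
      rw [zero_add] at this
      have h0 : 0 ≤ h1 G * m0 := by positivity
      unfold Pth.tot
      linarith
    · have h0 : 0 ≤ δ.tot t := by
        unfold Pth.tot Pth.cost
        exact Finset.sum_nonneg fun i _ => hnn (δ.edge i)
      have h2 : (δ.n : ℝ) - m0 ≤ 0 := by
        have : (δ.n : ℝ) ≤ m0 := by exact_mod_cast (not_le.1 hm).le
        linarith
      nlinarith
  have hdot : dot ρ v ≤ A * (|v.1| + |v.2 - θ * v.1|) := by
    have e : dot ρ v = ρ.1 * v.1 + ρ.2 * (v.2 - θ * v.1) + ρ.2 * (θ * v.1) := by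
      unfold dot; ring
    have b1 : ρ.1 * v.1 ≤ |ρ.1| * |v.1| := by rw [← abs_mul]; exact le_abs_self _
    have b2 : ρ.2 * (v.2 - θ * v.1) ≤ |ρ.2| * |v.2 - θ * v.1| := by
      rw [← abs_mul]; exact le_abs_self _
    have b3 : ρ.2 * (θ * v.1) ≤ |ρ.2| * |v.1| := by
      refine (le_abs_self _).trans ?_
      rw [abs_mul, abs_mul]
      exact mul_le_mul_of_nonneg_left (mul_le_of_le_one_left (abs_nonneg _) h.abs_le) (abs_nonneg _)
    have p1 := abs_nonneg v.1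
    have p2 := abs_nonneg (v.2 - θ * v.1)
    have p3 := mul_nonneg (abs_nonneg ρ.1) p2
    rw [e, hA]
    nlinarith
  rw [hd, ha, hX]
  refine ⟨?_, ANice_real hc hA0 hH he (Nat.cast_nonneg _) (Nat.cast_nonneg _) h1' h2' (by linarith)⟩
  have p1 : min c (c * A / (c + 3 * A)) * |v.2 - θ * v.1| ≤ c * |v.2 - θ * v.1| :=
    mul_le_mul_of_nonneg_right (min_le_left _ _) (abs_nonneg _)
  have p2 : 0 ≤ h1 G * m0 := by positivity
  linarith

/-- `r = ell s`, `r^(3/5) = m0 = 2^(12 s)`; `Pr_lowBad`, `Pr_kesBad_ge` -/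
theorem nice_prob (h : Corner (mu G) θ ρ c) : ∃ β c2 C : ℝ, 0 < β ∧ β ≤ 1 ∧ 0 < c2 ∧ 0 < C ∧
    ∀ (s : ℕ) (y : V),
      Pr G (NiceB θ ρ β c2 (C * 2 ^ (12 * s)) y (ell s))ᶜ ≤ C / (ell s : ℝ) ^ 100 := by
  obtain ⟨β, c2, hβ, hβ1, hc2, hN⟩ := niceB_of h
  obtain ⟨C0, hC0, hL⟩ := Pr_lowBad G
  have hH := h1_pos G
  refine ⟨β, c2, 1 + h1 G + C0 + 18, hβ, hβ1, hc2, by positivity, fun s y => ?_⟩
  have hl : (0 : ℝ) < ell s := by exact_mod_cast one_le_ell s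
  have h1' : Pr G (NiceB θ ρ β c2 ((1 + h1 G + C0 + 18) * 2 ^ (12 * s)) y (ell s))ᶜ ≤
      Pr G (LowBad G y (ell s)) +
        Pr G {t | ∃ x ∈ boxF y (ell s), ∃ k, 2 ^ (12 * s) ≤ k ∧ t ∈ KesBad G x k} := by
    refine Pr_le_add_of_ae G ?_
    filter_upwards [ae_nn G] with t ht hn
    by_contra hcon
    rw [not_or] at hcon
    refine hn (ANice_mono ?_ (hN t y (ell s) (2 ^ (12 * s)) ht hcon.1 fun z hz k hk hb =>
      hcon.2 ⟨z, mem_boxF.2 hz, k, hk, hb⟩))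
    rw [ANice_rpow]
    push_cast
    have : (0 : ℝ) ≤ (C0 + 18) * 2 ^ (12 * s) := by positivity
    linarith
  have h2 := hL y (ell s) (one_le_ell s)
  have h3 := Pr_kesBad_ge G (boxF y (ell s)) (2 ^ (12 * s))
  rw [card_boxF] at h3
  refine h1'.trans ((add_le_add h2 (h3.trans (ANice_num s))).trans ?_)
  rw [← add_div]
  gcongr
  linarith

end Crest.Agent.R151.PA
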