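import Crest.Agent.R151.TMu2

/-! Row 151 toolkit: Tessera-type rate of convergence, deterministic part. -/

set_option autoImplicit false

namespace Crest.Agent.R151

open Filter Topology

theorem tt1_two_rpow (k : ℕ) : ((2 : ℝ) ^ k) ^ ((3 : ℝ) / 5) ≤ (8 / 5) ^ k := by
  have h1 : (2 : ℝ) ^ ((3 : ℝ) / 5) ≤ 8 / 5 := by
    refine le_of_pow_le_pow_left₀ (n := 5) (by norm_num) (by norm_num) ?_
    rw [← Real.rpow_natCast, ← Real.rpow_mul (by norm_num)]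
    norm_num
  rw [← Real.rpow_natCast, ← Real.rpow_mul (by norm_num), mul_comm, Real.rpow_mul (by norm_num),
    Real.rpow_natCast]
  exact pow_le_pow_left₀ (by positivity) h1 k

theorem tt1_iter (h : V → ℝ) {K ε ρ : ℝ} (hK : 0 ≤ K) (hρ : 0 < ρ) (hε : 0 ≤ ε)
    (hεb : ∀ b, ρ ≤ b → b ^ ((3 : ℝ) / 5) ≤ ε * b)
    (hstep : ∀ x (a : ℝ), 0 ≤ a → h x ≤ a → ∃ y, h y ≤ a / 2 + K * a ^ ((3 : ℝ) / 5) ∧
      h (x - y) ≤ a / 2 + K * a ^ ((3 : ℝ) / 5)) (k : ℕ) :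
    ∀ (b : ℝ) (x : V), ρ ≤ b → h x ≤ 2 ^ k * b → ((2 : ℝ) ^ k)⁻¹ • rv x ∈
      convexHull ℝ (rv '' {y | h y ≤ b * Real.exp (8 * K * ε * (1 - (4 / 5) ^ k))}) := by
  induction k with
  | zero =>
    intro b x _ hx
    refine subset_convexHull ℝ _ ⟨x, ?_, by simp⟩
    simpa using hx
  | succ k ih =>
    intro b x hb hx
    have hb0 : 0 < b := hρ.trans_le hb
    obtain ⟨y, hy1, hy2⟩ := hstep x _ (by positivity) hx
    set δ : ℝ := 8 / 5 * K * ε * (4 / 5) ^ k with hδ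
    have hδ0 : 0 ≤ δ := by positivity
    have e1 : 2 ^ (k + 1) * b / 2 + K * (2 ^ (k + 1) * b) ^ ((3 : ℝ) / 5) ≤
        2 ^ k * (b * (1 + δ)) := by
      rw [Real.mul_rpow (by positivity) hb0.le]
      have h1 : ((2 : ℝ) ^ (k + 1)) ^ ((3 : ℝ) / 5) * b ^ ((3 : ℝ) / 5) ≤
          (8 / 5) ^ (k + 1) * (ε * b) :=
        mul_le_mul (tt1_two_rpow _) (hεb b hb) (by positivity) (by positivity)
      have h2 : ((8 : ℝ) / 5) ^ (k + 1) = 2 ^ k * (8 / 5 * (4 / 5) ^ k) := by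
        rw [pow_succ, show (8 : ℝ) / 5 = 2 * (4 / 5) by norm_num, mul_pow]
        ring
      calc _ ≤ 2 ^ (k + 1) * b / 2 + K * ((8 / 5) ^ (k + 1) * (ε * b)) := by gcongr
        _ = _ := by rw [h2, hδ]; ring
    have hb' : ρ ≤ b * (1 + δ) := hb.trans (le_mul_of_one_le_right hb0.le (by linarith))
    have hsub : rv '' {y | h y ≤ b * (1 + δ) * Real.exp (8 * K * ε * (1 - (4 / 5) ^ k))} ⊆
        rv '' {y | h y ≤ b * Real.exp (8 * K * ε * (1 - (4 / 5) ^ (k + 1)))} := by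
      refine Set.image_mono fun z hz => Set.mem_ofPred.2 (le_trans (Set.mem_ofPred.1 hz) ?_)
      have e : 8 * K * ε * (1 - (4 / 5) ^ (k + 1)) = δ + 8 * K * ε * (1 - (4 / 5) ^ k) := by
        rw [hδ]; ring
      rw [e, Real.exp_add, mul_assoc b]
      gcongr
      linarith [Real.add_one_le_exp δ]
    have m1 := convexHull_mono hsub (ih _ y hb' (hy1.trans e1))
    have m2 := convexHull_mono hsub (ih _ (x - y) hb' (hy2.trans e1))
    have m3 := convex_convexHull ℝ _ m1 m2 (a := 1 / 2) (b := 1 / 2) (by norm_num) (by norm_num)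
      (by norm_num)
    convert m3 using 1
    rw [rv_sub, ← smul_add, ← smul_add, add_sub_cancel, smul_smul]
    congr 1
    rw [pow_succ]
    field_simp

theorem tt1_sum_le (h : V → ℝ) (h0 : h 0 = 0) (hadd : ∀ x y, h (x + y) ≤ h x + h y) {ι : Type*}
    (s : Finset ι) (y : ι → V) : h (∑ i ∈ s, y i) ≤ ∑ i ∈ s, h (y i) :=
  Finset.le_sum_of_subadditive h h0.le hadd s y

theorem tt1_nsmul_le (h : V → ℝ) (h0 : h 0 = 0) (hadd : ∀ x y, h (x + y) ≤ h x + h y) (n : ℕ)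
    (y : V) : h ((n : ℤ) • y) ≤ n * h y := by
  induction n with
  | zero => simp [h0]
  | succ n ih =>
    push_cast
    rw [add_smul, one_smul]
    linarith [hadd ((n : ℤ) • y) y]

theorem tt1_rv_sum {ι : Type*} (s : Finset ι) (y : ι → V) :
    rv (∑ i ∈ s, y i) = ∑ i ∈ s, rv (y i) := by
  classical
  induction s using Finset.induction_on with
  | empty => simp [rv_zero]
  | insert i s hi ih => rw [Finset.sum_insert hi, Finset.sum_insert hi, rv_add, ih]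

/-- rounding a convex combination -/
theorem tt1_round (h : V → ℝ) (h0 : h 0 = 0) (hadd : ∀ x y, h (x + y) ≤ h x + h y) {C c B m : ℝ}
    (hC : 0 ≤ C) (hup : ∀ x, h x ≤ C * nrm x) (hc : 0 < c) (hlo : ∀ x, c * nrm x ≤ h x)
    (hB : 0 ≤ B) (hm : 0 < m) (x : V)
    (hx : m⁻¹ • rv x ∈ convexHull ℝ (rv '' {y | h y ≤ B})) : h x ≤ m * B + C * (3 * (B / c)) := by
  obtain ⟨ι, _, z, w, hz, hind, hw, hw1, hsum⟩ := eq_pos_convex_span_of_mem_convexHull hx
  have hcard : Fintype.card ι ≤ 3 := by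
    have h1 := hind.card_le_finrank_succ
    have h2 := Submodule.finrank_le (vectorSpan ℝ (Set.range z))
    have h3 : Module.finrank ℝ (ℝ × ℝ) = 2 := by simp
    omega
  have hy : ∀ i, ∃ y, h y ≤ B ∧ rv y = z i := fun i => hz ⟨i, rfl⟩
  choose y hyB hyz using hy
  set n : ι → ℕ := fun i => ⌊m * w i⌋₊ with hn
  have hn1 : ∀ i, (n i : ℝ) ≤ m * w i := fun i => Nat.floor_le (mul_pos hm (hw i)).le
  have hn2 : ∀ i, m * w i < n i + 1 := fun i => Nat.lt_floor_add_one _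
  set e : V := x - ∑ i, (n i : ℤ) • y i with he
  have hrv : rv e = ∑ i, (m * w i - n i) • z i := by
    have h1 : rv x = ∑ i, (m * w i) • z i := by
      simp only [mul_smul]
      rw [← Finset.smul_sum, hsum, smul_smul, mul_inv_cancel₀ hm.ne', one_smul]
    rw [he, rv_sub, tt1_rv_sum, h1, ← Finset.sum_sub_distrib]
    refine Finset.sum_congr rfl fun i _ => ?_
    rw [rv_smul, hyz, sub_smul]
    simp
  have hne : (nrm e : ℝ) ≤ 3 * (B / c) := by
    rw [← norm_rv, hrv]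
    refine (norm_sum_le _ _).trans ?_
    have h1 : ∀ i ∈ (Finset.univ : Finset ι), ‖(m * w i - n i) • z i‖ ≤ B / c := by
      intro i _
      rw [norm_smul, ← hyz, norm_rv, Real.norm_eq_abs, abs_of_nonneg (by linarith [hn1 i])]
      have h2 : (nrm (y i) : ℝ) ≤ B / c := by
        rw [le_div_iff₀ hc, mul_comm]
        exact (hlo _).trans (hyB i)
      have h3 : (0 : ℝ) ≤ nrm (y i) := Nat.cast_nonneg _
      nlinarith [hn1 i, hn2 i]
    refine (Finset.sum_le_card_nsmul _ _ _ h1).trans ?_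
    rw [nsmul_eq_mul, Finset.card_univ]
    exact mul_le_mul_of_nonneg_right (by exact_mod_cast hcard) (by positivity)
  have h1 : h (∑ i, (n i : ℤ) • y i) ≤ m * B := by
    refine (tt1_sum_le h h0 hadd _ _).trans ?_
    calc ∑ i, h ((n i : ℤ) • y i) ≤ ∑ i, m * w i * B := Finset.sum_le_sum fun i _ =>
          (tt1_nsmul_le h h0 hadd _ _).trans ((mul_le_mul_of_nonneg_left (hyB i)
            (Nat.cast_nonneg _)).trans (mul_le_mul_of_nonneg_right (hn1 i) hB))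
      _ = m * B := by rw [← Finset.sum_mul, ← Finset.mul_sum, hw1, mul_one]
  have h2 := hadd (∑ i, (n i : ℤ) • y i) e
  rw [he, add_sub_cancel, ← he] at h2
  have h3 := (hup e).trans (mul_le_mul_of_nonneg_left hne hC)
  linarith

theorem tessera_det (h : V → ℝ) (μ : ℝ × ℝ → ℝ) (hμ : NormOK μ) (h0 : h 0 = 0)
    (hadd : ∀ x y, h (x + y) ≤ h x + h y) (hup : ∃ C : ℝ, 0 < C ∧ ∀ x, h x ≤ C * nrm x)
    (hle : ∀ x, μ (rv x) ≤ h x)
    (hlim : ∀ v : ℝ × ℝ,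
      Tendsto (fun n : ℕ => h (⌊(n : ℝ) * v.1⌋, ⌊(n : ℝ) * v.2⌋) / n) atTop (𝓝 (μ v)))
    (hmid : ∃ C : ℝ, 0 < C ∧ ∀ x, ∃ y, h y ≤ h x / 2 + C * (nrm x : ℝ) ^ ((3 : ℝ) / 5) ∧
      h (x - y) ≤ h x / 2 + C * (nrm x : ℝ) ^ ((3 : ℝ) / 5)) :
    ∃ C : ℝ, 0 < C ∧ ∀ x, h x ≤ μ (rv x) + C * (nrm x : ℝ) ^ ((3 : ℝ) / 4) := by
  obtain ⟨C₁, hC₁, hup⟩ := hup
  obtain ⟨C₂, hC₂, hmid⟩ := hmid
  obtain ⟨c, hc, hlow⟩ := hμ.lower
  obtain ⟨C₃, hC₃, hupp⟩ := hμ.upper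
  have hlo : ∀ x, c * nrm x ≤ h x := fun x => by
    rw [← norm_rv]; exact (hlow _).trans (hle x)
  set K : ℝ := C₂ * c⁻¹ ^ ((3 : ℝ) / 5) with hK
  have hK0 : 0 ≤ K := by positivity
  have hstep : ∀ x (a : ℝ), 0 ≤ a → h x ≤ a → ∃ y, h y ≤ a / 2 + K * a ^ ((3 : ℝ) / 5) ∧
      h (x - y) ≤ a / 2 + K * a ^ ((3 : ℝ) / 5) := by
    intro x a ha hx
    obtain ⟨y, hy1, hy2⟩ := hmid x
    have h1 : (nrm x : ℝ) ≤ c⁻¹ * a := by
      rw [le_inv_mul_iff₀ hc]; exact (hlo x).trans hx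
    have h2 : C₂ * (nrm x : ℝ) ^ ((3 : ℝ) / 5) ≤ K * a ^ ((3 : ℝ) / 5) := by
      rw [hK, mul_assoc, ← Real.mul_rpow (by positivity) ha]
      gcongr
    exact ⟨y, by linarith, by linarith⟩
  set E : ℝ := Real.exp (8 * K) with hE
  have hE0 : 0 < E := Real.exp_pos _
  refine ⟨1 + (C₃ + 1) * E + C₁ * (3 * (2 * (1 + E) / c)), by positivity, fun x => ?_⟩
  by_cases hx0 : x = 0
  · subst hx0
    rw [h0]
    have := hμ.nonneg (rv 0)
    positivity
  have hn1 : (1 : ℝ) ≤ nrm x := by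
    exact_mod_cast Nat.one_le_iff_ne_zero.2 fun h => hx0 (nrm_eq_zero.1 h)
  set n : ℝ := (nrm x : ℝ) with hn
  have hn0 : 0 < n := by linarith
  set ρ : ℝ := n ^ ((3 : ℝ) / 4) with hρ
  have hρ1 : 1 ≤ ρ := Real.one_le_rpow hn1 (by norm_num)
  have hρ0 : 0 < ρ := by linarith
  set ε : ℝ := ρ ^ (-(2 : ℝ) / 5) with hε
  have hε0 : 0 ≤ ε := by positivity
  have hε1 : ε ≤ 1 := Real.rpow_le_one_of_one_le_of_nonpos hρ1 (by norm_num)
  have hεb : ∀ b, ρ ≤ b → b ^ ((3 : ℝ) / 5) ≤ ε * b := by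
    intro b hb
    have hb0 : 0 < b := hρ0.trans_le hb
    rw [show (3 : ℝ) / 5 = -(2 : ℝ) / 5 + 1 by norm_num, Real.rpow_add_one hb0.ne']
    exact mul_le_mul_of_nonneg_right (Real.rpow_le_rpow_of_nonpos hρ0 hb (by norm_num)) hb0.le
  have hεn : ε * n ≤ ρ := by
    rw [hε, hρ, ← Real.rpow_mul hn0.le, ← Real.rpow_add_one hn0.ne']
    exact Real.rpow_le_rpow_of_exponent_le hn1 (by norm_num)
  set M : ℝ := μ (rv x) + 1 with hM
  have hM1 : 1 ≤ M := by linarith [hμ.nonneg (rv x)]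
  have hMn : M ≤ (C₃ + 1) * n := by
    have := hupp (rv x)
    rw [norm_rv, ← hn] at this
    linarith
  obtain ⟨N, hN1, hN2⟩ : ∃ N : ℕ, h ((N : ℤ) • x) / N < M ∧ ρ ≤ N := by
    have h1 := (hlim (rv x)).eventually (gt_mem_nhds (show μ (rv x) < M by linarith))
    obtain ⟨N, h2, h3⟩ := (h1.and (tendsto_natCast_atTop_atTop.eventually_ge_atTop ρ)).exists
    refine ⟨N, ?_, h3⟩
    have e : (N : ℤ) • x = (⌊(N : ℝ) * (rv x).1⌋, ⌊(N : ℝ) * (rv x).2⌋) := by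
      ext
      · simp only [rv, Prod.smul_fst, smul_eq_mul]
        rw [← Int.cast_natCast (R := ℝ), ← Int.cast_mul, Int.floor_intCast]
      · simp only [rv, Prod.smul_snd, smul_eq_mul]
        rw [← Int.cast_natCast (R := ℝ), ← Int.cast_mul, Int.floor_intCast]
    rwa [e]
  have hN0 : (0 : ℝ) < N := hρ0.trans_le hN2
  rw [div_lt_iff₀ hN0] at hN1
  obtain ⟨k, hk1, hk2⟩ := exists_nat_pow_near (x := M * N / ρ) (y := 2)
    (by rw [le_div_iff₀ hρ0]; nlinarith) (by norm_num)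
  have h2k : (0 : ℝ) < 2 ^ k := by positivity
  set b : ℝ := M * N / 2 ^ k with hb
  have hb1 : ρ ≤ b := by
    rw [le_div_iff₀ hρ0] at hk1
    rw [hb, le_div_iff₀ h2k]; linarith
  have hb2 : b ≤ 2 * ρ := by
    rw [div_lt_iff₀ hρ0, pow_succ] at hk2
    rw [hb, div_le_iff₀ h2k]; linarith
  have hb0 : 0 < b := hρ0.trans_le hb1
  have hmem := tt1_iter h hK0 hρ0 hε0 hεb hstep k b ((N : ℤ) • x) hb1 (by
    rw [hb, mul_div_cancel₀ _ h2k.ne']; exact hN1.le)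
  have hexp : Real.exp (8 * K * ε * (1 - (4 / 5) ^ k)) ≤ 1 + ε * E := by
    have h1 : 8 * K * ε * (1 - (4 / 5) ^ k) ≤ 8 * K * ε :=
      mul_le_of_le_one_right (by positivity) (by
        have : (0 : ℝ) ≤ (4 / 5) ^ k := by positivity
        linarith)
    have h2 := convexOn_exp.2 (Set.mem_univ (8 * K)) (Set.mem_univ 0) hε0 (sub_nonneg.2 hε1)
      (by ring)
    simp only [smul_eq_mul, mul_zero, add_zero, Real.exp_zero, mul_one] at h2
    refine (Real.exp_le_exp.2 h1).trans ?_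
    rw [mul_comm (8 * K) ε]
    linarith
  have hsub : rv '' {y | h y ≤ b * Real.exp (8 * K * ε * (1 - (4 / 5) ^ k))} ⊆
      rv '' {y | h y ≤ b * (1 + ε * E)} :=
    Set.image_mono fun z hz =>
      Set.mem_ofPred.2 (le_trans (Set.mem_ofPred.1 hz) (mul_le_mul_of_nonneg_left hexp hb0.le))
  have hfin := tt1_round h h0 hadd hC₁.le hup hc hlo (B := b * (1 + ε * E)) (m := 2 ^ k / N)
    (by positivity) (by positivity) x (by
      convert convexHull_mono hsub hmem using 1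
      rw [rv_smul, smul_smul]
      congr 1
      push_cast
      field_simp)
  have e1 : 2 ^ k / N * (b * (1 + ε * E)) = M * (1 + ε * E) := by
    rw [hb]; field_simp
  have e2 : M * ε * E ≤ (C₃ + 1) * E * ρ := by
    have : M * ε ≤ (C₃ + 1) * ρ := by
      calc M * ε ≤ (C₃ + 1) * n * ε := by gcongr
        _ = (C₃ + 1) * (ε * n) := by ring
        _ ≤ _ := by gcongr
    nlinarith
  have e3 : b * (1 + ε * E) / c ≤ 2 * (1 + E) / c * ρ := by
    have : b * (1 + ε * E) ≤ 2 * ρ * (1 + E) := by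
      gcongr
      exact mul_le_of_le_one_left hE0.le hε1
    calc b * (1 + ε * E) / c ≤ 2 * ρ * (1 + E) / c := by gcongr
      _ = _ := by ring
  have e4 : C₁ * (3 * (b * (1 + ε * E) / c)) ≤ C₁ * (3 * (2 * (1 + E) / c * ρ)) := by gcongr
  rw [e1] at hfin
  nlinarith

end Crest.Agent.R151
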