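import Crest.Agent.R151.TConc
import Crest.Agent.R151.TTess1

/-! Row 151 toolkit: the mean passage time exceeds the norm by at most `C |x|^(3/4)`. -/

set_option autoImplicit false

namespace Crest.Agent.R151

open MeasureTheory ProbabilityTheory Crest.ProbabilityR.FirstPassage
open scoped Classical

variable (G : Measure ℝ) [Law G]

theorem hm_mid : ∃ C : ℝ, 0 < C ∧ ∀ x, ∃ y,
    hm G y ≤ hm G x / 2 + C * (nrm x : ℝ) ^ ((3 : ℝ) / 5) ∧
      hm G (x - y) ≤ hm G x / 2 + C * (nrm x : ℝ) ^ ((3 : ℝ) / 5) := by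
  obtain ⟨Ca, hCa, ha⟩ := integral_abs_T_sub G
  obtain ⟨Cg, hCg, hg⟩ := geo_len_L1 G
  obtain ⟨Cl, hCl, hl⟩ := Pr_lowH G
  obtain ⟨L, hL, hlip⟩ := hm_lip G
  obtain ⟨K, hK⟩ := exists_nat_ge (4 * Cg + 4 * Cl + 1)
  have hK1 : (1 : ℝ) ≤ K := by linarith
  refine ⟨L + 4 * Ca + 2 * K, by positivity, fun x => ?_⟩
  by_cases hx : x = 0
  · refine ⟨0, ?_⟩
    rw [hx, sub_zero, hm_zero, nrm_zero, Nat.cast_zero, Real.zero_rpow (by norm_num)]
    norm_num
  have hn : 1 ≤ nrm x := Nat.one_le_iff_ne_zero.2 fun h => hx (nrm_eq_zero.1 h)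
  have hn' : (1 : ℝ) ≤ nrm x := by exact_mod_cast hn
  set s : ℝ := (nrm x : ℝ) ^ ((3 : ℝ) / 5) with hs
  have hs1 : 1 ≤ s := Real.one_le_rpow hn' (by norm_num)
  set r : ℕ := K * nrm x with hr
  have hr' : (r : ℝ) = K * nrm x := by rw [hr, Nat.cast_mul]
  have hrK : (K : ℝ) ≤ r := by rw [hr']; nlinarith
  have hr1 : (1 : ℝ) ≤ r := hK1.trans hrK
  have hrs : (r : ℝ) ^ ((3 : ℝ) / 5) ≤ K * s := by
    rw [hr', Real.mul_rpow (by positivity) (by positivity)]
    refine mul_le_mul_of_nonneg_right ?_ (by positivity)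
    simpa only [Real.rpow_one] using
      Real.rpow_le_rpow_of_exponent_le hK1 (show (3 : ℝ) / 5 ≤ 1 by norm_num)
  have p1 : Pr G {t | 4 * Ca * s ≤ |T t 0 x - hm G (x - 0)|} ≤ 1 / 4 := by
    refine (Pr_markov G (F := fun t => |T t 0 x - hm G (x - 0)|)
      ((integrable_T G 0 x).sub (integrable_const _)).abs
      (Filter.Eventually.of_forall fun t => abs_nonneg _) (by positivity)).trans ?_
    have := ha 0 x
    rw [sub_zero] at this
    rw [div_le_iff₀ (by positivity), sub_zero]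
    linarith
  have p2 : Pr G {t | (r : ℝ) ≤ ((geo t 0 x).n : ℝ)} ≤ 1 / 4 := by
    refine (Pr_markov G (hg 0 x).1 (Filter.Eventually.of_forall fun t => Nat.cast_nonneg _)
      (by positivity)).trans ?_
    have := (hg 0 x).2
    rw [sub_zero] at this
    rw [div_le_iff₀ (by positivity), hr']
    nlinarith
  have p3 := (hl 0 r (by exact_mod_cast hr1)).trans (show Cl / (r : ℝ) ^ 100 ≤ 1 / 4 by
    rw [div_le_iff₀ (by positivity)]
    have : (r : ℝ) ≤ (r : ℝ) ^ 100 := le_self_pow₀ hr1 (by norm_num)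
    linarith)
  obtain ⟨t, ht, h1, h2, h3⟩ : ∃ t, Reg G t ∧ |T t 0 x - hm G (x - 0)| < 4 * Ca * s ∧
      ((geo t 0 x).n : ℝ) < r ∧ ∀ y ∈ box 0 r, ∀ z ∈ box 0 r,
        hm G (z - y) - (r : ℝ) ^ ((3 : ℝ) / 5) ≤ T t y z := by
    by_contra hcon
    have q1 := Pr_le_add_of_ae G (A := Set.univ)
      (B := {t | 4 * Ca * s ≤ |T t 0 x - hm G (x - 0)|} ∪ {t | (r : ℝ) ≤ ((geo t 0 x).n : ℝ)})
      (C := {t | ∃ y ∈ box 0 r, ∃ z ∈ box 0 r,
        T t y z < hm G (z - y) - (r : ℝ) ^ ((3 : ℝ) / 5)}) (by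
        filter_upwards [ae_reg G] with t ht _
        by_contra hc
        simp only [Set.mem_union, Set.mem_ofPred_eq, not_or, not_le, not_exists, not_and,
          not_lt] at hc
        exact hcon ⟨t, ht, hc.1.1, hc.1.2, hc.2⟩)
    have q2 := Pr_union_le G {t | 4 * Ca * s ≤ |T t 0 x - hm G (x - 0)|}
      {t | (r : ℝ) ≤ ((geo t 0 x).n : ℝ)}
    rw [Pr_univ] at q1
    linarith
  obtain ⟨hgeo, g0, g1⟩ := geo_spec G ht 0 x
  set γ := geo t 0 x with hγ
  have hnn : NN t := ht.1.nn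
  have hbox : ∀ i ≤ γ.n, γ.p i ∈ box 0 r := fun i hi => by
    have := hgeo.1.in_box i hi
    rw [g0] at this
    exact box_mono 0 (by exact_mod_cast h2.le) this
  have hex : ∃ i, i ≤ γ.n ∧ hm G x / 2 ≤ hm G (γ.p i) :=
    ⟨γ.n, le_rfl, by rw [g1]; linarith [hm_nonneg G x]⟩
  obtain ⟨hi1, hi2⟩ := Nat.find_spec hex
  have hmin := fun j => Nat.find_min hex (m := j)
  set i := Nat.find hex with hi
  have e1 : hm G (γ.p i) ≤ hm G x / 2 + L := by
    rcases Nat.eq_zero_or_pos i with h | h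
    · rw [h, g0, hm_zero]
      linarith [hm_nonneg G x]
    · obtain ⟨j, hj⟩ : ∃ j, i = j + 1 := ⟨i - 1, by omega⟩
      have h4 := hmin j (by omega)
      rw [not_and, not_le] at h4
      have h5 := h4 (by omega)
      have h6 := (le_abs_self _).trans (hlip (γ.p (j + 1)) (γ.p j))
      have h7 : (nrm (γ.p (j + 1) - γ.p j) : ℝ) ≤ 1 := by
        exact_mod_cast Pth.TPath2_nrm_step hgeo.1 j
      rw [hj]
      nlinarith
  have e2 : T t 0 (γ.p i) + T t (γ.p i) x = T t 0 x := by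
    have c1 := hgeo.cost_eq hnn (Nat.zero_le i) hi1
    have c2 := hgeo.cost_eq hnn hi1 le_rfl
    have c3 := hgeo.cost_eq hnn (Nat.zero_le γ.n) le_rfl
    have c4 := γ.cost_add t (Nat.zero_le i) hi1
    rw [c1, c2, c3, g0, g1] at c4
    exact c4
  have e3 := h3 0 (mem_box_self 0 r) _ (hbox i hi1)
  have e4 := h3 _ (hbox i hi1) x (g1 ▸ hbox γ.n le_rfl)
  have e5 := (le_abs_self _).trans_lt h1
  rw [sub_zero] at e3 e5
  refine ⟨γ.p i, ?_, ?_⟩
  · nlinarith
  · nlinarith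

theorem hm_le_mu : ∃ C : ℝ, 0 < C ∧ ∀ x,
    hm G x ≤ mu G (rv x) + C * (nrm x : ℝ) ^ ((3 : ℝ) / 4) :=
  tessera_det (hm G) (mu G) (mu_ok G) (hm_zero G) (hm_add_le G) (hm_le G) (mu_le_hm G)
    (tendsto_mu G) (hm_mid G)

theorem TTess_int (x z : V) (c : ℝ) : Integrable (fun t => |T t x z - c|) (iidLaw G) :=
  ((integrable_T G x z).sub (integrable_const _)).abs

theorem integral_abs_T_sub_mu : ∃ C : ℝ, 0 < C ∧ ∀ x z : V,
    ∫ t, |T t x z - mu G (rv (z - x))| ∂(iidLaw G) ≤ C * (nrm (z - x) : ℝ) ^ ((3 : ℝ) / 4) := by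
  obtain ⟨Ca, hCa, ha⟩ := integral_abs_T_sub G
  obtain ⟨Cb, hCb, hb⟩ := hm_le_mu G
  refine ⟨Ca + Cb, by positivity, fun x z => ?_⟩
  have h1 : (nrm (z - x) : ℝ) ^ ((3 : ℝ) / 5) ≤ (nrm (z - x) : ℝ) ^ ((3 : ℝ) / 4) := by
    rcases Nat.eq_zero_or_pos (nrm (z - x)) with h | h
    · rw [h, Nat.cast_zero, Real.zero_rpow (by norm_num), Real.zero_rpow (by norm_num)]
    · exact Real.rpow_le_rpow_of_exponent_le (by exact_mod_cast h) (by norm_num)
  have h2 : ∫ t, |T t x z - mu G (rv (z - x))| ∂(iidLaw G) ≤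
      ∫ t, (|T t x z - hm G (z - x)| + Cb * (nrm (z - x) : ℝ) ^ ((3 : ℝ) / 4)) ∂(iidLaw G) := by
    refine integral_mono (TTess_int G x z _) ((TTess_int G x z _).add (integrable_const _))
      fun t => ?_
    have h3 := hb (z - x)
    have h4 := mu_le_hm G (z - x)
    have h5 := le_abs_self (T t x z - hm G (z - x))
    have h6 := neg_abs_le (T t x z - hm G (z - x))
    exact abs_le.2 ⟨by linarith, by linarith⟩
  rw [integral_add (TTess_int G x z _) (integrable_const _), integral_const, probReal_univ,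
    one_smul] at h2
  have h3 := ha x z
  nlinarith

/-- upper tail for one fixed pair -/
theorem Pr_T_gt_mu : ∃ C : ℝ, 0 < C ∧ ∀ (x z : V) (u : ℝ), 0 < u →
    Pr G {t | mu G (rv (z - x)) + u ≤ T t x z} ≤ C * (nrm (z - x) : ℝ) ^ ((3 : ℝ) / 4) / u := by
  obtain ⟨C, hC, h⟩ := integral_abs_T_sub_mu G
  refine ⟨C, hC, fun x z u hu => ?_⟩
  refine (Pr_mono G (B := {t | u ≤ |T t x z - mu G (rv (z - x))|}) fun t ht => ?_).trans
    ((Pr_markov G (TTess_int G x z _) (Filter.Eventually.of_forall fun t => abs_nonneg _)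
      hu).trans (div_le_div_of_nonneg_right (h x z) hu.le))
  exact (le_sub_iff_add_le'.2 (show mu G (rv (z - x)) + u ≤ T t x z from ht)).trans
    (le_abs_self _)

end Crest.Agent.R151
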