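import Crest.Agent.R151.AIrr
import Crest.Agent.R151.ANice
import Crest.Agent.R151.AVis
import Crest.Agent.R151.TTess

/-! Row 151, part A: few irregular times along the geodesic. -/

set_option autoImplicit false

namespace Crest.Agent.R151.PA

open MeasureTheory ProbabilityTheory Crest.ProbabilityR.FirstPassage Filter
open scoped Classical

theorem AHyp_arith {q N M A K Ch C0 Cl r c : ℝ} (hq : 1 ≤ q) (hN : 0 ≤ N) (_hA : 0 ≤ A)
    (hK : 0 ≤ K) (hCh : 0 ≤ Ch) (hC0 : 0 ≤ C0) (hCl : 0 ≤ Cl) (hr : 0 ≤ r) (hc : 0 < c)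
    (h1 : q ^ 20 ≤ A * N) (h2 : q ^ 5 * M ≤ A * N) :
    3 * q ^ 20 * (K * N / q ^ 440) + 9 * q ^ 20 / (c * q ^ 17) *
      (Ch * M + 3 * (C0 * q ^ 12) * (Cl * N / q ^ 20 + 1) + 2 * r * q ^ 20 * (K * N / q ^ 440)) ≤
      (3 * K + 9 / c * (Ch * A + 3 * C0 * (Cl + A) + 2 * r * K)) * N / q ^ 2 := by
  have hq0 : 0 < q := by linarith
  have e : 3 * q ^ 20 * (K * N / q ^ 440) + 9 * q ^ 20 / (c * q ^ 17) *
      (Ch * M + 3 * (C0 * q ^ 12) * (Cl * N / q ^ 20 + 1) + 2 * r * q ^ 20 * (K * N / q ^ 440)) =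
      (3 * K * (N / q ^ 418) + 9 / c * (Ch * (q ^ 5 * M) + 3 * C0 * (Cl * (N / q ^ 3) + q ^ 17) +
        2 * r * K * (N / q ^ 415))) / q ^ 2 := by
    field_simp
  rw [e]
  refine div_le_div_of_nonneg_right ?_ (by positivity)
  have g1 : N / q ^ 418 ≤ N := div_le_self hN (one_le_pow₀ hq)
  have g2 : N / q ^ 3 ≤ N := div_le_self hN (one_le_pow₀ hq)
  have g3 : N / q ^ 415 ≤ N := div_le_self hN (one_le_pow₀ hq)
  have g4 : q ^ 17 ≤ A * N := (pow_le_pow_right₀ hq (by norm_num)).trans h1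
  calc _ ≤ 3 * K * N + 9 / c * (Ch * (A * N) + 3 * C0 * (Cl * N + A * N) + 2 * r * K * N) := by
        gcongr
    _ = _ := by ring

theorem AHyp_root {q N A : ℝ} (hq : 0 ≤ q) (hN : 0 ≤ N) (hA : 1 ≤ A) (h : q ^ 20 ≤ A * N) :
    q ^ 5 * N ^ ((3 : ℝ) / 4) ≤ A * N := by
  have hA0 : 0 ≤ A := by linarith
  have e : (N ^ ((3 : ℝ) / 4)) ^ 4 = N ^ 3 := by
    rw [← Real.rpow_natCast, ← Real.rpow_mul hN]
    norm_num
  refine (pow_le_pow_iff_left₀ (by positivity) (by positivity) (show 4 ≠ 0 by norm_num)).1 ?_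
  have h4 : A ≤ A ^ 4 := le_self_pow₀ hA (by norm_num)
  calc (q ^ 5 * N ^ ((3 : ℝ) / 4)) ^ 4 = q ^ 20 * N ^ 3 := by rw [mul_pow, e]; ring
    _ ≤ A ^ 4 * N * N ^ 3 := by
        refine mul_le_mul_of_nonneg_right (h.trans ?_) (by positivity)
        gcongr
    _ = _ := by ring

variable {G : Measure ℝ} [Law G] {θ c : ℝ} {ρ : ℝ × ℝ}

/-- `hm_le_mu`; `rv x = N • (1,θ) + (0, ht θ x)` and `|ht θ x| ≤ √N` -/
theorem hm_sub_le (h : Corner (mu G) θ ρ c) : ∃ C : ℝ, 0 < C ∧ ∀ (N : ℕ) (x : V), Tgt θ N x →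
    hm G x - dot ρ (rv x) ≤ C * (N : ℝ) ^ ((3 : ℝ) / 4) := by
  obtain ⟨C, hC, H⟩ := hm_le_mu G
  obtain ⟨Cu, hCu, Hu⟩ := (mu_ok G).upper
  refine ⟨2 * C + Cu + 2 * ‖ρ‖, by positivity, fun N x hx => ?_⟩
  have hN : (0 : ℝ) ≤ N := Nat.cast_nonneg N
  have hM : 0 ≤ (N : ℝ) ^ ((3 : ℝ) / 4) := Real.rpow_nonneg hN _
  have h1 : (nrm x : ℝ) ^ ((3 : ℝ) / 4) ≤ 2 * (N : ℝ) ^ ((3 : ℝ) / 4) := by
    have h2 : (nrm x : ℝ) ≤ 2 * N := by exact_mod_cast hx.nrm_le h.abs_le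
    refine (Real.rpow_le_rpow (Nat.cast_nonneg _) h2 (by norm_num)).trans ?_
    rw [Real.mul_rpow (by norm_num) hN]
    refine mul_le_mul_of_nonneg_right ?_ hM
    simpa using Real.rpow_le_rpow_of_exponent_le (show (1 : ℝ) ≤ 2 by norm_num)
      (show (3 : ℝ) / 4 ≤ 1 by norm_num)
  have h2 : |ht θ x| ≤ (N : ℝ) ^ ((3 : ℝ) / 4) := by
    refine abs_le_of_sq_le_sq' (hx.2.trans ?_) hM |> abs_le.2
    rw [← Real.rpow_natCast, ← Real.rpow_mul hN]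
    rcases Nat.eq_zero_or_pos N with h0 | h0
    · rw [h0, Nat.cast_zero]; positivity
    · have : (1 : ℝ) ≤ N := by exact_mod_cast h0
      simpa using Real.rpow_le_rpow_of_exponent_le this
        (show (1 : ℝ) ≤ 3 / 4 * ((2 : ℕ) : ℝ) by norm_num)
  have e : rv x = (N : ℝ) • ((1 : ℝ), θ) + ((0 : ℝ), ht θ x) := by
    have : (x.1 : ℝ) = N := by exact_mod_cast hx.1
    simp only [rv, ht, this, Prod.smul_mk, smul_eq_mul, Prod.mk_add_mk, Prod.mk.injEq]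
    constructor <;> ring
  have hn : ‖((0 : ℝ), ht θ x)‖ = |ht θ x| := by simp [Prod.norm_def]
  have h3 := (mu_ok G).add_le ((N : ℝ) • ((1 : ℝ), θ)) ((0 : ℝ), ht θ x)
  rw [← e, (mu_ok G).smul _ _ hN, h.eq] at h3
  have h4 := Hu ((0 : ℝ), ht θ x)
  have h5 := (neg_le_abs _).trans (abs_dot_le ρ ((0 : ℝ), ht θ x))
  rw [hn] at h4 h5
  have h6 : dot ρ (rv x) = N * dot ρ (1, θ) + dot ρ ((0 : ℝ), ht θ x) := by
    rw [e, dot_add, dot_smul]
  have h7 := H x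
  have h8 := mul_le_mul_of_nonneg_left h1 hC.le
  have h9 := mul_le_mul_of_nonneg_left h2 (show 0 ≤ Cu + 2 * ‖ρ‖ by positivity)
  linarith

/-- `irr_le` for the geodesic (a.s. its excess is `T t 0 x - dot ρ (rv x)`, of mean
`≤ C N^(3/4)`), `vis_bound` with `p = C^(1/4) / ℓ^25` for the times with `t ∉ NiceB`, `ue_len`.
With `q = 2^s`: `ℓ/d = q³`, `E/d = C q^(-5)`, and `q³ N^(3/4) ≤ C N / q²` because
`q^20 = ℓ ≤ A N`. -/
theorem hyp_of_corner (h : Corner (mu G) θ ρ c) : ∃ β : ℝ, Hyp G θ β := by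
  obtain ⟨β, c2, C0, hβ0, hβ1, hc2, hC0, H0⟩ := nice_prob h
  obtain ⟨Cv, hCv, Hv⟩ := vis_bound G
  obtain ⟨Cl, hCl, Hl⟩ := ue_len G
  obtain ⟨Ch, hCh, Hh⟩ := hm_sub_le h
  refine ⟨β, h.abs_le, hβ0, hβ1, fun A => ?_⟩
  have hA1 : 1 ≤ max A 1 := le_max_right _ _
  refine ⟨3 * (3 * Cv * (C0 + 1)) + 9 / c2 * (Ch * max A 1 + 3 * C0 * (2 * Cl + max A 1) +
    2 * ‖ρ‖ * (3 * Cv * (C0 + 1))), by positivity, ?_⟩
  filter_upwards [eventually_ge_atTop 1] with N hN x hx s hs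
  have hN1 : (1 : ℝ) ≤ N := by exact_mod_cast hN
  have hN0 : (0 : ℝ) ≤ N := by linarith
  set q : ℝ := 2 ^ s with hq
  have hq1 : 1 ≤ q := one_le_pow₀ (by norm_num)
  have hq0 : 0 < q := by linarith
  have eℓ : (ell s : ℝ) = q ^ 20 := by rw [ell, hq, ← pow_mul, mul_comm]; push_cast; rfl
  have ed : (dd s : ℝ) = q ^ 17 := by rw [dd, hq, ← pow_mul, mul_comm]; push_cast; rfl
  have eE : (2 : ℝ) ^ (12 * s) = q ^ 12 := by rw [hq, ← pow_mul, mul_comm]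
  have e4 : (4 : ℝ) ^ s = q ^ 2 := by rw [hq, ← pow_mul, mul_comm, pow_mul]; norm_num
  have hs' : q ^ 20 ≤ max A 1 * N := by
    rw [← eℓ]; exact hs.trans (mul_le_mul_of_nonneg_right (le_max_left _ _) hN0)
  have hx2 : (nrm x : ℝ) ≤ 2 * N := by exact_mod_cast hx.nrm_le h.abs_le
  have u1 : UE G (fun t => nt (geo t 0 x) fun j =>
      t ∉ NiceB θ ρ β c2 (C0 * 2 ^ (12 * s)) ((geo t 0 x).p j) (ell s))
      (3 * Cv * (C0 + 1) * N / q ^ 440) := by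
    refine (Hv x (ell s) ((C0 + 1) / (ell s : ℝ) ^ 25)
      (fun y => (NiceB θ ρ β c2 (C0 * 2 ^ (12 * s)) y (ell s))ᶜ) (one_le_ell s) (by positivity)
      fun y => ⟨(measurableSet_niceB _ _ _ _ _ _ _).compl, (dep_niceB _ _ _ _ _ _ _).compl,
        (H0 s y).trans ?_⟩).mono (Eventually.of_forall fun t => le_rfl) ?_
    · rw [div_pow, ← pow_mul]
      refine div_le_div_of_nonneg_right ?_ (by positivity)
      exact (show C0 ≤ C0 + 1 by linarith).trans (le_self_pow₀ (by linarith) (by norm_num))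
    · rw [eℓ]
      calc Cv * ((nrm x : ℝ) + 1) * (q ^ 20) ^ 3 * ((C0 + 1) / (q ^ 20) ^ 25)
          ≤ Cv * (3 * N) * (q ^ 20) ^ 3 * ((C0 + 1) / (q ^ 20) ^ 25) := by
            have : (nrm x : ℝ) + 1 ≤ 3 * N := by linarith
            gcongr
        _ = _ := by field_simp
  have u2 : UE G (fun t => T t 0 x - dot ρ (rv x)) (Ch * (N : ℝ) ^ ((3 : ℝ) / 4)) := by
    refine UE.of_integrable ((integrable_T G 0 x).sub (integrable_const _)) ?_
    rw [integral_sub (integrable_T G 0 x) (integrable_const _), integral_const, probReal_univ,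
      one_smul]
    exact Hh N x hx
  have u3 : UE G (fun t => (q ^ 20)⁻¹ * ((geo t 0 x).n : ℝ) + 1) (2 * Cl * N / q ^ 20 + 1) := by
    refine (((Hl x).const_mul (c := (q ^ 20)⁻¹) (by positivity)).add (UE.const 1)).mono
      (Eventually.of_forall fun t => le_rfl) ?_
    have : (q ^ 20)⁻¹ * (Cl * nrm x) ≤ (q ^ 20)⁻¹ * (Cl * (2 * N)) := by gcongr
    refine add_le_add (this.trans (le_of_eq ?_)) le_rfl
    ring
  have u := (u1.const_mul (c := 3 * q ^ 20) (by positivity)).add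
    (((u2.add (u3.const_mul (c := 3 * (C0 * q ^ 12)) (by positivity))).add
      (u1.const_mul (c := 2 * ‖ρ‖ * q ^ 20) (by positivity))).const_mul
      (c := 9 * q ^ 20 / (c2 * q ^ 17)) (by positivity))
  refine u.mono ?_ ?_
  · filter_upwards [ae_geoXZ G] with t ht
    have hg := ht.2 0 x
    have h1 := irr_le (θ := θ) (β := β) (ρ := ρ) hc2
      (show 0 ≤ C0 * 2 ^ (12 * s) by positivity) s ht.1 hg.ok hg.sa
    have h2 : exc ρ (geo t 0 x) t = T t 0 x - dot ρ (rv x) := by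
      rw [exc, hg.tot, hg.2.1, hg.2.2, rv_zero, sub_zero]
    rw [h2, eℓ, ed, div_eq_inv_mul ((geo t 0 x).n : ℝ)] at h1
    rw [← eE]
    exact h1
  · rw [e4]
    exact AHyp_arith hq1 hN0 (by linarith) (by positivity) hCh.le hC0.le (by positivity)
      (norm_nonneg _) hc2 hs' (AHyp_root hq0.le hN0 hA1 hs')

end Crest.Agent.R151.PA
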