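import Crest.Agent.R151.AAvg
import Crest.Agent.R151.AHyp
import Crest.Agent.R151.AGeo

/-! Row 151, part A: the time constant has no corner. -/

set_option autoImplicit false

namespace Crest.Agent.R151.PA

open MeasureTheory ProbabilityTheory Crest.ProbabilityR.FirstPassage Filter
open scoped Classical

theorem AFinal_tele (F : ℕ → ℝ) (C : ℝ) {K : ℕ} (hK : 0 < K) (h : ∀ n, |F (n + 1) - F n| ≤ C) :
    ∃ n, n < K ∧ F (n + 2) + F n - 2 * F (n + 1) ≤ 2 * C / K := by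
  by_contra hc
  push Not at hc
  have h1 := Finset.sum_range_sub (fun n => F (n + 1) - F n) K
  have h2 : ∑ _n ∈ Finset.range K, 2 * C / K <
      ∑ n ∈ Finset.range K, (F (n + 1 + 1) - F (n + 1) - (F (n + 1) - F n)) :=
    Finset.sum_lt_sum_of_nonempty (Finset.nonempty_range_iff.2 hK.ne') fun n hn => by
      have := hc n (Finset.mem_range.1 hn)
      linarith
  rw [h1, Finset.sum_const, Finset.card_range, nsmul_eq_mul,
    mul_div_cancel₀ _ (by exact_mod_cast hK.ne')] at h2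
  have h3 := abs_le.1 (h K)
  have h4 := abs_le.1 (h 0)
  linarith [h3.2, h4.1]

theorem AFinal_ev {a c D : ℝ} (hc : 0 < c) (hD : 0 < D) :
    ∀ᶠ N : ℕ in atTop, a * (N : ℝ) ^ ((3 : ℝ) / 4) < c * (N / D - 1) := by
  have h1 : Tendsto (fun N : ℕ => (N : ℝ) ^ ((1 : ℝ) / 4)) atTop atTop :=
    (tendsto_rpow_atTop (by norm_num)).comp tendsto_natCast_atTop_atTop
  filter_upwards [h1.eventually_ge_atTop 1, h1.eventually_gt_atTop (D * (a + c) / c)] with N h2 h3
  set y := (N : ℝ) ^ ((1 : ℝ) / 4) with hy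
  have hN : (0 : ℝ) ≤ N := Nat.cast_nonneg N
  have e3 : (N : ℝ) ^ ((3 : ℝ) / 4) = y ^ 3 := by
    rw [hy, ← Real.rpow_natCast, ← Real.rpow_mul hN]
    norm_num
  have e4 : (N : ℝ) = y ^ 3 * y := by
    rw [← pow_succ, hy, ← Real.rpow_natCast, ← Real.rpow_mul hN]
    norm_num
  have h4 : 1 ≤ y ^ 3 := one_le_pow₀ h2
  rw [div_lt_iff₀ hc] at h3
  have h5 : a + c < c * (y / D) := by
    rw [← mul_div_assoc, lt_div_iff₀ hD]
    linarith
  rw [e3]
  have e5 : c * ((N : ℝ) / D - 1) = y ^ 3 * (c * (y / D)) - c := by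
    rw [e4]
    ring
  rw [e5]
  nlinarith [mul_lt_mul_of_pos_left h5 (show 0 < y ^ 3 by linarith), mul_le_mul_of_nonneg_left h4 hc.le]

/-- `F n = hm (N, ⌊θ N⌋ + n)`, `|F (n+1) - F n| ≤ C` (`hm_lip`).  Fix `K > 4C/c`; by telescoping some
`n ∈ [1,K]` has `F (n+1) + F (n-1) - 2 F n ≤ 2C/K`.  `multi_bound` with `η = c/4`, `ε = ±1` gives
`F (n+J) + F (n-J) - 2 F n ≤ c J`, while `mu_le_hm`, `Corner.dev`, `hm_sub_le` give
`≥ 2cJ - 2C' N^(3/4)`; `J ≥ N/(4D) - 1`. -/
theorem no_corner (G : Measure ℝ) [Law G] (θ : ℝ) (ρ : ℝ × ℝ) (c : ℝ) :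
    ¬ Corner (mu G) θ ρ c := by
  intro h
  have hc := h.pos
  obtain ⟨β, H⟩ := hyp_of_corner h
  obtain ⟨C, hC, hlip⟩ := hm_lip G
  obtain ⟨C', hC', hsub⟩ := hm_sub_le h
  obtain ⟨K, hK⟩ := exists_nat_gt (4 * C / c)
  have hK0 : (0 : ℝ) < K := lt_trans (by positivity) hK
  obtain ⟨D, hD, hev⟩ := multi_bound H (η := c / 4) (by positivity)
  have hD' : (0 : ℝ) < 4 * D := by
    have : (0 : ℝ) < D := by exact_mod_cast hD
    positivity
  obtain ⟨N, h1, h2, h3⟩ := (hev.and ((AFinal_ev (a := 2 * C') hc hD').and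
    (tendsto_natCast_atTop_atTop.eventually_ge_atTop (((K : ℝ) + 2) ^ 2)))).exists
  set J : ℕ := N / (4 * D) with hJ
  have hJ1 : (N : ℝ) / (4 * D) - 1 ≤ J := by
    have := Nat.lt_floor_add_one ((N : ℝ) / ((4 * D : ℕ) : ℝ))
    rw [Nat.floor_div_eq_div] at this
    push_cast at this
    linarith
  set X : ℕ → V := fun n => ((N : ℤ), ⌊θ * N⌋ + n) with hX
  have hT : ∀ n, n ≤ K + 1 → Tgt θ N (X n) := by
    intro n hn
    refine ⟨rfl, le_trans ?_ h3⟩
    have a1 := Int.floor_le (θ * N)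
    have a2 := Int.lt_floor_add_one (θ * N)
    have a3 : (n : ℝ) ≤ K + 1 := by exact_mod_cast hn
    have a4 : (0 : ℝ) ≤ n := Nat.cast_nonneg n
    refine sq_le_sq' ?_ ?_ <;> simp only [ht, hX] <;> push_cast <;> linarith
  obtain ⟨n, hn, hF⟩ := AFinal_tele (fun n => hm G (X n)) C (by exact_mod_cast hK0) fun n => by
    have e : nrm (X (n + 1) - X n) = 1 := by
      simp [hX, nrm]
    simpa [e] using hlip (X (n + 1)) (X n)
  have e1 : X (n + 1) + (0, 1) = X (n + 2) := by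
    simp only [hX, Prod.mk_add_mk, Prod.mk.injEq]
    push_cast
    constructor <;> ring
  have e2 : X (n + 1) + (0, -1) = X n := by
    simp only [hX, Prod.mk_add_mk, Prod.mk.injEq]
    push_cast
    constructor <;> ring
  have u1 := h1 (X (n + 1)) 1 (by simp) (hT _ (by omega)) (by rw [e1]; exact hT _ (by omega))
  have u2 := h1 (X (n + 1)) (-1) (by simp) (hT _ (by omega)) (by rw [e2]; exact hT _ (by omega))
  rw [e1] at u1
  rw [e2] at u2
  have low : ∀ a : ℤ, dot ρ (rv (X (n + 1))) + ρ.2 * a + c * |ht θ (X (n + 1)) + a| ≤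
      hm G (X (n + 1) + (0, a)) := by
    intro a
    have b1 := mu_le_hm G (X (n + 1) + (0, a))
    have b2 := h.dev (rv (X (n + 1) + (0, a)))
    have b3 : dot ρ (rv (X (n + 1) + (0, a))) = dot ρ (rv (X (n + 1))) + ρ.2 * a := by
      simp only [dot, rv, Prod.fst_add, Prod.snd_add]
      push_cast
      ring
    have b4 : (rv (X (n + 1) + (0, a))).2 - θ * (rv (X (n + 1) + (0, a))).1 =
        ht θ (X (n + 1)) + a := by
      simp only [ht, rv, Prod.fst_add, Prod.snd_add]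
      push_cast
      ring
    rw [b3, b4] at b2
    linarith
  have l1 := low (1 * J)
  have l2 := low (-1 * J)
  have up := hsub N _ (hT (n + 1) (by omega))
  push_cast at l1 l2
  have m1 := mul_le_mul_of_nonneg_left (le_abs_self (ht θ (X (n + 1)) + 1 * (J : ℝ))) hc.le
  have m2 := mul_le_mul_of_nonneg_left (neg_le_abs (ht θ (X (n + 1)) + -1 * (J : ℝ))) hc.le
  have hJ0 : (0 : ℝ) ≤ J := Nat.cast_nonneg J
  have k1 : 2 * C / K ≤ c / 2 := by
    rw [div_lt_iff₀ hc] at hK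
    rw [div_le_iff₀ hK0]
    linarith
  have k2 := mul_le_mul_of_nonneg_left (hF.trans k1) hJ0
  have k3 := mul_le_mul_of_nonneg_left hJ1 hc.le
  nlinarith

end Crest.Agent.R151.PA

namespace Crest.Agent.R151

open MeasureTheory

theorem mu_diff (G : Measure ℝ) [Law G] : ∀ v : ℝ × ℝ, v ≠ 0 → DifferentiableAt ℝ (mu G) v := by
  intro v hv
  by_contra hd
  obtain ⟨θ, ρ, c, h⟩ := PA.exists_corner (mu_ok G) hv hd
  exact PA.no_corner G θ ρ c h

end Crest.Agent.R151
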