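import Crest.Agent.R151.APath

/-! Row 151, part A: counting irregular times (deterministic).

Cut time into the blocks `[aℓ, min ((a+1)ℓ) n]`, `a ≤ n/ℓ`, `ℓ = ell s`.  A block is *light* if
`Ctl θ β (d/3) γ j j'` for all `j ≤ j'` in it.  If the blocks `a-1, a, a+1` are light every time
`i` with `i/ℓ = a` is regular (`Ctl` is additive), so `#irregular ≤ 3ℓ #(non-light blocks)`.
A block whose first point `y` has `t ∈ NiceB … y ℓ` has excess `≥ -E` (all sub-paths stay in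
`box y ℓ`), and `≥ c d/3 - 3E` if it is not light (split it into three sub-paths); any block has
excess `≥ -2‖ρ‖ℓ` (`abs_dot_le`).  The excess is additive over the blocks. -/

set_option autoImplicit false

namespace Crest.Agent.R151.PA

open MeasureTheory ProbabilityTheory Crest.ProbabilityR.FirstPassage Filter
open scoped Classical

theorem Ctl.trans {θ β d d' : ℝ} {γ : Pth} {i j k : ℕ} (h : Ctl θ β d γ i j)
    (h' : Ctl θ β d' γ j k) : Ctl θ β (d + d') γ i k := by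
  refine ⟨?_, by linarith [h.2, h'.2]⟩
  have := abs_add_le (ht θ (γ.p j) - ht θ (γ.p i)) (ht θ (γ.p k) - ht θ (γ.p j))
  rw [show ht θ (γ.p j) - ht θ (γ.p i) + (ht θ (γ.p k) - ht θ (γ.p j)) =
    ht θ (γ.p k) - ht θ (γ.p i) by ring] at this
  linarith [h.1, h'.1]

theorem exc_sub (ρ : ℝ × ℝ) (γ : Pth) (t : Env) {a b : ℕ} (h : a ≤ b) :
    exc ρ (γ.sub a b) t = γ.cost t a b - dot ρ (rv (γ.p b) - rv (γ.p a)) := by
  rw [exc, γ.sub_tot t h, γ.sub_p_last h, γ.sub_p_zero]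

theorem AIrr_add (ρ : ℝ × ℝ) (γ : Pth) (t : Env) {a b c : ℕ} (h : a ≤ b) (h' : b ≤ c) :
    exc ρ (γ.sub a c) t = exc ρ (γ.sub a b) t + exc ρ (γ.sub b c) t := by
  rw [exc_sub ρ γ t h, exc_sub ρ γ t h', exc_sub ρ γ t (h.trans h'), ← γ.cost_add t h h']
  simp only [dot_sub]
  ring

theorem AIrr_sum (ρ : ℝ × ℝ) (γ : Pth) (t : Env) (u : ℕ → ℕ) (hu : Monotone u) (m : ℕ) :
    ∑ a ∈ Finset.range m, exc ρ (γ.sub (u a) (u (a + 1))) t = exc ρ (γ.sub (u 0) (u m)) t := by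
  induction m with
  | zero => simp [exc_sub ρ γ t (le_refl (u 0)), Pth.cost_self, dot]
  | succ m ih =>
    rw [Finset.sum_range_succ, ih,
      ← AIrr_add ρ γ t (hu (Nat.zero_le m)) (hu (Nat.le_succ m))]

theorem AIrr_refl {θ β d : ℝ} (hd : 0 ≤ d) (γ : Pth) (j : ℕ) : Ctl θ β d γ j j := by
  constructor <;> simp [hd]

/-- light blocks -/
def AIrr_Light (θ β d : ℝ) (ℓ : ℕ) (γ : Pth) (a : ℕ) : Prop :=
  ∀ j j', a * ℓ ≤ j → j ≤ j' → j' ≤ (a + 1) * ℓ → j' ≤ γ.n → Ctl θ β d γ j j'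

theorem AIrr_reg {θ β : ℝ} {s : ℕ} {γ : Pth} {i : ℕ}
    (h : ∀ b, (b - 1) * ell s ≤ i → i < (b + 2) * ell s →
      AIrr_Light θ β (dd s / 3) (ell s) γ b) : RegS θ β s γ i := by
  intro j j' h1 h2 h3 h4
  have hℓ : 0 < ell s := one_le_ell s
  have hd : (0 : ℝ) ≤ dd s / 3 := by positivity
  generalize ell s = ℓ at *
  have e1 : i / ℓ * ℓ ≤ i := Nat.div_mul_le_self i ℓ
  have e2 : i < (i / ℓ + 1) * ℓ := by
    rw [mul_comm]; exact Nat.lt_mul_div_succ i hℓ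
  generalize i / ℓ = a at *
  have p1 : (a + 1) * ℓ = a * ℓ + ℓ := by ring
  have p2 : (a + 1 + 1) * ℓ = a * ℓ + ℓ + ℓ := by ring
  have c1 : Ctl θ β (dd s / 3) γ j (max j (min (a * ℓ) j')) := by
    by_cases hj : a * ℓ ≤ j
    · rw [max_eq_left (by omega)]; exact AIrr_refl hd γ j
    · obtain ⟨b, rfl⟩ : ∃ b, a = b + 1 := ⟨a - 1, by
        rcases a with _ | a
        · simp at hj
        · omega⟩
      have q1 : (b + 1) * ℓ = b * ℓ + ℓ := by ring
      have q2 : (b - 1) * ℓ ≤ b * ℓ := Nat.mul_le_mul_right _ (Nat.sub_le _ _)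
      exact h b (by omega) (by rw [show b + 2 = b + 1 + 1 from rfl]; omega) _ _ (by omega)
        (by omega) (by omega) (by omega)
  have c2 : Ctl θ β (dd s / 3) γ (max j (min (a * ℓ) j')) (max j (min ((a + 1) * ℓ) j')) := by
    by_cases hj : max j (min (a * ℓ) j') = max j (min ((a + 1) * ℓ) j')
    · rw [hj]; exact AIrr_refl hd γ _
    · have q2 : (a - 1) * ℓ ≤ a * ℓ := Nat.mul_le_mul_right _ (Nat.sub_le _ _)
      exact h a (by omega) (by rw [show a + 2 = a + 1 + 1 from rfl]; omega) _ _ (by omega)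
        (by omega) (by omega) (by omega)
  have c3 : Ctl θ β (dd s / 3) γ (max j (min ((a + 1) * ℓ) j')) j' := by
    by_cases hj : max j (min ((a + 1) * ℓ) j') = j'
    · rw [hj]; exact AIrr_refl hd γ _
    · have q3 : (a + 1 + 2) * ℓ = a * ℓ + ℓ + ℓ + ℓ := by ring
      exact h (a + 1) (by rw [Nat.add_sub_cancel]; omega) (by omega) _ _ (by omega)
        (by omega) (by omega) (by omega)
  have := (c1.trans c2).trans c3
  rwa [show (dd s : ℝ) / 3 + dd s / 3 + dd s / 3 = dd s by ring] at this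

theorem AIrr_cnt_eq {α : Type} (F : Finset α) (q : α → Prop) [DecidablePred q] :
    cnt F q = ((F.filter q).card : ℝ) := by
  unfold cnt
  congr

theorem AIrr_cnt (θ β : ℝ) (s : ℕ) (γ : Pth) :
    nt γ (fun i => ¬ RegS θ β s γ i) ≤ 3 * ell s * cnt (Finset.range (γ.n / ell s + 1))
      (fun b => ¬ AIrr_Light θ β (dd s / 3) (ell s) γ b) := by
  have hℓ : 0 < ell s := one_le_ell s
  rw [nt, AIrr_cnt_eq, AIrr_cnt_eq]
  have hsub : (Finset.range (γ.n + 1)).filter (fun i => ¬ RegS θ β s γ i) ⊆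
      ((Finset.range (γ.n / ell s + 1)).filter
        (fun b => ¬ AIrr_Light θ β (dd s / 3) (ell s) γ b)).biUnion
        (fun b => Finset.Ico ((b - 1) * ell s) ((b + 2) * ell s)) := by
    intro i hi
    have h2 := (Finset.mem_filter.1 hi).2
    by_contra hc
    refine h2 (AIrr_reg fun b b1 b2 => ?_)
    by_contra hb
    refine hc (Finset.mem_biUnion.2 ⟨b, Finset.mem_filter.2 ⟨Finset.mem_range.2 ?_, hb⟩,
      Finset.mem_Ico.2 ⟨b1, b2⟩⟩)
    by_contra hlt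
    refine hb fun j j' a1 a2 _ a4 => absurd ?_ hlt
    exact Nat.lt_succ_of_le ((Nat.le_div_iff_mul_le hℓ).2 (by omega))
  have h1 := (Finset.card_le_card hsub).trans (Finset.card_biUnion_le_card_mul _ _ (3 * ell s)
    fun b _ => by
      rw [Nat.card_Ico, ← Nat.sub_mul]
      exact Nat.mul_le_mul_right _ (by omega))
  rw [mul_comm] at h1
  exact_mod_cast h1

theorem AIrr_block {θ β c E d : ℝ} {ρ : ℝ × ℝ} (hc : 0 < c) (hE : 0 ≤ E) (hd : 0 ≤ d) {ℓ : ℕ}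
    {t : Env} (ht : NN t) {γ : Pth} (hγ : γ.Ok) (sγ : γ.SA) {a : ℕ} (ha : a * ℓ ≤ γ.n) :
    c * d * (if ¬ AIrr_Light θ β d ℓ γ a then 1 else 0) - 3 * E -
      (c * d + 2 * ‖ρ‖ * ℓ) * (if t ∉ NiceB θ ρ β c E (γ.p (a * ℓ)) ℓ then 1 else 0) ≤
      exc ρ (γ.sub (min (a * ℓ) γ.n) (min ((a + 1) * ℓ) γ.n)) t := by
  rw [min_eq_left ha]
  have p1 : (a + 1) * ℓ = a * ℓ + ℓ := by ring
  have hcd : 0 ≤ c * d := by positivity
  set v := min ((a + 1) * ℓ) γ.n with hv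
  have huv : a * ℓ ≤ v := by omega
  by_cases hN : t ∈ NiceB θ ρ β c E (γ.p (a * ℓ)) ℓ
  · have key : ∀ j j', a * ℓ ≤ j → j ≤ j' → j' ≤ v →
        c * |PA.ht θ (γ.p j') - PA.ht θ (γ.p j)| - E ≤ exc ρ (γ.sub j j') t ∧
        c * (β * ((j' : ℝ) - j) - (((γ.p j').1 : ℝ) - (γ.p j).1)) - E ≤ exc ρ (γ.sub j j') t := by
      intro j j' h1 h2 h3
      have := hN (γ.sub j j') (hγ.sub j (by omega)) (sγ.sub h2 (by omega))
        (Pth.sub_in h2 fun i i1 i2 => by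
          have := hγ.nrm_sub_le (i := a * ℓ) (j := i) (by omega)
          change nrm _ ≤ ℓ
          omega)
      rwa [γ.sub_p_last h2, γ.sub_p_zero, Pth.sub_n, Nat.cast_sub h2] at this
    have low : ∀ j j', a * ℓ ≤ j → j ≤ j' → j' ≤ v → -E ≤ exc ρ (γ.sub j j') t := by
      intro j j' h1 h2 h3
      have := (key j j' h1 h2 h3).1
      have h0 : 0 ≤ c * |PA.ht θ (γ.p j') - PA.ht θ (γ.p j)| := by positivity
      linarith
    rw [if_neg (not_not.2 hN), mul_zero, sub_zero]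
    by_cases hL : AIrr_Light θ β d ℓ γ a
    · rw [if_neg (not_not.2 hL)]
      linarith [low _ _ le_rfl huv le_rfl]
    · rw [if_pos hL]
      simp only [AIrr_Light, not_forall] at hL
      obtain ⟨j, j', h1, h2, h3, h4, h5⟩ := hL
      have h6 : j' ≤ v := by omega
      rw [AIrr_add ρ γ t h1 (h2.trans h6), AIrr_add ρ γ t h2 h6]
      have l1 := low _ _ le_rfl h1 (h2.trans h6)
      have l3 := low _ _ (h1.trans h2) h6 le_rfl
      have l2 : c * d - E ≤ exc ρ (γ.sub j j') t := by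
        obtain ⟨k1, k2⟩ := key j j' h1 h2 h6
        rw [Ctl, not_and_or, not_le, not_le] at h5
        rcases h5 with h5 | h5
        · nlinarith
        · nlinarith
      linarith
  · rw [if_pos hN, exc_sub ρ γ t huv]
    have h1 := γ.cost_nonneg ht (a * ℓ) v
    have h2 := abs_dot_le ρ (rv (γ.p v) - rv (γ.p (a * ℓ)))
    rw [← rv_sub, norm_rv] at h2
    have h3 : (nrm (γ.p v - γ.p (a * ℓ)) : ℝ) ≤ ℓ := by
      have := hγ.nrm_sub_le huv
      exact_mod_cast (by omega : nrm (γ.p v - γ.p (a * ℓ)) ≤ ℓ)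
    have h4 : 2 * ‖ρ‖ * (nrm (γ.p v - γ.p (a * ℓ)) : ℝ) ≤ 2 * ‖ρ‖ * ℓ := by gcongr
    have h5 := le_abs_self (dot ρ (rv (γ.p v - γ.p (a * ℓ))))
    rw [← rv_sub]
    split_ifs <;> linarith

theorem irr_le {θ β c E : ℝ} {ρ : ℝ × ℝ} (hc : 0 < c) (hE : 0 ≤ E) (s : ℕ) {t : Env} (ht : NN t)
    {γ : Pth} (hγ : γ.Ok) (sγ : γ.SA) :
    nt γ (fun i => ¬ RegS θ β s γ i) ≤
      3 * ell s * nt γ (fun j => t ∉ NiceB θ ρ β c E (γ.p j) (ell s)) +
      9 * ell s / (c * dd s) * (exc ρ γ t + 3 * E * (γ.n / ell s + 1) +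
        2 * ‖ρ‖ * ell s * nt γ (fun j => t ∉ NiceB θ ρ β c E (γ.p j) (ell s))) := by
  have hℓ : 0 < ell s := one_le_ell s
  have hd : (0 : ℝ) < dd s := by exact_mod_cast one_le_dd s
  refine (AIrr_cnt θ β s γ).trans ?_
  set ℓ := ell s
  set A := γ.n / ℓ with hA
  have hsum := AIrr_sum ρ γ t (fun a => min (a * ℓ) γ.n)
    (fun a b h => min_le_min (Nat.mul_le_mul_right _ h) le_rfl) (A + 1)
  have hn : γ.n ≤ (A + 1) * ℓ := by
    rw [mul_comm]; exact (Nat.lt_mul_div_succ γ.n hℓ).le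
  simp only [zero_mul, Nat.zero_min, min_eq_right hn, Pth.sub_full] at hsum
  have hle : ∀ a ∈ Finset.range (A + 1), a * ℓ ≤ γ.n := fun a ha =>
    (Nat.le_div_iff_mul_le hℓ).1 (Nat.lt_succ_iff.1 (Finset.mem_range.1 ha))
  have h1 := Finset.sum_le_sum fun a (ha : a ∈ Finset.range (A + 1)) =>
    AIrr_block (θ := θ) (β := β) (ρ := ρ) hc hE (d := dd s / 3) (by positivity) ht hγ sγ (hle a ha)
  rw [hsum, Finset.sum_sub_distrib, Finset.sum_sub_distrib, Finset.sum_const, ← Finset.mul_sum,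
    ← Finset.mul_sum, Finset.sum_boole, Finset.sum_boole, Finset.card_range, nsmul_eq_mul] at h1
  have hB : (((Finset.range (A + 1)).filter
      (fun a => t ∉ NiceB θ ρ β c E (γ.p (a * ℓ)) ℓ)).card : ℝ) ≤
      nt γ (fun j => t ∉ NiceB θ ρ β c E (γ.p j) ℓ) := by
    rw [nt, AIrr_cnt_eq]
    refine Nat.cast_le.2 (Finset.card_le_card_of_injOn (fun a => a * ℓ) (fun a ha => ?_)
      fun a _ b _ h => Nat.eq_of_mul_eq_mul_right hℓ h)
    have ha' := Finset.mem_filter.1 (Finset.mem_coe.1 ha)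
    exact Finset.mem_coe.2 (Finset.mem_filter.2
      ⟨Finset.mem_range.2 (Nat.lt_succ_of_le (hle a ha'.1)), ha'.2⟩)
  have hAr : ((A + 1 : ℕ) : ℝ) ≤ (γ.n : ℝ) / ℓ + 1 := by
    push_cast
    linarith [Nat.cast_div_le (α := ℝ) (m := γ.n) (n := ℓ)]
  set B := nt γ (fun j => t ∉ NiceB θ ρ β c E (γ.p j) ℓ)
  rw [AIrr_cnt_eq]
  set L : ℝ := (((Finset.range (A + 1)).filter
    (fun b => ¬ AIrr_Light θ β (dd s / 3) ℓ γ b)).card : ℝ)
  have h2 : c * (dd s / 3) * L ≤ c * (dd s / 3) * B +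
      (exc ρ γ t + 3 * E * (γ.n / ℓ + 1) + 2 * ‖ρ‖ * ℓ * B) := by
    have e1 := mul_le_mul_of_nonneg_left hB
      (show 0 ≤ c * (dd s / 3) + 2 * ‖ρ‖ * ℓ by positivity)
    have e2 := mul_le_mul_of_nonneg_right hAr (show 0 ≤ 3 * E by positivity)
    linarith
  have h3 := mul_le_mul_of_nonneg_left h2 (show 0 ≤ 9 * (ℓ : ℝ) / (c * dd s) by positivity)
  have e : 9 * (ℓ : ℝ) / (c * dd s) * (c * (dd s / 3)) = 3 * ℓ := by field_simp; ring
  rw [mul_add, ← mul_assoc, ← mul_assoc _ (c * (dd s / 3)) B, e] at h3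
  exact h3

end Crest.Agent.R151.PA
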