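import Crest.Agent.R151.ARep

/-! Row 151, part A: locality of a single slip, deterministic alternative.

Notation: `t' = slip {k} ε b t`, `c = k - m`, `c' = c + d + 1`, `c'' = k - 2m`, `d = dd s1`.
All radii in `Zs` are `≤ L`.  After its first visit to `c'` each path stays in columns `> c`. -/

set_option autoImplicit false

namespace Crest.Agent.R151.PA

open MeasureTheory ProbabilityTheory Crest.ProbabilityR.FirstPassage Filter
open scoped Classical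

variable {G : Measure ℝ} [Law G] {θ β L : ℝ} {s1 m N : ℕ} {k ε b : ℤ} {x : V} {t : Env}
  {γ γ' : Pth}

theorem ALL_rad_le {K : Finset ℤ} (hZ : Zs G K ε b k γ t ≤ L) {i : ℕ} (hi : i ≤ γ.n)
    (hc : AtCut k (γ.p i)) : (srad G K ε b t (γ.p i) : ℝ) ≤ L := by
  have h1 := (le_Zs G K ε b t hi hc).trans hZ
  have h2 : srad G K ε b t (γ.p i) ≤ 8 * srad G K ε b t (γ.p i) ^ 3 :=
    (Nat.le_self_pow (by norm_num) _).trans (Nat.le_mul_of_pos_left _ (by norm_num))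
  have h3 : (srad G K ε b t (γ.p i) : ℝ) ≤ 8 * (srad G K ε b t (γ.p i) : ℝ) ^ 3 := by
    exact_mod_cast h2
  exact h3.trans h1

theorem ALL_cost (ε b : ℤ) (t : Env) (hγ : γ.Ok) {i : ℕ} (hi : i ≤ γ.n)
    (h : ∀ l, l ≤ i → (γ.p l).1 ≤ k) : γ.cost (slip {k} ε b t) 0 i = γ.cost t 0 i :=
  γ.cost_congr fun l _ hl => slip_left ε b t (hγ l (by omega)) (h l hl.le) (h (l + 1) hl)

/-- The repaired `γ'`: its prefix up to `i' = fv γ' c'` (same cost in `t` and `t'`, `slip_left`)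
followed by the path given by `repair` (environment `t'`, slip `(-ε, -b)`, `slip_slip`,
`D = {z | c < z.1}`); `T_slip_le` bounds `T t' 0 x'`. -/
theorem exists_twin (hε : |ε| ≤ 1) (hβ : 0 ≤ β) (ht : Typ G t) (ht' : Typ G (slip {k} ε b t))
    (hx : x.1 = N) (hk : k ∈ cuts N) (hm : L + dd s1 + 2 ≤ m) (hN : 8 * m ≤ N)
    (hγ : GeoXZ t 0 x γ) (hγ' : GeoXZ (slip {k} ε b t) 0 (x + (0, ε)) γ')
    (hZ : Zs G {k} ε b k γ t ≤ L) (hZ' : Zs G {k} (-ε) (-b) k γ' (slip {k} ε b t) ≤ L)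
    (g : Gt θ β s1 γ' (fv γ' (k - (m - dd s1 - 1)))) :
    ∃ δ, Gap t x (2 * L) δ ∧ (∃ j, j ≤ δ.n ∧ δ.p j = γ'.p (fv γ' (k - m))) ∧
      ∀ j, j ≤ δ.n → (δ.p j).1 ≤ k - m → ∃ j', j' ≤ γ'.n ∧ δ.p j = γ'.p j' := by
  obtain ⟨hk1, hk2⟩ := mem_cuts.1 hk
  have hL : 0 ≤ L := (Zs_nonneg G _ _ _ _ _ _).trans hZ
  have hd := one_le_dd s1
  have hm' : dd s1 + 2 ≤ m := by
    have : ((dd s1 + 2 : ℕ) : ℝ) ≤ m := by push_cast; linarith
    exact_mod_cast this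
  have h0 : (γ'.p 0).1 = 0 := by rw [hγ'.2.1]; rfl
  have hn : (γ'.p γ'.n).1 = N := by rw [hγ'.2.2, Prod.fst_add, hx, add_zero]
  obtain ⟨-, a1, a2, a3⟩ := fv_spec hγ'.ok (c := k - (m - dd s1 - 1)) (j := γ'.n)
    (by omega) (by omega)
  have a4 := fv_mono hγ'.ok (c := k - m) (c' := k - (m - dd s1 - 1)) (j := γ'.n) (by omega)
    (by omega) (by omega)
  set i := fv γ' (k - (m - dd s1 - 1)) with hi
  have hcol : ∀ l, l ≤ i → (γ'.p l).1 ≤ k := fun l hl => by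
    rcases hl.eq_or_lt with rfl | hl
    · omega
    · have := a3 l hl
      omega
  have h := repair (G := G) (K := {k}) (ε := -ε) (b := -b) (t := slip {k} ε b t) (γ := γ')
    (D := {z | k - m < z.1}) (i0 := i) (by rwa [abs_neg]) ht'.nn (by rw [slip_slip]; exact ht.2)
    hγ'.ok a1 (fun l hl _ => by
      have := g.col_ge hβ a1 hl
      show k - m < (γ'.p l).1
      omega) (fun k' hk' l _ hl hc => by
      rw [Finset.mem_singleton.1 hk'] at hc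
      have h1 := ALL_rad_le hZ' hl hc
      have h1' : srad G {k} (-ε) (-b) (slip {k} ε b t) (γ'.p l) + dd s1 + 2 ≤ m := by
        have : ((srad G {k} (-ε) (-b) (slip {k} ε b t) (γ'.p l) + dd s1 + 2 : ℕ) : ℝ) ≤ m := by
          push_cast; linarith
        exact_mod_cast this
      have h2 := abs_fst_le_nrm_slV {k} (-ε) (γ'.p i) (γ'.p l)
      have h3 := abs_fst_le_nrm_slV {k} (-ε) (γ'.p γ'.n) (γ'.p l)
      rw [abs_le] at h2 h3
      refine ⟨fun z hz => ?_, ?_, ?_⟩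
      · have h4 := ((nrm_le_iff _ _).1 hz).1
        rw [Prod.fst_sub, slV_fst, abs_le] at h4
        show k - m < z.1
        rcases hc with hc | hc <;> omega
      · rcases hc with hc | hc <;> omega
      · rcases hc with hc | hc <;> omega)
  have e1 : slV {k} (-ε) (γ'.p i) = γ'.p i := slV_left (by simpa using hcol i le_rfl)
  have e2 : slV {k} (-ε) (γ'.p γ'.n) = x := by
    rw [slV_right fun k' hk' => by rw [Finset.mem_singleton.1 hk']; omega, hγ'.2.2]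
    ext <;> simp
  rw [slip_slip, e1, e2, Finset.sum_singleton] at h
  obtain ⟨η, hη, hη'⟩ := h
  have hP := Pth.sub_joins (D := Set.univ) hγ'.ok (Nat.zero_le i) a1 fun _ _ _ => trivial
  rw [hγ'.2.1] at hP
  have hj : (γ'.sub 0 i).p (γ'.sub 0 i).n = η.p 0 := hP.2.2.2.trans hη.2.2.1.symm
  have hl : ∀ l, l ≤ i → ((γ'.sub 0 i).app η).p l = γ'.p l := fun l hl => by
    rw [Pth.app_p_left _ _ (show l ≤ (γ'.sub 0 i).n from hl), Pth.sub_p _ _ _ hl, zero_add]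
  refine ⟨(γ'.sub 0 i).app η, ⟨hP.app (hη.mono (Set.subset_univ _)), ?_⟩,
    ⟨_, a4.trans (Nat.le_add_right i η.n), hl _ a4⟩, fun j hj1 hj2 => ?_⟩
  · have hN' : (8 : ℝ) * m ≤ N := by exact_mod_cast hN
    have hd' : (1 : ℝ) ≤ dd s1 := by exact_mod_cast hd
    have b1 := T_slip_le hε ht.nn ht'.2 hγ hx hk (by
      have : (1 : ℝ) < N := by linarith
      have : (N : ℝ) < (N : ℝ) ^ 3 := by
        nlinarith [mul_pos (show (0 : ℝ) < N by linarith) (show (0 : ℝ) < N ^ 2 - 1 by nlinarith)]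
      linarith)
    have b2 := γ'.cost_add (slip {k} ε b t) (Nat.zero_le i) a1
    have b3 : γ'.cost (slip {k} ε b t) 0 γ'.n = _ := hγ'.tot
    rw [Pth.app_tot hj, Pth.sub_tot _ _ (Nat.zero_le i), ← ALL_cost ε b t hγ'.ok a1 hcol]
    linarith
  · rcases le_total j i with hji | hji
    · exact ⟨j, hji.trans a1, hl j hji⟩
    · obtain ⟨l, rfl⟩ := Nat.exists_eq_add_of_le hji
      have b1 : ((γ'.sub 0 i).app η).p (i + l) = η.p l := Pth.app_p_right hj l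
      have b2 : k - m < (η.p l).1 := hη.2.1 l (Nat.le_of_add_le_add_left hj1)
      rw [b1] at hj2
      omega

/-- A common point in the columns `[c'', c]`: both prefixes stay left of `c'`, read the same
weights in `t` and `t'`, so both are `t`-geodesics and coincide (`IsGeo.unique`); take
`i = fv γ c'' = fv γ' c''` (`fv_congr`, `Gt.col_ge`). -/
theorem ll_of_common (hβ : 0 ≤ β) (ht : Nice G t) (hx : x.1 = N) (hk : k ∈ cuts N)
    (hm : dd s1 + 2 ≤ m) (hN : 8 * m ≤ N) (hγ : GeoXZ t 0 x γ)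
    (hγ' : GeoXZ (slip {k} ε b t) 0 (x + (0, ε)) γ')
    (g1 : Gt θ β s1 γ (fv γ (k - 2 * m))) (g2 : Gt θ β s1 γ (fv γ (k - (m - dd s1 - 1))))
    (g1' : Gt θ β s1 γ' (fv γ' (k - 2 * m))) (g2' : Gt θ β s1 γ' (fv γ' (k - (m - dd s1 - 1))))
    {j j' : ℕ} (hj : j ≤ γ.n) (hj' : j' ≤ γ'.n) (he : γ'.p j' = γ.p j)
    (h1 : k - 2 * m ≤ (γ.p j).1) (h2 : (γ.p j).1 ≤ k - m) : LL k (2 * m + dd s1) γ γ' := by
  obtain ⟨hk1, hk2⟩ := mem_cuts.1 hk
  have hnn : NN t := Nice.nn G ht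
  have hnn' : NN (slip {k} ε b t) := (nn_slip _ _ _ _).2 hnn
  have pre : ∀ {δ : Pth}, δ.Ok → δ.p 0 = 0 → (δ.p δ.n).1 = N →
      Gt θ β s1 δ (fv δ (k - (m - dd s1 - 1))) → ∀ {j : ℕ}, (δ.p j).1 ≤ k - m →
      ∀ l, l ≤ j → (δ.p l).1 ≤ k := by
    intro δ hδ h0 hn g j hj l hl
    have h0' : (δ.p 0).1 = 0 := by rw [h0]; rfl
    obtain ⟨-, a1, a2, a3⟩ := fv_spec hδ (c := k - (m - dd s1 - 1)) (j := δ.n) (by omega) (by omega)
    by_cases hlt : j < fv δ (k - (m - dd s1 - 1))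
    · have := a3 l (by omega)
      omega
    · have := g.col_ge hβ a1 (not_lt.1 hlt)
      omega
  have c1 := pre hγ.ok hγ.2.1 (by rw [hγ.2.2, hx]) g2 h2
  have c2 := pre hγ'.ok hγ'.2.1 (by rw [hγ'.2.2, Prod.fst_add, hx, add_zero]) g2' (j := j')
    (by rwa [he])
  have p1 := hγ.1.sub hnn (Nat.zero_le j) hj
  have p2 := hγ'.1.sub hnn' (Nat.zero_le j') hj'
  have e0 : (γ.sub 0 j).p 0 = (γ'.sub 0 j').p 0 := by
    rw [Pth.sub_p_zero, Pth.sub_p_zero, hγ.2.1, hγ'.2.1]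
  have e1 : (γ.sub 0 j).p (γ.sub 0 j).n = (γ'.sub 0 j').p (γ'.sub 0 j').n := by
    rw [Pth.sub_p_last _ (Nat.zero_le _), Pth.sub_p_last _ (Nat.zero_le _), he]
  have p3 : IsGeo Set.univ t (γ'.sub 0 j') := by
    refine ⟨p2.1, p2.2.1, p2.2.2.1, le_antisymm ?_ (TD_le hnn p2.joins)⟩
    have b1 := p1.2.2.2
    have b2 := p2.2.2.2
    have b3 := TD_le hnn' p1.joins
    rw [← e0, ← e1] at b2 ⊢
    rw [Pth.sub_tot _ _ (Nat.zero_le _)] at b1 b2 b3 ⊢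
    rw [ALL_cost ε b t hγ'.ok hj' c2] at b2
    rw [ALL_cost ε b t hγ.ok hj c1] at b3
    linarith
  have e := IsGeo.unique (Set.mem_singleton 0) ht.2 p1 p3 e0 e1
  obtain rfl : j = j' := congrArg Pth.n e
  have e2 : ∀ l, l ≤ j → γ'.p l = γ.p l := fun l hl => by
    have := congrArg (fun δ : Pth => δ.p l) e
    simp only [Pth.sub_p _ 0 j hl, zero_add] at this
    exact this.symm
  have h0 : (γ.p 0).1 = 0 := by rw [hγ.2.1]; rfl
  obtain ⟨a0, a1, a2, -⟩ := fv_spec hγ.ok (c := k - 2 * m) (j := j) (by omega) h1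
  rw [fv_congr hγ.ok (by omega) h1 e2] at g1'
  refine ⟨_, a1, a0.trans hj', fun l hl => ⟨e2 l (hl.trans a0), c1 l (hl.trans a0)⟩,
    fun l hl => ?_⟩
  have b1 := g1.col_ge hβ a1 hl
  have b2 := g1'.col_ge hβ (a0.trans hj') hl
  rw [e2 _ a0] at b2
  push_cast
  constructor <;> omega

/-- No common point: compare the heights of the first visits of `γ, γ'` to column `c`.  If they
differ by `≥ 2w` the twin avoids the band (`Gt.tube` for `γ'`, `abs_sub_anchor`), else `Near`. -/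
theorem ll_cases (hε : |ε| ≤ 1) (hβ : 0 ≤ β) (ht : Typ G t) (ht' : Typ G (slip {k} ε b t))
    (hx : x.1 = N) (hk : k ∈ cuts N) (hm : L + dd s1 + 2 ≤ m) (hN : 8 * m ≤ N)
    (hγ : GeoXZ t 0 x γ) (hγ' : GeoXZ (slip {k} ε b t) 0 (x + (0, ε)) γ')
    (hZ : Zs G {k} ε b k γ t ≤ L) (hZ' : Zs G {k} (-ε) (-b) k γ' (slip {k} ε b t) ≤ L)
    (g1 : Gt θ β s1 γ (fv γ (k - 2 * m))) (g2 : Gt θ β s1 γ (fv γ (k - (m - dd s1 - 1))))
    (g1' : Gt θ β s1 γ' (fv γ' (k - 2 * m))) (g2' : Gt θ β s1 γ' (fv γ' (k - (m - dd s1 - 1))))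
    (g3' : Gt θ β s1 γ' (fv γ' (k - m))) :
    LL k (2 * m + dd s1) γ γ' ∨ Far θ s1 (2 * L) x γ t (k - m) ∨
      Near s1 (2 * L) m x γ t (k - m) := by
  obtain ⟨hk1, hk2⟩ := mem_cuts.1 hk
  have hL : 0 ≤ L := (Zs_nonneg G _ _ _ _ _ _).trans hZ
  have hm' : dd s1 + 2 ≤ m := by
    have : ((dd s1 + 2 : ℕ) : ℝ) ≤ m := by push_cast; linarith
    exact_mod_cast this
  by_cases hc : ∃ j j', j ≤ γ.n ∧ j' ≤ γ'.n ∧ γ'.p j' = γ.p j ∧ k - 2 * m ≤ (γ.p j).1 ∧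
      (γ.p j).1 ≤ k - m
  · obtain ⟨j, j', a1, a2, a3, a4, a5⟩ := hc
    exact Or.inl (ll_of_common hβ ht.1 hx hk hm' hN hγ hγ' g1 g2 g1' g2' a1 a2 a3 a4 a5)
  right
  obtain ⟨δ, hδ, ⟨j0, hj0, hj0'⟩, hback⟩ := exists_twin hε hβ ht ht' hx hk hm hN hγ hγ' hZ hZ' g2'
  have h0 : (γ.p 0).1 = 0 := by rw [hγ.2.1]; rfl
  have h0' : (γ'.p 0).1 = 0 := by rw [hγ'.2.1]; rfl
  have hn : (γ.p γ.n).1 = N := by rw [hγ.2.2, hx]
  have hn' : (γ'.p γ'.n).1 = N := by rw [hγ'.2.2, Prod.fst_add, hx, add_zero]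
  obtain ⟨-, -, a1, -⟩ := fv_spec hγ.ok (c := k - m) (j := γ.n) (by omega) (by omega)
  obtain ⟨-, -, a2, -⟩ := fv_spec hγ'.ok (c := k - m) (j := γ'.n) (by omega) (by omega)
  by_cases hnear : nrm (γ'.p (fv γ' (k - m)) - γ.p (fv γ (k - m))) ≤ 2 * ww s1
  · refine Or.inr ⟨δ, hδ, ⟨j0, hj0, by rwa [hj0']⟩, fun j hj l hl b1 b2 e => ?_⟩
    obtain ⟨j', hj', e'⟩ := hback j hj (by rwa [e])
    exact hc ⟨l, j', hl, hj', e'.symm.trans e, by omega, b2⟩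
  · refine Or.inl ⟨δ, hδ, ?_⟩
    rintro ⟨j, hj, hb⟩
    obtain ⟨b1, b2, b3⟩ := mem_band.1 hb
    obtain ⟨j', hj', e'⟩ := hback j hj b2
    rw [e'] at b1 b2 b3
    have b4 := g3'.tube s1 le_rfl j' hj' (by rw [a2, abs_le]; constructor <;> omega)
    have b5 := abs_sub_anchor θ s1 (γ.p (fv γ (k - m)))
    have b6 := ht_sub_of_col (θ := θ) (a2.trans a1.symm)
    have hw : (0 : ℝ) ≤ ww s1 := Nat.cast_nonneg _
    refine hnear ((nrm_le_iff _ _).2 ⟨?_, ?_⟩)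
    · rw [Prod.fst_sub, a1, a2, sub_self, abs_zero]
      exact Nat.cast_nonneg _
    · have : |(((γ'.p (fv γ' (k - m))).2 : ℝ) - (γ.p (fv γ (k - m))).2)| ≤ 2 * (ww s1 : ℝ) := by
        rw [← b6]
        rw [abs_le] at b3 b4 b5 ⊢
        constructor <;> linarith [b3.1, b3.2, b4.1, b4.2, b5.1, b5.2]
      rw [Prod.snd_sub]
      exact_mod_cast this

end Crest.Agent.R151.PA
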