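import Crest.Agent.R151.APath
import Crest.Agent.R151.TConc

/-! Row 151, part A: from regularity at all scales to good times. -/

set_option autoImplicit false

namespace Crest.Agent.R151.PA

open MeasureTheory ProbabilityTheory Crest.ProbabilityR.FirstPassage Filter
open scoped Classical

theorem AReg_scale (s1 m : ℕ) : ∃ s, s1 ≤ s ∧ m ≤ ell s ∧
    (s = s1 ∨ ∃ s', s = s' + 1 ∧ s1 ≤ s' ∧ ell s' < m) := by
  have hex : ∃ r, m ≤ ell (s1 + r) := ⟨m, (lt_ell m).le.trans (ell_mono (Nat.le_add_left _ _))⟩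
  refine ⟨s1 + Nat.find hex, Nat.le_add_right _ _, Nat.find_spec hex, ?_⟩
  rcases Nat.eq_zero_or_pos (Nat.find hex) with h | h
  · exact Or.inl (by omega)
  · refine Or.inr ⟨s1 + (Nat.find hex - 1), by omega, Nat.le_add_right _ _, ?_⟩
    exact not_le.1 (Nat.find_min hex (by omega))

theorem AReg_dd_add (s b : ℕ) : dd (s + b) = 2 ^ (17 * b) * dd s := by
  unfold dd
  rw [← pow_add]
  congr 1
  ring

theorem AReg_ell_add (s b : ℕ) : ell (s + b) = 2 ^ (20 * b) * ell s := by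
  unfold ell
  rw [← pow_add]
  congr 1
  ring

theorem AReg_geom (s1 k : ℕ) :
    ∑ r ∈ Finset.range k, (1 : ℝ) / 4 ^ (s1 + r) + 2 / 4 ^ (s1 + k) ≤ 2 / 4 ^ s1 := by
  induction k with
  | zero => simp
  | succ k ih =>
    rw [Finset.sum_range_succ, ← add_assoc s1 k 1, pow_succ]
    have h : (0 : ℝ) < 4 ^ (s1 + k) := by positivity
    have h1 : (2 : ℝ) / (4 ^ (s1 + k) * 4) = (1 / 2) * (1 / 4 ^ (s1 + k)) := by
      field_simp
      norm_num
    have h2 : (2 : ℝ) / 4 ^ (s1 + k) = 2 * (1 / 4 ^ (s1 + k)) := by ring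
    have h3 : (0 : ℝ) ≤ 1 / 4 ^ (s1 + k) := by positivity
    rw [h1]
    rw [h2] at ih
    linarith

/-- For `m = |j - i| > ell s1` take the least `s` with `m ≤ ell s`: `dd s ≤ β ell (s-1) / 2 ≤ β m/2`
once `2^18 ≤ β 8^s1`.  Tube: `fwd/bwd` give `β |j - i| / 2 ≤ 2 ell s`, so `|j - i| ≤ ell (s + b)`
when `4 ≤ β 2^(20 b)`, and `dd (s + b) ≤ ww s / 4` once `2^(17 b + 2) ≤ 2^s1`. -/
theorem gt_of_reg {β : ℝ} (hβ : 0 < β) : ∃ s0 : ℕ, ∀ s1, s0 ≤ s1 → ∀ (θ : ℝ) (γ : Pth) (i : ℕ),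
    i ≤ γ.n → (∀ s, s1 ≤ s → RegS θ β s γ i) → Gt θ β s1 γ i := by
  obtain ⟨b, hb⟩ : ∃ b : ℕ, 4 ≤ β * 2 ^ (20 * b) := by
    obtain ⟨b, hb⟩ := pow_unbounded_of_one_lt (4 / β) (show (1 : ℝ) < 2 by norm_num)
    refine ⟨b, ?_⟩
    rw [div_lt_iff₀ hβ] at hb
    have : (2 : ℝ) ^ b ≤ 2 ^ (20 * b) := pow_le_pow_right₀ (by norm_num) (by omega)
    nlinarith
  obtain ⟨a, ha⟩ : ∃ a : ℕ, 2 ^ 18 ≤ β * 8 ^ a := by
    obtain ⟨a, ha⟩ := pow_unbounded_of_one_lt (2 ^ 18 / β) (show (1 : ℝ) < 8 by norm_num)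
    refine ⟨a, ?_⟩
    rw [div_lt_iff₀ hβ] at ha
    linarith
  refine ⟨max a (17 * b + 2), fun s1 hs1 θ γ i hi h => ?_⟩
  have hA : ∀ j j', j ≤ j' → j' ≤ γ.n → (i = j ∨ i = j') →
      β / 2 * ((j' : ℝ) - j) - dd s1 ≤ ((γ.p j').1 : ℝ) - (γ.p j).1 := by
    intro j j' hj hj' hij
    obtain ⟨s, hs, hm, hc⟩ := AReg_scale s1 (j' - j)
    have h1 := (h s hs j j' (by omega) hj (by omega) hj').2
    have h2 : (0 : ℝ) ≤ (j' : ℝ) - j := sub_nonneg.2 (by exact_mod_cast hj)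
    have h3 : 0 ≤ β * ((j' : ℝ) - j) := mul_nonneg hβ.le h2
    rcases hc with rfl | ⟨s', rfl, hs', hlt⟩
    · linarith
    · have h4 : (ell s' : ℝ) ≤ (j' : ℝ) - j := by
        rw [← Nat.cast_sub hj]
        exact_mod_cast hlt.le
      rw [ell_eq_dd] at h4
      rw [dd_succ] at h1
      push_cast at h1 h4
      have h5 : (8 : ℝ) ^ a ≤ 8 ^ s' := pow_le_pow_right₀ (by norm_num) (by omega)
      have h6 : (0 : ℝ) ≤ dd s' := Nat.cast_nonneg _
      have h7 : (0 : ℝ) ≤ dd s1 := Nat.cast_nonneg _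
      have h8 : (2 : ℝ) ^ 18 ≤ β * 8 ^ s' := ha.trans (mul_le_mul_of_nonneg_left h5 hβ.le)
      have h9 : (2 : ℝ) ^ 18 * dd s' ≤ β * ((j' : ℝ) - j) :=
        calc (2 : ℝ) ^ 18 * dd s' ≤ β * 8 ^ s' * dd s' := mul_le_mul_of_nonneg_right h8 h6
          _ = β * (8 ^ s' * dd s') := by ring
          _ ≤ _ := mul_le_mul_of_nonneg_left h4 hβ.le
      norm_num at h9
      linarith
  refine ⟨fun j hj hj' => hA i j hj hj' (Or.inl rfl), fun j hj => hA j i hj hi (Or.inr rfl),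
    fun s hs j hj hc => ?_⟩
  have hc' : |((γ.p j).1 : ℝ) - (γ.p i).1| ≤ ell s := by exact_mod_cast hc
  have hde : (dd s1 : ℝ) ≤ ell s := by
    have : dd s1 ≤ ell s := (dd_mono hs).trans (by
      rw [ell_eq_dd]
      exact Nat.le_mul_of_pos_left _ (by positivity))
    exact_mod_cast this
  have hB : ∀ j j' : ℕ, j ≤ j' → β / 2 * ((j' : ℝ) - j) - dd s1 ≤ ell s → j' ≤ j + ell (s + b) := by
    intro j j' _ h1
    have h2 : (0 : ℝ) ≤ ell s := Nat.cast_nonneg _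
    have h3 : β * ((j' : ℝ) - j) ≤ β * (2 ^ (20 * b) * ell s) := by
      have := mul_le_mul_of_nonneg_right hb h2
      linarith
    have h4 := le_of_mul_le_mul_left h3 hβ
    have h5 : (j' : ℝ) ≤ j + (ell (s + b) : ℕ) := by
      rw [AReg_ell_add]
      push_cast
      linarith
    exact_mod_cast h5
  have hd : (dd (s + b) : ℝ) ≤ (ww s : ℝ) / 4 := by
    rw [AReg_dd_add, ww_eq_dd]
    push_cast
    have h1 : (2 : ℝ) ^ (17 * b + 2) ≤ 2 ^ s := pow_le_pow_right₀ (by norm_num) (by omega)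
    rw [pow_add] at h1
    have h2 : (0 : ℝ) ≤ dd s := Nat.cast_nonneg _
    nlinarith
  have hr := h (s + b) (by omega)
  rcases le_total i j with hij | hij
  · have h1 := hB i j hij ((hA i j hij hj (Or.inl rfl)).trans ((le_abs_self _).trans hc'))
    exact (hr i j (by omega) hij h1 hj).1.trans hd
  · have h1 := hB j i hij ((hA j i hij hi (Or.inr rfl)).trans (by
      rw [abs_sub_comm] at hc'
      exact (le_abs_self _).trans hc'))
    rw [abs_sub_comm]
    exact (hr j i h1 hij (by omega) hi).1.trans hd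

theorem regS_of_top {θ β : ℝ} {s s' : ℕ} {γ : Pth} {i : ℕ} (hn : γ.n ≤ ell s) (hs : s ≤ s')
    (hi : i ≤ γ.n) (h : RegS θ β s γ i) : RegS θ β s' γ i := by
  intro j j' _ h2 _ h4
  obtain ⟨h5, h6⟩ := h j j' (by omega) h2 (by omega) h4
  have : (dd s : ℝ) ≤ dd s' := by exact_mod_cast dd_mono hs
  exact ⟨h5.trans this, by linarith⟩

/-- Let `C1` be as in `geo_long` and `top` the least `s ≥ s1` with `C1 nrm x ≤ ell s`
(`ell top ≤ 2^21 C1 N` for large `N`).  The bad times are at most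
`∑_{s1 ≤ s ≤ top} #irregular(s) + 2 n 1{n > C1 nrm x}`, and `∑_{s ≥ s1} C/4^s ≤ 2C/4^s1`. -/
theorem gt_bound {G : Measure ℝ} [Law G] {θ β : ℝ} (H : Hyp G θ β) {η : ℝ} (hη : 0 < η) :
    ∃ s0 : ℕ, ∀ s1, s0 ≤ s1 → ∀ᶠ N : ℕ in atTop, ∀ x, Tgt θ N x →
      UE G (fun t => nt (geo t 0 x) fun i => ¬ Gt θ β s1 (geo t 0 x) i) (η * N) := by
  obtain ⟨s0, hs0⟩ := gt_of_reg H.pos
  obtain ⟨C1, C, hC1, hC, hlong⟩ := geo_long G
  obtain ⟨C0, -, hlen⟩ := geo_len_L1 G
  obtain ⟨D, hD, hirr⟩ := H.irr (2 ^ 21 * C1)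
  obtain ⟨a, ha⟩ := pow_unbounded_of_one_lt (4 * D / η) (show (1 : ℝ) < 4 by norm_num)
  refine ⟨max s0 a, fun s1 hs1 => ?_⟩
  have hT : Tendsto (fun N : ℕ => (2 * (N : ℝ)) ^ (-(2 / 5 : ℝ))) atTop (nhds 0) :=
    (tendsto_rpow_neg_atTop (by norm_num)).comp
      (tendsto_natCast_atTop_atTop.const_mul_atTop (by norm_num))
  filter_upwards [hirr, eventually_ge_atTop (ell s1),
    hT.eventually_lt_const (show 0 < η / (8 * C) by positivity)] with N hN hN1 hN2 x hx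
  have hN0 : (1 : ℝ) ≤ N := by exact_mod_cast (one_le_ell s1).trans hN1
  have hC1' : (1 : ℝ) ≤ C1 := by exact_mod_cast hC1
  have hxN : nrm x ≤ 2 * N := hx.nrm_le H.abs_le
  obtain ⟨top, htop, hle, hc⟩ := AReg_scale s1 (C1 * nrm x)
  have htopA : (ell top : ℝ) ≤ 2 ^ 21 * C1 * N := by
    have : ell top ≤ 2 ^ 21 * C1 * N := by
      rcases hc with rfl | ⟨s', rfl, -, hlt⟩
      · exact hN1.trans (Nat.le_mul_of_pos_left _ (by positivity))
      · rw [ell_succ]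
        calc 2 ^ 20 * ell s' ≤ 2 ^ 20 * (C1 * (2 * N)) :=
              Nat.mul_le_mul_left _ (hlt.le.trans (Nat.mul_le_mul_left _ hxN))
          _ = 2 ^ 21 * C1 * N := by ring
    exact_mod_cast this
  have h1 : UE G (fun t => ∑ r ∈ Finset.range (top - s1 + 1),
      nt (geo t 0 x) fun i => ¬ RegS θ β (s1 + r) (geo t 0 x) i)
      (∑ r ∈ Finset.range (top - s1 + 1), D * N / 4 ^ (s1 + r)) := by
    refine UE.sum _ fun r hr => hN x hx (s1 + r) (le_trans ?_ htopA)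
    have := Finset.mem_range.1 hr
    exact_mod_cast ell_mono (show s1 + r ≤ top by omega)
  have hm : MeasurableSet {t | C1 * nrm (x - 0) < (geo t 0 x).n} := by
    have := measurableSet_lt (measurable_const (a := ((C1 * nrm (x - 0) : ℕ) : ℝ)))
      (measurable_geo_fun 0 x fun γ => (γ.n : ℝ))
    simpa only [Nat.cast_lt] using this
  have h2 : UE G ({t | C1 * nrm (x - 0) < (geo t 0 x).n}.indicator fun t => ((geo t 0 x).n : ℝ))
      (C * (nrm (x - 0) : ℝ) ^ ((3 : ℝ) / 5)) :=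
    UE.of_integrable ((hlen 0 x).1.indicator hm) (by
      rw [integral_indicator hm]
      exact hlong 0 x)
  refine (h1.add (h2.const_mul (show (0 : ℝ) ≤ 2 by norm_num))).mono
    (Eventually.of_forall fun t => ?_) ?_
  · have hs : 0 ≤ ∑ r ∈ Finset.range (top - s1 + 1),
        nt (geo t 0 x) fun i => ¬ RegS θ β (s1 + r) (geo t 0 x) i :=
      Finset.sum_nonneg fun r _ => nt_nonneg _ _
    by_cases hl : C1 * nrm (x - 0) < (geo t 0 x).n
    · rw [Set.indicator_of_mem (show t ∈ {t | C1 * nrm (x - 0) < (geo t 0 x).n} from hl)]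
      have h3 := nt_le (geo t 0 x) fun i => ¬ Gt θ β s1 (geo t 0 x) i
      have h4 : (1 : ℝ) ≤ (geo t 0 x).n := by exact_mod_cast (by omega : 1 ≤ (geo t 0 x).n)
      linarith
    · rw [Set.indicator_of_notMem (show t ∉ {t | C1 * nrm (x - 0) < (geo t 0 x).n} from hl),
        mul_zero, add_zero]
      rw [sub_zero, not_lt] at hl
      refine cnt_le_sum_cnt _ fun i hi hg => ?_
      have hi' : i ≤ (geo t 0 x).n := Nat.lt_succ_iff.1 (Finset.mem_range.1 hi)
      by_contra hcon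
      push Not at hcon
      refine hg (hs0 s1 (by omega) θ _ i hi' fun s hs => ?_)
      rcases le_total s top with h | h
      · have := hcon (s - s1) (Finset.mem_range.2 (by omega))
        rwa [Nat.add_sub_cancel' hs] at this
      · have := hcon (top - s1) (Finset.mem_range.2 (by omega))
        rw [Nat.add_sub_cancel' htop] at this
        exact regS_of_top (hl.trans hle) h hi' this
  · have h3 : ∑ r ∈ Finset.range (top - s1 + 1), D * N / 4 ^ (s1 + r) ≤ η / 2 * N := by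
      have h4 := AReg_geom s1 (top - s1 + 1)
      have h5 : (0 : ℝ) ≤ 2 / 4 ^ (s1 + (top - s1 + 1)) := by positivity
      have h6 : (4 : ℝ) ^ a ≤ 4 ^ s1 := pow_le_pow_right₀ (by norm_num) (by omega)
      have h7 : D * (2 / 4 ^ s1) ≤ η / 2 := by
        rw [div_lt_iff₀ hη] at ha
        rw [← mul_div_assoc, div_le_iff₀ (by positivity)]
        nlinarith
      calc ∑ r ∈ Finset.range (top - s1 + 1), D * N / 4 ^ (s1 + r)
          = D * N * ∑ r ∈ Finset.range (top - s1 + 1), (1 : ℝ) / 4 ^ (s1 + r) := by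
            rw [Finset.mul_sum]
            exact Finset.sum_congr rfl fun r _ => by ring
        _ ≤ D * N * (2 / 4 ^ s1) := mul_le_mul_of_nonneg_left (by linarith) (by positivity)
        _ = D * (2 / 4 ^ s1) * N := by ring
        _ ≤ η / 2 * N := mul_le_mul_of_nonneg_right h7 (by positivity)
    have h4 : (nrm (x - 0) : ℝ) ^ ((3 : ℝ) / 5) ≤ 2 * N * (η / (8 * C)) := by
      rw [sub_zero]
      calc (nrm x : ℝ) ^ ((3 : ℝ) / 5) ≤ (2 * (N : ℝ)) ^ ((3 : ℝ) / 5) :=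
            Real.rpow_le_rpow (Nat.cast_nonneg _) (by exact_mod_cast hxN) (by norm_num)
        _ = 2 * N * (2 * (N : ℝ)) ^ (-(2 / 5 : ℝ)) := by
            rw [show (3 : ℝ) / 5 = 1 + -(2 / 5) by norm_num, Real.rpow_add (by positivity),
              Real.rpow_one]
        _ ≤ _ := mul_le_mul_of_nonneg_left hN2.le (by positivity)
    have h5 : 2 * (C * (nrm (x - 0) : ℝ) ^ ((3 : ℝ) / 5)) ≤ η / 2 * N := by
      calc 2 * (C * (nrm (x - 0) : ℝ) ^ ((3 : ℝ) / 5)) ≤ 2 * (C * (2 * N * (η / (8 * C)))) := by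
            gcongr
        _ = η / 2 * N := by
            field_simp
            ring
    linarith

end Crest.Agent.R151.PA
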