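import Crest.Agent.R151.AShear
import Crest.Agent.R151.AVis
import Crest.Agent.R151.AReg

/-! Row 151, part A: uniform integrability of the repair costs. -/

set_option autoImplicit false

namespace Crest.Agent.R151.PA

open MeasureTheory ProbabilityTheory Crest.ProbabilityR.FirstPassage Filter
open scoped Classical

variable {G : Measure ℝ} [Law G]

omit [Law G] in
theorem AZ_swap (F : Finset ℤ) (γ : Pth) (h : ℤ → ℕ → ℝ) (h0 : ∀ k i, 0 ≤ h k i) :
    ∑ k ∈ F, ∑ i ∈ Finset.range (γ.n + 1), (if AtCut k (γ.p i) then h k i else 0) ≤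
      ∑ i ∈ Finset.range (γ.n + 1), h (γ.p i).1 i +
        ∑ i ∈ Finset.range (γ.n + 1), h ((γ.p i).1 - 1) i := by
  rw [Finset.sum_comm, ← Finset.sum_add_distrib]
  refine Finset.sum_le_sum fun i _ => ?_
  calc _ ≤ ∑ k ∈ F, ((if (γ.p i).1 = k then h k i else 0) +
        (if (γ.p i).1 - 1 = k then h k i else 0)) := by
        refine Finset.sum_le_sum fun k _ => ?_
        have := h0 k i
        unfold AtCut
        split_ifs <;> first | omega | linarith
    _ ≤ _ := by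
        rw [Finset.sum_add_distrib, Finset.sum_ite_eq, Finset.sum_ite_eq]
        have := h0 (γ.p i).1 i
        have := h0 ((γ.p i).1 - 1) i
        split_ifs <;> linarith

theorem AZ_geom (r0 : ℕ) (F : Finset ℕ) :
    ∑ r ∈ F, (if r0 ≤ r then (15 / 16 : ℝ) ^ r else 0) ≤ 16 * (15 / 16) ^ r0 := by
  rw [← Finset.sum_filter]
  have h1 : F.filter (fun r => r0 ≤ r) ⊆ Finset.Ico r0 (F.sup id + 1 + r0) := by
    intro r hr
    obtain ⟨h1, h2⟩ := Finset.mem_filter.1 hr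
    have : r ≤ F.sup id := Finset.le_sup (f := id) h1
    exact Finset.mem_Ico.2 ⟨h2, by omega⟩
  refine (Finset.sum_le_sum_of_subset_of_nonneg h1 fun _ _ _ => by positivity).trans ?_
  refine (geom_sum_Ico_le_of_lt_one (by norm_num) (by norm_num)).trans (le_of_eq ?_)
  ring

theorem AZ_one (G : Measure ℝ) [Law G] {η : ℝ} (hη : 0 < η) : ∃ r0 : ℕ,
    ∀ (x : V) (ε b : ℤ) (Kv : V → Finset ℤ), |ε| ≤ 1 → (b = 0 ∨ b = ε) →
      UE G (fun t => ∑ i ∈ Finset.range ((geo t 0 x).n + 1),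
        if r0 < srad G (Kv ((geo t 0 x).p i)) ε b t ((geo t 0 x).p i) then
          8 * kap G * (srad G (Kv ((geo t 0 x).p i)) ε b t ((geo t 0 x).p i) : ℝ) ^ 3 else 0)
        (η * ((nrm x : ℝ) + 1)) := by
  obtain ⟨C, hC, h⟩ := vis_bound G
  obtain ⟨C', hC', h'⟩ := exists_pow_mul_geom_le 6
  have hκ : 0 < kap G := lt_of_lt_of_le one_pos (one_le_kap G)
  obtain ⟨r0, hr0⟩ := exists_pow_lt_of_lt_one (x := η / (64 * kap G * C * C' * 16))
    (y := (15 / 16 : ℝ)) (by positivity) (by norm_num)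
  refine ⟨r0, fun x ε b Kv hε hb => ?_⟩
  set B : ℕ → V → Set Env := fun r y => slip (Kv y) ε b ⁻¹' NoSq G (slV (Kv y) ε y) 0 r with hB
  have hx : 0 < (nrm x : ℝ) + 1 := by positivity
  have h1 : ∀ r : ℕ, UE G (fun t => nt (geo t 0 x) fun j => t ∈ B r ((geo t 0 x).p j))
      (C * ((nrm x : ℝ) + 1) * ((2 * r + 1 : ℕ) : ℝ) ^ 3 * (7 / 8) ^ r) := by
    intro r
    refine h x (2 * r + 1) _ (B r) (by omega) (by positivity) fun y => ⟨?_, ?_, ?_⟩
    · exact measurable_slip _ _ _ (measurableSet_noSq G _ _ _)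
    · exact dep_slip_noSq G _ hε hb y r
    · have e : Pr G (B r y) = Pr G (NoSq G (slV (Kv y) ε y) 0 r) := Pr_shear G _ _ _
      rw [e]
      refine (Pr_noSq G _ 0 r).trans ?_
      rw [Nat.sub_zero, ← pow_mul, mul_comm, pow_mul]
      exact pow_le_pow_left₀ (by norm_num) (by norm_num) r
  refine UE.of_series
    (f := fun r t => (if r0 ≤ r then 8 * kap G * ((r : ℝ) + 1) ^ 3 else 0) *
      nt (geo t 0 x) fun j => t ∈ B r ((geo t 0 x).p j))
    (c := fun r => (if r0 ≤ r then 8 * kap G * ((r : ℝ) + 1) ^ 3 else 0) *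
      (C * ((nrm x : ℝ) + 1) * ((2 * r + 1 : ℕ) : ℝ) ^ 3 * (7 / 8) ^ r))
    (fun r t => mul_nonneg (by split_ifs <;> positivity) (nt_nonneg _ _))
    (fun r => (h1 r).const_mul (by split_ifs <;> positivity)) (fun F => ?_)
    (Eventually.of_forall fun t => ?_)
  · calc _ ≤ ∑ r ∈ F, 64 * kap G * C * C' * ((nrm x : ℝ) + 1) *
          (if r0 ≤ r then (15 / 16 : ℝ) ^ r else 0) := by
          refine Finset.sum_le_sum fun r _ => ?_
          split_ifs
          · have h2 : ((2 * r + 1 : ℕ) : ℝ) ≤ 2 * ((r : ℝ) + 1) := by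
              push_cast
              linarith
            calc _ ≤ 8 * kap G * ((r : ℝ) + 1) ^ 3 *
                  (C * ((nrm x : ℝ) + 1) * (2 * ((r : ℝ) + 1)) ^ 3 * (7 / 8) ^ r) := by gcongr
              _ = 64 * kap G * C * ((nrm x : ℝ) + 1) * (((r : ℝ) + 1) ^ 6 * (7 / 8) ^ r) := by
                  ring
              _ ≤ 64 * kap G * C * ((nrm x : ℝ) + 1) * (C' * (15 / 16) ^ r) :=
                  mul_le_mul_of_nonneg_left (h' r) (by positivity)
              _ = _ := by ring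
          · simp
      _ ≤ 64 * kap G * C * C' * ((nrm x : ℝ) + 1) * (16 * (15 / 16) ^ r0) := by
          rw [← Finset.mul_sum]
          exact mul_le_mul_of_nonneg_left (AZ_geom r0 F) (by positivity)
      _ ≤ 64 * kap G * C * C' * ((nrm x : ℝ) + 1) * (16 * (η / (64 * kap G * C * C' * 16))) := by
          gcongr
      _ = _ := by field_simp
  · generalize geo t 0 x = γ
    refine ⟨(Finset.range (γ.n + 1)).image fun i => srad G (Kv (γ.p i)) ε b t (γ.p i) - 1, ?_⟩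
    simp only [nt, cnt_eq_sum, Finset.mul_sum]
    rw [Finset.sum_comm]
    refine Finset.sum_le_sum fun i hi => ?_
    have h0 : ∀ r : ℕ, 0 ≤ (if r0 ≤ r then 8 * kap G * ((r : ℝ) + 1) ^ 3 else 0) *
        (if t ∈ B r (γ.p i) then (1 : ℝ) else 0) := fun r => by
      split_ifs <;> positivity
    split_ifs with hr
    · refine le_trans (le_of_eq ?_) (Finset.single_le_sum (fun r _ => h0 r)
        (Finset.mem_image_of_mem _ hi))
      obtain ⟨r, e⟩ : ∃ r, srad G (Kv (γ.p i)) ε b t (γ.p i) = r + 1 :=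
        ⟨srad G (Kv (γ.p i)) ε b t (γ.p i) - 1, by omega⟩
      have h3 : t ∈ B r (γ.p i) := noSq_of_lt_rad (by unfold srad at e; omega)
      rw [e, Nat.add_sub_cancel, if_pos (by omega), if_pos h3]
      push_cast
      ring
    · exact Finset.sum_nonneg fun r _ => h0 r

/-- If `srad > r0` put `r = srad - 1 ≥ r0`: the event `B r y = slip (Kf k) ⁻¹' NoSq (slV y) 0 r`
occurs (`noSq_of_lt_rad`) for `k = y.1` or `k = y.1 - 1`; it has range `2r+1` (`dep_slip_noSq`) and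
probability `≤ (1/2)^r ≤ ((7/8)^r)^4`.  `vis_bound`, `UE.of_series`, and
`∑_{r ≥ r0} (r+1)³ (2r+1)³ (7/8)^r → 0` (`exists_pow_mul_geom_le`). -/
theorem zt_bound (G : Measure ℝ) [Law G] {η : ℝ} (hη : 0 < η) : ∃ r0 : ℕ,
    ∀ (x : V) (ε b : ℤ) (Kf : ℤ → Finset ℤ) (F : Finset ℤ), |ε| ≤ 1 → (b = 0 ∨ b = ε) →
      UE G (fun t => ∑ k ∈ F, Zt G r0 (Kf k) ε b k (geo t 0 x) t) (η * ((nrm x : ℝ) + 1)) := by
  obtain ⟨r0, h⟩ := AZ_one G (half_pos hη)
  have hκ : 0 < kap G := lt_of_lt_of_le one_pos (one_le_kap G)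
  refine ⟨r0, fun x ε b Kf F hε hb => ?_⟩
  refine ((h x ε b (fun y => Kf y.1) hε hb).add (h x ε b (fun y => Kf (y.1 - 1)) hε hb)).mono
    (Eventually.of_forall fun t => ?_) (le_of_eq (by ring))
  generalize geo t 0 x = γ
  refine le_trans (le_of_eq ?_) (AZ_swap F γ (fun k i => if r0 < srad G (Kf k) ε b t (γ.p i) then
    8 * kap G * (srad G (Kf k) ε b t (γ.p i) : ℝ) ^ 3 else 0) fun k i => by
      split_ifs <;> positivity)
  refine Finset.sum_congr rfl fun k _ => ?_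
  simp only [Zt, Finset.sum_filter, ite_and]

omit [Law G] in
theorem AZ_cnt {θ β : ℝ} (hβ : 0 < β) {s1 : ℕ} {γ : Pth} {k : ℤ} {i : ℕ} (hc : AtCut k (γ.p i))
    (hg : Gt θ β s1 γ i) :
    nt γ (fun j => AtCut k (γ.p j)) ≤ 4 * (1 + (dd s1 : ℝ)) / β + 1 := by
  set D : ℝ := 2 * (1 + (dd s1 : ℝ)) / β with hD
  have hD0 : 0 ≤ D := by positivity
  have key : ∀ (u : ℕ) (c : ℤ), c ≤ 1 → β / 2 * (u : ℝ) - dd s1 ≤ c → u ≤ ⌊D⌋₊ := by
    intro u c h1 h2
    refine Nat.le_floor ?_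
    have h3 : (c : ℝ) ≤ 1 := by exact_mod_cast h1
    rw [hD, le_div_iff₀ hβ]
    linarith
  have h1 : (Finset.range (γ.n + 1)).filter (fun j => AtCut k (γ.p j)) ⊆
      Finset.Icc (i - ⌊D⌋₊) (i + ⌊D⌋₊) := by
    intro j hj
    obtain ⟨h1, h2⟩ := Finset.mem_filter.1 hj
    have h3 : j ≤ γ.n := Nat.lt_succ_iff.1 (Finset.mem_range.1 h1)
    unfold AtCut at hc h2
    rw [Finset.mem_Icc]
    rcases le_total i j with h4 | h4
    · have := key (j - i) ((γ.p j).1 - (γ.p i).1) (by omega) (by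
        push_cast [h4]
        exact hg.fwd j h4 h3)
      omega
    · have := key (i - j) ((γ.p i).1 - (γ.p j).1) (by omega) (by
        push_cast [h4]
        exact hg.bwd j h4)
      omega
  have h2 := Finset.card_le_card h1
  rw [Nat.card_Icc] at h2
  have h3 : ((Finset.range (γ.n + 1)).filter (fun j => AtCut k (γ.p j))).card ≤ 2 * ⌊D⌋₊ + 1 := by
    omega
  have h4 : (⌊D⌋₊ : ℝ) ≤ D := Nat.floor_le hD0
  have h5 : nt γ (fun j => AtCut k (γ.p j)) ≤ 2 * (⌊D⌋₊ : ℝ) + 1 := by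
    unfold nt cnt
    exact_mod_cast h3
  have h6 : 4 * (1 + (dd s1 : ℝ)) / β = 2 * D := by
    rw [hD]
    ring
  linarith

theorem AZ_split (r0 : ℕ) (K : Finset ℤ) (ε b k : ℤ) (γ : Pth) (t : Env) :
    Zs G K ε b k γ t ≤ Zt G r0 K ε b k γ t +
      8 * kap G * (r0 : ℝ) ^ 3 * nt γ (fun j => AtCut k (γ.p j)) := by
  have hκ : 0 < kap G := lt_of_lt_of_le one_pos (one_le_kap G)
  simp only [Zs, Zt, nt, cnt_eq_sum, Finset.sum_filter, Finset.mul_sum]
  rw [← Finset.sum_add_distrib]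
  refine Finset.sum_le_sum fun i _ => ?_
  by_cases h1 : AtCut k (γ.p i)
  · by_cases h2 : r0 < srad G K ε b t (γ.p i)
    · rw [if_pos h1, if_pos ⟨h1, h2⟩, if_pos h1]
      exact le_add_of_nonneg_right (by positivity)
    · rw [if_pos h1, if_neg fun h => h2 h.2, if_pos h1, zero_add, mul_one]
      have : (srad G K ε b t (γ.p i) : ℝ) ≤ r0 := by exact_mod_cast not_lt.1 h2
      gcongr
  · simp [h1]

/-- If some visit to the columns `k, k+1` is a good time there are at most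
`4 (1 + dd s1)/β + 1` such visits (`Gt.fwd`, `Gt.bwd`); otherwise all of them are bad times, and
every time is next to two cuts. -/
theorem zs_le {θ β L : ℝ} (hβ : 0 < β) (s1 r0 : ℕ)
    (hL : 8 * kap G * (r0 : ℝ) ^ 3 * (4 * (1 + (dd s1 : ℝ)) / β + 1) ≤ L) (ε b : ℤ)
    (Kf : ℤ → Finset ℤ) (F : Finset ℤ) (γ : Pth) (t : Env) :
    ∑ k ∈ F, max (Zs G (Kf k) ε b k γ t - L) 0 ≤
      ∑ k ∈ F, Zt G r0 (Kf k) ε b k γ t +
        16 * kap G * (r0 : ℝ) ^ 3 * nt γ fun i => ¬ Gt θ β s1 γ i := by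
  have hκ : 0 < kap G := lt_of_lt_of_le one_pos (one_le_kap G)
  have hL0 : 0 ≤ L := le_trans (by positivity) hL
  have h1 : ∀ k, max (Zs G (Kf k) ε b k γ t - L) 0 ≤ Zt G r0 (Kf k) ε b k γ t +
      8 * kap G * (r0 : ℝ) ^ 3 * ∑ i ∈ Finset.range (γ.n + 1),
        if AtCut k (γ.p i) then (if ¬ Gt θ β s1 γ i then (1 : ℝ) else 0) else 0 := by
    intro k
    have h2 := AZ_split (G := G) r0 (Kf k) ε b k γ t
    have h3 := Zt_nonneg G r0 (Kf k) ε b k γ t
    have h4 : 0 ≤ 8 * kap G * (r0 : ℝ) ^ 3 * ∑ i ∈ Finset.range (γ.n + 1),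
        if AtCut k (γ.p i) then (if ¬ Gt θ β s1 γ i then (1 : ℝ) else 0) else 0 :=
      mul_nonneg (by positivity) (Finset.sum_nonneg fun i _ => by split_ifs <;> norm_num)
    refine max_le ?_ (by linarith)
    by_cases hg : ∃ i, AtCut k (γ.p i) ∧ Gt θ β s1 γ i
    · obtain ⟨i, hc, hg⟩ := hg
      have h5 := mul_le_mul_of_nonneg_left (AZ_cnt hβ hc hg)
        (show 0 ≤ 8 * kap G * (r0 : ℝ) ^ 3 by positivity)
      linarith
    · have h5 : nt γ (fun j => AtCut k (γ.p j)) = ∑ i ∈ Finset.range (γ.n + 1),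
          if AtCut k (γ.p i) then (if ¬ Gt θ β s1 γ i then (1 : ℝ) else 0) else 0 := by
        rw [nt, cnt_eq_sum]
        refine Finset.sum_congr rfl fun i _ => ?_
        by_cases hc : AtCut k (γ.p i)
        · rw [if_pos hc, if_pos hc, if_pos fun h => hg ⟨i, hc, h⟩]
        · rw [if_neg hc, if_neg hc]
      rw [h5] at h2
      linarith
  refine (Finset.sum_le_sum fun k _ => h1 k).trans ?_
  rw [Finset.sum_add_distrib, ← Finset.mul_sum]
  have h6 := AZ_swap F γ (fun _ i => if ¬ Gt θ β s1 γ i then (1 : ℝ) else 0) fun _ i => by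
    split_ifs <;> norm_num
  have h7 : (nt γ fun i => ¬ Gt θ β s1 γ i) =
      ∑ i ∈ Finset.range (γ.n + 1), if ¬ Gt θ β s1 γ i then (1 : ℝ) else 0 := by
    rw [nt, cnt_eq_sum]
    exact Finset.sum_congr rfl fun i _ => by congr
  have h8 := mul_le_mul_of_nonneg_left h6 (show 0 ≤ 8 * kap G * (r0 : ℝ) ^ 3 by positivity)
  rw [h7]
  linarith

theorem zs_ui {θ β : ℝ} (H : Hyp G θ β) {η : ℝ} (hη : 0 < η) : ∃ L0 : ℝ, 0 ≤ L0 ∧
    ∀ᶠ N : ℕ in atTop, ∀ x, Tgt θ N x → ∀ (ε b : ℤ) (Kf : ℤ → Finset ℤ) (F : Finset ℤ) (L : ℝ),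
      |ε| ≤ 1 → (b = 0 ∨ b = ε) → L0 ≤ L →
      UE G (fun t => ∑ k ∈ F, max (Zs G (Kf k) ε b k (geo t 0 x) t - L) 0) (η * N) := by
  have hκ : 0 < kap G := lt_of_lt_of_le one_pos (one_le_kap G)
  have hβ := H.pos
  obtain ⟨r0, h1⟩ := zt_bound G (η := η / 6) (by positivity)
  obtain ⟨s1, h2⟩ := gt_bound H (η := η / (2 * (16 * kap G * (r0 : ℝ) ^ 3 + 1))) (by positivity)
  refine ⟨8 * kap G * (r0 : ℝ) ^ 3 * (4 * (1 + (dd s1 : ℝ)) / β + 1), by positivity, ?_⟩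
  filter_upwards [h2 s1 le_rfl, eventually_ge_atTop 1] with N hN hN1 x hx ε b Kf F L hε hb hL
  refine ((h1 x ε b Kf F hε hb).add ((hN x hx).const_mul
    (c := 16 * kap G * (r0 : ℝ) ^ 3) (by positivity))).mono
    (Eventually.of_forall fun t => zs_le hβ s1 r0 hL ε b Kf F _ t) ?_
  have h3 : (nrm x : ℝ) ≤ 2 * N := by exact_mod_cast hx.nrm_le H.abs_le
  have h4 : (1 : ℝ) ≤ N := by exact_mod_cast hN1
  have h5 : η / 6 * ((nrm x : ℝ) + 1) ≤ η / 6 * (3 * N) := by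
    gcongr
    linarith
  set A := 16 * kap G * (r0 : ℝ) ^ 3 with hA
  have hA0 : 0 ≤ A := by positivity
  have h6 : A * (η / (2 * (A + 1)) * N) ≤ (A + 1) * (η / (2 * (A + 1)) * N) := by
    gcongr
    linarith
  have h7 : (A + 1) * (η / (2 * (A + 1)) * N) = η / 2 * N := by field_simp
  linarith

end Crest.Agent.R151.PA
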