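import Crest.Agent.R151.ALL
import Crest.Agent.R151.AZ
import Crest.Agent.R151.AFar
import Crest.Agent.R151.ABar

/-! Row 151, part A: locality on the left of most cuts. -/

set_option autoImplicit false

namespace Crest.Agent.R151.PA

open MeasureTheory ProbabilityTheory Crest.ProbabilityR.FirstPassage Filter
open scoped Classical

variable {G : Measure ℝ} [Law G] {θ β : ℝ}

/-- bad first visits of the geodesic -/
theorem ALLB_gt {s1 N : ℕ} {x : V} {a : ℤ} {A : ℝ} (hx : x.1 = N)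
    (ha0 : 0 ≤ a) (ha : a ≤ (N : ℤ) / 4)
    (h : UE G (fun t => nt (geo t 0 x) fun i => ¬ Gt θ β s1 (geo t 0 x) i) A) :
    UE G (fun t => cnt (cuts N) fun k =>
      ¬ Gt θ β s1 (geo t 0 x) (fv (geo t 0 x) (k - a))) A := by
  refine h.mono ?_ le_rfl
  filter_upwards [ae_geoXZ G] with t ht
  have hg := ht.2 0 x
  refine cnt_fv_le hg.ok (N := N) hg.2.1 (by rw [hg.2.2, hx]) (cuts N) a (fun k hk => ?_)
    (fun i => ¬ Gt θ β s1 (geo t 0 x) i)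
  have := mem_cuts.1 hk
  omega

/-- bad first visits of the slipped geodesics: `UE.reshuffle` with `Φ k = slip {k} ε b`,
`f k t = if ¬ Gt … (geo t 0 x') (fv … (k - a)) then 1 else 0`, and `cnt_fv_le` -/
theorem ue_gt_slip {s1 N : ℕ} {x : V} {ε : ℤ} (b : ℤ) {a : ℤ} {A : ℝ} (hx : x.1 = N)
    (ha0 : 0 ≤ a) (ha : a ≤ (N : ℤ) / 4)
    (h : UE G (fun t => nt (geo t 0 (x + (0, ε))) fun i =>
      ¬ Gt θ β s1 (geo t 0 (x + (0, ε))) i) A) :
    UE G (fun t => cnt (cuts N) fun k =>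
      ¬ Gt θ β s1 (geoS k ε b x t) (fv (geoS k ε b x t) (k - a))) A := by
  have h1 := ALLB_gt (x := x + (0, ε)) (by simpa using hx) ha0 ha h
  simp only [cnt_eq_sum] at h1 ⊢
  refine UE.reshuffle (cuts N) (fun k _ => ?_) (fun k _ t => ?_) (Φ := fun k => slip {k} ε b)
    (fun k _ => measurePreserving_slip G {k} ε b) h1
  · exact measurable_geo_fun 0 (x + (0, ε)) fun γ =>
      @ite ℝ (¬ Gt θ β s1 γ (fv γ (k - a))) (Classical.propDecidable _) 1 0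
  · split_ifs <;> norm_num

/-- repair costs of the slipped geodesics: `UE.reshuffle`, `measurable_Zs` -/
theorem ue_zs_slip {x : V} {ε b : ℤ} {F : Finset ℤ} {L A : ℝ}
    (h : UE G (fun t => ∑ k ∈ F, max (Zs G {k} (-ε) (-b) k (geo t 0 (x + (0, ε))) t - L) 0) A) :
    UE G (fun t => ∑ k ∈ F,
      max (Zs G {k} (-ε) (-b) k (geoS k ε b x t) (slip {k} ε b t) - L) 0) A :=
  UE.reshuffle F (f := fun k t => max (Zs G {k} (-ε) (-b) k (geo t 0 (x + (0, ε))) t - L) 0)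
    (fun k _ => ((measurable_Zs G {k} (-ε) (-b) k 0 (x + (0, ε))).sub_const L).max measurable_const)
    (fun _ _ _ => le_max_right _ _) (Φ := fun k => slip {k} ε b)
    (fun k _ => measurePreserving_slip G {k} ε b) h

theorem ALLB_cnt_or {F : Finset ℤ} {q1 q2 : ℤ → Prop} {a1 a2 : ℝ} (h1 : cnt F q1 ≤ a1)
    (h2 : cnt F q2 ≤ a2) : cnt F (fun k => q1 k ∨ q2 k) ≤ a1 + a2 :=
  (cnt_or_le fun _ _ h => h).trans (add_le_add h1 h2)

theorem ALLB_cnt_gt (F : Finset ℤ) (Z : ℤ → ℝ) (L : ℝ) :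
    cnt F (fun k => L + 1 < Z k) ≤ ∑ k ∈ F, max (Z k - L) 0 :=
  cnt_le_sum (fun _ _ => le_max_right _ _) fun _ _ h => le_max_of_le_left (by linarith)

/-- Order of constants: `L0` (`zs_ui`), `L = L0 + 1`, `lam = 2L`, `s1` (`gt_bound`, `far_bound`),
`m` (`near_bound`, `m ≥ L + dd s1 + 2`), `M = 2m + dd s1`.  By `ll_cases`, `¬ LL` at `k` implies one
of ten events: `Zs > L`, `Zs' > L` (`cnt_le_sum`), three bad first visits of `γ`
(`a = 2m, m - dd s1 - 1, m`; `cnt_fv_le`), three of `γ'`, `Gt ∧ Far`, `Gt ∧ Near`. -/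
theorem ll_bound (H : Hyp G θ β) {η : ℝ} (hη : 0 < η) : ∃ M : ℕ, ∀ᶠ N : ℕ in atTop,
    ∀ (x : V) (ε b : ℤ), |ε| ≤ 1 → (b = 0 ∨ b = ε) → Tgt θ N x → Tgt θ N (x + (0, ε)) →
      UE G (fun t => cnt (cuts N) fun k => ¬ LL k M (geo t 0 x) (geoS k ε b x t)) (η * N) := by
  have hη' : 0 < η / 10 := by positivity
  obtain ⟨L0, hL0, hZ⟩ := zs_ui H hη'
  obtain ⟨sa, hsa⟩ := gt_bound H hη'
  obtain ⟨sb, hsb⟩ := far_bound H hη' (2 * (L0 + 1))
  set s1 := max sa sb with hs1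
  obtain ⟨m0, hm0⟩ := near_bound G H.abs_le H.pos hη' (2 * (L0 + 1)) s1
  set m := max m0 (⌈L0 + 1⌉₊ + dd s1 + 2) with hm
  have hm1 : ⌈L0 + 1⌉₊ + dd s1 + 2 ≤ m := le_max_right _ _
  have hm2 : L0 + 1 + dd s1 + 2 ≤ m := by
    have h1 : ((⌈L0 + 1⌉₊ + dd s1 + 2 : ℕ) : ℝ) ≤ m := by exact_mod_cast hm1
    push_cast at h1
    linarith [Nat.le_ceil (L0 + 1)]
  refine ⟨2 * m + dd s1, ?_⟩
  filter_upwards [hZ, hsa s1 (le_max_left _ _), hsb s1 (le_max_right _ _), hm0 m (le_max_left _ _),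
    eventually_ge_atTop (8 * m)] with N hZ hG hF hN hN8 x ε b hε hb hx hx'
  have z1 := hZ x hx ε b (fun k => {k}) (cuts N) L0 hε hb le_rfl
  have z2 := ue_zs_slip (hZ _ hx' (-ε) (-b) (fun k => {k}) (cuts N) L0 (by rwa [abs_neg])
    (by rcases hb with h | h <;> simp [h]) le_rfl)
  have a1 : (0 : ℤ) ≤ 2 * m ∧ (2 * m : ℤ) ≤ (N : ℤ) / 4 := by omega
  have a2 : (0 : ℤ) ≤ m - dd s1 - 1 ∧ (m - dd s1 - 1 : ℤ) ≤ (N : ℤ) / 4 := by omega
  have a3 : (0 : ℤ) ≤ m ∧ (m : ℤ) ≤ (N : ℤ) / 4 := by omega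
  have g1 := ALLB_gt hx.1 a1.1 a1.2 (hG x hx)
  have g2 := ALLB_gt hx.1 a2.1 a2.2 (hG x hx)
  have g3 := ALLB_gt hx.1 a3.1 a3.2 (hG x hx)
  have g1' := ue_gt_slip b hx.1 a1.1 a1.2 (hG _ hx')
  have g2' := ue_gt_slip b hx.1 a2.1 a2.2 (hG _ hx')
  have g3' := ue_gt_slip b hx.1 a3.1 a3.2 (hG _ hx')
  refine (z1.add (z2.add (g1.add (g2.add (g3.add (g1'.add (g2'.add (g3'.add
    ((hF x hx).add (hN x hx)))))))))).mono ?_ (le_of_eq (by ring))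
  filter_upwards [ae_typ_slip G] with t ht
  have f1 : cnt (cuts N) (fun k => Gt θ β s1 (geo t 0 x) (fv (geo t 0 x) (k - m)) ∧
      Far θ s1 (2 * (L0 + 1)) x (geo t 0 x) t (k - m)) ≤
      cnt (Finset.Icc (0 : ℤ) N) fun c => Gt θ β s1 (geo t 0 x) (fv (geo t 0 x) c) ∧
        Far θ s1 (2 * (L0 + 1)) x (geo t 0 x) t c := by
    refine cnt_le_of_injOn (fun k => k - m) (fun k hk h => ⟨?_, h⟩) fun k _ k' _ _ _ h => ?_
    · have := mem_cuts.1 hk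
      rw [Finset.mem_Icc]
      omega
    · simpa using h
  refine le_trans (cnt_mono fun k hk hL => ?_) (ALLB_cnt_or (ALLB_cnt_gt _ _ L0)
    (ALLB_cnt_or (ALLB_cnt_gt _ _ L0) (ALLB_cnt_or le_rfl (ALLB_cnt_or le_rfl (ALLB_cnt_or le_rfl
    (ALLB_cnt_or le_rfl (ALLB_cnt_or le_rfl (ALLB_cnt_or le_rfl (ALLB_cnt_or f1 le_rfl)))))))))
  by_contra hc
  simp only [not_or, not_lt, not_not, not_and] at hc
  obtain ⟨c1, c2, c3, c4, c5, c6, c7, c8, c9, c10⟩ := hc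
  rcases ll_cases hε H.pos.le ht.1 (ht.2 {k} ε b) hx.1 hk hm2 hN8 (geoXZ_geo ht.1.1.1 0 x)
    (geoXZ_geo (ht.2 {k} ε b).1.1 0 (x + (0, ε))) c1 c2 c3 c4 c6 c7 c8 with h | h | h
  · exact hL h
  · exact c9 c5 h
  · exact c10 c5 h

end Crest.Agent.R151.PA
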