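import Crest.Agent.R151.ARepM

/-! Row 151, part A: the pathwise inequality for a multiple slip.

`γ = geo t 0 x`, `T'' = T (slip K ε 0 t) 0 (x + |K| ε e2)`, `T' k = T (slip {k} ε 0 t) 0 (x + ε e2)`,
`Z'' k = Zs K ε 0 k γ t`, `Z' k = Zs {k} (-ε) 0 k (geoS k) (slip {k} ε 0 t)`.
* For every `k`: `T - T' k ≤ L + (Z' k - L)⁺ + ζ/N² T² + (Z' k - L)⁺`: by `T_slip_le` (inverse slip) if
  `Z' k < N³/8`, otherwise `T ≤ ζ/N² T² + N²/ζ` and `N²/ζ ≤ Z' k - L`.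
* If all `Z'' k < N³/8`: `Gd` = local cuts that are not spoiled (`k` is spoiled by `k' ≠ k` if a visit
  next to `k'` has `|k - k'| ≤ srad + M + 1`); `repairM`.  If `k'` spoils some `k`, the largest
  radius `R` next to `k'` has `R ≥ D/2`, and it spoils at most `2(R+M+1)+1 ≤ 5R ≤ 8R³ - L2` cuts.
* Otherwise use `Gd = ∅`: `T'' ≤ ζ/N T''² + N/ζ`, `N/ζ ≤ Z'' k - L`, `|K| ≤ N ≤ Z'' k - L2`. -/

set_option autoImplicit false

namespace Crest.Agent.R151.PA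

open MeasureTheory ProbabilityTheory Crest.ProbabilityR.FirstPassage Filter
open scoped Classical

variable {G : Measure ℝ} [Law G]

theorem AMulti_amgm {a : ℝ} (ha : 0 < a) (y : ℝ) : y ≤ a⁻¹ * y ^ 2 + a := by
  have h1 : 0 ≤ a⁻¹ * (y - a) ^ 2 := by positivity
  have h2 : a⁻¹ * (y - a) ^ 2 = a⁻¹ * y ^ 2 - 2 * y + a := by
    field_simp
    ring
  have h3 : 0 ≤ a⁻¹ * y ^ 2 := by positivity
  linarith

theorem single_ineq {N : ℕ} {k ε : ℤ} {x : V} {t : Env} {L ζ : ℝ} (hε : |ε| ≤ 1) (hx : x.1 = N)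
    (hk : k ∈ cuts N) (hL : 0 ≤ L) (hζ : 0 < ζ) (hN1 : 1 ≤ N)
    (hN : L + (N : ℝ) ^ 2 / ζ ≤ (N : ℝ) ^ 3 / 8) (ht : Typ G t) (ht' : Typ G (slip {k} ε 0 t)) :
    T t 0 x ≤ T (slip {k} ε 0 t) 0 (x + (0, ε)) + L +
      2 * max (Zs G {k} (-ε) 0 k (geoS k ε 0 x t) (slip {k} ε 0 t) - L) 0 +
      ζ / (N : ℝ) ^ 2 * T t 0 x ^ 2 := by
  have hN0 : (0 : ℝ) < N := by exact_mod_cast hN1
  have hs : slip {k} (-ε) 0 (slip {k} ε 0 t) = t := by simpa using slip_slip {k} ε 0 t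
  have h1 := le_max_left (Zs G {k} (-ε) 0 k (geoS k ε 0 x t) (slip {k} ε 0 t) - L) 0
  have h2 := le_max_right (Zs G {k} (-ε) 0 k (geoS k ε 0 x t) (slip {k} ε 0 t) - L) 0
  rcases lt_or_ge (Zs G {k} (-ε) 0 k (geoS k ε 0 x t) (slip {k} ε 0 t)) ((N : ℝ) ^ 3 / 8) with
    hZ | hZ
  · have h3 := T_slip_le (N := N) (x := x + (0, ε)) (by rwa [abs_neg]) ht'.nn
      (by rw [hs]; exact ht.2) (geoXZ_geo ht'.1.1 0 _) (by simpa using hx) hk hZ
    rw [hs, show x + (0, ε) + (0, -ε) = x by simp [add_assoc]] at h3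
    have h4 : 0 ≤ ζ / (N : ℝ) ^ 2 * T t 0 x ^ 2 := by positivity
    unfold geoS at h1 h2 ⊢
    linarith
  · have h3 := AMulti_amgm (a := (N : ℝ) ^ 2 / ζ) (by positivity) (T t 0 x)
    rw [inv_div] at h3
    have h4 := T_nonneg ht'.nn 0 (x + (0, ε))
    linarith

theorem spoil_count {K : Finset ℤ} {ε b : ℤ} {M D : ℕ} {L2 : ℝ} (γ : Pth) (t : Env)
    (hsp : ∀ k ∈ K, ∀ k' ∈ K, k ≠ k' → (D : ℤ) ≤ |k - k'|) (hD : 2 * M + 2 ≤ D)
    (hD2 : 2 * L2 ≤ D) :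
    cnt K (fun k => ∃ k' ∈ K, k' ≠ k ∧ ∃ i, i ≤ γ.n ∧ AtCut k' (γ.p i) ∧
      |k - k'| ≤ (srad G K ε b t (γ.p i) : ℤ) + M + 1) ≤
      ∑ k ∈ K, max (Zs G K ε b k γ t - L2) 0 := by
  refine (cnt_le_sum_cnt K (q' := fun k' k => k' ≠ k ∧ ∃ i, i ≤ γ.n ∧ AtCut k' (γ.p i) ∧
    |k - k'| ≤ (srad G K ε b t (γ.p i) : ℤ) + M + 1) fun k _ h => h).trans
      (Finset.sum_le_sum fun k' hk' => ?_)
  by_cases h : ∃ k ∈ K, k' ≠ k ∧ ∃ i, i ≤ γ.n ∧ AtCut k' (γ.p i) ∧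
      |k - k'| ≤ (srad G K ε b t (γ.p i) : ℤ) + M + 1
  · obtain ⟨k, hk, hne, i, hi, hc, hle⟩ := h
    obtain ⟨j, hj, hmax⟩ := Finset.exists_max_image
      ((Finset.range (γ.n + 1)).filter fun i => AtCut k' (γ.p i))
      (fun i => srad G K ε b t (γ.p i)) ⟨i, Finset.mem_filter.2 ⟨Finset.mem_range.2 (by omega), hc⟩⟩
    obtain ⟨hj1, hj2⟩ := Finset.mem_filter.1 hj
    have h1 := le_Zs G K ε b t (Nat.lt_succ_iff.1 (Finset.mem_range.1 hj1)) hj2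
    have hm : ∀ i, i ≤ γ.n → AtCut k' (γ.p i) → srad G K ε b t (γ.p i) ≤ srad G K ε b t (γ.p j) :=
      fun i hi hc => hmax i (Finset.mem_filter.2 ⟨Finset.mem_range.2 (by omega), hc⟩)
    have h2 := hm i hi hc
    have h3 := hsp k hk k' hk' hne.symm
    generalize srad G K ε b t (γ.p j) = R at h1 hm h2
    have h4 : D ≤ 2 * R := by omega
    have h5 : cnt K (fun k => k' ≠ k ∧ ∃ i, i ≤ γ.n ∧ AtCut k' (γ.p i) ∧
        |k - k'| ≤ (srad G K ε b t (γ.p i) : ℤ) + M + 1) ≤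
        cnt (Finset.Icc (k' - 2 * R) (k' + 2 * R)) (fun _ => True) := by
      refine cnt_le_of_injOn id ?_ fun _ _ _ _ _ _ h => h
      rintro k - ⟨-, i, hi, hc, hle⟩
      have := hm i hi hc
      rw [abs_le] at hle
      exact ⟨Finset.mem_Icc.2 ⟨by simp only [id]; omega, by simp only [id]; omega⟩, trivial⟩
    have h6 := cnt_le_card (Finset.Icc (k' - 2 * R) (k' + 2 * R)) (fun _ => True)
    have h7 : (Finset.Icc (k' - 2 * R) (k' + 2 * R)).card ≤ 5 * R := by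
      rw [Int.card_Icc]
      omega
    have h8 : ((Finset.Icc (k' - 2 * R) (k' + 2 * R)).card : ℝ) ≤ 5 * R := by exact_mod_cast h7
    have h9 : (D : ℝ) ≤ 2 * R := by exact_mod_cast h4
    have h10 : (R : ℝ) ≤ (R : ℝ) ^ 3 := by exact_mod_cast Nat.le_self_pow (by norm_num) R
    have h11 : (0 : ℝ) ≤ R := Nat.cast_nonneg R
    refine le_trans ?_ (le_max_left _ _)
    linarith
  · refine le_trans ?_ (le_max_right _ _)
    simpa using cnt_le_sum (f := fun _ => 0) (fun _ _ => le_rfl) fun k hk hq => absurd ⟨k, hk, hq⟩ h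

theorem multi_ineq {N M D : ℕ} {K : Finset ℤ} {ε : ℤ} {x : V} {t : Env} {L L2 ζ : ℝ}
    (hε : |ε| ≤ 1) (hx : x.1 = N) (hK : K ⊆ cuts N)
    (hsp : ∀ k ∈ K, ∀ k' ∈ K, k ≠ k' → (D : ℤ) ≤ |k - k'|) (hD : 2 * M + 2 ≤ D)
    (hD2 : 2 * L2 ≤ D) (hL : 0 ≤ L) (hL2 : 0 ≤ L2) (hζ : 0 < ζ) (hN1 : 1 ≤ N)
    (hN : L + L2 + N + (N : ℝ) ^ 2 / ζ ≤ (N : ℝ) ^ 3 / 8) (ht : Typ G t)
    (ht' : ∀ (K' : Finset ℤ) (ε' b' : ℤ), Typ G (slip K' ε' b' t)) :
    T (slip K ε 0 t) 0 (x + (0, ε * K.card)) + K.card * T t 0 x ≤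
      T t 0 x + ∑ k ∈ K, T (slip {k} ε 0 t) 0 (x + (0, ε)) +
      2 * L * cnt K (fun k => ¬ (LL k M (geo t 0 x) (geoS k ε 0 x t) ∧
        RR k M ε (geo t 0 x) (geoS k ε 0 x t))) +
      2 * L * ∑ k ∈ K, max (Zs G K ε 0 k (geo t 0 x) t - L2) 0 +
      2 * ∑ k ∈ K, max (Zs G K ε 0 k (geo t 0 x) t - L) 0 +
      2 * ∑ k ∈ K, max (Zs G {k} (-ε) 0 k (geoS k ε 0 x t) (slip {k} ε 0 t) - L) 0 +
      ζ / N * (T (slip K ε 0 t) 0 (x + (0, ε * K.card)) ^ 2 + T t 0 x ^ 2) := by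
  have hN0 : (0 : ℝ) < N := by exact_mod_cast hN1
  have hN1' : (1 : ℝ) ≤ N := by exact_mod_cast hN1
  have hcard : (K.card : ℝ) ≤ N := by exact_mod_cast (Finset.card_le_card hK).trans (card_cuts_le N)
  have hs := fun k (hk : k ∈ K) => single_ineq (G := G) (L := L) hε hx (hK hk) hL hζ hN1
    (by linarith) ht (ht' _ _ _)
  have hγ := geoXZ_geo ht.1.1 0 x
  have hγ' := fun k => geoXZ_geo (ht' {k} ε 0).1.1 0 (x + (0, ε))
  have hsc := spoil_count (G := G) (ε := ε) (b := 0) (geo t 0 x) t hsp hD hD2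
  have hT := T_nonneg ht.nn 0 x
  have hnn := (ht' K ε 0).nn
  have hq : ∀ c : ℝ, c ≤ N → c * (ζ / (N : ℝ) ^ 2 * T t 0 x ^ 2) ≤ ζ / N * T t 0 x ^ 2 := fun c hc => by
    refine (mul_le_mul_of_nonneg_right hc (by positivity)).trans_eq ?_
    field_simp
  have hm0 : ∀ (f : ℤ → ℝ) (S : Finset ℤ), 0 ≤ ∑ k ∈ S, max (f k) 0 := fun f S =>
    Finset.sum_nonneg fun k _ => le_max_right _ _
  have hms : ∀ (f : ℤ → ℝ) (S : Finset ℤ), S ⊆ K → ∑ k ∈ S, max (f k) 0 ≤ ∑ k ∈ K, max (f k) 0 :=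
    fun f S h => Finset.sum_le_sum_of_subset_of_nonneg h fun k _ _ => le_max_right _ _
  by_cases hZ : ∀ k ∈ K, Zs G K ε 0 k (geo t 0 x) t < (N : ℝ) ^ 3 / 8
  · obtain ⟨Gd, hGd⟩ : ∃ Gd : Finset ℤ, ∀ k, k ∈ Gd ↔ k ∈ K ∧
        (LL k M (geo t 0 x) (geoS k ε 0 x t) ∧ RR k M ε (geo t 0 x) (geoS k ε 0 x t)) ∧
        ¬ ∃ k' ∈ K, k' ≠ k ∧ ∃ i, i ≤ (geo t 0 x).n ∧ AtCut k' ((geo t 0 x).p i) ∧
          |k - k'| ≤ (srad G K ε 0 t ((geo t 0 x).p i) : ℤ) + M + 1 :=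
      ⟨K.filter _, fun k => Finset.mem_filter⟩
    have hsub : Gd ⊆ K := fun k hk => ((hGd k).1 hk).1
    have h4 : ((geo t 0 x).p 0).1 = 0 := by rw [hγ.2.1]; rfl
    have h5 : ((geo t 0 x).p (geo t 0 x).n).1 = N := by rw [hγ.2.2, hx]
    have h := repairM (G := G) (b := 0) (M := M) (γ' := fun k => geoS k ε 0 x t) hε ht.nn
      (ht' K ε 0).2 hγ.ok hsub (fun k hk k' hk' hne => by have := hsp k hk k' hk' hne; omega)
      (fun k hk => ⟨(hγ' k).ok, ((hGd k).1 hk).2.1⟩) fun k' hk' hn i hi hc => by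
        obtain ⟨hk1, hk2⟩ := mem_cuts.1 (hK hk')
        have h1 := srad_le (hZ k' hk') hi hc
        have h2 := abs_fst_le_nrm_slV K ε ((geo t 0 x).p 0) ((geo t 0 x).p i)
        have h3 := abs_fst_le_nrm_slV K ε ((geo t 0 x).p (geo t 0 x).n) ((geo t 0 x).p i)
        rw [h4, abs_le] at h2
        rw [h5, abs_le] at h3
        refine ⟨?_, ?_, fun k hk => not_le.1 fun hle =>
          ((hGd k).1 hk).2.2 ⟨k', hk', fun e => hn (e ▸ hk), i, hi, hc, hle⟩⟩ <;>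
        rcases hc with hc | hc <;> omega
    have e0 : slV K ε ((geo t 0 x).p 0) = 0 := by
      rw [slV_left fun k hk => by have := mem_cuts.1 (hK hk); omega, hγ.2.1]
    have en : slV K ε ((geo t 0 x).p (geo t 0 x).n) = x + (0, ε * K.card) := by
      rw [slV_right fun k hk => by have := mem_cuts.1 (hK hk); omega, hγ.2.2]
    rw [e0, en] at h
    have g1 := h.T_le hnn
    have e1 : ∀ k, (geoS k ε 0 x t).tot (slip {k} ε 0 t) = T (slip {k} ε 0 t) 0 (x + (0, ε)) :=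
      fun k => (hγ' k).tot
    simp only [e1, hγ.tot, Finset.sum_sub_distrib, Finset.sum_const, nsmul_eq_mul] at g1
    have g2 := Finset.sum_le_sum fun k (hk : k ∈ K \ Gd) => hs k (Finset.mem_sdiff.1 hk).1
    simp only [Finset.sum_add_distrib, Finset.sum_const, nsmul_eq_mul, ← Finset.mul_sum] at g2
    have g3 : ∑ k ∈ K \ Gd, Zs G K ε 0 k (geo t 0 x) t ≤
        ∑ k ∈ K \ Gd, (L + max (Zs G K ε 0 k (geo t 0 x) t - L) 0) :=
      Finset.sum_le_sum fun k _ => by linarith [le_max_left (Zs G K ε 0 k (geo t 0 x) t - L) 0]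
    simp only [Finset.sum_add_distrib, Finset.sum_const, nsmul_eq_mul] at g3
    have g4 : ((K \ Gd).card : ℝ) + Gd.card = K.card := by
      exact_mod_cast Finset.card_sdiff_add_card_eq_card hsub
    have g5 := Finset.sum_sdiff (f := fun k => T (slip {k} ε 0 t) 0 (x + (0, ε))) hsub
    have g6 : ((K \ Gd).card : ℝ) ≤ cnt K (fun k => k ∉ Gd) := by
      unfold cnt
      exact_mod_cast Finset.card_le_card fun k hk => by simpa using hk
    have g7 := (g6.trans (cnt_or_le (q1 := fun k => ¬ (LL k M (geo t 0 x) (geoS k ε 0 x t) ∧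
        RR k M ε (geo t 0 x) (geoS k ε 0 x t))) fun k hk hn => by
      by_contra hc
      exact hn ((hGd k).2 ⟨hk, not_not.1 (not_or.1 hc).1, (not_or.1 hc).2⟩))).trans
        (add_le_add le_rfl hsc)
    have g8 := mul_le_mul_of_nonneg_left g7 hL
    have g9 := hq (K \ Gd).card (by linarith [Nat.cast_nonneg (α := ℝ) Gd.card])
    have g10 := hms (fun k => Zs G K ε 0 k (geo t 0 x) t - L) _ (Finset.sdiff_subset (t := Gd))
    have g11 := hms (fun k => Zs G {k} (-ε) 0 k (geoS k ε 0 x t) (slip {k} ε 0 t) - L) _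
      (Finset.sdiff_subset (t := Gd))
    have g12 := hm0 (fun k => Zs G K ε 0 k (geo t 0 x) t - L) K
    have g13 : 0 ≤ ζ / N * T (slip K ε 0 t) 0 (x + (0, ε * K.card)) ^ 2 := by positivity
    rw [← g4]
    linarith
  · push Not at hZ
    obtain ⟨k, hk, hZ⟩ := hZ
    have g1 := AMulti_amgm (a := (N : ℝ) / ζ) (by positivity)
      (T (slip K ε 0 t) 0 (x + (0, ε * K.card)))
    rw [inv_div] at g1
    have g2 := Finset.sum_le_sum hs
    simp only [Finset.sum_add_distrib, Finset.sum_const, nsmul_eq_mul, ← Finset.mul_sum] at g2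
    have g3 : ∀ c : ℝ, Zs G K ε 0 k (geo t 0 x) t - c ≤
        ∑ k ∈ K, max (Zs G K ε 0 k (geo t 0 x) t - c) 0 := fun c =>
      (le_max_left _ _).trans (Finset.single_le_sum
        (f := fun k => max (Zs G K ε 0 k (geo t 0 x) t - c) 0) (fun k _ => le_max_right _ _) hk)
    have g4 : (N : ℝ) / ζ ≤ (N : ℝ) ^ 2 / ζ := div_le_div_of_nonneg_right (by nlinarith) hζ.le
    have g5 : (0 : ℝ) ≤ (N : ℝ) / ζ := by positivity
    have g6 : (K.card : ℝ) ≤ ∑ k ∈ K, max (Zs G K ε 0 k (geo t 0 x) t - L2) 0 := by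
      linarith [g3 L2]
    have g7 := mul_le_mul_of_nonneg_left g6 hL
    have g8 := mul_nonneg hL (Nat.cast_nonneg (α := ℝ) K.card)
    have g9 := hq _ hcard
    have g10 := g3 L
    have g11 := mul_nonneg hL (cnt_nonneg K (fun k => ¬ (LL k M (geo t 0 x) (geoS k ε 0 x t) ∧
      RR k M ε (geo t 0 x) (geoS k ε 0 x t))))
    linarith

end Crest.Agent.R151.PA
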