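import Crest.Agent.R151.APath

/-! Row 151, part A: a near almost optimal path produces a detour (deterministic). -/

set_option autoImplicit false

namespace Crest.Agent.R151.PA

open MeasureTheory ProbabilityTheory Crest.ProbabilityR.FirstPassage Filter
open scoped Classical

theorem ANear_sub_edges (γ : Pth) (a b : ℕ) :
    (γ.sub a b).edges = (Finset.Ico a b).image γ.edge := by
  ext e
  rw [Pth.mem_edges, Finset.mem_image]
  constructor
  · rintro ⟨k, hk, rfl⟩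
    rw [Pth.sub_n] at hk
    exact ⟨a + k, Finset.mem_Ico.2 ⟨by omega, by omega⟩, (γ.sub_edge a b hk).symm⟩
  · rintro ⟨l, hl, rfl⟩
    obtain ⟨h1, h2⟩ := Finset.mem_Ico.1 hl
    refine ⟨l - a, by rw [Pth.sub_n]; omega, ?_⟩
    rw [γ.sub_edge a b (by omega), Nat.add_sub_cancel' h1]

variable {G : Measure ℝ} [Law G]

/-- Let `i = fv γ c`, `R ∈ (2w, R0]` the radius of a good square around `γ.p i`, `δ0` the path of
`Near`, `a` a time of `δ0` on the circuit, `b ≤ i` the FIRST time of `γ` on the circuit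
(`Gt.bwd` gives `i - b ≤ R2`).  `δ = δ0[0,a] + arc + γ[b,n]`; the crossed path
`γ[0,b] + arc + δ0[a,·]` costs `≥ T`, and the two costs add up to at most
`2T + lam + 16 κ R³`.  The points `γ.p l`, `i - m ≤ l < b`, have columns in `[c-m, c)`, are off the
circuit, and `γ` is self-avoiding. -/
theorem near_cases {θ β lam : ℝ} {s1 N m R0 R1 R2 : ℕ} {x : V} {γ : Pth} {t : Env} {c : ℤ}
    (ht : NN t) (hγ : GeoXZ t 0 x γ) (hx : x.1 = N) (hβ : 0 < β) (hR0 : (R0 : ℤ) ≤ c)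
    (hR1 : c + R1 ≤ N) (hR2 : 2 * ((R0 : ℝ) + dd s1) ≤ β * R2)
    (hg : Gt θ β s1 γ (fv γ c)) (hn : Near s1 lam m x γ t c) :
    t ∈ NoSq G (γ.p (fv γ c)) (2 * ww s1) R0 ∨ t ∈ KesBad G (γ.p (fv γ c)) R1 ∨
      Special G (lam + 16 * kap G * (R0 : ℝ) ^ 3) m R1 R2 x γ t (fv γ c) := by
  have ho := hγ.ok
  have hc0 : (0 : ℤ) ≤ c := le_trans (Nat.cast_nonneg _) hR0
  have hN : (γ.p γ.n).1 = N := by rw [hγ.2.2, hx]
  obtain ⟨-, hi, hic, hlt⟩ := fv_spec ho (c := c) (j := γ.n) (by rw [hγ.2.1]; exact hc0)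
    (by rw [hN]; omega)
  obtain ⟨δ, ⟨hδ, hδt⟩, ⟨j, hj, hjn⟩, hdis⟩ := hn
  generalize fv γ c = i at *
  by_contra hcon
  obtain ⟨hsq, hcon⟩ := not_or.1 hcon
  obtain ⟨hk, hcon⟩ := not_or.1 hcon
  refine hcon ?_
  obtain ⟨R, hR, hR', hgs⟩ : ∃ R, 2 * ww s1 < R ∧ R ≤ R0 ∧ GoodSq G t (γ.p i) R := by
    by_contra h
    exact hsq fun r h1 h2 h3 => h ⟨r, h1, h2, h3⟩
  have hi1 : i + R1 ≤ γ.n := by
    have h1 := (le_abs_self _).trans (col_sub_le ho hi)
    rw [hN, hic, min_self] at h1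
    omega
  have hfar : (R : ℤ) ≤ nrm (0 - γ.p i) := by
    have h1 := (neg_le_abs _).trans (abs_fst_le_nrm (0 - γ.p i))
    rw [Prod.fst_sub, Prod.fst_zero, hic] at h1
    omega
  obtain ⟨a, -, ha, haR⟩ := exists_level (fun k => (nrm (δ.p k - γ.p i) : ℤ)) (Nat.zero_le j)
    (fun k _ _ => hδ.1.nrm_step _ k) R (Or.inr ⟨by
      show (nrm (δ.p j - γ.p i) : ℤ) ≤ R
      omega, by
      show (R : ℤ) ≤ nrm (δ.p 0 - γ.p i)
      rwa [hδ.2.2.1]⟩)
  obtain ⟨b, -, hb, hbR, hbl⟩ := exists_first_level (fun k => -(nrm (γ.p k - γ.p i) : ℤ))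
    (Nat.zero_le i) (fun k _ _ => by
      rw [neg_sub_neg, abs_sub_comm]
      exact ho.nrm_step _ k) (-R) (by
      show -(nrm (γ.p 0 - γ.p i) : ℤ) ≤ -R
      rw [hγ.2.1]
      omega) (by
      show -(R : ℤ) ≤ -(nrm (γ.p i - γ.p i) : ℤ)
      rw [sub_self, nrm_zero]
      simp)
  have haR' : nrm (δ.p a - γ.p i) = R := by exact_mod_cast haR
  have hbR' : nrm (γ.p b - γ.p i) = R := by exact_mod_cast neg_injective hbR
  have hib : i ≤ b + R2 := by
    have h1 := hg.bwd b hb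
    have h2 := (neg_le_abs _).trans (abs_fst_le_nrm (γ.p b - γ.p i))
    rw [hbR', Prod.fst_sub, neg_sub] at h2
    have h3 : ((γ.p i).1 : ℝ) - (γ.p b).1 ≤ R0 := by
      exact_mod_cast h2.trans (Nat.cast_le.2 hR')
    have h4 : β * ((i : ℝ) - b) ≤ β * R2 := by linarith
    have h5 := le_of_mul_le_mul_left h4 hβ
    have h6 : (i : ℝ) ≤ b + R2 := by linarith
    exact_mod_cast h6
  obtain ⟨η, -, hη, -, hηt⟩ := GoodSq.exists_arc G hgs (by omega) haR' hbR'
  have han : a ≤ δ.n := ha.trans hj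
  have hbn : b ≤ γ.n := hb.trans hi
  have J1 := Pth.sub_joins (D := Set.univ) hδ.1 (Nat.zero_le a) han fun _ _ _ => trivial
  have J2 := hη.mono (Set.subset_univ _)
  have J3 := Pth.sub_joins (D := Set.univ) ho hbn le_rfl fun _ _ _ => trivial
  have J4 := J2.app J3
  have e1 := J2.2.2.2.trans J3.2.2.1.symm
  have e2 := J1.2.2.2.trans J4.2.2.1.symm
  refine ⟨hi1, nhi_ge_of_not_kesBad G ho hγ.sa hi1 hk,
    (δ.sub 0 a).app (η.app (γ.sub b γ.n)), ⟨?_, ?_⟩, fun l h1 h2 => ?_, fun l h1 h2 => ?_⟩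
  · have := J1.app J4
    rwa [hδ.2.2.1, hγ.2.2] at this
  · have r1 := Reach.of_sub (D := Set.univ) (t := t) ho (Nat.zero_le b) hbn fun _ _ _ => trivial
    have r2 : Reach Set.univ t (γ.p b) (δ.p a) (η.tot t) := ⟨η.rev, J2.rev, (η.rev_tot t).le⟩
    have r3 := Reach.of_sub (D := Set.univ) (t := t) hδ.1 han le_rfl fun _ _ _ => trivial
    have r4 := ((r1.trans r2).trans r3).T_le ht
    rw [hγ.2.1, hδ.2.2.2] at r4
    have c1 : γ.cost t 0 b + γ.cost t b γ.n = T t 0 x :=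
      (γ.cost_add t (Nat.zero_le b) hbn).trans hγ.tot
    have c2 : δ.cost t 0 a + δ.cost t a δ.n = δ.tot t := δ.cost_add t (Nat.zero_le a) han
    have c3 : kap G * (R : ℝ) ^ 3 ≤ kap G * (R0 : ℝ) ^ 3 :=
      mul_le_mul_of_nonneg_left (pow_le_pow_left₀ (Nat.cast_nonneg _) (Nat.cast_le.2 hR') 3)
        (zero_le_one.trans (one_le_kap G))
    rw [Pth.app_tot e2, Pth.app_tot e1, Pth.sub_tot _ _ (Nat.zero_le a), Pth.sub_tot _ _ hbn]
    linarith
  · rw [Pth.app_edges e2, Pth.app_edges e1, ANear_sub_edges γ]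
    exact Finset.mem_union_right _ (Finset.mem_union_right _
      (Finset.mem_image_of_mem _ (Finset.mem_Ico.2 ⟨by omega, by omega⟩)))
  · have hl : l < b := by omega
    have h3 := (le_abs_self _).trans (col_sub_le ho (show l ≤ i by omega))
    rw [hic, min_eq_left hi] at h3
    have h4 := hbl l (Nat.zero_le l) hl
    refine Pth.In.app (D := {z | z ≠ γ.p l}) (Pth.sub_in (Nat.zero_le a) fun k _ hk => ?_)
      (Pth.In.app (hη.2.1.mono fun z hz => ?_) (Pth.sub_in hbn fun k h5 h6 h7 => ?_))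
    · exact hdis k (hk.trans han) l (by omega) (by omega) (hlt l (by omega)).le
    · rintro rfl
      have h5 : nrm (γ.p l - γ.p i) = R := hz
      simp only [h5] at h4
      exact lt_irrefl _ h4
    · have := hγ.sa k h6 l (by omega) h7
      omega

omit [Law G] in
/-- two first barriers `i1 < i2` have `i2 < i1 + R1 + R2` or `i2 > i1 + m`; group by `i / m` -/
theorem fb_count {lam : ℝ} {m R1 R2 : ℕ} (hm : 1 ≤ m) (x : V) (γ : Pth) (t : Env) :
    nt γ (FB lam m R1 R2 x γ t) ≤ ((R1 : ℝ) + R2) * (γ.n / m + 1) := by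
  have key : ∀ i1 i2, FB lam m R1 R2 x γ t i1 → FB lam m R1 R2 x γ t i2 → i2 < i1 + m →
      i2 < i1 + (R1 + R2) := by
    rintro i1 i2 ⟨-, h1, -⟩ ⟨-, -, δ, h2, h3⟩ h4
    obtain ⟨l, j, a1, a2, a3, a4⟩ := h1 δ h2
    by_contra h5
    exact h3 l (by omega) (by omega) j a3 a4
  have h := Finset.card_le_mul_card_image_of_maps_to
    (s := (Finset.range (γ.n + 1)).filter (FB lam m R1 R2 x γ t)) (t := Finset.range (γ.n / m + 1))
    (f := fun i => i / m) (fun i hi => Finset.mem_range.2 (Nat.lt_succ_of_le (Nat.div_le_div_right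
      (Nat.le_of_lt_succ (Finset.mem_range.1 (Finset.mem_filter.1 hi).1))))) (R1 + R2)
    fun q _ => by
      set S := ((Finset.range (γ.n + 1)).filter (FB lam m R1 R2 x γ t)).filter
        (fun i => i / m = q) with hS
      rcases S.eq_empty_or_nonempty with h0 | h0
      · rw [h0]
        exact Nat.zero_le _
      · have hm' := Finset.mem_filter.1 (S.min'_mem h0)
        refine (Finset.card_le_card (t := Finset.Ico (S.min' h0) (S.min' h0 + (R1 + R2)))
          fun i hi => Finset.mem_Ico.2 ⟨S.min'_le i hi, ?_⟩).trans (by simp)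
        have hi' := Finset.mem_filter.1 hi
        refine key _ _ (Finset.mem_filter.1 hm'.1).2 (Finset.mem_filter.1 hi'.1).2 ?_
        have a1 := Nat.div_add_mod i m
        have a2 := Nat.div_add_mod (S.min' h0) m
        have a3 := Nat.mod_lt i hm
        rw [hi'.2] at a1
        rw [hm'.2] at a2
        omega
  rw [Finset.card_range] at h
  have h2 : ((γ.n / m : ℕ) : ℝ) ≤ γ.n / m := Nat.cast_div_le
  unfold nt cnt
  refine le_trans (Nat.cast_le.2 h) ?_
  rw [Nat.cast_mul, Nat.cast_add, Nat.cast_add, Nat.cast_one]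
  exact mul_le_mul_of_nonneg_left (by linarith) (by positivity)

/-- Lowering the high edges among the steps `[i, i + R1)`: `IsGeo.lower`; the gain
`g = γ.tot t - γ.tot t' ≥ nhi (h1 - h0) > lam`; a path avoiding the points `γ.p l` keeps its cost
`≥ T t = T t' + g`; the detour uses all lowered edges and gains at least `g`. -/
theorem special_lower {lam : ℝ} {m R1 R2 i : ℕ} {x : V} {γ : Pth} {t t' : Env} (ht : NN t)
    (hγ : GeoXZ t 0 x γ) (hs : Special G lam m R1 R2 x γ t i)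
    (hR : 2 * lam < R1 * (h1 G - h0 G))
    (h1 : ∀ e, (e ∉ (γ.sub i (i + R1)).edges ∨ t e ∉ hi G) → t' e = t e)
    (h2 : ∀ e ∈ (γ.sub i (i + R1)).edges, t e ∈ hi G → t' e ∈ lo G) :
    GeoXZ t' 0 x γ ∧ FB lam m R1 R2 x γ t' i := by
  obtain ⟨hi, hR1, δ, ⟨hδ, hδt⟩, hδe, hδa⟩ := hs
  have hh := h0_lt_h1 G
  set U := (γ.sub i (i + R1)).edges with hU
  have hUγ : U ⊆ γ.edges := Pth.sub_edges_subset i hi
  have hlow : Low G U t t' := fun e => by
    by_cases h : e ∈ U ∧ t e ∈ R151.hi G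
    · exact Or.inr ⟨h.1, h.2, h2 e h.1 h.2⟩
    · exact Or.inl (h1 e (not_and_or.1 h))
  have hle := hlow.le hh
  have ht' : NN t' := fun e => by
    rcases hlow e with h | h
    · exact h ▸ ht e
    · exact h.2.2.1.le
  have hγ' : GeoXZ t' 0 x γ :=
    ⟨hγ.1.lower ht' hle fun e he => h1 e (Or.inl fun h => he (hUγ h)), hγ.2⟩
  have hgain : lam < T t 0 x - T t' 0 x := by
    have a1 := hlow.tot_le hh hγ.ok hγ.sa (H := U.filter fun e => t e ∈ R151.hi G)
      ((Finset.filter_subset _ _).trans hUγ) fun e he => (Finset.mem_filter.1 he).2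
    rw [Finset.filter_true_of_mem fun e he =>
      h2 e (Finset.mem_filter.1 he).1 (Finset.mem_filter.1 he).2, hU, ANear_sub_edges,
      card_hi_edges G hγ.ok hγ.sa hi, hγ.tot, hγ'.tot] at a1
    have a2 : (R1 : ℝ) ≤ 2 * γ.nhi G t i (i + R1) := by exact_mod_cast hR1
    have a3 := mul_le_mul_of_nonneg_right a2 (sub_pos.2 hh).le
    linarith
  refine ⟨hγ', hi, fun η hη => ?_, δ, ⟨hδ, ?_⟩, hδa⟩
  · by_contra hcon
    have a1 : η.tot t' = η.tot t := η.cost_congr fun k _ hk => h1 _ (Or.inl fun h => by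
      rw [hU, ANear_sub_edges] at h
      obtain ⟨l, hl, he⟩ := Finset.mem_image.1 h
      obtain ⟨l1, l2⟩ := Finset.mem_Ico.1 hl
      rcases Sym2.eq_iff.1 he with h3 | h3
      · exact hcon ⟨l, k, l1, l2, hk.le, h3.1.symm⟩
      · exact hcon ⟨l, k + 1, l1, l2, hk, h3.1.symm⟩)
    have a2 : T t 0 x ≤ η.tot t := TD_le ht hη.1
    have a3 := hη.2
    linarith
  · have a1 : T t 0 x - T t' 0 x = ∑ e ∈ U, (t e - t' e) := by
      rw [← hγ.tot, ← hγ'.tot, Pth.tot_eq_sum_edges hγ.ok hγ.sa, Pth.tot_eq_sum_edges hγ.ok hγ.sa,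
        ← Finset.sum_sub_distrib]
      exact (Finset.sum_subset hUγ fun e _ he => by rw [h1 e (Or.inl he), sub_self]).symm
    have a2 : ∑ e ∈ U, (t e - t' e) ≤ ∑ e ∈ δ.edges, (t e - t' e) := by
      refine Finset.sum_le_sum_of_subset_of_nonneg (fun e he => ?_)
        fun e _ _ => sub_nonneg.2 (hle e)
      rw [hU, ANear_sub_edges] at he
      obtain ⟨l, hl, rfl⟩ := Finset.mem_image.1 he
      exact hδe l (Finset.mem_Ico.1 hl).1 (Finset.mem_Ico.1 hl).2
    have a3 : ∑ e ∈ δ.edges, (t e - t' e) ≤ δ.tot t - δ.tot t' := by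
      rw [Pth.tot, Pth.tot, Pth.cost, Pth.cost, ← Finset.sum_sub_distrib, ← Finset.range_eq_Ico]
      exact Finset.sum_image_le_of_nonneg fun e _ => sub_nonneg.2 (hle e)
    linarith

end Crest.Agent.R151.PA
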