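import Crest.Agent.R151.ABase

/-! Row 151, part A: first visits to columns, reachability within a cost budget. -/

set_option autoImplicit false

namespace Crest.Agent.R151.PA

open MeasureTheory ProbabilityTheory Crest.ProbabilityR.FirstPassage Filter
open scoped Classical

theorem fv_spec {γ : Pth} (h : γ.Ok) {c : ℤ} {j : ℕ} (h0 : (γ.p 0).1 ≤ c) (hj : c ≤ (γ.p j).1) :
    fv γ c ≤ j ∧ fv γ c ≤ γ.n ∧ (γ.p (fv γ c)).1 = c ∧ ∀ l, l < fv γ c → (γ.p l).1 < c := by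
  obtain ⟨k, -, hk, h1, h2⟩ := exists_first_level (fun k => (γ.p k).1) (Nat.zero_le j)
    (fun k _ _ => h.col_step k) c h0 hj
  have e : fv γ c = k := by
    refine le_antisymm (Nat.sInf_le h1) (not_lt.1 fun hlt => ?_)
    have h3 : (γ.p (fv γ c)).1 = c := Nat.sInf_mem (s := {j | (γ.p j).1 = c}) ⟨k, h1⟩
    exact (h2 _ (Nat.zero_le _) hlt).ne h3
  rw [e]
  refine ⟨hk, not_lt.1 fun hlt => ?_, h1, fun l hl => h2 l (Nat.zero_le _) hl⟩
  have h3 := h2 _ (Nat.zero_le _) hlt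
  rw [← γ.p_of_ge hlt.le] at h3
  exact h3.ne h1

theorem fv_mono {γ : Pth} (h : γ.Ok) {c c' : ℤ} {j : ℕ} (h0 : (γ.p 0).1 ≤ c) (hc : c ≤ c')
    (hj : c' ≤ (γ.p j).1) : fv γ c ≤ fv γ c' := by
  obtain ⟨-, -, h1, -⟩ := fv_spec h (h0.trans hc) hj
  exact (fv_spec h h0 (hc.trans h1.ge)).1

/-- two paths with a common initial piece reaching column `c` have the same first visit -/
theorem fv_congr {γ γ' : Pth} (h : γ.Ok) {c : ℤ} {j : ℕ} (h0 : (γ.p 0).1 ≤ c)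
    (hj : c ≤ (γ.p j).1) (he : ∀ l, l ≤ j → γ'.p l = γ.p l) : fv γ' c = fv γ c := by
  obtain ⟨h1, -, h2, h3⟩ := fv_spec h h0 hj
  have h4 : (γ'.p (fv γ c)).1 = c := by rw [he _ h1, h2]
  refine le_antisymm (Nat.sInf_le h4) (not_lt.1 fun hlt => ?_)
  have h5 : (γ'.p (fv γ' c)).1 = c := Nat.sInf_mem (s := {j | (γ'.p j).1 = c}) ⟨_, h4⟩
  rw [he _ (hlt.le.trans h1)] at h5
  exact (h3 _ hlt).ne h5

/-- a path needs time to cross columns -/
theorem col_sub_le {γ : Pth} (h : γ.Ok) {i j : ℕ} (hij : i ≤ j) :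
    |(γ.p j).1 - (γ.p i).1| ≤ ((min j γ.n - i : ℕ) : ℤ) := by
  rcases le_total j γ.n with hj | hj
  · rw [min_eq_left hj]
    exact (abs_fst_le_nrm (γ.p j - γ.p i)).trans (by exact_mod_cast h.nrm_sub_le hij)
  · rw [min_eq_right hj, γ.p_of_ge hj]
    rcases le_total i γ.n with hi | hi
    · exact (abs_fst_le_nrm (γ.p γ.n - γ.p i)).trans (by exact_mod_cast h.nrm_sub_le hi)
    · rw [γ.p_of_ge hi, sub_self, abs_zero]
      exact Nat.cast_nonneg _

/-- first visits to different columns are different times -/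
theorem cnt_fv_le {γ : Pth} (h : γ.Ok) {N : ℕ} (h0 : γ.p 0 = 0) (hN : (γ.p γ.n).1 = N)
    (F : Finset ℤ) (a : ℤ) (hF : ∀ k ∈ F, 0 ≤ k - a ∧ k - a ≤ N) (q : ℕ → Prop) :
    cnt F (fun k => q (fv γ (k - a))) ≤ nt γ q := by
  have hs := fun k (hk : k ∈ F) => fv_spec h (c := k - a) (j := γ.n)
    (by rw [h0]; exact (hF k hk).1) (by rw [hN]; exact (hF k hk).2)
  unfold nt cnt
  refine Nat.cast_le.2 (Finset.card_le_card_of_injOn (fun k => fv γ (k - a)) (fun k hk => ?_)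
    fun k hk k' hk' he => ?_)
  · obtain ⟨h1, h2⟩ := Finset.mem_filter.1 (Finset.mem_coe.1 hk)
    exact Finset.mem_coe.2 (Finset.mem_filter.2
      ⟨Finset.mem_range.2 (Nat.lt_succ_of_le (hs k h1).2.1), h2⟩)
  · have h1 := (hs k (Finset.mem_filter.1 (Finset.mem_coe.1 hk)).1).2.2.1
    have h2 := (hs k' (Finset.mem_filter.1 (Finset.mem_coe.1 hk')).1).2.2.1
    have he' : fv γ (k - a) = fv γ (k' - a) := he
    rw [he', h2] at h1
    omega

theorem Gt.mono {θ β : ℝ} {s1 s2 : ℕ} (hs : s1 ≤ s2) {γ : Pth} {i : ℕ} (h : Gt θ β s1 γ i) :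
    Gt θ β s2 γ i := by
  have hd : (dd s1 : ℝ) ≤ dd s2 := Nat.cast_le.2 (dd_mono hs)
  exact ⟨fun j h1 h2 => by linarith [h.fwd j h1 h2], fun j h1 => by linarith [h.bwd j h1],
    fun s h1 => h.tube s (hs.trans h1)⟩

/-- no backtracking after a good time (also for `j > γ.n`) -/
theorem Gt.col_ge {θ β : ℝ} (hβ : 0 ≤ β) {s1 : ℕ} {γ : Pth} {i : ℕ} (h : Gt θ β s1 γ i)
    (hi : i ≤ γ.n) {j : ℕ} (hj : i ≤ j) : (γ.p i).1 - dd s1 ≤ (γ.p j).1 := by
  have key : ∀ j, i ≤ j → j ≤ γ.n → (γ.p i).1 - dd s1 ≤ (γ.p j).1 := fun j h1 h2 => by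
    have h3 := h.fwd j h1 h2
    have h4 : 0 ≤ β / 2 * ((j : ℝ) - i) :=
      mul_nonneg (by positivity) (sub_nonneg.2 (Nat.cast_le.2 h1))
    have h5 : (((γ.p i).1 - dd s1 : ℤ) : ℝ) ≤ ((γ.p j).1 : ℝ) := by
      push_cast
      linarith
    exact_mod_cast h5
  rcases le_total j γ.n with h1 | h1
  · exact key j hj h1
  · rw [γ.p_of_ge h1]
    exact key _ hi le_rfl

variable {D D' : Set V} {t : Env} {u y z : V} {a a' : ℝ}

theorem Reach.mono (h : Reach D t u z a) (hD : D ⊆ D') (ha : a ≤ a') : Reach D' t u z a' := by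
  obtain ⟨δ, h1, h2⟩ := h
  exact ⟨δ, h1.mono hD, h2.trans ha⟩
theorem Reach.refl (hu : u ∈ D) : Reach D t u u 0 := by
  obtain ⟨δ, -, -, h1, h2⟩ := Pth.exists_triv u
  exact ⟨δ, h1.mono (Set.singleton_subset_iff.2 hu), (h2 t).le⟩
theorem Reach.trans (h : Reach D t u y a) (h' : Reach D t y z a') : Reach D t u z (a + a') := by
  obtain ⟨δ, h1, h2⟩ := h
  obtain ⟨δ', h3, h4⟩ := h'
  refine ⟨δ.app δ', h1.app h3, ?_⟩
  rw [Pth.app_tot (h1.2.2.2.trans h3.2.2.1.symm)]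
  exact add_le_add h2 h4
theorem Reach.step (h : Reach D t u y a) (hyz : Adj y z) (hz : z ∈ D) :
    Reach D t u z (a + t s(y, z)) := by
  have hy : y ∈ D := by
    obtain ⟨δ, h1, -⟩ := h
    exact h1.2.2.2 ▸ h1.2.1 _ le_rfl
  obtain ⟨δ, -, -, h1, h2⟩ := Pth.exists_step hyz
  exact h.trans ⟨δ, h1.mono (Set.insert_subset hy (Set.singleton_subset_iff.2 hz)), (h2 t).le⟩
theorem Reach.of_sub {γ : Pth} (h : γ.Ok) {i j : ℕ} (hij : i ≤ j) (hj : j ≤ γ.n)
    (hD : ∀ l, i ≤ l → l ≤ j → γ.p l ∈ D) : Reach D t (γ.p i) (γ.p j) (γ.cost t i j) :=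
  ⟨γ.sub i j, Pth.sub_joins h hij hj hD, (γ.sub_tot t hij).le⟩
theorem Reach.T_le (ht : NN t) (h : Reach D t u z a) : T t u z ≤ a := by
  obtain ⟨δ, h1, h2⟩ := h
  exact (TD_le ht (h1.mono (Set.subset_univ _))).trans h2

/-- `Sq1` for budgets: cut the path at its first point on the square circuit
(`exists_first_level` for `-nrm (· - c)`, `GoodSq.exists_arc`) -/
theorem Reach.sq {G : Measure ℝ} [Law G] (ht : NN t) {c : V} {r : ℕ} (hg : GoodSq G t c r)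
    (hr : 1 ≤ r) (hD : box c r ⊆ D) (h : Reach D t u c a) (hu : r ≤ nrm (u - c))
    (hz : nrm (z - c) = r) : Reach D t u z (a + 8 * kap G * (r : ℝ) ^ 3) := by
  obtain ⟨δ, ⟨h1, h2, h3, h4⟩, h5⟩ := h
  obtain ⟨k, -, hk, h6⟩ := exists_level (fun k => (nrm (δ.p k - c) : ℤ)) (Nat.zero_le δ.n)
    (fun k _ _ => h1.nrm_step c k) r (Or.inr ⟨by
      simp only [h4, sub_self, nrm_zero]
      exact_mod_cast Nat.zero_le r, by
      simp only [h3]
      exact_mod_cast hu⟩)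
  obtain ⟨η, -, h7, -, h8⟩ := GoodSq.exists_arc G hg hr (y := δ.p k) (by exact_mod_cast h6) hz
  have h9 := Reach.of_sub (t := t) h1 (Nat.zero_le k) hk fun l _ hl => h2 l (hl.trans hk)
  rw [h3] at h9
  refine (h9.mono subset_rfl ((δ.cost_mono ht le_rfl hk).trans h5)).trans
    ⟨η, h7.mono (fun x hx => hD (le_of_eq hx)), h8⟩

/-- image of a piece of a path under a translation, read in another environment -/
theorem Reach.of_shift {γ : Pth} (h : γ.Ok) {i j : ℕ} (hij : i ≤ j) (hj : j ≤ γ.n) (v : V)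
    {t' : Env} (he : ∀ l, i ≤ l → l < j → t s(γ.p l + v, γ.p (l + 1) + v) = t' (γ.edge l)) :
    Reach Set.univ t (γ.p i + v) (γ.p j + v) (γ.cost t' i j) := by
  have h1 : (γ.map (· + v)).Ok := fun l hl => by
    rw [Pth.map_p, Pth.map_p]
    exact (h l hl).add_right v
  have h2 := Reach.of_sub (D := Set.univ) (t := t) h1 hij hj fun _ _ _ => trivial
  rw [Pth.map_p, Pth.map_p] at h2
  refine h2.mono subset_rfl (le_of_eq (Finset.sum_congr rfl fun l hl => ?_))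
  rw [← he l (Finset.mem_Ico.1 hl).1 (Finset.mem_Ico.1 hl).2, Pth.edge, Pth.map_p, Pth.map_p]

end Crest.Agent.R151.PA
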