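import Crest.Agent.R151.TSym2

/-! Row 151 toolkit: lattice symmetries and shears preserve the law. -/

set_option autoImplicit false

namespace Crest.Agent.R151

open MeasureTheory ProbabilityTheory Crest.ProbabilityR.FirstPassage
open scoped Classical

/-- reindexing along a pair of mutually inverse maps, as a measurable equivalence -/
def tsymEquiv (φ ψ : Sym2 V → Sym2 V) (h1 : ∀ e, φ (ψ e) = e) (h2 : ∀ e, ψ (φ e) = e) : Env ≃ᵐ Env where
  toFun t e := t (φ e)
  invFun t e := t (ψ e)
  left_inv t := funext fun e => congrArg t (h1 e)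
  right_inv t := funext fun e => congrArg t (h2 e)
  measurable_toFun := measurable_pi_lambda _ fun _ => measurable_pi_apply _
  measurable_invFun := measurable_pi_lambda _ fun _ => measurable_pi_apply _

theorem tsym_emb_act (σ : V ≃ V) : MeasurableEmbedding (act σ) :=
  (tsymEquiv (Sym2.map σ) (Sym2.map σ.symm) (fun e => by simp [Sym2.map_map])
    (fun e => by simp [Sym2.map_map])).measurableEmbedding

theorem tsym_emb_shear (σ η : ℤ → ℤ) : MeasurableEmbedding (shear σ η) :=
  (tsymEquiv _ _ (shearE_shearE σ η) (shearE_shearE' σ η)).measurableEmbedding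

section Meas
variable (G : Measure ℝ) [IsProbabilityMeasure G]

theorem measurePreserving_reindex {φ : Sym2 V → Sym2 V} (hφ : Function.Injective φ) :
    MeasurePreserving (fun (t : Env) (e : Sym2 V) => t (φ e)) (iidLaw G) (iidLaw G) :=
  ⟨measurable_pi_lambda _ fun _ => measurable_pi_apply _,
    Measure.map_infinitePi_infinitePi_of_inj (P := fun _ : Sym2 V => G) hφ⟩
theorem measurePreserving_act (σ : V ≃ V) : MeasurePreserving (act σ) (iidLaw G) (iidLaw G) :=
  measurePreserving_reindex G (Sym2.map.injective σ.injective)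
theorem measurePreserving_shear (σ η : ℤ → ℤ) :
    MeasurePreserving (shear σ η) (iidLaw G) (iidLaw G) :=
  measurePreserving_reindex G (Function.LeftInverse.injective (shearE_shearE' σ η))
/-- for ARBITRARY sets (the maps are measurable equivalences) -/
theorem Pr_act (σ : V ≃ V) (A : Set Env) : Pr G (act σ ⁻¹' A) = Pr G A :=
  congrArg ENNReal.toReal ((measurePreserving_act G σ).measure_preimage_emb (tsym_emb_act σ) A)
theorem Pr_shear (σ η : ℤ → ℤ) (A : Set Env) : Pr G (shear σ η ⁻¹' A) = Pr G A :=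
  congrArg ENNReal.toReal ((measurePreserving_shear G σ η).measure_preimage_emb (tsym_emb_shear σ η) A)
theorem integral_act (σ : V ≃ V) (F : Env → ℝ) :
    ∫ t, F (act σ t) ∂(iidLaw G) = ∫ t, F t ∂(iidLaw G) :=
  (measurePreserving_act G σ).integral_comp (tsym_emb_act σ) F
theorem integral_shear (σ η : ℤ → ℤ) (F : Env → ℝ) :
    ∫ t, F (shear σ η t) ∂(iidLaw G) = ∫ t, F t ∂(iidLaw G) :=
  (measurePreserving_shear G σ η).integral_comp (tsym_emb_shear σ η) F
theorem integrable_act (σ : V ≃ V) (F : Env → ℝ) :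
    Integrable (fun t => F (act σ t)) (iidLaw G) ↔ Integrable F (iidLaw G) :=
  (measurePreserving_act G σ).integrable_comp_emb (tsym_emb_act σ)
theorem integrable_shear (σ η : ℤ → ℤ) (F : Env → ℝ) :
    Integrable (fun t => F (shear σ η t)) (iidLaw G) ↔ Integrable F (iidLaw G) :=
  (measurePreserving_shear G σ η).integrable_comp_emb (tsym_emb_shear σ η)
theorem ae_act (σ : V ≃ V) {p : Env → Prop} (h : ∀ᵐ t ∂(iidLaw G), p t) :
    ∀ᵐ t ∂(iidLaw G), p (act σ t) :=
  (measurePreserving_act G σ).quasiMeasurePreserving.ae h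
theorem ae_shear (σ η : ℤ → ℤ) {p : Env → Prop} (h : ∀ᵐ t ∂(iidLaw G), p t) :
    ∀ᵐ t ∂(iidLaw G), p (shear σ η t) :=
  (measurePreserving_shear G σ η).quasiMeasurePreserving.ae h
theorem integral_T (x z : V) : ∫ t, T t x z ∂(iidLaw G) = hm G (z - x) := by
  rw [hm, ← integral_act G (tr x) fun t => T t 0 (z - x)]
  simp only [T_act (isAut_tr x), tr_apply, zero_add, sub_add_cancel]
theorem hm_act {σ : V ≃ V} (hσ : IsAut σ) (h0 : σ 0 = 0) (x : V) : hm G (σ x) = hm G x := by
  rw [hm, hm, ← integral_act G σ fun t => T t 0 x]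
  simp only [T_act hσ, h0]
theorem integral_TD_tr (D : Set V) (v x z : V) :
    ∫ t, TD D t (x + v) (z + v) ∂(iidLaw G) = ∫ t, TD (tr v ⁻¹' D) t x z ∂(iidLaw G) := by
  rw [← integral_act G (tr v) fun t => TD (tr v ⁻¹' D) t x z]
  simp only [TD_act (isAut_tr v), tr_apply]

end Meas

end Crest.Agent.R151
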