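import Crest.Agent.R151.TMom1
import Crest.Agent.R151.TSym
import Crest.Agent.R151.ABase

/-! Row 151, part A: slips of the environment (use `TSym2`, `TSym`). -/

set_option autoImplicit false

namespace Crest.Agent.R151.PA

open MeasureTheory ProbabilityTheory Crest.ProbabilityR.FirstPassage Filter
open scoped Classical

variable {K : Finset ℤ} {ε b : ℤ}

theorem mσ_succ (K : Finset ℤ) (ε c : ℤ) :
    mσ K ε (c + 1) = mσ K ε c + if c ∈ K then ε else 0 := by
  unfold mσ
  by_cases hc : c ∈ K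
  · have : K.filter (· < c + 1) = insert c (K.filter (· < c)) := by
      ext k
      simp only [Finset.mem_filter, Finset.mem_insert]
      constructor
      · rintro ⟨h1, h2⟩
        by_cases h : k = c
        · exact Or.inl h
        · exact Or.inr ⟨h1, by omega⟩
      · rintro (rfl | ⟨h1, h2⟩)
        · exact ⟨hc, by omega⟩
        · exact ⟨h1, by omega⟩
    rw [this, Finset.card_insert_of_notMem (by simp), if_pos hc]
    push_cast
    ring
  · have : K.filter (· < c + 1) = K.filter (· < c) := by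
      refine Finset.filter_congr fun k hk => ?_
      have : k ≠ c := fun h => hc (h ▸ hk)
      omega
    rw [this, if_neg hc, add_zero]
theorem mσ_lip (K : Finset ℤ) (hε : |ε| ≤ 1) (c : ℤ) : |mσ K ε (c + 1) - mσ K ε c| ≤ 1 := by
  rw [mσ_succ, add_sub_cancel_left]
  split_ifs
  · exact hε
  · simp
theorem mη_cases (K : Finset ℤ) (hb : b = 0 ∨ b = ε) (c : ℤ) :
    mη K ε b c = mσ K ε c ∨ mη K ε b c = mσ K ε (c + 1) := by
  rw [mσ_succ]
  unfold mη
  rcases hb with rfl | rfl
  · left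
    simp
  · right
    rfl
theorem slip_slip (K : Finset ℤ) (ε b : ℤ) (t : Env) : slip K (-ε) (-b) (slip K ε b t) = t := by
  have h1 : mσ K (-ε) = fun c => -mσ K ε c := by
    funext c
    simp [mσ]
  have h2 : mη K (-ε) (-b) = fun c => -mη K ε b c := by
    funext c
    simp only [mη, h1]
    split_ifs <;> ring
  unfold slip
  rw [h1, h2]
  exact shear_shear _ _ t
theorem measurable_slip (K : Finset ℤ) (ε b : ℤ) : Measurable (slip K ε b) := by
  exact measurable_shear _ _
theorem measurePreserving_slip (G : Measure ℝ) [IsProbabilityMeasure G] (K : Finset ℤ) (ε b : ℤ) :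
    MeasurePreserving (slip K ε b) (iidLaw G) (iidLaw G) := by
  exact measurePreserving_shear G _ _
theorem nn_slip (K : Finset ℤ) (ε b : ℤ) (t : Env) : NN (slip K ε b t) ↔ NN t := by
  exact nn_shear _ _ t
theorem ae_typ_slip (G : Measure ℝ) [Law G] :
    ∀ᵐ t ∂(iidLaw G), Typ G t ∧ ∀ (K : Finset ℤ) (ε b : ℤ), Typ G (slip K ε b t) := by
  refine (ae_typ G).and ?_
  refine ae_all_iff.2 fun K => ae_all_iff.2 fun ε => ae_all_iff.2 fun b => ?_
  exact ae_shear G _ _ (ae_typ G)

theorem slV_fst (K : Finset ℤ) (ε : ℤ) (z : V) : (slV K ε z).1 = z.1 := rfl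
theorem slV_left {z : V} (h : ∀ k ∈ K, z.1 ≤ k) : slV K ε z = z := by
  have : K.filter (· < z.1) = ∅ :=
    Finset.filter_eq_empty_iff.2 fun k hk => not_lt.2 (h k hk)
  simp [slV, shV, mσ, this]
theorem slV_right {z : V} (h : ∀ k ∈ K, k < z.1) : slV K ε z = z + (0, ε * K.card) := by
  have : K.filter (· < z.1) = K := Finset.filter_true_of_mem h
  refine Prod.ext ?_ ?_ <;> simp [slV, shV, mσ, this]
theorem abs_fst_le_nrm_slV (K : Finset ℤ) (ε : ℤ) (y z : V) :
    |y.1 - z.1| ≤ (nrm (slV K ε y - slV K ε z) : ℤ) := by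
  exact abs_fst_le_nrm (slV K ε y - slV K ε z)
theorem nrm_slV_step (K : Finset ℤ) (hε : |ε| ≤ 1) {y z : V} (h : Adj y z) :
    nrm (slV K ε z - slV K ε y) ≤ 1 := by
  exact nrm_shV_step (mσ_lip K hε) h

/-- a step that crosses no cut is carried along with its weight -/
theorem slip_step (b : ℤ) (t : Env) {y z : V} (h : Adj y z)
    (hc : ∀ k ∈ K, ¬ (AtCut k y ∧ AtCut k z ∧ y.1 ≠ z.1)) :
    Adj (slV K ε y) (slV K ε z) ∧ slip K ε b t s(slV K ε y, slV K ε z) = t s(y, z) := by
  refine shear_step _ _ t h ?_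
  by_cases h1 : y.1 = z.1
  · exact Or.inl h1
  right
  have h' := (adj_iff _ _).1 h
  have hn : min y.1 z.1 ∉ K := by
    intro hk
    refine hc _ hk ⟨?_, ?_, h1⟩
    · unfold AtCut
      omega
    · unfold AtCut
      omega
  have hs := mσ_succ K ε (min y.1 z.1)
  rw [if_neg hn, add_zero] at hs
  unfold mη
  rw [if_neg hn, add_zero]
  rcases lt_or_gt_of_ne h1 with h2 | h2
  · rw [min_eq_left h2.le] at hs ⊢
    rw [show y.1 + 1 = z.1 by omega] at hs
    exact ⟨hs.symm, rfl⟩
  · rw [min_eq_right h2.le] at hs ⊢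
    rw [show z.1 + 1 = y.1 by omega] at hs
    exact ⟨hs, hs.symm⟩

theorem slip_left (ε b : ℤ) (t : Env) {k : ℤ} {y z : V} (h : Adj y z) (hy : y.1 ≤ k)
    (hz : z.1 ≤ k) : slip {k} ε b t s(y, z) = t s(y, z) := by
  have := (slip_step (K := {k}) (ε := ε) b t h (by
    intro k' hk'
    rw [Finset.mem_singleton.1 hk']
    unfold AtCut
    omega)).2
  rwa [slV_left (by simpa using hy), slV_left (by simpa using hz)] at this

theorem slip_right (ε b : ℤ) (t : Env) {k : ℤ} {y z : V} (h : Adj y z) (hy : k + 1 ≤ y.1)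
    (hz : k + 1 ≤ z.1) : slip {k} ε b t s(y + (0, ε), z + (0, ε)) = t s(y, z) := by
  have := (slip_step (K := {k}) (ε := ε) b t h (by
    intro k' hk'
    rw [Finset.mem_singleton.1 hk']
    unfold AtCut
    omega)).2
  rw [slV_right (by simpa using hy), slV_right (by simpa using hz)] at this
  simpa using this

theorem AShear_mσ_single (k ε c : ℤ) : mσ {k} ε c = if k < c then ε else 0 := by
  unfold mσ
  rw [Finset.filter_singleton]
  split_ifs <;> simp

theorem AShear_mη_single (k ε b c : ℤ) :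
    mη {k} ε b c = if k < c then ε else if c = k then b else 0 := by
  unfold mη
  rw [AShear_mσ_single]
  simp only [Finset.mem_singleton]
  split_ifs <;> omega

theorem AShear_mσ_local (ε : ℤ) {k : ℤ} {M : ℕ} (hk : k ∈ K)
    (hs : ∀ k' ∈ K, k' ≠ k → (M : ℤ) < |k' - k|) {c : ℤ} (h1 : k - M ≤ c) (h2 : c ≤ k + 1 + M) :
    mσ K ε c = mσ {k} ε c + mσ K ε k := by
  rw [AShear_mσ_single]
  have key : ∀ k' ∈ K, k' ≠ k → (k' < c ↔ k' < k) := by
    intro k' hk' hne
    have := hs k' hk' hne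
    rcases abs_cases (k' - k) with h | h <;> omega
  split_ifs with hc
  · have : K.filter (· < c) = insert k (K.filter (· < k)) := by
      ext k'
      simp only [Finset.mem_filter, Finset.mem_insert]
      constructor
      · rintro ⟨h3, h4⟩
        by_cases h : k' = k
        · exact Or.inl h
        · exact Or.inr ⟨h3, (key k' h3 h).1 h4⟩
      · rintro (rfl | ⟨h3, h4⟩)
        · exact ⟨hk, hc⟩
        · exact ⟨h3, by omega⟩
    unfold mσ
    rw [this, Finset.card_insert_of_notMem (by simp)]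
    push_cast
    ring
  · have : K.filter (· < c) = K.filter (· < k) := by
      refine Finset.filter_congr fun k' hk' => ?_
      by_cases h : k' = k
      · subst h
        simp [hc]
      · exact key k' hk' h
    unfold mσ
    rw [this, zero_add]

theorem AShear_mη_local (ε b : ℤ) {k : ℤ} {M : ℕ} (hk : k ∈ K)
    (hs : ∀ k' ∈ K, k' ≠ k → (M : ℤ) < |k' - k|) {c : ℤ} (h1 : k - M ≤ c) (h2 : c ≤ k + M) :
    mη K ε b c = mη {k} ε b c + mσ K ε k := by
  unfold mη
  rw [AShear_mσ_local ε hk hs h1 (by omega)]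
  have : c ∈ K ↔ c ∈ ({k} : Finset ℤ) := by
    rw [Finset.mem_singleton]
    refine ⟨fun hc => ?_, fun hc => hc ▸ hk⟩
    by_contra hne
    have := hs c hc hne
    rcases abs_cases (c - k) with h | h <;> omega
  simp only [this]
  ring

/-- near an isolated cut the multiple slip is a translate of the single slip -/
theorem slV_local (ε : ℤ) {k : ℤ} {M : ℕ} (hk : k ∈ K) (hs : ∀ k' ∈ K, k' ≠ k → (M : ℤ) < |k' - k|)
    {y : V} (h1 : k - M ≤ y.1) (h2 : y.1 ≤ k + 1 + M) :
    slV K ε y = slV {k} ε y + (0, mσ K ε k) := by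
  refine Prod.ext ?_ ?_
  · simp [slV, shV]
  · simp only [slV, shV, Prod.snd_add]
    rw [AShear_mσ_local ε hk hs h1 h2, add_assoc]

theorem slip_local (ε b : ℤ) (t : Env) {k : ℤ} {M : ℕ} (hk : k ∈ K)
    (hs : ∀ k' ∈ K, k' ≠ k → (M : ℤ) < |k' - k|) {y z : V} (h : Adj y z)
    (h1 : k - M ≤ y.1) (h2 : y.1 ≤ k + 1 + M) (h3 : k - M ≤ z.1) (h4 : z.1 ≤ k + 1 + M) :
    slip K ε b t s(y + (0, mσ K ε k), z + (0, mσ K ε k)) = slip {k} ε b t s(y, z) := by
  obtain ⟨y1, y2⟩ := y
  obtain ⟨z1, z2⟩ := z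
  have h' := (adj_iff _ _).1 h
  simp only at h' h1 h2 h3 h4
  simp only [slip, shear, Prod.mk_add_mk, add_zero]
  rw [ts2_mk, ts2_mk]
  by_cases hyz : y1 = z1
  · rw [if_pos hyz, if_pos hyz, AShear_mσ_local ε hk hs h1 h2, AShear_mσ_local ε hk hs h3 h4]
    congr 3 <;> ring
  · rw [if_neg hyz, if_neg hyz, if_pos (by omega), if_pos (by omega),
      AShear_mη_local ε b hk hs (c := min y1 z1) (by omega) (by omega)]
    congr 3 <;> ring

theorem ptR_apply (x z : V) : ptR x z = x - z := rfl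
theorem isAut_ptR (x : V) : IsAut (ptR x) := by
  intro y z
  rw [ptR_apply, ptR_apply, adj_iff, adj_iff]
  simp only [Prod.fst_sub, Prod.snd_sub]
  omega

/-- point reflection of a slip (on lattice edges) -/
theorem slip_ptR (k ε b : ℤ) (x : V) (t : Env) {y z : V} (h : Adj y z) :
    slip {x.1 - 1 - k} ε (ε - b) (act (ptR x) t) s(y, z) =
      act (ptR (x + (0, ε))) (slip {k} ε b t) s(y, z) := by
  obtain ⟨y1, y2⟩ := y
  obtain ⟨z1, z2⟩ := z
  obtain ⟨x1, x2⟩ := x
  have h' := (adj_iff _ _).1 h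
  simp only at h'
  simp only [slip, shear, act, Sym2.map_mk, ptR_apply, Prod.mk_add_mk, Prod.mk_sub_mk,
    add_zero]
  rw [ts2_mk, ts2_mk]
  by_cases hyz : y1 = z1
  · rw [if_pos hyz, if_pos (by omega)]
    simp only [Sym2.map_mk, ptR_apply, Prod.mk_sub_mk, AShear_mσ_single]
    congr 3 <;> split_ifs <;> omega
  · rw [if_neg hyz, if_neg (show ¬ x1 - y1 = x1 - z1 by omega), if_pos (by omega),
      if_pos (by omega)]
    simp only [Sym2.map_mk, ptR_apply, Prod.mk_sub_mk, AShear_mη_single]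
    congr 3 <;> split_ifs <;> omega

/-- `Dep.shear`, `dep_noSq` -/
theorem dep_slip_noSq (G : Measure ℝ) (K : Finset ℤ) (hε : |ε| ≤ 1) (hb : b = 0 ∨ b = ε) (y : V)
    (r : ℕ) : Dep (ED (box y (2 * r + 1))) (slip K ε b ⁻¹' NoSq G (slV K ε y) 0 r) := by
  exact (Dep.shear (mσ_lip K hε) (mη_cases K hb) y r (dep_noSq G _ 0 r)).mono (LE_subset_ED _)

theorem Zs_nonneg (G : Measure ℝ) [Law G] (K : Finset ℤ) (ε b k : ℤ) (γ : Pth) (t : Env) :
    0 ≤ Zs G K ε b k γ t := by
  have := one_le_kap G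
  exact Finset.sum_nonneg fun i _ => by positivity
theorem Zt_nonneg (G : Measure ℝ) [Law G] (r0 : ℕ) (K : Finset ℤ) (ε b k : ℤ) (γ : Pth) (t : Env) :
    0 ≤ Zt G r0 K ε b k γ t := by
  have := one_le_kap G
  exact Finset.sum_nonneg fun i _ => by positivity
theorem le_Zs (G : Measure ℝ) [Law G] (K : Finset ℤ) (ε b : ℤ) {k : ℤ} {γ : Pth} (t : Env) {i : ℕ}
    (hi : i ≤ γ.n) (hc : AtCut k (γ.p i)) :
    8 * (srad G K ε b t (γ.p i) : ℝ) ^ 3 ≤ Zs G K ε b k γ t := by
  have hk := one_le_kap G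
  have h1 : 8 * kap G * (srad G K ε b t (γ.p i) : ℝ) ^ 3 ≤ Zs G K ε b k γ t :=
    Finset.single_le_sum (f := fun i => 8 * kap G * (srad G K ε b t (γ.p i) : ℝ) ^ 3)
      (fun i _ => by positivity)
      (Finset.mem_filter.2 ⟨Finset.mem_range.2 (by omega), hc⟩)
  have h2 : (0 : ℝ) ≤ (srad G K ε b t (γ.p i) : ℝ) ^ 3 := by positivity
  nlinarith
theorem measurable_Zs (G : Measure ℝ) (K : Finset ℤ) (ε b k : ℤ) (x z : V) :
    Measurable fun t => Zs G K ε b k (geo t x z) t := by
  refine (measP_geo x z).measurable (F := fun t γ => Zs G K ε b k γ t) fun γ => ?_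
  refine Finset.measurable_sum _ fun i _ => ?_
  refine Measurable.const_mul (Measurable.pow_const ?_ _) _
  exact measurable_from_top.comp ((measurable_rad G _).comp (measurable_slip K ε b))

end Crest.Agent.R151.PA
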