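import Crest.Agent.R151.APath
import Crest.Agent.R151.AShear

/-! Row 151, part A: repairing a path across the cuts of a slip. -/

set_option autoImplicit false

namespace Crest.Agent.R151.PA

open MeasureTheory ProbabilityTheory Crest.ProbabilityR.FirstPassage Filter
open scoped Classical

/-- Abstract induction.  Call `i` free if `∀ k ∈ Gd, i ≤ iL k ∨ iR k ≤ i`, and let
`Φ i = ∑_{[i0,i)} c + ∑_{k ∈ Gd, iR k ≤ i} Δ k + ∑_{[i0,i)} z`.  From a free `i < n` with `R i (Φ i)`
go to a free `j > i` with `R j (Φ j)`: `j = iR k` if `i = iL k`, otherwise `hstep`.  Strong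
induction on `n - i`. -/
theorem ind_abs {ι : Type} {n i0 : ℕ} (hi0 : i0 ≤ n) {R : ℕ → ℝ → Prop}
    (hR : ∀ i a a', R i a → a ≤ a' → R i a') {c z : ℕ → ℝ} (hz : ∀ i, 0 ≤ z i) (Gd : Finset ι)
    (iL iR : ι → ℕ) (Δ : ι → ℝ) (hLR : ∀ k ∈ Gd, i0 ≤ iL k ∧ iL k < iR k ∧ iR k ≤ n)
    (hdisj : ∀ k ∈ Gd, ∀ k' ∈ Gd, k ≠ k' → iR k ≤ iL k' ∨ iR k' ≤ iL k)
    (hgood : ∀ k ∈ Gd, ∀ a, R (iL k) a →
      R (iR k) (a + ∑ l ∈ Finset.Ico (iL k) (iR k), c l + Δ k))
    (hstep : ∀ i, i0 ≤ i → i < n → (∀ k ∈ Gd, i < iL k ∨ iR k ≤ i) →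
      ∃ j, i < j ∧ j ≤ n ∧ (∀ k ∈ Gd, j ≤ iL k ∨ iR k ≤ i) ∧
        ∀ a, R i a → R j (a + ∑ l ∈ Finset.Ico i j, c l + z i))
    (h0 : R i0 0) :
    R n (∑ l ∈ Finset.Ico i0 n, c l + ∑ k ∈ Gd, Δ k + ∑ l ∈ Finset.Ico i0 n, z l) := by
  have key : ∀ m i, n - i = m → i0 ≤ i → i ≤ n → (∀ k ∈ Gd, i ≤ iL k ∨ iR k ≤ i) →
      R i (∑ l ∈ Finset.Ico i0 i, c l + ∑ k ∈ Gd.filter (fun k => iR k ≤ i), Δ k +
        ∑ l ∈ Finset.Ico i0 i, z l) →
      R n (∑ l ∈ Finset.Ico i0 n, c l + ∑ k ∈ Gd.filter (fun k => iR k ≤ n), Δ k +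
        ∑ l ∈ Finset.Ico i0 n, z l) := by
    intro m
    induction m using Nat.strong_induction_on with
    | _ m ih =>
      intro i hm h1 h2 hfree hRi
      rcases h2.eq_or_lt with rfl | hlt
      · exact hRi
      by_cases hA : ∃ k ∈ Gd, iL k = i
      · obtain ⟨k, hk, rfl⟩ := hA
        obtain ⟨-, hk2, hk3⟩ := hLR k hk
        refine ih (n - iR k) (by omega) (iR k) rfl (by omega) hk3 (fun k' hk' => ?_) ?_
        · by_cases e : k = k'
          · subst e; exact Or.inr le_rfl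
          · rcases hdisj k hk k' hk' e with h | h
            · exact Or.inl h
            · exact Or.inr (by omega)
        · refine hR _ _ _ (hgood k hk _ hRi) ?_
          have e1 : Gd.filter (fun k' => iR k' ≤ iR k) =
              insert k (Gd.filter (fun k' => iR k' ≤ iL k)) := by
            ext k'
            simp only [Finset.mem_filter, Finset.mem_insert]
            constructor
            · rintro ⟨hk', h⟩
              by_cases e : k = k'
              · exact Or.inl e.symm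
              · have := hLR k' hk'
                rcases hdisj k hk k' hk' e with h' | h'
                · omega
                · exact Or.inr ⟨hk', h'⟩
            · rintro (rfl | ⟨hk', h⟩)
              · exact ⟨hk, le_rfl⟩
              · exact ⟨hk', by omega⟩
          have e2 : k ∉ Gd.filter (fun k' => iR k' ≤ iL k) := by
            simp only [Finset.mem_filter, not_and]
            intro _; omega
          rw [e1, Finset.sum_insert e2, ← Finset.sum_Ico_consecutive c h1 hk2.le,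
            ← Finset.sum_Ico_consecutive z h1 hk2.le]
          have : 0 ≤ ∑ l ∈ Finset.Ico (iL k) (iR k), z l := Finset.sum_nonneg fun l _ => hz l
          linarith
      · push Not at hA
        obtain ⟨j, hij, hjn, hj, hRj⟩ := hstep i h1 hlt fun k hk => by
          have := hA k hk
          rcases hfree k hk with h | h
          · exact Or.inl (by omega)
          · exact Or.inr h
        refine ih (n - j) (by omega) j rfl (by omega) hjn (fun k hk => ?_) ?_
        · rcases hj k hk with h | h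
          · exact Or.inl h
          · exact Or.inr (by omega)
        · refine hR _ _ _ (hRj _ hRi) ?_
          have e1 : Gd.filter (fun k => iR k ≤ j) = Gd.filter (fun k => iR k ≤ i) := by
            refine Finset.filter_congr fun k hk => ?_
            have := hLR k hk
            rcases hj k hk with h | h <;> omega
          rw [e1, ← Finset.sum_Ico_consecutive c h1 hij.le,
            ← Finset.sum_Ico_consecutive z h1 hij.le]
          have : z i ≤ ∑ l ∈ Finset.Ico i j, z l :=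
            Finset.single_le_sum (fun l _ => hz l) (Finset.mem_Ico.2 ⟨le_rfl, hij⟩)
          linarith
  have h := key _ i0 rfl le_rfl hi0 (fun k hk => Or.inl (hLR k hk).1) (by
    have e : Gd.filter (fun k => iR k ≤ i0) = ∅ := by
      refine Finset.filter_eq_empty_iff.2 fun k hk => ?_
      have := hLR k hk
      omega
    simpa [e] using h0)
  rwa [Finset.filter_true_of_mem fun k hk => (hLR k hk).2.2] at h

variable {G : Measure ℝ} [Law G] {K : Finset ℤ} {ε b : ℤ} {t : Env} {γ : Pth}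

/-- One jump: from a time `i` next to a cut to the first later time `j` whose image lies on the
good square around the image of `γ.p i` (`exists_first_level`, `nrm_slV_step`, `Reach.sq`). -/
theorem jump (hε : |ε| ≤ 1) (ht : NN t) (hsq : AllSq G (slip K ε b t)) (hγ : γ.Ok) {D : Set V}
    {u : V} {i : ℕ} (hi : i ≤ γ.n)
    (hD : box (slV K ε (γ.p i)) (srad G K ε b t (γ.p i)) ⊆ D)
    (hu : srad G K ε b t (γ.p i) ≤ nrm (u - slV K ε (γ.p i)))
    (hn : srad G K ε b t (γ.p i) ≤ nrm (slV K ε (γ.p γ.n) - slV K ε (γ.p i))) :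
    ∃ j, i < j ∧ j ≤ γ.n ∧
      (∀ l, i ≤ l → l ≤ j → |(γ.p l).1 - (γ.p i).1| ≤ (srad G K ε b t (γ.p i) : ℤ)) ∧
      ∀ a, Reach D (slip K ε b t) u (slV K ε (γ.p i)) a →
        Reach D (slip K ε b t) u (slV K ε (γ.p j))
          (a + 8 * kap G * (srad G K ε b t (γ.p i) : ℝ) ^ 3) := by
  obtain ⟨hr1, hg⟩ := rad_spec hsq (slV K ε (γ.p i))
  change 1 ≤ srad G K ε b t (γ.p i) at hr1
  change GoodSq G _ _ (srad G K ε b t (γ.p i)) at hg
  obtain ⟨j, hij, hjn, hj, hfirst⟩ := exists_first_level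
    (fun l => (nrm (slV K ε (γ.p l) - slV K ε (γ.p i)) : ℤ)) hi
    (fun l _ hl => by
      have h1 := nrm_slV_step K hε (hγ l hl)
      have h2 := nrm_triangle (slV K ε (γ.p i)) (slV K ε (γ.p l)) (slV K ε (γ.p (l + 1)))
      have h3 := nrm_triangle (slV K ε (γ.p i)) (slV K ε (γ.p (l + 1))) (slV K ε (γ.p l))
      rw [nrm_sub_comm (slV K ε (γ.p l)) (slV K ε (γ.p (l + 1)))] at h3
      rw [abs_le]
      constructor <;> omega) (srad G K ε b t (γ.p i) : ℤ)
    (by simp only [sub_self, nrm_zero]; omega) (by exact_mod_cast hn)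
  have hj' : nrm (slV K ε (γ.p j) - slV K ε (γ.p i)) = srad G K ε b t (γ.p i) := by
    exact_mod_cast hj
  refine ⟨j, lt_of_le_of_ne hij ?_, hjn, fun l hil hlj => ?_, fun a ha => ?_⟩
  · rintro rfl
    rw [sub_self, nrm_zero] at hj'
    omega
  · refine (abs_fst_le_nrm_slV K ε _ _).trans ?_
    rcases hlj.eq_or_lt with rfl | h
    · exact hj.le
    · exact (hfirst l hil h).le
  · exact Reach.sq ((nn_slip K ε b t).2 ht) hg hr1 hD ha hu hj'

/-- `ind_abs` without good pieces, `c l = t (γ.edge l)`,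
`z i = ∑_{k ∈ K, AtCut k (γ.p i)} 8 κ srad³`; `slip_step` or `jump`. -/
theorem repair (hε : |ε| ≤ 1) (ht : NN t) (hsq : AllSq G (slip K ε b t)) (hγ : γ.Ok) {D : Set V}
    {i0 : ℕ} (hi0 : i0 ≤ γ.n) (hD : ∀ i, i0 ≤ i → i ≤ γ.n → slV K ε (γ.p i) ∈ D)
    (hr : ∀ k ∈ K, ∀ i, i0 ≤ i → i ≤ γ.n → AtCut k (γ.p i) →
      box (slV K ε (γ.p i)) (srad G K ε b t (γ.p i)) ⊆ D ∧
      srad G K ε b t (γ.p i) ≤ nrm (slV K ε (γ.p i0) - slV K ε (γ.p i)) ∧
      srad G K ε b t (γ.p i) ≤ nrm (slV K ε (γ.p γ.n) - slV K ε (γ.p i))) :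
    Reach D (slip K ε b t) (slV K ε (γ.p i0)) (slV K ε (γ.p γ.n))
      (γ.cost t i0 γ.n + ∑ k ∈ K, Zs G K ε b k γ t) := by
  have hκ : 0 ≤ kap G := zero_le_one.trans (one_le_kap G)
  have hz : ∀ i, 0 ≤ ∑ k ∈ K.filter (fun k => AtCut k (γ.p i)),
      8 * kap G * (srad G K ε b t (γ.p i) : ℝ) ^ 3 :=
    fun i => Finset.sum_nonneg fun k _ => by positivity
  have h := ind_abs (ι := Unit) hi0
    (R := fun i a => Reach D (slip K ε b t) (slV K ε (γ.p i0)) (slV K ε (γ.p i)) a)
    (fun i a a' h ha => h.mono subset_rfl ha) (c := fun l => t (γ.edge l)) hz ∅ (fun _ => 0)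
    (fun _ => 0) (fun _ => 0) (by simp) (by simp) (by simp) (fun i h1 h2 _ => by
      by_cases hc : ∃ k ∈ K, AtCut k (γ.p i)
      · obtain ⟨k, hk, hc⟩ := hc
        obtain ⟨g1, g2, g3⟩ := hr k hk i h1 h2.le hc
        obtain ⟨j, hij, hjn, -, hj⟩ := jump hε ht hsq hγ h2.le g1 g2 g3
        refine ⟨j, hij, hjn, by simp, fun a ha => (hj a ha).mono subset_rfl ?_⟩
        have e1 : 0 ≤ ∑ l ∈ Finset.Ico i j, t (γ.edge l) := Finset.sum_nonneg fun l _ => ht _
        have e2 : 8 * kap G * (srad G K ε b t (γ.p i) : ℝ) ^ 3 ≤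
            ∑ k ∈ K.filter (fun k => AtCut k (γ.p i)),
              8 * kap G * (srad G K ε b t (γ.p i) : ℝ) ^ 3 :=
          Finset.single_le_sum (f := fun _ => 8 * kap G * (srad G K ε b t (γ.p i) : ℝ) ^ 3)
            (fun _ _ => by positivity) (Finset.mem_filter.2 ⟨hk, hc⟩)
        linarith
      · obtain ⟨g1, g2⟩ := slip_step (K := K) (ε := ε) b t (hγ i h2)
          fun k hk h => hc ⟨k, hk, h.1⟩
        refine ⟨i + 1, Nat.lt_succ_self i, h2, by simp, fun a ha =>
          (ha.step g1 (hD (i + 1) (by omega) h2)).mono subset_rfl ?_⟩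
        rw [g2, Nat.Ico_succ_singleton, Finset.sum_singleton]
        have := hz i
        unfold Pth.edge
        linarith)
    (Reach.refl (hD i0 le_rfl hi0))
  refine h.mono subset_rfl ?_
  rw [Finset.sum_empty, add_zero]
  refine add_le_add le_rfl ?_
  calc ∑ l ∈ Finset.Ico i0 γ.n, ∑ k ∈ K.filter (fun k => AtCut k (γ.p l)),
        8 * kap G * (srad G K ε b t (γ.p l) : ℝ) ^ 3
      ≤ ∑ l ∈ Finset.range (γ.n + 1), ∑ k ∈ K.filter (fun k => AtCut k (γ.p l)),
        8 * kap G * (srad G K ε b t (γ.p l) : ℝ) ^ 3 :=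
        Finset.sum_le_sum_of_subset_of_nonneg (fun l hl => by
          have := Finset.mem_Ico.1 hl
          exact Finset.mem_range.2 (by omega)) fun l _ _ => hz l
    _ = _ := by
        unfold Zs
        simp only [Finset.sum_filter]
        exact Finset.sum_comm

/-- a radius `> N / 4` (integer division) forces `Zs ≥ N³/8` (`le_Zs`) -/
theorem srad_le {N : ℕ} {k : ℤ} (hZ : Zs G K ε b k γ t < (N : ℝ) ^ 3 / 8) {i : ℕ} (hi : i ≤ γ.n)
    (hc : AtCut k (γ.p i)) : (srad G K ε b t (γ.p i) : ℤ) ≤ (N : ℤ) / 4 := by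
  have h1 := (le_Zs G K ε b t hi hc).trans_lt hZ
  have h2 : (4 * (srad G K ε b t (γ.p i) : ℝ)) ^ 3 < (N : ℝ) ^ 3 := by
    rw [mul_pow]; linarith
  have h3 := lt_of_pow_lt_pow_left₀ 3 (Nat.cast_nonneg N) h2
  have h4 : 4 * srad G K ε b t (γ.p i) < N := by exact_mod_cast h3
  omega

/-- single slip (`repair` with `D = univ`, `i0 = 0`) -/
theorem T_slip_le {N : ℕ} {k : ℤ} {x : V} (hε : |ε| ≤ 1) (ht : NN t)
    (hsq : AllSq G (slip {k} ε b t)) (hγ : GeoXZ t 0 x γ) (hx : x.1 = N) (hk : k ∈ cuts N)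
    (hZ : Zs G {k} ε b k γ t < (N : ℝ) ^ 3 / 8) :
    T (slip {k} ε b t) 0 (x + (0, ε)) ≤ T t 0 x + Zs G {k} ε b k γ t := by
  obtain ⟨hk1, hk2⟩ := mem_cuts.1 hk
  have e0 : slV {k} ε (γ.p 0) = 0 := by
    rw [hγ.2.1]
    refine slV_left fun k' hk' => ?_
    rw [Finset.mem_singleton.1 hk']
    simp only [Prod.fst_zero]
    omega
  have en : slV {k} ε (γ.p γ.n) = x + (0, ε) := by
    rw [hγ.2.2, slV_right fun k' hk' => by rw [Finset.mem_singleton.1 hk']; omega]
    simp
  have h := repair (K := {k}) (D := Set.univ) (i0 := 0) hε ht hsq hγ.ok (Nat.zero_le _)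
    (fun _ _ _ => Set.mem_univ _) fun k' hk' i _ hi hc => by
      rw [Finset.mem_singleton.1 hk'] at hc
      have h1 := srad_le hZ hi hc
      have h2 := abs_fst_le_nrm_slV {k} ε (γ.p 0) (γ.p i)
      have h3 := abs_fst_le_nrm_slV {k} ε (γ.p γ.n) (γ.p i)
      have h4 : (γ.p 0).1 = 0 := by rw [hγ.2.1]; rfl
      have h5 : (γ.p γ.n).1 = N := by rw [hγ.2.2, hx]
      rw [h4] at h2
      rw [h5] at h3
      rw [abs_le] at h2 h3
      refine ⟨Set.subset_univ _, ?_, ?_⟩ <;> rcases hc with hc | hc <;> omega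
  rw [e0, en, Finset.sum_singleton] at h
  have h2 := h.T_le ((nn_slip {k} ε b t).2 ht)
  rw [← hγ.tot]
  exact h2

end Crest.Agent.R151.PA
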