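import Crest.Agent.R151.ARep

/-! Row 151, part A: repairing a path across many cuts, using the local geodesics at good cuts. -/

set_option autoImplicit false

namespace Crest.Agent.R151.PA

open MeasureTheory ProbabilityTheory Crest.ProbabilityR.FirstPassage Filter
open scoped Classical

variable {G : Measure ℝ} [Law G] {K : Finset ℤ} {ε b : ℤ} {t : Env} {γ : Pth}

/-- The good piece at one cut: with `i` from `LL` and `j` from `RR`, `iL = i`, `iR = γ.n - j`.
Follow the middle piece of `γ'` translated by `(0, mσ K ε k)` (`Reach.of_shift`, `slip_local`,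
`slV_local`); the prefixes and the suffixes of `γ, γ'` have equal costs (`slip_left`,
`slip_right`). -/
theorem good_piece {k : ℤ} {M : ℕ} {γ' : Pth} (hγ : γ.Ok) (hγ' : γ'.Ok) (hk : k ∈ K)
    (hs : ∀ k' ∈ K, k' ≠ k → (M : ℤ) < |k' - k|) (hL : LL k M γ γ') (hR : RR k M ε γ γ') :
    ∃ iL iR, iL < iR ∧ iR ≤ γ.n ∧ (∀ l, l ≤ iL → (γ.p l).1 ≤ k) ∧
      (∀ l, iR ≤ l → k + 1 ≤ (γ.p l).1) ∧
      (∀ l, iL ≤ l → l ≤ iR → k - M ≤ (γ.p l).1 ∧ (γ.p l).1 ≤ k + 1 + M) ∧
      Reach Set.univ (slip K ε b t) (slV K ε (γ.p iL)) (slV K ε (γ.p iR))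
        (γ.cost t iL iR + (γ'.tot (slip {k} ε b t) - γ.tot t)) := by
  obtain ⟨i, hi, hi', hA, hB⟩ := hL
  obtain ⟨j, hj, hj', hC, hD⟩ := hR
  have h1 : i < γ.n - j := by
    by_contra h
    have h2 := (hA _ (not_lt.1 h)).2
    have h3 := (hC j le_rfl).2
    omega
  have h1' : i < γ'.n - j := by
    by_contra h
    have h2 := hA _ (not_lt.1 h)
    have h3 := hC j le_rfl
    have h4 := congrArg Prod.fst (h2.1.symm.trans h3.1)
    simp only [Prod.fst_add, add_zero] at h4
    omega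
  have hr : ∀ l, γ.n - j ≤ l → k + 1 ≤ (γ.p l).1 := fun l hl => by
    rcases le_total l γ.n with h | h
    · have := (hC (γ.n - l) (by omega)).2
      rwa [Nat.sub_sub_self h] at this
    · rw [γ.p_of_ge h]
      exact (hC 0 (Nat.zero_le _)).2
  have hm : ∀ l, l ≤ γ.n - j → (γ.p l).1 ≤ k + 1 + M := fun l hl => by
    have := (hD (γ.n - l) (by omega)).1
    rwa [Nat.sub_sub_self (by omega)] at this
  have hm' : ∀ l, l ≤ γ'.n - j → (γ'.p l).1 ≤ k + 1 + M := fun l hl => by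
    have := (hD (γ'.n - l) (by omega)).2
    rwa [Nat.sub_sub_self (by omega)] at this
  have hC' : ∀ l, l ≤ j → γ'.p (γ'.n - j + l) = γ.p (γ.n - j + l) + (0, ε) := fun l hl => by
    have := (hC (j - l) (by omega)).1
    rwa [show γ'.n - (j - l) = γ'.n - j + l by omega, show γ.n - (j - l) = γ.n - j + l by omega]
      at this
  refine ⟨i, γ.n - j, h1, Nat.sub_le _ _, fun l hl => (hA l hl).2, hr,
    fun l h2 h3 => ⟨(hB l h2).1, hm l h3⟩, ?_⟩
  have h2 := Reach.of_shift (t := slip K ε b t) (t' := slip {k} ε b t) hγ' h1'.le (Nat.sub_le _ _)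
    (0, mσ K ε k) fun l h3 h4 => slip_local ε b t hk hs (hγ' l (by omega)) (hB l h3).2
      (hm' l h4.le) (hB _ (by omega)).2 (hm' _ h4)
  have e1 : γ'.cost (slip {k} ε b t) 0 i = γ.cost t 0 i := Finset.sum_congr rfl fun l hl => by
    have h3 := (Finset.mem_Ico.1 hl).2
    rw [Pth.edge, (hA l h3.le).1, (hA (l + 1) h3).1]
    exact slip_left ε b t (hγ l (by omega)) (hA l h3.le).2 (hA (l + 1) h3).2
  have e2 : γ'.cost (slip {k} ε b t) (γ'.n - j) γ'.n = γ.cost t (γ.n - j) γ.n := by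
    rw [Pth.cost, Pth.cost, Finset.sum_Ico_eq_sum_range, Finset.sum_Ico_eq_sum_range,
      Nat.sub_sub_self hj, Nat.sub_sub_self hj']
    refine Finset.sum_congr rfl fun l hl => ?_
    have h3 := Finset.mem_range.1 hl
    rw [Pth.edge, add_assoc, hC' l h3.le, hC' (l + 1) h3]
    exact slip_right ε b t (hγ _ (by omega)) (hr _ (by omega)) (hr _ (by omega))
  have e3 := γ.cost_add t (Nat.zero_le i) h1.le
  have e4 := γ.cost_add t (Nat.zero_le _) (Nat.sub_le γ.n j)
  have e5 := γ'.cost_add (slip {k} ε b t) (Nat.zero_le i) h1'.le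
  have e6 := γ'.cost_add (slip {k} ε b t) (Nat.zero_le _) (Nat.sub_le γ'.n j)
  rw [slV_local ε hk hs (hB i le_rfl).1 (hm i h1.le), slV_local ε hk hs (hB _ h1.le).1 (hm _ le_rfl),
    slV_left (by simpa using (hA i le_rfl).2), slV_right (by simpa using hr _ le_rfl),
    Finset.card_singleton, Nat.cast_one, mul_one, ← (hC j le_rfl).1, ← (hA i le_rfl).1]
  refine h2.mono subset_rfl (le_of_eq ?_)
  unfold Pth.tot
  linarith

/-- `ind_abs` with the pieces of `good_piece` (they lie in disjoint ranges of columns, hence are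
disjoint time intervals); outside the pieces only bad cuts are crossed, and a `jump` at a bad cut
stays in columns that meet no piece. -/
theorem repairM {Gd : Finset ℤ} {M : ℕ} {γ' : ℤ → Pth} (hε : |ε| ≤ 1) (ht : NN t)
    (hsq : AllSq G (slip K ε b t)) (hγ : γ.Ok) (hGd : Gd ⊆ K)
    (hsp : ∀ k ∈ K, ∀ k' ∈ K, k ≠ k' → 2 * (M : ℤ) + 2 ≤ |k - k'|)
    (hloc : ∀ k ∈ Gd, (γ' k).Ok ∧ LL k M γ (γ' k) ∧ RR k M ε γ (γ' k))
    (hr : ∀ k' ∈ K, k' ∉ Gd → ∀ i, i ≤ γ.n → AtCut k' (γ.p i) →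
      srad G K ε b t (γ.p i) ≤ nrm (slV K ε (γ.p 0) - slV K ε (γ.p i)) ∧
      srad G K ε b t (γ.p i) ≤ nrm (slV K ε (γ.p γ.n) - slV K ε (γ.p i)) ∧
      ∀ k ∈ Gd, (srad G K ε b t (γ.p i) : ℤ) + M + 1 < |k - k'|) :
    Reach Set.univ (slip K ε b t) (slV K ε (γ.p 0)) (slV K ε (γ.p γ.n))
      (γ.tot t + ∑ k ∈ Gd, ((γ' k).tot (slip {k} ε b t) - γ.tot t) +
        ∑ k ∈ K \ Gd, Zs G K ε b k γ t) := by
  choose! iL iR h1 h2 h3 h4 h5 h6 using fun k (hk : k ∈ Gd) =>
    good_piece (t := t) (b := b) hγ (hloc k hk).1 (hGd hk)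
      (fun k' hk' hne => by have := hsp k' hk' k (hGd hk) hne; omega) (hloc k hk).2.1 (hloc k hk).2.2
  have hκ : 0 ≤ kap G := zero_le_one.trans (one_le_kap G)
  have hd : ∀ k ∈ Gd, ∀ k' ∈ Gd, k < k' → iR k ≤ iL k' := fun k hk k' hk' hlt => by
    by_contra hc
    have h7 := hsp k' (hGd hk') k (hGd hk) hlt.ne'
    rw [abs_of_pos (by omega)] at h7
    have h8 := (h5 k' hk' _ le_rfl (h1 k' hk').le).1
    rcases le_total (iL k) (iL k') with h | h
    · have := (h5 k hk _ h (by omega)).2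
      omega
    · have := h3 k hk _ h
      omega
  have key := ind_abs (Nat.zero_le γ.n)
    (R := fun i a => Reach Set.univ (slip K ε b t) (slV K ε (γ.p 0)) (slV K ε (γ.p i)) a)
    (fun i a a' h ha => h.mono subset_rfl ha) (c := fun l => t (γ.edge l))
    (z := fun i => ∑ k ∈ (K \ Gd).filter (fun k => AtCut k (γ.p i)),
      8 * kap G * (srad G K ε b t (γ.p i) : ℝ) ^ 3)
    (fun i => Finset.sum_nonneg fun k _ => by positivity) Gd iL iR
    (fun k => (γ' k).tot (slip {k} ε b t) - γ.tot t)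
    (fun k hk => ⟨Nat.zero_le _, h1 k hk, h2 k hk⟩)
    (fun k hk k' hk' hne => (lt_or_gt_of_ne hne).imp (hd k hk k' hk') (hd k' hk' k hk))
    (fun k hk a ha => (ha.trans (h6 k hk)).mono subset_rfl (le_of_eq (add_assoc _ _ _).symm))
    ?_ (Reach.refl trivial)
  · refine key.mono subset_rfl (add_le_add le_rfl ?_)
    simp only [Zs, Finset.sum_filter]
    rw [Finset.sum_comm]
    refine Finset.sum_le_sum fun k _ => Finset.sum_le_sum_of_subset_of_nonneg
      (fun l hl => Finset.mem_range.2 (by have := (Finset.mem_Ico.1 hl).2; omega)) fun l _ _ => ?_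
    split_ifs
    · positivity
    · rfl
  intro i _ hi hf
  by_cases hc : ∃ k' ∈ K \ Gd, AtCut k' (γ.p i)
  · obtain ⟨k', hk', hc⟩ := hc
    obtain ⟨r1, r2, r3⟩ := hr k' (Finset.mem_sdiff.1 hk').1 (Finset.mem_sdiff.1 hk').2 i hi.le hc
    obtain ⟨j, j1, j2, j3, j4⟩ := jump hε ht hsq hγ (D := Set.univ) hi.le (Set.subset_univ _) r1 r2
    refine ⟨j, j1, j2, fun k hk => (hf k hk).imp_left fun h7 => ?_, fun a ha =>
      (j4 a ha).mono subset_rfl ?_⟩
    · by_contra h8
      have h9 := abs_le.1 (j3 (iL k) h7.le (by omega))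
      have h10 := h3 k hk _ le_rfl
      have h11 := (h5 k hk _ le_rfl (h1 k hk).le).1
      have h12 := lt_abs.1 (r3 k hk)
      unfold AtCut at hc
      omega
    · have h7 : 0 ≤ ∑ l ∈ Finset.Ico i j, t (γ.edge l) := Finset.sum_nonneg fun l _ => ht _
      have h8 := Finset.single_le_sum (s := (K \ Gd).filter (fun k => AtCut k (γ.p i)))
        (f := fun _ => 8 * kap G * (srad G K ε b t (γ.p i) : ℝ) ^ 3) (fun k _ => by positivity)
        (Finset.mem_filter.2 ⟨hk', hc⟩)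
      linarith
  · obtain ⟨s1, s2⟩ := slip_step (K := K) (ε := ε) b t (hγ i hi) fun k hk h7 => by
      by_cases hg : k ∈ Gd
      · unfold AtCut at h7
        rcases hf k hg with h | h
        · have h8 := h3 k hg i h.le
          have h9 := h3 k hg (i + 1) h
          omega
        · have h8 := h4 k hg i h
          have h9 := h4 k hg (i + 1) (by omega)
          omega
      · exact hc ⟨k, Finset.mem_sdiff.2 ⟨hk, hg⟩, h7.1⟩
    refine ⟨i + 1, Nat.lt_succ_self i, hi, hf, fun a ha =>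
      (ha.step s1 trivial).mono subset_rfl ?_⟩
    rw [s2, Nat.Ico_succ_singleton, Finset.sum_singleton]
    exact le_add_of_nonneg_right (Finset.sum_nonneg fun k _ => by positivity)

end Crest.Agent.R151.PA
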