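import Crest.Agent.R151.ADefs

/-! Row 151, part A: upper expectations and counting. -/

set_option autoImplicit false

namespace Crest.Agent.R151.PA

open MeasureTheory ProbabilityTheory Crest.ProbabilityR.FirstPassage Filter
open scoped Classical

section Cnt

variable {α β : Type}

theorem cnt_nonneg (F : Finset α) (q : α → Prop) : 0 ≤ cnt F q := Nat.cast_nonneg _
theorem cnt_le_card (F : Finset α) (q : α → Prop) : cnt F q ≤ F.card := by
  unfold cnt
  exact_mod_cast Finset.card_filter_le _ _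
theorem cnt_mono {F : Finset α} {q q' : α → Prop} (h : ∀ x ∈ F, q x → q' x) :
    cnt F q ≤ cnt F q' := by
  unfold cnt
  exact_mod_cast Finset.card_le_card fun x hx =>
    Finset.mem_filter.2 ⟨(Finset.mem_filter.1 hx).1,
      h x (Finset.mem_filter.1 hx).1 (Finset.mem_filter.1 hx).2⟩
theorem cnt_or_le {F : Finset α} {q q1 q2 : α → Prop} (h : ∀ x ∈ F, q x → q1 x ∨ q2 x) :
    cnt F q ≤ cnt F q1 + cnt F q2 := by
  unfold cnt
  have h1 : F.filter q ⊆ F.filter q1 ∪ F.filter q2 := by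
    intro x hx
    obtain ⟨hx1, hx2⟩ := Finset.mem_filter.1 hx
    rcases h x hx1 hx2 with h' | h'
    · exact Finset.mem_union_left _ (Finset.mem_filter.2 ⟨hx1, h'⟩)
    · exact Finset.mem_union_right _ (Finset.mem_filter.2 ⟨hx1, h'⟩)
  exact_mod_cast (Finset.card_le_card h1).trans (Finset.card_union_le _ _)
theorem cnt_le_sum_cnt {F : Finset α} {q : α → Prop} (I : Finset β) {q' : β → α → Prop}
    (h : ∀ x ∈ F, q x → ∃ i ∈ I, q' i x) : cnt F q ≤ ∑ i ∈ I, cnt F (q' i) := by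
  unfold cnt
  have h1 : F.filter q ⊆ I.biUnion fun i => F.filter (q' i) := by
    intro x hx
    obtain ⟨hx1, hx2⟩ := Finset.mem_filter.1 hx
    obtain ⟨i, hi, hq⟩ := h x hx1 hx2
    exact Finset.mem_biUnion.2 ⟨i, hi, Finset.mem_filter.2 ⟨hx1, hq⟩⟩
  exact_mod_cast (Finset.card_le_card h1).trans Finset.card_biUnion_le
theorem cnt_eq_sum (F : Finset α) (q : α → Prop) :
    cnt F q = ∑ x ∈ F, if q x then (1 : ℝ) else 0 := by
  unfold cnt
  rw [Finset.sum_boole]
theorem cnt_le_sum {F : Finset α} {q : α → Prop} {f : α → ℝ} (h0 : ∀ x ∈ F, 0 ≤ f x)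
    (h : ∀ x ∈ F, q x → 1 ≤ f x) : cnt F q ≤ ∑ x ∈ F, f x := by
  rw [cnt_eq_sum]
  refine Finset.sum_le_sum fun x hx => ?_
  split_ifs with hq
  · exact h x hx hq
  · exact h0 x hx
theorem cnt_le_of_injOn {F : Finset α} {F' : Finset β} {q : α → Prop} {q' : β → Prop} (φ : α → β)
    (h : ∀ x ∈ F, q x → φ x ∈ F' ∧ q' (φ x))
    (hinj : ∀ x ∈ F, ∀ y ∈ F, q x → q y → φ x = φ y → x = y) : cnt F q ≤ cnt F' q' := by
  unfold cnt
  have : (F.filter q).card ≤ (F'.filter q').card := by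
    refine Finset.card_le_card_of_injOn φ (fun x hx => ?_) (fun x hx y hy e => ?_)
    · obtain ⟨hx1, hx2⟩ := Finset.mem_filter.1 (Finset.mem_coe.1 hx)
      exact Finset.mem_coe.2 (Finset.mem_filter.2 (h x hx1 hx2))
    · obtain ⟨hx1, hx2⟩ := Finset.mem_filter.1 (Finset.mem_coe.1 hx)
      obtain ⟨hy1, hy2⟩ := Finset.mem_filter.1 (Finset.mem_coe.1 hy)
      exact hinj x hx1 y hy1 hx2 hy2 e
  exact_mod_cast this
theorem nt_nonneg (γ : Pth) (q : ℕ → Prop) : 0 ≤ nt γ q := cnt_nonneg _ _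
theorem nt_le (γ : Pth) (q : ℕ → Prop) : nt γ q ≤ γ.n + 1 := by
  have := cnt_le_card (Finset.range (γ.n + 1)) q
  simpa [nt] using this
theorem nt_mono {γ : Pth} {q q' : ℕ → Prop} (h : ∀ i, i ≤ γ.n → q i → q' i) :
    nt γ q ≤ nt γ q' :=
  cnt_mono fun i hi => h i (Nat.lt_succ_iff.1 (Finset.mem_range.1 hi))

end Cnt

variable {G : Measure ℝ} [IsProbabilityMeasure G] {f g : Env → ℝ} {a b : ℝ}

theorem AUE_integral_comp {Φ : Env → Env} (hΦ : MeasurePreserving Φ (iidLaw G) (iidLaw G))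
    (hu : AEStronglyMeasurable f (iidLaw G)) :
    ∫ t, f (Φ t) ∂(iidLaw G) = ∫ t, f t ∂(iidLaw G) := by
  rw [← integral_map hΦ.measurable.aemeasurable (by rwa [hΦ.map_eq]), hΦ.map_eq]

theorem UE.mono (h : UE G f a) (hf : ∀ᵐ t ∂(iidLaw G), g t ≤ f t) (ha : a ≤ b) : UE G g b := by
  obtain ⟨u, hu, hfu, hua⟩ := h
  refine ⟨u, hu, ?_, hua.trans ha⟩
  filter_upwards [hf, hfu] with t h1 h2 using h1.trans h2
theorem UE.of_integrable (hi : Integrable f (iidLaw G)) (h : ∫ t, f t ∂(iidLaw G) ≤ a) :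
    UE G f a := ⟨f, hi, Eventually.of_forall fun _ => le_rfl, h⟩
theorem UE.const (c : ℝ) : UE G (fun _ => c) c :=
  UE.of_integrable (integrable_const c) (by simp)
theorem UE.add (h : UE G f a) (h' : UE G g b) : UE G (fun t => f t + g t) (a + b) := by
  obtain ⟨u, hu, hfu, hua⟩ := h
  obtain ⟨v, hv, hgv, hvb⟩ := h'
  refine ⟨fun t => u t + v t, hu.add hv, ?_, ?_⟩
  · filter_upwards [hfu, hgv] with t h1 h2 using add_le_add h1 h2
  · rw [integral_add hu hv]
    exact add_le_add hua hvb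
theorem UE.sum {ι : Type} (F : Finset ι) {f : ι → Env → ℝ} {a : ι → ℝ}
    (h : ∀ i ∈ F, UE G (f i) (a i)) : UE G (fun t => ∑ i ∈ F, f i t) (∑ i ∈ F, a i) := by
  induction F using Finset.induction_on with
  | empty => simpa using UE.const (G := G) 0
  | insert i F hi ih =>
    simp only [Finset.sum_insert hi]
    exact (h i (Finset.mem_insert_self _ _)).add
      (ih fun j hj => h j (Finset.mem_insert_of_mem hj))
theorem UE.const_mul (h : UE G f a) {c : ℝ} (hc : 0 ≤ c) : UE G (fun t => c * f t) (c * a) := by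
  obtain ⟨u, hu, hfu, hua⟩ := h
  refine ⟨fun t => c * u t, hu.const_mul c, ?_, ?_⟩
  · filter_upwards [hfu] with t h1 using mul_le_mul_of_nonneg_left h1 hc
  · rw [integral_const_mul]
    exact mul_le_mul_of_nonneg_left hua hc
theorem UE.comp {Φ : Env → Env} (hΦ : MeasurePreserving Φ (iidLaw G) (iidLaw G)) (h : UE G f a) :
    UE G (fun t => f (Φ t)) a := by
  obtain ⟨u, hu, hfu, hua⟩ := h
  refine ⟨fun t => u (Φ t), (hΦ.integrable_comp hu.1).2 hu,
    hΦ.quasiMeasurePreserving.ae hfu, ?_⟩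
  rw [AUE_integral_comp hΦ hu.1]
  exact hua
theorem UE.integral_le (h : UE G f a) (hi : Integrable f (iidLaw G)) :
    ∫ t, f t ∂(iidLaw G) ≤ a := by
  obtain ⟨u, hu, hfu, hua⟩ := h
  exact (integral_mono_ae hi hu hfu).trans hua
theorem UE.nonneg (h : UE G f a) (h0 : ∀ᵐ t ∂(iidLaw G), 0 ≤ f t) : 0 ≤ a := by
  have := (h.mono (g := fun _ => 0) h0 le_rfl).integral_le (integrable_const 0)
  simpa using this

/-- every term may be evaluated in its own copy of the environment (each `f k` is integrable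
because it is measurable and dominated) -/
theorem UE.reshuffle {ι : Type} (F : Finset ι) {f : ι → Env → ℝ} (hm : ∀ k ∈ F, Measurable (f k))
    (h0 : ∀ k ∈ F, ∀ t, 0 ≤ f k t) {Φ : ι → Env → Env}
    (hΦ : ∀ k ∈ F, MeasurePreserving (Φ k) (iidLaw G) (iidLaw G))
    (h : UE G (fun t => ∑ k ∈ F, f k t) a) : UE G (fun t => ∑ k ∈ F, f k (Φ k t)) a := by
  have hint : ∀ k ∈ F, Integrable (f k) (iidLaw G) := by
    intro k hk
    obtain ⟨u, hu, hfu, -⟩ := h
    refine hu.mono' (hm k hk).aestronglyMeasurable ?_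
    filter_upwards [hfu] with t ht
    rw [Real.norm_of_nonneg (h0 k hk t)]
    exact (Finset.single_le_sum (f := fun j => f j t) (fun j hj => h0 j hj t) hk).trans ht
  have h1 := h.integral_le (integrable_finset_sum F hint)
  rw [integral_finset_sum F hint] at h1
  exact (UE.sum F fun k hk => (UE.of_integrable (hint k hk) le_rfl).comp (hΦ k hk)).mono
    (Eventually.of_forall fun _ => le_rfl) h1

theorem AUE_of_lintegral {H : Env → ENNReal} (hH : AEMeasurable H (iidLaw G)) (ha : 0 ≤ a)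
    (hl : ∫⁻ t, H t ∂(iidLaw G) ≤ ENNReal.ofReal a)
    (hg : ∀ᵐ t ∂(iidLaw G), ENNReal.ofReal (g t) ≤ H t) : UE G g a := by
  have hne : ∫⁻ t, H t ∂(iidLaw G) ≠ ⊤ := ne_top_of_le_ne_top ENNReal.ofReal_ne_top hl
  have hlt := ae_lt_top' hH hne
  refine ⟨fun t => (H t).toReal, integrable_toReal_of_lintegral_ne_top hH hne, ?_, ?_⟩
  · filter_upwards [hg, hlt] with t h1 h2
    exact (ENNReal.ofReal_le_iff_le_toReal h2.ne).1 h1
  · rw [integral_toReal hH hlt]
    exact ENNReal.toReal_le_of_le_ofReal ha hl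

theorem AUE_of_series {ι : Type} [Countable ι] {f : ι → Env → ℝ} {c : ι → ℝ}
    (h0 : ∀ r t, 0 ≤ f r t)
    (h : ∀ r, UE G (f r) (c r)) (hc : ∀ F : Finset ι, ∑ r ∈ F, c r ≤ a)
    (hg : ∀ᵐ t ∂(iidLaw G), ∃ F : Finset ι, g t ≤ ∑ r ∈ F, f r t) : UE G g a := by
  have hc0 : ∀ r, 0 ≤ c r := fun r => (h r).nonneg (Eventually.of_forall (h0 r))
  choose u hu hfu hua using h
  have hm : ∀ r, AEMeasurable (fun t => ENNReal.ofReal (u r t)) (iidLaw G) :=
    fun r => (hu r).1.aemeasurable.ennreal_ofReal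
  refine AUE_of_lintegral (H := fun t => ∑' r, ENNReal.ofReal (u r t))
    (AEMeasurable.ennreal_tsum hm) (by simpa using hc ∅) ?_ ?_
  · rw [lintegral_tsum hm, ENNReal.tsum_eq_iSup_sum]
    refine iSup_le fun F => ?_
    refine le_trans (Finset.sum_le_sum (g := fun r => ENNReal.ofReal (c r)) fun r _ => ?_) ?_
    · rw [← ofReal_integral_eq_lintegral_ofReal (hu r)]
      · exact ENNReal.ofReal_le_ofReal (hua r)
      · filter_upwards [hfu r] with t ht using (h0 r t).trans ht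
    · rw [← ENNReal.ofReal_sum_of_nonneg fun r _ => hc0 r]
      exact ENNReal.ofReal_le_ofReal (hc F)
  · filter_upwards [hg, ae_all_iff.2 hfu] with t ⟨F, hF⟩ ht
    refine (ENNReal.ofReal_le_ofReal hF).trans ?_
    rw [ENNReal.ofReal_sum_of_nonneg fun r _ => h0 r t]
    exact (Finset.sum_le_sum fun r _ => ENNReal.ofReal_le_ofReal (ht r)).trans
      (ENNReal.sum_le_tsum F)

theorem AUE_indicator (A : Set Env) : UE G (A.indicator fun _ => (1 : ℝ)) (Pr G A) := by
  have hm := measurableSet_toMeasurable (iidLaw G) A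
  refine ⟨(toMeasurable (iidLaw G) A).indicator fun _ => (1 : ℝ),
    (integrable_const 1).indicator hm, Eventually.of_forall fun t => ?_, ?_⟩
  · exact Set.indicator_le_indicator_of_subset (subset_toMeasurable _ _) (fun _ => zero_le_one) t
  · rw [integral_indicator_const _ hm]
    simp [Pr, Measure.real]

/-- monotone convergence: the majorants `g r` of `f r` are a.e. nonnegative, take
`t ↦ (∑' r, ENNReal.ofReal (g r t)).toReal` -/
theorem UE.of_series {f : ℕ → Env → ℝ} {c : ℕ → ℝ} (h0 : ∀ r t, 0 ≤ f r t)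
    (h : ∀ r, UE G (f r) (c r)) (hc : ∀ F : Finset ℕ, ∑ r ∈ F, c r ≤ a)
    (hg : ∀ᵐ t ∂(iidLaw G), ∃ F : Finset ℕ, g t ≤ ∑ r ∈ F, f r t) : UE G g a :=
  AUE_of_series h0 h hc hg

/-- transfer of counts along a countable family of pairs of events (replace `A i` by
`toMeasurable`; `∑' i, P (B i) = ∫⁻ ∑' i, 1_{B i} ≤ a`) -/
theorem UE.transfer {ι : Type} [Countable ι] {A B : ι → Set Env} (hB : ∀ i, MeasurableSet (B i))
    {κ : ℝ} (hκ : 0 ≤ κ) (hAB : ∀ i, Pr G (A i) ≤ κ * Pr G (B i)) (hg : UE G g a)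
    (hgB : ∀ᵐ t ∂(iidLaw G), ∀ F : Finset ι, (∀ i ∈ F, t ∈ B i) → (F.card : ℝ) ≤ g t)
    (hfA : ∀ᵐ t ∂(iidLaw G), ∃ F : Finset ι, (∀ i ∈ F, t ∈ A i) ∧ f t ≤ (F.card : ℝ)) :
    UE G f (κ * a) := by
  refine AUE_of_series (f := fun i t => (A i).indicator (fun _ => (1 : ℝ)) t)
    (c := fun i => κ * Pr G (B i)) (fun i t => Set.indicator_nonneg (fun _ _ => zero_le_one) t)
    (fun i => (AUE_indicator (A i)).mono (Eventually.of_forall fun _ => le_rfl) (hAB i))
    (fun F => ?_) ?_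
  · rw [← Finset.mul_sum]
    refine mul_le_mul_of_nonneg_left ?_ hκ
    have hint : ∀ i ∈ F, Integrable ((B i).indicator fun _ => (1 : ℝ)) (iidLaw G) :=
      fun i _ => (integrable_const 1).indicator (hB i)
    have h1 : UE G (fun t => ∑ i ∈ F, (B i).indicator (fun _ => (1 : ℝ)) t) a := by
      refine hg.mono ?_ le_rfl
      filter_upwards [hgB] with t ht
      have := ht (F.filter fun i => t ∈ B i) fun i hi => (Finset.mem_filter.1 hi).2
      simpa only [Set.indicator_apply, Finset.sum_boole] using this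
    have h2 := h1.integral_le (integrable_finset_sum F hint)
    rw [integral_finset_sum F hint] at h2
    refine le_trans (le_of_eq (Finset.sum_congr rfl fun i _ => ?_)) h2
    rw [integral_indicator_const _ (hB i)]
    simp [Pr]
  · filter_upwards [hfA] with t ⟨F, h1, h2⟩
    refine ⟨F, h2.trans (le_of_eq ?_)⟩
    rw [Finset.sum_congr rfl (g := fun _ => (1 : ℝ)) fun i hi => Set.indicator_of_mem (h1 i hi) _]
    simp

end Crest.Agent.R151.PA
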