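import Crest.Agent.R151.BDefs

/-! Row 151, part B: averages over the scale `N ∈ [N0, 2 N0)`. -/

set_option autoImplicit false

namespace Crest.Agent.R151

open MeasureTheory ProbabilityTheory Crest.ProbabilityR.FirstPassage Filter Topology
open scoped Classical

theorem avgZ_const {N0 : ℕ} (h : 1 ≤ N0) (c : ℝ) : avgZ N0 (fun _ => c) = c := by
  have h0 : (N0 : ℝ) ≠ 0 := by positivity
  unfold avgZ
  rw [Finset.sum_const, Int.card_Ico, show (2 * (N0 : ℤ) - N0).toNat = N0 by omega, nsmul_eq_mul]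
  field_simp
theorem avgZ_add (N0 : ℕ) (f g : ℤ → ℝ) :
    avgZ N0 (fun N => f N + g N) = avgZ N0 f + avgZ N0 g := by
  unfold avgZ
  rw [Finset.sum_add_distrib, add_div]
theorem avgZ_mul (N0 : ℕ) (c : ℝ) (f : ℤ → ℝ) : avgZ N0 (fun N => c * f N) = c * avgZ N0 f := by
  unfold avgZ
  rw [← Finset.mul_sum, mul_div_assoc]
theorem avgZ_mono (N0 : ℕ) {f g : ℤ → ℝ} (h : ∀ N : ℤ, (N0 : ℤ) ≤ N → N < 2 * N0 → f N ≤ g N) :
    avgZ N0 f ≤ avgZ N0 g := by
  unfold avgZ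
  refine div_le_div_of_nonneg_right (Finset.sum_le_sum fun N hN => ?_) (Nat.cast_nonneg _)
  rw [Finset.mem_Ico] at hN
  exact h N hN.1 hN.2

theorem bavg_nonneg (N0 : ℕ) {f : ℤ → ℝ} (h : ∀ N, 0 ≤ f N) : 0 ≤ avgZ N0 f :=
  div_nonneg (Finset.sum_nonneg fun N _ => h N) (Nat.cast_nonneg _)

theorem bavg_tele (g : ℤ → ℝ) {a b : ℤ} (h : a ≤ b) :
    ∑ N ∈ Finset.Ico a b, (g (N + 1) - g N) = g b - g a := by
  induction b, h using Int.le_induction with
  | base => simp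
  | succ b hb ih =>
    rw [← Finset.insert_Ico_right_eq_Ico_add_one hb, Finset.sum_insert (by simp), ih]
    ring

theorem bavg_diff_sum {f : ℤ → ℝ} {B : ℝ} {M a b : ℤ} (hB : ∀ N, M ≤ N → |f N| ≤ B) (hab : a ≤ b)
    (k : ℤ) (hk : M + |k| ≤ a) :
    ∑ N ∈ Finset.Ico a b, (f N - f (N + k)) ≤ 2 * |(k : ℝ)| * B := by
  induction k using Int.induction_on with
  | zero => simp
  | succ j ih =>
    have hj : (0 : ℤ) ≤ j := Int.natCast_nonneg j
    rw [abs_of_nonneg (by omega)] at hk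
    have h1 := ih (by rw [abs_of_nonneg hj]; omega)
    have h2 := bavg_tele (fun N => f (N + j)) hab
    have h3 : ∑ N ∈ Finset.Ico a b, (f N - f (N + (j + 1))) =
        ∑ N ∈ Finset.Ico a b, (f N - f (N + j)) -
          ∑ N ∈ Finset.Ico a b, (f (N + 1 + j) - f (N + j)) := by
      rw [← Finset.sum_sub_distrib]
      refine Finset.sum_congr rfl fun N _ => ?_
      rw [show N + (j + 1) = N + 1 + j by ring]
      ring
    have h4 := abs_le.1 (hB (a + j) (by omega))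
    have h5 := abs_le.1 (hB (b + j) (by omega))
    rw [h3, h2]
    push_cast at h1 ⊢
    rw [abs_of_nonneg (by positivity)] at h1 ⊢
    linarith [h4.2, h5.1]
  | pred j ih =>
    have hj : (0 : ℤ) ≤ j := Int.natCast_nonneg j
    rw [abs_of_nonpos (by omega)] at hk
    have h1 := ih (by rw [abs_of_nonpos (by omega)]; omega)
    have h2 := bavg_tele (fun N => f (N + (-j - 1))) hab
    have h3 : ∑ N ∈ Finset.Ico a b, (f N - f (N + (-j - 1))) =
        ∑ N ∈ Finset.Ico a b, (f N - f (N + -j)) +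
          ∑ N ∈ Finset.Ico a b, (f (N + 1 + (-j - 1)) - f (N + (-j - 1))) := by
      rw [← Finset.sum_add_distrib]
      refine Finset.sum_congr rfl fun N _ => ?_
      rw [show N + 1 + (-j - 1) = N + -j by ring]
      ring
    have h4 := abs_le.1 (hB (a + (-j - 1)) (by omega))
    have h5 := abs_le.1 (hB (b + (-j - 1)) (by omega))
    have hj' : (0 : ℝ) ≤ j := Nat.cast_nonneg j
    rw [h3, h2]
    push_cast at h1 ⊢
    rw [abs_of_nonpos (by linarith)] at h1 ⊢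
    linarith [h4.1, h5.2]

theorem bavg_diff {f : ℤ → ℝ} {B : ℝ} {M : ℤ} (hB : ∀ N, M ≤ N → |f N| ≤ B) (k : ℤ) {N0 : ℕ}
    (hk : M + |k| ≤ N0) : avgZ N0 (fun N => f N - f (N + k)) ≤ 2 * |(k : ℝ)| * B / N0 :=
  div_le_div_of_nonneg_right (bavg_diff_sum hB (by omega) k hk) (Nat.cast_nonneg _)

theorem bavg_ev (M : ℤ) : ∀ᶠ N0 : ℕ in atTop, M ≤ (N0 : ℤ) :=
  tendsto_natCast_atTop_atTop.eventually_ge_atTop M

theorem bavg_div (C : ℝ) {ζ : ℝ} (h : 0 < ζ) : ∀ᶠ N0 : ℕ in atTop, C / N0 ≤ ζ :=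
  (tendsto_const_div_atTop_nhds_zero_nat C).eventually_le_const h

theorem avg2_add (N0 : ℕ) (f g : ℤ → ℤ → ℝ) :
    avg2 N0 (fun N1 N2 => f N1 N2 + g N1 N2) = avg2 N0 f + avg2 N0 g := by
  unfold avg2
  simp only [avgZ_add]

theorem avg2_mul (N0 : ℕ) (c : ℝ) (f : ℤ → ℤ → ℝ) :
    avg2 N0 (fun N1 N2 => c * f N1 N2) = c * avg2 N0 f := by
  unfold avg2
  simp only [avgZ_mul]

theorem avg2_swap (N0 : ℕ) (f : ℤ → ℤ → ℝ) : avg2 N0 (fun N1 N2 => f N2 N1) = avg2 N0 f := by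
  unfold avg2 avgZ
  simp only [← Finset.sum_div]
  rw [Finset.sum_comm]

theorem Small.mono_right {f : ℤ → ℝ} {a b : ℝ} (h : Small f a) (hab : a ≤ b) : Small f b :=
  fun ζ hζ => h ζ (hab.trans_lt hζ)
/-- comparison is only needed for large `N` -/
theorem Small.of_le {f g : ℤ → ℝ} {a : ℝ} (h : Small g a) (hfg : ∀ᶠ N in atTop, f N ≤ g N) :
    Small f a := by
  obtain ⟨M, hM⟩ := eventually_atTop.1 hfg
  intro ζ hζ
  filter_upwards [h ζ hζ, bavg_ev M] with N0 h1 h2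
  exact (avgZ_mono N0 fun N hN _ => hM N (h2.trans hN)).trans h1
theorem small_const (c : ℝ) : Small (fun _ => c) c := by
  intro ζ hζ
  filter_upwards [eventually_ge_atTop 1] with N0 h1
  rw [avgZ_const h1]
  exact hζ.le
theorem small_of_eventually_le {f : ℤ → ℝ} {c : ℝ} (h : ∀ᶠ N in atTop, f N ≤ c) : Small f c :=
  (small_const c).of_le h
theorem small_of_tendsto {f : ℤ → ℝ} (h : Tendsto f atTop (𝓝 0)) : Small f 0 :=
  fun ζ hζ => small_of_eventually_le (h.eventually_le_const (half_pos hζ)) ζ (half_lt_self hζ)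
theorem Small.add {f g : ℤ → ℝ} {a b : ℝ} (hf : Small f a) (hg : Small g b) :
    Small (fun N => f N + g N) (a + b) := by
  intro ζ hζ
  filter_upwards [hf (a + (ζ - a - b) / 2) (by linarith), hg (b + (ζ - a - b) / 2) (by linarith)]
    with N0 h1 h2
  rw [avgZ_add]
  linarith
theorem Small.const_mul {f : ℤ → ℝ} {a c : ℝ} (hf : Small f a) (hc : 0 ≤ c) :
    Small (fun N => c * f N) (c * a) := by
  intro ζ hζ
  rcases hc.eq_or_lt with rfl | hc'
  · exact Eventually.of_forall fun N0 => by rw [avgZ_mul]; linarith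
  · filter_upwards [hf (ζ / c) (by rwa [lt_div_iff₀' hc'])] with N0 h1
    rw [avgZ_mul]
    rwa [le_div_iff₀' hc'] at h1
theorem Small.sum {ι : Type*} (s : Finset ι) {f : ι → ℤ → ℝ} {a : ι → ℝ}
    (h : ∀ i ∈ s, Small (f i) (a i)) : Small (fun N => ∑ i ∈ s, f i N) (∑ i ∈ s, a i) := by
  induction s using Finset.induction_on with
  | empty => simpa using small_const 0
  | insert i s hi ih =>
    simp only [Finset.sum_insert hi]
    exact (h i (Finset.mem_insert_self _ _)).add (ih fun j hj => h j (Finset.mem_insert_of_mem hj))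
theorem Small.of_forall_gt {f : ℤ → ℝ} {a : ℝ} (h : ∀ b, a < b → Small f b) : Small f a :=
  fun ζ hζ => h ((a + ζ) / 2) (by linarith) ζ (by linarith)
theorem small_diff {f : ℤ → ℝ} {B : ℝ} (hB : ∀ᶠ N in atTop, |f N| ≤ B) (k : ℤ) :
    Small (fun N => f N - f (N + k)) 0 := by
  obtain ⟨M, hM⟩ := eventually_atTop.1 hB
  intro ζ hζ
  filter_upwards [bavg_ev (M + |k|), bavg_div (2 * |(k : ℝ)| * B) hζ] with N0 h1 h2
  exact (bavg_diff hM k h1).trans h2
/-- shift invariance for functions that are bounded for large `N` -/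
theorem Small.shift {f : ℤ → ℝ} {a B : ℝ} (hf : Small f a) (hB : ∀ᶠ N in atTop, |f N| ≤ B) (k : ℤ) :
    Small (fun N => f (N + k)) a := by
  have h := hf.add (small_diff (f := fun N => -f N) (B := B) (by simpa using hB) k)
  rw [add_zero] at h
  exact h.of_le (Eventually.of_forall fun N => by linarith)
theorem bavg_lin {Γ : ℤ → ℝ} {c : ℝ} (h : Tendsto (fun N : ℤ => Γ N / N) atTop (𝓝 c)) (p : ℕ)
    (hp : 1 ≤ p) (q : ℤ) : Tendsto (fun N0 : ℕ => Γ (p * N0 + q) / N0) atTop (𝓝 (c * p)) := by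
  have h1 : Tendsto (fun N0 : ℕ => (p : ℤ) * N0 + q) atTop atTop :=
    tendsto_atTop_add_const_right _ _
      (tendsto_natCast_atTop_atTop.const_mul_atTop' (by exact_mod_cast hp))
  have h2 : Tendsto (fun N0 : ℕ => (p : ℝ) + (q : ℝ) / N0) atTop (𝓝 (p + 0)) :=
    tendsto_const_nhds.add (tendsto_const_div_atTop_nhds_zero_nat _)
  rw [add_zero] at h2
  refine ((h.comp h1).mul h2).congr' ?_
  filter_upwards [h1.eventually_gt_atTop 0, eventually_gt_atTop 0] with N0 h3 h4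
  have h5 : (0 : ℝ) < (p : ℝ) * N0 + q := by exact_mod_cast h3
  have h6 : (0 : ℝ) < N0 := by exact_mod_cast h4
  simp only [Function.comp]
  push_cast
  field_simp
/-- telescoping average of increments of an asymptotically linear sequence -/
theorem small_telescope {Γ : ℤ → ℝ} {c : ℝ} (h : Tendsto (fun N : ℤ => Γ N / N) atTop (𝓝 c))
    (n : ℕ) : Small (fun N => n * c - (Γ N - Γ (N - n))) 0 := by
  induction n with
  | zero => simpa using small_const 0
  | succ n ih =>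
    have h1 : Small (fun N => c + -1 * (Γ (N + 1 + (-n - 1)) - Γ (N + (-n - 1)))) 0 := by
      intro ζ hζ
      have h2 := (tendsto_const_nhds (x := c)).sub
        ((bavg_lin h 2 one_le_two (-n - 1)).sub (bavg_lin h 1 le_rfl (-n - 1)))
      rw [show c - (c * (2 : ℕ) - c * (1 : ℕ)) = 0 by push_cast; ring] at h2
      filter_upwards [h2.eventually_le_const hζ, eventually_ge_atTop 1] with N0 h3 h4
      rw [avgZ_add, avgZ_const h4, avgZ_mul, avgZ,
        bavg_tele (fun N => Γ (N + (-n - 1))) (by omega), sub_div]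
      push_cast at h3
      rw [one_mul] at h3
      linarith
    have h2 := ih.add h1
    rw [add_zero] at h2
    refine h2.of_le (Eventually.of_forall fun N => le_of_eq ?_)
    push_cast
    rw [show N + 1 + (-(n : ℤ) - 1) = N - n by ring, show N + (-(n : ℤ) - 1) = N - (n + 1) by ring]
    ring

theorem Small2.mono_right {f : ℤ → ℤ → ℝ} {a b : ℝ} (h : Small2 f a) (hab : a ≤ b) : Small2 f b :=
  fun ζ hζ => h ζ (hab.trans_lt hζ)
theorem Small2.of_le {f g : ℤ → ℤ → ℝ} {a : ℝ} (h : Small2 g a)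
    (hfg : ∃ M : ℤ, ∀ N1 N2, M ≤ N1 → M ≤ N2 → f N1 N2 ≤ g N1 N2) : Small2 f a := by
  obtain ⟨M, hM⟩ := hfg
  intro ζ hζ
  filter_upwards [h ζ hζ, bavg_ev M] with N0 h1 h2
  exact (avgZ_mono N0 fun N1 hN1 _ => avgZ_mono N0 fun N2 hN2 _ =>
    hM N1 N2 (h2.trans hN1) (h2.trans hN2)).trans h1
theorem small2_const (c : ℝ) : Small2 (fun _ _ => c) c := by
  intro ζ hζ
  filter_upwards [eventually_ge_atTop 1] with N0 h1
  unfold avg2
  simp only [avgZ_const h1]
  exact hζ.le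
theorem Small.left {f : ℤ → ℝ} {a : ℝ} (h : Small f a) : Small2 (fun N1 _ => f N1) a := by
  intro ζ hζ
  filter_upwards [h ζ hζ, eventually_ge_atTop 1] with N0 h1 h2
  unfold avg2
  simp only [avgZ_const h2]
  exact h1
theorem Small.right {f : ℤ → ℝ} {a : ℝ} (h : Small f a) : Small2 (fun _ N2 => f N2) a := by
  intro ζ hζ
  filter_upwards [h ζ hζ, eventually_ge_atTop 1] with N0 h1 h2
  unfold avg2
  simp only [avgZ_const h2]
  exact h1
theorem Small2.add {f g : ℤ → ℤ → ℝ} {a b : ℝ} (hf : Small2 f a) (hg : Small2 g b) :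
    Small2 (fun N1 N2 => f N1 N2 + g N1 N2) (a + b) := by
  intro ζ hζ
  filter_upwards [hf (a + (ζ - a - b) / 2) (by linarith), hg (b + (ζ - a - b) / 2) (by linarith)]
    with N0 h1 h2
  rw [avg2_add]
  linarith
theorem Small2.const_mul {f : ℤ → ℤ → ℝ} {a c : ℝ} (hf : Small2 f a) (hc : 0 ≤ c) :
    Small2 (fun N1 N2 => c * f N1 N2) (c * a) := by
  intro ζ hζ
  rcases hc.eq_or_lt with rfl | hc'
  · exact Eventually.of_forall fun N0 => by rw [avg2_mul]; linarith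
  · filter_upwards [hf (ζ / c) (by rwa [lt_div_iff₀' hc'])] with N0 h1
    rw [avg2_mul]
    rwa [le_div_iff₀' hc'] at h1
theorem Small2.sum {ι : Type*} (s : Finset ι) {f : ι → ℤ → ℤ → ℝ} {a : ι → ℝ}
    (h : ∀ i ∈ s, Small2 (f i) (a i)) :
    Small2 (fun N1 N2 => ∑ i ∈ s, f i N1 N2) (∑ i ∈ s, a i) := by
  induction s using Finset.induction_on with
  | empty => simpa using small2_const 0
  | insert i s hi ih =>
    simp only [Finset.sum_insert hi]
    exact (h i (Finset.mem_insert_self _ _)).add (ih fun j hj => h j (Finset.mem_insert_of_mem hj))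
theorem Small2.of_forall_gt {f : ℤ → ℤ → ℝ} {a : ℝ} (h : ∀ b, a < b → Small2 f b) : Small2 f a :=
  fun ζ hζ => h ((a + ζ) / 2) (by linarith) ζ (by linarith)
theorem Small2.swap {f : ℤ → ℤ → ℝ} {a : ℝ} (h : Small2 f a) : Small2 (fun N1 N2 => f N2 N1) a := by
  intro ζ hζ
  filter_upwards [h ζ hζ] with N0 h1
  rwa [avg2_swap]
theorem small2_diff_right {f : ℤ → ℤ → ℝ} {B : ℝ} (hB : ∀ N1 N2, |f N1 N2| ≤ B) (k : ℤ) :
    Small2 (fun N1 N2 => f N1 N2 - f N1 (N2 + k)) 0 := by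
  intro ζ hζ
  filter_upwards [bavg_ev (0 + |k|), bavg_div (2 * |(k : ℝ)| * B) hζ, eventually_ge_atTop 1]
    with N0 h1 h2 h3
  refine (avgZ_mono N0 fun N1 _ _ => (bavg_diff (fun N _ => hB N1 N) k h1).trans h2).trans ?_
  rw [avgZ_const h3]
theorem small2_diff {f : ℤ → ℤ → ℝ} {B : ℝ} (hB : ∀ N1 N2, |f N1 N2| ≤ B) (k1 k2 : ℤ) :
    Small2 (fun N1 N2 => f N1 N2 - f (N1 + k1) (N2 + k2)) 0 := by
  have h := (small2_diff_right hB k2).add
    (small2_diff_right (f := fun N2 N1 => f N1 (N2 + k2)) (fun _ _ => hB _ _) k1).swap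
  rw [add_zero] at h
  exact h.of_le ⟨0, fun N1 N2 _ _ => by linarith⟩
theorem Small2.shift {f : ℤ → ℤ → ℝ} {a B : ℝ} (hf : Small2 f a) (hB : ∀ N1 N2, |f N1 N2| ≤ B)
    (k1 k2 : ℤ) : Small2 (fun N1 N2 => f (N1 + k1) (N2 + k2)) a := by
  have h := hf.add (small2_diff (f := fun N1 N2 => -f N1 N2) (B := B) (by simpa using hB) k1 k2)
  rw [add_zero] at h
  exact h.of_le ⟨0, fun N1 N2 _ _ => by linarith⟩
/-- the average over a shifted window bounds the original one: converse form of `shift` -/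
theorem Small2.unshift {f : ℤ → ℤ → ℝ} {a B : ℝ} (hB : ∀ N1 N2, |f N1 N2| ≤ B) (k1 k2 : ℤ)
    (hf : Small2 (fun N1 N2 => f (N1 + k1) (N2 + k2)) a) : Small2 f a := by
  have h := hf.add (small2_diff hB k1 k2)
  rw [add_zero] at h
  exact h.of_le ⟨0, fun N1 N2 _ _ => by linarith⟩
/-- an average of finitely many shifts -/
theorem Small2.of_sum_shift {ι : Type*} (s : Finset ι) (hs : s.Nonempty) {f : ℤ → ℤ → ℝ} {a B : ℝ}
    (hB : ∀ N1 N2, |f N1 N2| ≤ B) (k1 k2 : ι → ℤ)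
    (hf : Small2 (fun N1 N2 => ∑ i ∈ s, f (N1 + k1 i) (N2 + k2 i)) a) :
    Small2 f (a / s.card) := by
  have hc : (0 : ℝ) < s.card := by exact_mod_cast hs.card_pos
  have h := (hf.add (Small2.sum s fun i _ => small2_diff hB (k1 i) (k2 i))).const_mul
    (inv_nonneg.2 hc.le)
  rw [Finset.sum_const_zero, add_zero, ← div_eq_inv_mul] at h
  refine h.of_le ⟨0, fun N1 N2 _ _ => le_of_eq ?_⟩
  rw [← Finset.sum_add_distrib]
  simp only [add_sub_cancel, Finset.sum_const, nsmul_eq_mul]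
  field_simp
theorem Small.mul {f g : ℤ → ℝ} {a b : ℝ} (hf : Small f a) (hg : Small g b) (f0 : ∀ N, 0 ≤ f N)
    (g0 : ∀ N, 0 ≤ g N) : Small2 (fun N1 N2 => f N1 * g N2) (a * b) := by
  intro ζ hζ
  have h1 : Tendsto (fun e : ℝ => (a + e) * (b + e)) (𝓝[>] 0) (𝓝 ((a + 0) * (b + 0))) :=
    tendsto_nhdsWithin_of_tendsto_nhds (Continuous.tendsto (by fun_prop) 0)
  rw [add_zero, add_zero] at h1
  obtain ⟨e, he, he0⟩ := ((h1.eventually_le_const hζ).and self_mem_nhdsWithin).exists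
  have he1 : 0 < e := he0
  filter_upwards [hf (a + e) (by linarith), hg (b + e) (by linarith)] with N0 h2 h3
  unfold avg2
  simp only [avgZ_mul]
  simp only [mul_comm _ (avgZ N0 g), avgZ_mul]
  rw [mul_comm]
  exact (mul_le_mul h2 h3 (bavg_nonneg _ g0) ((bavg_nonneg _ f0).trans h2)).trans he
theorem Small2.le_of_eventually_ge {f : ℤ → ℤ → ℝ} {a p : ℝ} (hf : Small2 f a)
    (h : ∃ M : ℕ, ∀ N0 : ℕ, M ≤ N0 → ∀ N1 N2 : ℤ, (N0 : ℤ) ≤ N1 → N1 < 2 * N0 → (N0 : ℤ) ≤ N2 →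
      N2 < 2 * N0 → p ≤ f N1 N2) : p ≤ a := by
  obtain ⟨M, hM⟩ := h
  refine le_of_forall_gt_imp_ge_of_dense fun ζ hζ => ?_
  obtain ⟨N0, h1, h2, h3⟩ :=
    ((hf ζ hζ).and ((eventually_ge_atTop M).and (eventually_ge_atTop 1))).exists
  refine le_trans ?_ h1
  have h4 : avg2 N0 (fun _ _ => p) = p := by
    unfold avg2
    simp only [avgZ_const h3]
  rw [← h4]
  exact avgZ_mono N0 fun N1 a1 a2 => avgZ_mono N0 fun N2 a3 a4 => hM N0 h2 N1 N2 a1 a2 a3 a4
/-- Jensen for the concave power `3/4` -/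
theorem Small2.rpow {f : ℤ → ℤ → ℝ} {a : ℝ} (hf : Small2 f a) (f0 : ∀ N1 N2, 0 ≤ f N1 N2) :
    Small2 (fun N1 N2 => f N1 N2 ^ ((3 : ℝ) / 4)) (a ^ ((3 : ℝ) / 4)) := by
  have ha : 0 ≤ a := hf.le_of_eventually_ge ⟨0, fun _ _ N1 N2 _ _ _ _ => f0 N1 N2⟩
  refine Small2.of_forall_gt fun b hb => ?_
  have hb0 : 0 < b := (Real.rpow_nonneg ha _).trans_lt hb
  set t := b ^ ((4 : ℝ) / 3) with ht
  have ht0 : 0 < t := Real.rpow_pos_of_pos hb0 _
  have hat : a ≤ t := by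
    have h1 := Real.rpow_le_rpow (Real.rpow_nonneg ha _) hb.le (by norm_num : (0 : ℝ) ≤ 4 / 3)
    rwa [← Real.rpow_mul ha, show (3 : ℝ) / 4 * (4 / 3) = 1 by norm_num, Real.rpow_one] at h1
  have hs : 0 < t ^ ((1 : ℝ) / 4) := Real.rpow_pos_of_pos ht0 _
  have htb : t = b * t ^ ((1 : ℝ) / 4) := by
    rw [ht, ← Real.rpow_mul hb0.le, ← Real.rpow_one_add' hb0.le (by norm_num)]
    norm_num
  have h := ((hf.const_mul (by norm_num : (0 : ℝ) ≤ 3 / 4)).add
    (small2_const (1 / 4 * t))).const_mul (inv_nonneg.2 hs.le)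
  refine (h.mono_right ?_).of_le ⟨0, fun N1 N2 _ _ => ?_⟩
  · rw [inv_mul_le_iff₀ hs]
    linarith
  · rw [le_inv_mul_iff₀ hs, mul_comm]
    exact Real.geom_mean_le_arith_mean2_weighted (by norm_num) (by norm_num) (f0 N1 N2) ht0.le
      (by norm_num)

end Crest.Agent.R151
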