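import Crest.Agent.R151.BFld1

/-! Row 151, part B: monotonicity and sandwich inequalities for the fields (deterministic). -/

set_option autoImplicit false

namespace Crest.Agent.R151

open MeasureTheory ProbabilityTheory Crest.ProbabilityR.FirstPassage Filter Topology
open scoped Classical

variable {G : Measure ℝ} [Law G]

theorem BFld2_le {t : Env} (ht : Fld G t) {k N : ℤ} (hk : k ≤ N) {s : ℝ} (hs : |s| < m1 (mu G))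
    (y z : ℤ) : Gf t k N s y ≤ Phi t k N z y - s * z :=
  Gd_le ht hs (x := (k, y)) ⟨le_rfl, hk⟩ z

theorem BFld2_eq {t : Env} {k N : ℤ} {s : ℝ} {γ : Pth} (hγ : IsLine t k N s γ) {y : ℤ}
    (h0 : γ.p 0 = (k, y)) : Gf t k N s y = Phi t k N (γ.p γ.n).2 y - s * ((γ.p γ.n).2 : ℝ) := by
  have := hγ.Gd_eq
  rwa [h0] at this

omit [Law G] in
theorem BFld2_cross {t : Env} (ht : Fld G t) {k N : ℤ} (hk : k ≤ N) {y1 y2 z1 z2 : ℤ} (hy : y1 ≤ y2)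
    (hz : z1 ≤ z2) : Phi t k N z1 y1 + Phi t k N z2 y2 ≤ Phi t k N z2 y1 + Phi t k N z1 y2 :=
  cross_ineq ht.nn hk hy hz

theorem Dinc_nonneg {t : Env} (ht : Fld G t) {k N : ℤ} (hk : k ≤ N) {α β : ℝ}
    (hα : |α| < m1 (mu G)) (hβ : |β| < m1 (mu G)) (hαβ : α ≤ β) {y1 y2 : ℤ} (hy : y1 ≤ y2) :
    0 ≤ Dinc t k N α β y1 y2 := by
  obtain ⟨γ, hγ, γ0⟩ := exists_line ht hα (x := (k, y2)) ⟨le_rfl, hk⟩
  obtain ⟨δ, hδ, δ0⟩ := exists_line ht hβ (x := (k, y1)) ⟨le_rfl, hk⟩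
  have e1 := BFld2_eq hγ γ0
  have e2 := BFld2_eq hδ δ0
  unfold Dinc
  rcases le_total (γ.p γ.n).2 (δ.p δ.n).2 with h | h
  · linarith [BFld2_cross ht hk hy h, BFld2_le ht hk hα y1 (γ.p γ.n).2,
      BFld2_le ht hk hβ y2 (δ.p δ.n).2]
  · have h' : ((δ.p δ.n).2 : ℝ) ≤ (γ.p γ.n).2 := by exact_mod_cast h
    linarith [BFld2_le ht hk hα y1 (δ.p δ.n).2, BFld2_le ht hk hβ y2 (γ.p γ.n).2,
      mul_nonneg (sub_nonneg.2 hαβ) (sub_nonneg.2 h')]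
omit [Law G] in
theorem Dinc_add (t : Env) (k N : ℤ) (α β : ℝ) (y1 y2 y3 : ℤ) :
    Dinc t k N α β y1 y2 + Dinc t k N α β y2 y3 = Dinc t k N α β y1 y3 := by
  unfold Dinc
  ring
theorem Dinc_mono {t : Env} (ht : Fld G t) {k N : ℤ} (hk : k ≤ N) {α β : ℝ}
    (hα : |α| < m1 (mu G)) (hβ : |β| < m1 (mu G)) (hαβ : α ≤ β) {y1 y2 y1' y2' : ℤ}
    (h1 : y1' ≤ y1) (h2 : y2 ≤ y2') : Dinc t k N α β y1 y2 ≤ Dinc t k N α β y1' y2' := by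
  linarith [Dinc_nonneg ht hk hα hβ hαβ h1, Dinc_nonneg ht hk hα hβ hαβ h2,
    Dinc_add t k N α β y1' y1 y2, Dinc_add t k N α β y1' y2 y2']

theorem Phi_incr_le {t : Env} (ht : Fld G t) {k N : ℤ} (hk : k ≤ N) {α : ℝ} (hα : |α| < m1 (mu G))
    {y1 y2 b : ℤ} (hy : y1 ≤ y2) {γ : Pth} (hγ : IsLine t k N α γ) (h0 : γ.p 0 = (k, y2))
    (hb : (γ.p γ.n).2 ≤ b) :
    Phi t k N b y2 - Phi t k N b y1 ≤ Gf t k N α y2 - Gf t k N α y1 := by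
  linarith [BFld2_eq hγ h0, BFld2_le ht hk hα y1 (γ.p γ.n).2, BFld2_cross ht hk hy hb]
theorem le_Phi_incr {t : Env} (ht : Fld G t) {k N : ℤ} (hk : k ≤ N) {β : ℝ} (hβ : |β| < m1 (mu G))
    {y1 y2 b : ℤ} (hy : y1 ≤ y2) {γ : Pth} (hγ : IsLine t k N β γ) (h0 : γ.p 0 = (k, y1))
    (hb : b ≤ (γ.p γ.n).2) :
    Gf t k N β y2 - Gf t k N β y1 ≤ Phi t k N b y2 - Phi t k N b y1 := by
  linarith [BFld2_eq hγ h0, BFld2_le ht hk hβ y2 (γ.p γ.n).2, BFld2_cross ht hk hy hb]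

/-- two targets in the sandwich have increments that differ by at most `Dinc` -/
theorem Phi_incr_sub_le {t : Env} (ht : Fld G t) {k N : ℤ} (hk : k ≤ N) {α β lo hi : ℝ}
    (hα : |α| < m1 (mu G)) (hβ : |β| < m1 (mu G)) {Y : ℕ} (hL : t ∈ Loc (mu G) k N α β lo hi Y)
    {y1 y2 b b' xc yc xc' yc' : ℤ} (hy : y1 ≤ y2) (h1 : |y1| ≤ Y) (h2 : |y2| ≤ Y) (hx : |xc| ≤ Y)
    (hyc : |yc| ≤ Y) (hx' : |xc'| ≤ Y) (hyc' : |yc'| ≤ Y) (hb : SlopeIn (mu G) lo hi N b xc yc)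
    (hb' : SlopeIn (mu G) lo hi N b' xc' yc') :
    |(Phi t k N b y2 - Phi t k N b y1) - (Phi t k N b' y2 - Phi t k N b' y1)| ≤
      Dinc t k N α β y1 y2 := by
  obtain ⟨γ, a1, a2, a3⟩ := (hL y2 xc yc b h2 hx hyc hb).1
  obtain ⟨δ, b1, b2, b3⟩ := (hL y1 xc yc b h1 hx hyc hb).2
  obtain ⟨γ', c1, c2, c3⟩ := (hL y2 xc' yc' b' h2 hx' hyc' hb').1
  obtain ⟨δ', d1, d2, d3⟩ := (hL y1 xc' yc' b' h1 hx' hyc' hb').2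
  have g1 := Phi_incr_le ht hk hα hy a1 a2 a3
  have g2 := le_Phi_incr ht hk hβ hy b1 b2 b3
  have g3 := Phi_incr_le ht hk hα hy c1 c2 c3
  have g4 := le_Phi_incr ht hk hβ hy d1 d2 d3
  unfold Dinc
  exact abs_le.2 ⟨by linarith, by linarith⟩

omit [Law G] in
theorem Inc.mono {k N : ℤ} {s : ℝ} {y0 : ℤ} {ζ ℓ ℓ' : ℝ} (hζ : 0 ≤ ζ) (h : ℓ ≤ ℓ') :
    Inc k N s y0 ζ ℓ ⊆ Inc k N s y0 ζ ℓ' := by
  exact fun t ht y => (ht y).trans (mul_le_mul_of_nonneg_left (by linarith) hζ)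
omit [Law G] in
theorem Inc.reanchor {k N : ℤ} {s : ℝ} {ζ ℓ : ℝ} (hζ : 0 ≤ ζ) (y0 : ℤ) :
    Inc k N s 0 ζ ℓ ⊆ Inc k N s y0 ζ (2 * ℓ + 2 * |(y0 : ℝ)|) := by
  intro t ht y
  have h1 := abs_le.1 (ht y)
  have h2 := abs_le.1 (ht y0)
  have h3 := mul_le_mul_of_nonneg_left (abs_add_le ((y : ℝ) - y0) y0) hζ
  rw [sub_add_cancel] at h3
  simp only [sub_zero, Int.cast_sub] at h1 h2 ⊢
  exact abs_le.2 ⟨by linarith [h1.1, h2.2], by linarith [h1.2, h2.1]⟩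

theorem lip_of_inc (hd : DN (mu G)) {t : Env} (ht : Fld G t) {k N : ℤ} (hk : k ≤ N) {y0 : ℤ} {ℓ : ℝ}
    (h1 : t ∈ Inc k N (Sk (mu G) 4) y0 (g0 (mu G)) ℓ)
    (h2 : t ∈ Inc k N (-Sk (mu G) 4) y0 (g0 (mu G)) ℓ) : t ∈ Lip (mu G) k N y0 ℓ := by
  intro s hs y
  have hp := hd.Sk_pos 4
  have hS : |Sk (mu G) 4| < m1 (mu G) := by
    rw [abs_of_pos hp]
    exact hd.Sk_lt (by norm_num)
  have hS' : |-Sk (mu G) 4| < m1 (mu G) := by rwa [abs_neg]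
  have hs' : |s| < m1 (mu G) := hs.trans_lt (hd.Sk_lt (by norm_num))
  have g1 := abs_le.1 (h1 y)
  have g2 := abs_le.1 (h2 y)
  have e : Sk (mu G) 5 = Sk (mu G) 4 + g0 (mu G) := DN.Sk_succ 4
  rw [e]
  rcases le_total y0 y with h | h
  · have g3 := Dinc_nonneg ht hk hs' hS (abs_le.1 hs).2 h
    have g4 := Dinc_nonneg ht hk hS' hs' (abs_le.1 hs).1 h
    have e' : |((y - y0 : ℤ) : ℝ)| = ((y - y0 : ℤ) : ℝ) :=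
      abs_of_nonneg (by exact_mod_cast sub_nonneg.2 h)
    rw [e'] at g1 g2 ⊢
    unfold Dinc at g3 g4
    exact abs_le.2 ⟨by linarith [g1.1], by linarith [g2.2]⟩
  · have g3 := Dinc_nonneg ht hk hs' hS (abs_le.1 hs).2 h
    have g4 := Dinc_nonneg ht hk hS' hs' (abs_le.1 hs).1 h
    have e' : |((y - y0 : ℤ) : ℝ)| = -((y - y0 : ℤ) : ℝ) :=
      abs_of_nonpos (by exact_mod_cast sub_nonpos.2 h)
    rw [e'] at g1 g2 ⊢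
    unfold Dinc at g3 g4
    exact abs_le.2 ⟨by linarith [g2.1], by linarith [g1.2]⟩

theorem phiLow_of_inc {t : Env} (ht : Fld G t) {k N : ℤ} (hk : k ≤ N) {α β ζ ℓ : ℝ}
    (hα : |α| < m1 (mu G)) (hβ : |β| < m1 (mu G)) {y0 b : ℤ} (h1 : t ∈ Inc k N α y0 ζ ℓ)
    (h2 : t ∈ Inc k N β y0 ζ ℓ) {γ δ : Pth} (hγ : IsLine t k N α γ) (γ0 : γ.p 0 = (k, y0))
    (γb : (γ.p γ.n).2 ≤ b) (hδ : IsLine t k N β δ) (δ0 : δ.p 0 = (k, y0)) (δb : b ≤ (δ.p δ.n).2) :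
    PhiLow t k N b y0 α β ζ ℓ := by
  intro y
  rcases le_total y0 y with h | h
  · have a : (0 : ℝ) ≤ ((y - y0 : ℤ) : ℝ) := by exact_mod_cast sub_nonneg.2 h
    have b : ((y0 - y : ℤ) : ℝ) ≤ 0 := by exact_mod_cast sub_nonpos.2 h
    rw [max_eq_left a, max_eq_right b]
    linarith [le_Phi_incr ht hk hβ h hδ δ0 δb, (abs_le.1 (h2 y)).1]
  · have a : (0 : ℝ) ≤ ((y0 - y : ℤ) : ℝ) := by exact_mod_cast sub_nonneg.2 h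
    have b : ((y - y0 : ℤ) : ℝ) ≤ 0 := by exact_mod_cast sub_nonpos.2 h
    have c : ((y0 - y : ℤ) : ℝ) = -((y - y0 : ℤ) : ℝ) := by
      push_cast
      ring
    rw [max_eq_left a, max_eq_right b, c]
    linarith [Phi_incr_le ht hk hα h hγ γ0 γb, (abs_le.1 (h1 y)).1]

theorem pl_of_inc {t : Env} (ht : Fld G t) {k N : ℤ} (hk : k ≤ N) {α β lo hi ζ ℓ : ℝ}
    (hα : |α| < m1 (mu G)) (hβ : |β| < m1 (mu G)) (hζ : 0 ≤ ζ) {Y : ℕ}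
    (h1 : t ∈ Inc k N α 0 ζ ℓ) (h2 : t ∈ Inc k N β 0 ζ ℓ) (hL : t ∈ Loc (mu G) k N α β lo hi Y) :
    t ∈ PL (mu G) k N α β lo hi ζ (2 * ℓ + 2 * Y) Y := by
  intro y0 xc yc b a1 a2 a3 a4
  obtain ⟨⟨γ, b1, b2, b3⟩, δ, c1, c2, c3⟩ := hL y0 xc yc b a1 a2 a3 a4
  have h : 2 * ℓ + 2 * |(y0 : ℝ)| ≤ 2 * ℓ + 2 * Y := by
    have : |(y0 : ℝ)| ≤ Y := by exact_mod_cast a1
    linarith
  exact phiLow_of_inc ht hk hα hβ (Inc.mono hζ h (Inc.reanchor hζ y0 h1))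
    (Inc.mono hζ h (Inc.reanchor hζ y0 h2)) b1 b2 b3 c1 c2 c3

/-- cost of a geodesic up to its last visit to column `k` -/
theorem cost_to_last {t : Env} (ht : NN t) {L R k w0 : ℤ} {Γ : Pth} (hΓ : IsGeo Set.univ t Γ)
    (hin : Γ.In (strip L R)) (hR : (Γ.p Γ.n).1 = R) {i' i1 : ℕ} (hi : i' ≤ i1) (hi1 : i1 ≤ Γ.n)
    (hk : (Γ.p i1).1 = k) (hlast : ∀ i, i1 ≤ i → i ≤ Γ.n → k ≤ (Γ.p i).1) {α β ζ ℓ : ℝ}
    (hP : PhiLow t k R (Γ.p Γ.n).2 w0 α β ζ ℓ) :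
    Γ.cost t i' i1 ≤ T t (Γ.p i') (k, w0) + β * max (((Γ.p i1).2 - w0 : ℤ) : ℝ) 0 -
      α * max ((w0 - (Γ.p i1).2 : ℤ) : ℝ) 0 + ζ * (|(((Γ.p i1).2 - w0 : ℤ) : ℝ)| + ℓ) := by
  have hkR : k ≤ R := hk ▸ (hin i1 hi1).2
  have e1 : Γ.p i1 = (k, (Γ.p i1).2) := Prod.ext hk rfl
  have e2 : Γ.p Γ.n = (R, (Γ.p Γ.n).2) := Prod.ext hR rfl
  have g1 : Γ.cost t i' Γ.n = T t (Γ.p i') (Γ.p Γ.n) := hΓ.cost_eq ht (hi.trans hi1) le_rfl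
  have g2 := T_triangle ht (Γ.p i') (k, w0) (Γ.p Γ.n)
  have g3 : T t (k, w0) (Γ.p Γ.n) ≤ Phi t k R (Γ.p Γ.n).2 w0 := by
    rw [Phi, ← e2]
    exact T_le_TD ht (conn_strip ⟨le_rfl, hkR⟩ ⟨hR ▸ hkR, hR.le⟩)
  have g4 : Phi t k R (Γ.p Γ.n).2 (Γ.p i1).2 ≤ Γ.cost t i1 Γ.n := by
    rw [Phi, ← e1, ← e2]
    exact TD_le_cost ht hΓ.1 hi1 le_rfl fun i a b => ⟨hlast i a b, (hin i b).2⟩
  linarith [Γ.cost_add t hi hi1, hP (Γ.p i1).2]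

end Crest.Agent.R151
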