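import Crest.Agent.R151.BW1
import Crest.Agent.R151.BFld2

/-! Row 151, part B: gapped routes consume the budget of the monotone fields (deterministic). -/

set_option autoImplicit false

namespace Crest.Agent.R151

open MeasureTheory ProbabilityTheory Crest.ProbabilityR.FirstPassage Filter Topology
open scoped Classical

/-- the witnesses of a gapped height -/
def BBud1W (μ : ℝ × ℝ → ℝ) (t : Env) (m : ℕ) (K lo hi : ℝ) (Rr Y : ℕ) (L R y a b yf yl : ℤ) : Prop :=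
  SlopeIn μ lo hi R b 0 y ∧ SlopeIn μ (-hi) (-lo) (1 - L) a 0 y ∧ |yf - y| ≤ m ∧ |yl - y| ≤ m ∧
    ∀ y' yf' yl' : ℤ, (Rr : ℤ) < |y' - y| → |y' - y| ≤ Y → |yf' - y'| ≤ m → |yl' - y'| ≤ m →
      Rte t m L R a b y yf yl + K ≤ Rte t m L R a b y' yf' yl'

theorem BBud1_count (S : Finset ℤ) (φ : ℤ → ℝ) {W : ℕ} (hW : 0 < W) {c D : ℝ} (hc : 0 < c)
    (hD : 0 ≤ D) (h0 : ∀ y ∈ S, 0 ≤ φ y) (h1 : ∀ y ∈ S, φ y ≤ D)
    (h2 : ∀ y ∈ S, ∀ y' ∈ S, y + W ≤ y' → φ y + c ≤ φ y') : (S.card : ℝ) ≤ W * (1 + D / c) := by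
  have hW' : (0 : ℤ) < W := by exact_mod_cast hW
  have key : ∀ y ∈ S, ∀ y' ∈ S, y < y' → y % W = y' % W → ⌊φ y / c⌋₊ ≠ ⌊φ y' / c⌋₊ := by
    intro y hy y' hy' hlt he hf
    have hd : (W : ℤ) ∣ y' - y := Int.ModEq.dvd he
    have := h2 y hy y' hy' (by have := Int.le_of_dvd (by omega) hd; omega)
    have a1 : φ y / c + 1 ≤ φ y' / c := by
      rw [div_add_one hc.ne']
      exact div_le_div_of_nonneg_right this hc.le
    have a2 := Nat.floor_le_floor a1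
    rw [Nat.floor_add_one (div_nonneg (h0 y hy) hc.le)] at a2
    omega
  have hcard : S.card ≤ (Finset.Ico (0 : ℤ) W ×ˢ Finset.range (⌊D / c⌋₊ + 1)).card := by
    refine Finset.card_le_card_of_injOn (fun y => (y % W, ⌊φ y / c⌋₊)) (fun y hy => ?_)
      (fun y hy y' hy' he => ?_)
    · simp only [Finset.coe_product, Finset.coe_Ico, Finset.coe_range, Set.mem_prod, Set.mem_Ico,
        Set.mem_Iio]
      exact ⟨⟨Int.emod_nonneg _ hW'.ne', Int.emod_lt_of_pos _ hW'⟩, Nat.lt_succ_of_le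
        (Nat.floor_le_floor (div_le_div_of_nonneg_right (h1 y hy) hc.le))⟩
    · obtain ⟨e1, e2⟩ := Prod.mk.inj he
      rcases lt_trichotomy y y' with h | h | h
      · exact absurd e2 (key y hy y' hy' h e1)
      · exact h
      · exact absurd e2.symm (key y' hy' y hy h e1.symm)
  rw [Finset.card_product, Int.card_Ico, Finset.card_range, sub_zero, Int.toNat_natCast] at hcard
  have a3 : (S.card : ℝ) ≤ W * ((⌊D / c⌋₊ : ℝ) + 1) := by exact_mod_cast hcard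
  have a4 := Nat.floor_le (div_nonneg hD hc.le)
  refine a3.trans (mul_le_mul_of_nonneg_left (by linarith) (Nat.cast_nonneg _))

variable {G : Measure ℝ} [Law G]

theorem BBud1_two {t : Env} (ht : Fld G t) {α β lo hi K : ℝ} (hα : |α| < m1 (mu G))
    (hβ : |β| < m1 (mu G)) {m Rr Y Y' : ℕ} {L R : ℤ} (hL : L ≤ 0) (hR : 1 ≤ R)
    (locR : t ∈ Loc (mu G) 1 R α β lo hi Y')
    (locL : act rfl1 t ∈ Loc (mu G) 1 (1 - L) (-β) (-α) (-hi) (-lo) Y')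
    {y a b yf yl y' a' b' yf' yl' : ℤ} (h : BBud1W (mu G) t m K lo hi Rr Y L R y a b yf yl)
    (h' : BBud1W (mu G) t m K lo hi Rr Y L R y' a' b' yf' yl') (h1 : (Rr : ℤ) < y' - y)
    (h2 : y' - y ≤ Y) (h3 : (2 * m : ℤ) ≤ y' - y) (h4 : |y| + m ≤ Y') (h5 : |y'| + m ≤ Y') :
    2 * K ≤ Dinc t 1 R α β yl yl' + Dinc (act rfl1 t) 1 (1 - L) (-β) (-α) yf yf' := by
  obtain ⟨sR, sL, f1, l1, g1⟩ := h
  obtain ⟨sR', sL', f2, l2, g2⟩ := h'
  have hpos : 0 ≤ y' - y := by omega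
  have e1 := g1 y' yf' yl' (by rwa [abs_of_nonneg hpos]) (by rwa [abs_of_nonneg hpos]) f2 l2
  have e2 := g2 y yf yl (by rwa [abs_sub_comm, abs_of_nonneg hpos])
    (by rwa [abs_sub_comm, abs_of_nonneg hpos]) f1 l1
  have b1 := le_abs_self y
  have b2 := neg_abs_le y
  have b3 := le_abs_self y'
  have b4 := neg_abs_le y'
  rw [abs_le] at f1 l1 f2 l2
  have z0 : |(0 : ℤ)| ≤ Y' := by simp
  have i1 := Phi_incr_sub_le ht hR hα hβ locR (y1 := yl) (y2 := yl') (by omega)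
    (abs_le.2 ⟨by omega, by omega⟩) (abs_le.2 ⟨by omega, by omega⟩) z0 (by omega) z0 (by omega)
    sR sR'
  have i2 := Phi_incr_sub_le ((fld_rfl1 t).2 ht) (k := 1) (N := 1 - L) (by omega)
    (by rwa [abs_neg]) (by rwa [abs_neg]) locL (y1 := yf) (y2 := yf') (by omega)
    (abs_le.2 ⟨by omega, by omega⟩) (abs_le.2 ⟨by omega, by omega⟩) z0 (by omega) z0 (by omega)
    sL sL'
  simp only [Rte, TD_left t L 0, sub_zero] at e1 e2
  have j1 := (abs_le.1 i1).2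
  have j2 := (abs_le.1 i2).2
  unfold Phi at j1
  linarith

theorem gap_count {t : Env} (ht : Fld G t) {α β lo hi K : ℝ} (hα : |α| < m1 (mu G))
    (hβ : |β| < m1 (mu G)) (hαβ : α ≤ β) (hK : 0 < K) {m Rr H Y Y0 Y' : ℕ} {L R : ℤ} (hL : L ≤ 0)
    (hR : 1 ≤ R) (hY : Y0 + H ≤ Y) (hY' : Y + m ≤ Y')
    (locR : t ∈ Loc (mu G) 1 R α β lo hi Y')
    (locL : act rfl1 t ∈ Loc (mu G) 1 (1 - L) (-β) (-α) (-hi) (-lo) Y') (S : Finset ℤ)
    (hS : ∀ y0 ∈ S, 0 ≤ y0 ∧ y0 < Y0 ∧ ∃ y, y0 ≤ y ∧ y < y0 + H ∧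
      t ∈ Gap (mu G) m K lo hi Rr Y L R y) :
    (S.card : ℝ) ≤ ((Rr : ℝ) + 2 * m + H + 1) *
      (1 + (Dinc t 1 R α β (-m) (Y + m) +
        Dinc (act rfl1 t) 1 (1 - L) (-β) (-α) (-m) (Y + m)) / (2 * K)) := by
  have hN : (1 : ℤ) ≤ 1 - L := by omega
  have ht' := (fld_rfl1 t).2 ht
  have hα' : |-α| < m1 (mu G) := by rwa [abs_neg]
  have hβ' : |-β| < m1 (mu G) := by rwa [abs_neg]
  have hαβ' : -β ≤ -α := neg_le_neg hαβ
  have hS' : ∀ y0 ∈ S, ∃ y a b yf yl : ℤ, y0 ≤ y ∧ y < y0 + H ∧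
      BBud1W (mu G) t m K lo hi Rr Y L R y a b yf yl := fun y0 h0 => by
    obtain ⟨-, -, y, h1, h2, a, b, yf, yl, h3⟩ := hS y0 h0
    exact ⟨y, a, b, yf, yl, h1, h2, h3⟩
  choose! y a b yf yl h1 h2 h3 using hS'
  have hr : ∀ y0 ∈ S, 0 ≤ y y0 ∧ y y0 < Y ∧ -(m : ℤ) ≤ yf y0 ∧ yf y0 ≤ Y + m ∧
      -(m : ℤ) ≤ yl y0 ∧ yl y0 ≤ Y + m := fun y0 h0 => by
    obtain ⟨c1, c2, -⟩ := hS y0 h0
    have c3 := h1 y0 h0
    have c4 := h2 y0 h0
    have c5 := abs_le.1 (h3 y0 h0).2.2.1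
    have c6 := abs_le.1 (h3 y0 h0).2.2.2.1
    omega
  have := BBud1_count S (fun y0 => Dinc t 1 R α β (-m) (yl y0) +
      Dinc (act rfl1 t) 1 (1 - L) (-β) (-α) (-m) (yf y0)) (W := Rr + 2 * m + H + 1) (by omega)
    (c := 2 * K) (D := Dinc t 1 R α β (-m) (Y + m) +
      Dinc (act rfl1 t) 1 (1 - L) (-β) (-α) (-m) (Y + m)) (by positivity)
    (add_nonneg (Dinc_nonneg ht hR hα hβ hαβ (by omega))
      (Dinc_nonneg ht' hN hβ' hα' hαβ' (by omega)))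
    (fun y0 h0 => add_nonneg (Dinc_nonneg ht hR hα hβ hαβ (hr y0 h0).2.2.2.2.1)
      (Dinc_nonneg ht' hN hβ' hα' hαβ' (hr y0 h0).2.2.1))
    (fun y0 h0 => add_le_add (Dinc_mono ht hR hα hβ hαβ le_rfl (hr y0 h0).2.2.2.2.2)
      (Dinc_mono ht' hN hβ' hα' hαβ' le_rfl (hr y0 h0).2.2.2.1))
    (fun y0 h0 y1 h0' hle => by
      have c1 := hr y0 h0
      have c2 := hr y1 h0'
      have c3 := h2 y0 h0
      have c4 := h1 y1 h0'
      have := BBud1_two ht hα hβ hL hR locR locL (h3 y0 h0) (h3 y1 h0') (by omega) (by omega)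
        (by omega) (by rw [abs_of_nonneg c1.1]; omega) (by rw [abs_of_nonneg c2.1]; omega)
      linarith [Dinc_add t 1 R α β (-m) (yl y0) (yl y1),
        Dinc_add (act rfl1 t) 1 (1 - L) (-β) (-α) (-m) (yf y0) (yf y1)])
  push_cast at this
  exact this

theorem pair_Dinc {t : Env} (ht : Fld G t) {α β lo hi η : ℝ} (hα : |α| < m1 (mu G))
    (hβ : |β| < m1 (mu G)) (hαβ : α ≤ β) {m H Y' : ℕ} {L R : ℤ} (hY' : H + m ≤ Y')
    (locR : t ∈ Loc (mu G) 1 R α β lo hi Y')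
    (locL : act rfl1 t ∈ Loc (mu G) 1 (1 - L) (-β) (-α) (-hi) (-lo) Y')
    (h : t ∈ Pair (mu G) m η lo hi H L R 0) :
    2 * η ≤ Dinc t 1 R α β (-(H + m)) (H + m) +
      Dinc (act rfl1 t) 1 (1 - L) (-β) (-α) (-(H + m)) (H + m) := by
  obtain ⟨w0, y', c1, c2, w1⟩ := h
  obtain ⟨Γ, f, g, l, hW⟩ := id w0
  have hL : L ≤ 0 := hW.one_le.2.1
  have hR : 1 ≤ R := by have := hW.one_le.2.2; omega
  have hN : (1 : ℤ) ≤ 1 - L := by omega
  have ht' := (fld_rfl1 t).2 ht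
  have hα' : |-α| < m1 (mu G) := by rwa [abs_neg]
  have hβ' : |-β| < m1 (mu G) := by rwa [abs_neg]
  have hαβ' : -β ≤ -α := neg_le_neg hαβ
  obtain ⟨a, b, yf, yl, g0⟩ := wev_subset_gap ht.1.1.nn w0 H
  obtain ⟨a', b', yf', yl', g1⟩ := wev_subset_gap ht.1.1.nn w1 H
  have d1 := abs_le.1 g0.2.2.1
  have d2 := abs_le.1 g0.2.2.2.1
  have d3 := abs_le.1 g1.2.2.1
  have d4 := abs_le.1 g1.2.2.2.1
  rw [sub_zero] at c1 c2
  rcases le_total 0 y' with hy | hy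
  · rw [abs_of_nonneg hy] at c1 c2
    have := BBud1_two ht hα hβ hL hR locR locL g0 g1 (by push_cast; omega) (by omega) (by omega)
      (by rw [abs_zero]; omega) (by rw [abs_of_nonneg hy]; omega)
    exact this.trans (add_le_add (Dinc_mono ht hR hα hβ hαβ (by omega) (by omega))
      (Dinc_mono ht' hN hβ' hα' hαβ' (by omega) (by omega)))
  · rw [abs_of_nonpos hy] at c1 c2
    have := BBud1_two ht hα hβ hL hR locR locL g1 g0 (by push_cast; omega) (by omega) (by omega)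
      (by rw [abs_of_nonpos hy]; omega) (by rw [abs_zero]; omega)
    exact this.trans (add_le_add (Dinc_mono ht hR hα hβ hαβ (by omega) (by omega))
      (Dinc_mono ht' hN hβ' hα' hαβ' (by omega) (by omega)))

end Crest.Agent.R151
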