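import Crest.Agent.R151.BShape1
import Crest.Agent.R151.BAvg

/-! Row 151, part B: growth of the fields and location of the optimal endpoints. -/

set_option autoImplicit false

namespace Crest.Agent.R151

open MeasureTheory ProbabilityTheory Crest.ProbabilityR.FirstPassage Filter Topology
open scoped Classical

variable {G : Measure ℝ} [Law G]

/-- a good target in the optimal direction -/
theorem bs2_target (hd : DN (mu G)) {s : ℝ} (hs : |s| < m1 (mu G)) {ζ : ℝ} (hζ : 0 < ζ) :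
    ∃ n0 : ℕ, ∀ n : ℕ, n0 ≤ n → ∀ k y : ℤ, ∃ w : ℤ,
      Integrable (fun t => TD (strip k (k + n)) t (k, y) (k + n, y + w)) (iidLaw G) ∧
      ∫ t, |TD (strip k (k + n)) t (k, y) (k + n, y + w) - mu G ((n : ℝ), (w : ℝ))| ∂(iidLaw G) ≤
        ζ * n ∧ mu G ((n : ℝ), (w : ℝ)) - s * w ≤ (rho1 (mu G) s + ζ) * n := by
  set θ := thp (mu G) s with hθ
  have hθs : slp (mu G) θ = s := hd.slp_thp hs
  obtain ⟨n0, h0⟩ := strip_shape hd (S := (|s| + m1 (mu G)) / 2) (by linarith) hζ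
  obtain ⟨δ, hδ, hc⟩ := Metric.continuous_iff.1 hd.slp_continuous θ ((m1 (mu G) - |s|) / 2)
    (by linarith)
  obtain ⟨n1, hn1⟩ := exists_nat_gt (1 / δ)
  obtain ⟨n2, hn2⟩ := exists_nat_gt (2 * m1 (mu G) / ζ)
  refine ⟨n0 + n1 + n2 + 1, fun n hn k y => ⟨⌊θ * n⌋, ?_⟩⟩
  have hn0 : (0 : ℝ) < n := by
    have : 0 < n := by omega
    exact_mod_cast this
  have f1 := Int.floor_le (θ * n)
  have f2 := Int.lt_floor_add_one (θ * n)
  have f3 : |((⌊θ * n⌋ : ℤ) : ℝ) - θ * n| ≤ 1 := abs_le.2 ⟨by linarith, by linarith⟩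
  have hsl : |slp (mu G) (((⌊θ * n⌋ : ℤ) : ℝ) / n)| ≤ (|s| + m1 (mu G)) / 2 := by
    have h1 : (n1 : ℝ) ≤ n := by
      have : n1 ≤ n := by omega
      exact_mod_cast this
    have h2 := hc (((⌊θ * n⌋ : ℤ) : ℝ) / n) (by
      rw [Real.dist_eq, show ((⌊θ * n⌋ : ℤ) : ℝ) / n - θ = (((⌊θ * n⌋ : ℤ) : ℝ) - θ * n) / n by
        field_simp, abs_div, abs_of_pos hn0, div_lt_iff₀ hn0]
      rw [div_lt_iff₀ hδ] at hn1
      nlinarith)
    rw [Real.dist_eq, hθs] at h2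
    have h3 := abs_sub_abs_le_abs_sub (slp (mu G) (((⌊θ * n⌋ : ℤ) : ℝ) / n)) s
    linarith
  obtain ⟨h1, h2⟩ := h0 n (by omega) k y _ hsl
  refine ⟨h1, h2, ?_⟩
  have h3 := hd.dot_rho_eq hs hθs hn0.le
  have h4 := (abs_le.1 (hd.abs_sub_le ((n : ℝ), ((⌊θ * n⌋ : ℤ) : ℝ)) ((n : ℝ), θ * n))).2
  simp only [sub_self, abs_zero, zero_add] at h4
  simp only [dot, rho] at h3
  have hm := hd.m1_pos
  have h5 : m1 (mu G) * |((⌊θ * n⌋ : ℤ) : ℝ) - θ * n| ≤ m1 (mu G) := mul_le_of_le_one_right hm.le f3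
  have h6 : |s * (((⌊θ * n⌋ : ℤ) : ℝ) - θ * n)| ≤ m1 (mu G) := by
    rw [abs_mul]
    exact (mul_le_of_le_one_right (abs_nonneg _) f3).trans hs.le
  have h7 := (abs_le.1 h6).1
  have h8 : 2 * m1 (mu G) ≤ ζ * n := by
    have h9 : (n2 : ℝ) ≤ n := by
      have : n2 ≤ n := by omega
      exact_mod_cast this
    rw [div_lt_iff₀ hζ] at hn2
    nlinarith
  nlinarith

theorem tendsto_mean_Gf (hd : DN (mu G)) {s : ℝ} (hs : |s| < m1 (mu G)) :
    Tendsto (fun N : ℤ => (∫ t, Gf t 0 N s 0 ∂(iidLaw G)) / N) atTop (𝓝 (rho1 (mu G) s)) := by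
  rw [Metric.tendsto_atTop]
  intro ε hε
  obtain ⟨n0, h0⟩ := bs2_target hd hs (ζ := ε / 4) (by positivity)
  obtain ⟨ζ', hζ', hl⟩ := hd.ex_loss hs (ζ := ε / 4) (by positivity)
  obtain ⟨Y, -, hY0, hYi, hY⟩ := exists_shortfall (G := G) hζ'
  obtain ⟨n1, hn1⟩ := exists_nat_gt (4 * (∫ t, Y t ∂(iidLaw G)) / ε)
  refine ⟨max (max (n0 : ℤ) n1) 2, fun N hN => ?_⟩
  have hN0 : (n0 : ℤ) ≤ N := le_trans (le_trans (le_max_left _ _) (le_max_left _ _)) hN
  have hN1 : (n1 : ℤ) ≤ N := le_trans (le_trans (le_max_right _ _) (le_max_left _ _)) hN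
  have hN2 : (2 : ℤ) ≤ N := le_trans (le_max_right _ _) hN
  obtain ⟨n, rfl⟩ : ∃ n : ℕ, N = n := ⟨N.toNat, by omega⟩
  have hn : (0 : ℝ) < n := by
    have : 0 < n := by omega
    exact_mod_cast this
  have hGi : Integrable (fun t => Gf t 0 n s 0) (iidLaw G) := integrable_Gf (by omega) hs 0
  obtain ⟨w, hi, hw1, hw2⟩ := h0 n (by exact_mod_cast hN0) 0 0
  simp only [zero_add] at hi hw1
  have hx : ((0 : ℤ), (0 : ℤ)) ∈ strip 0 (n : ℤ) := ⟨le_rfl, by show (0 : ℤ) ≤ n; omega⟩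
  have hup : ∫ t, Gf t 0 n s 0 ∂(iidLaw G) ≤ (rho1 (mu G) s + ε / 2) * n := by
    have h1 : ∫ t, Gf t 0 n s 0 ∂(iidLaw G) ≤
        ∫ t, (|TD (strip 0 n) t (0, 0) (n, w) - mu G ((n : ℝ), (w : ℝ))| +
          (mu G ((n : ℝ), (w : ℝ)) - s * w)) ∂(iidLaw G) := by
      refine integral_mono_ae hGi ((hi.sub (integrable_const _)).abs.add (integrable_const _)) ?_
      filter_upwards [ae_fld G] with t ht
      have h2 := Gd_le ht hs hx w
      have h3 := le_abs_self (TD (strip 0 n) t (0, 0) (n, w) - mu G ((n : ℝ), (w : ℝ)))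
      unfold Gf
      linarith
    have hi' : Integrable (fun t => |TD (strip 0 n) t (0, 0) (n, w) - mu G ((n : ℝ), (w : ℝ))|)
        (iidLaw G) := (hi.sub (integrable_const _)).abs
    rw [integral_add hi' (integrable_const _), integral_const] at h1
    simp only [probReal_univ, smul_eq_mul, one_mul] at h1
    linarith
  have hlow : (rho1 (mu G) s - ε / 4) * n - ∫ t, Y t ∂(iidLaw G) ≤
      ∫ t, Gf t 0 n s 0 ∂(iidLaw G) := by
    have h1 : ∫ t, ((rho1 (mu G) s - ε / 4) * n - Y t) ∂(iidLaw G) ≤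
        ∫ t, Gf t 0 n s 0 ∂(iidLaw G) := by
      refine integral_mono_ae ((integrable_const _).sub hYi) hGi ?_
      filter_upwards [ae_fld G, hY] with t ht hy
      refine le_ciInf fun z => ?_
      have h2 := hy ((n : ℤ), z)
      have h3 := T_le_TD ht.nn (D := strip 0 n) (x := ((0 : ℤ), (0 : ℤ))) (z := ((n : ℤ), z))
        (conn_strip hx ⟨by show (0 : ℤ) ≤ n; omega, le_rfl⟩)
      have h4 := hl n z hn
      rw [← norm_rv] at h2
      have e : rv ((n : ℤ), z) = ((n : ℝ), (z : ℝ)) := by simp [rv]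
      rw [e] at h2
      have e0 : (0 : V) = ((0 : ℤ), (0 : ℤ)) := rfl
      rw [e0] at h2
      linarith
    rw [integral_sub (integrable_const _) hYi, integral_const] at h1
    simpa only [probReal_univ, smul_eq_mul, one_mul] using h1
  have hYn : ∫ t, Y t ∂(iidLaw G) < ε / 4 * n := by
    have h1 : (n1 : ℝ) ≤ n := by exact_mod_cast hN1
    rw [div_lt_iff₀ hε] at hn1
    nlinarith
  rw [Real.dist_eq, Int.cast_natCast, abs_lt]
  constructor
  · rw [lt_sub_iff_add_lt, lt_div_iff₀ hn]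
    nlinarith
  · rw [sub_lt_iff_lt_add, div_lt_iff₀ hn]
    nlinarith

/-- the endpoint of every line from `(k, y)` lies in the cone of optimal directions -/
theorem Pr_line_end (hd : DN (mu G)) {s : ℝ} (hs : |s| < m1 (mu G)) {ζ : ℝ} (hζ : 0 < ζ) (k y : ℤ) :
    Tendsto (fun N : ℤ => Pr G {t | ∃ γ : Pth, IsLine t k N s γ ∧ γ.p 0 = (k, y) ∧
      (((γ.p γ.n).2 : ℝ) ≤ (thm (mu G) s - ζ) * N ∨ (thp (mu G) s + ζ) * N ≤ ((γ.p γ.n).2 : ℝ))})
      atTop (𝓝 0) := by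
  rw [Metric.tendsto_atTop]
  intro ε hε
  obtain ⟨c, hc, haw⟩ := hd.ex_away hs (ζ := ζ / 2) (by positivity)
  obtain ⟨C, c', hC, hc', hsh⟩ := Pr_shortfall G (ζ := c / 2) (by positivity)
  have hη : 0 < min (c / 8) (ε * c / 16) := lt_min (by positivity) (by positivity)
  obtain ⟨n0, h0⟩ := bs2_target hd hs hη
  have hexp : Tendsto (fun n : ℕ => C * Real.exp (-(c' * (c / 8 * n)))) atTop (𝓝 (C * 0)) := by
    refine Tendsto.const_mul C (Real.tendsto_exp_atBot.comp (tendsto_neg_atTop_atBot.comp ?_))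
    exact (tendsto_natCast_atTop_atTop.const_mul_atTop (by positivity)).const_mul_atTop hc'
  rw [mul_zero] at hexp
  obtain ⟨n1, hn1⟩ := eventually_atTop.1 (hexp.eventually (gt_mem_nhds (half_pos hε)))
  obtain ⟨n2, hn2⟩ := exists_nat_gt (2 * (|(y : ℝ)| + |(thm (mu G) s - ζ / 2) * k| +
    |(thp (mu G) s + ζ / 2) * k|) / ζ)
  refine ⟨max (k + n0 + n1 + 1) n2, fun N hN => ?_⟩
  have hN0 : k + n0 + n1 + 1 ≤ N := le_trans (le_max_left _ _) hN
  have hN2 : (n2 : ℤ) ≤ N := le_trans (le_max_right _ _) hN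
  obtain ⟨n, rfl⟩ : ∃ n : ℕ, N = k + n := ⟨(N - k).toNat, by omega⟩
  have hn : (0 : ℝ) < n := by
    have : 0 < n := by omega
    exact_mod_cast this
  obtain ⟨w, hi, hw1, hw2⟩ := h0 n (by omega) k y
  have hx : (k, y) ∈ strip k (k + n) := ⟨le_rfl, by show k ≤ k + n; omega⟩
  have hbig : |(y : ℝ)| + |(thm (mu G) s - ζ / 2) * k| + |(thp (mu G) s + ζ / 2) * k| ≤
      ζ / 2 * ((k : ℝ) + n) := by
    have h1 : (n2 : ℝ) ≤ (k : ℝ) + n := by exact_mod_cast hN2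
    rw [div_lt_iff₀ hζ] at hn2
    nlinarith
  rw [Real.dist_eq, sub_zero, abs_of_nonneg (Pr_nonneg G _)]
  refine lt_of_le_of_lt (Pr_le_add_of_ae G
    (B := {t | c / 4 * n ≤ |TD (strip k (k + n)) t (k, y) (k + n, y + w) - mu G ((n : ℝ), (w : ℝ))|})
    (C := {t | ∃ z : V, T t (k, y) z ≤
      mu G (rv (z - (k, y))) - c / 2 * nrm (z - (k, y)) - c / 8 * n}) ?_) ?_
  · filter_upwards [ae_fld G] with t ht
    rintro ⟨γ, hγ, h0', hend⟩
    by_contra hcon
    rw [not_or] at hcon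
    obtain ⟨h1, h2⟩ := hcon
    simp only [not_le, not_exists] at h1 h2
    set z : ℤ := (γ.p γ.n).2 with hz
    have h3 := hγ.Gd_eq
    rw [h0', ← hz] at h3
    have h4 := Gd_le ht hs hx (y + w)
    have h5 := T_le_TD ht.nn (D := strip k (k + n)) (x := (k, y)) (z := (k + n, z))
      (conn_strip hx ⟨by show k ≤ k + n; omega, le_rfl⟩)
    have h6 := h2 (k + n, z)
    rw [← norm_rv] at h6
    have e : rv ((k + (n : ℤ), z) - (k, y)) = ((n : ℝ), (z : ℝ) - y) := by simp [rv]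
    rw [e] at h6
    have h7 : ‖(((n : ℝ), (z : ℝ) - y) : ℝ × ℝ)‖ ≤ n + |(z : ℝ) - y| := by
      rw [Prod.norm_def]
      refine max_le ?_ ?_
      · rw [Real.norm_of_nonneg hn.le]
        linarith [abs_nonneg ((z : ℝ) - y)]
      · rw [Real.norm_eq_abs]
        linarith
    have a1 := le_abs_self (y : ℝ)
    have a2 := neg_abs_le (y : ℝ)
    have a3 := le_abs_self ((thm (mu G) s - ζ / 2) * k)
    have a4 := neg_abs_le ((thp (mu G) s + ζ / 2) * k)
    have a5 := abs_nonneg ((thm (mu G) s - ζ / 2) * k)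
    have a6 := abs_nonneg ((thp (mu G) s + ζ / 2) * k)
    have h8 := haw n ((z : ℝ) - y) hn (by
      push_cast at hend
      rcases hend with h | h
      · left
        nlinarith
      · right
        nlinarith)
    have h9 := (abs_lt.1 h1).2
    have h10 : min (c / 8) (ε * c / 16) * n ≤ c / 8 * n :=
      mul_le_mul_of_nonneg_right (min_le_left _ _) hn.le
    have h11 : c / 2 * ‖(((n : ℝ), (z : ℝ) - y) : ℝ × ℝ)‖ ≤ c / 2 * (n + |(z : ℝ) - y|) :=
      mul_le_mul_of_nonneg_left h7 (by positivity)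
    have h12 : 0 ≤ c * |(z : ℝ) - y| := by positivity
    have h13 : 0 < c * n := by positivity
    push_cast at h4
    nlinarith
  · have h1 := Pr_markov G (hi.sub (integrable_const (mu G ((n : ℝ), (w : ℝ))))).abs
      (Eventually.of_forall fun t => abs_nonneg _) (lam := c / 4 * n) (by positivity)
    have h2 := hsh (k, y) (c / 8 * n) (by positivity)
    have h3 := hn1 n (by omega)
    have h4 : min (c / 8) (ε * c / 16) * n / (c / 4 * n) ≤ ε / 2 := by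
      rw [div_le_iff₀ (by positivity)]
      have h5 : min (c / 8) (ε * c / 16) * n ≤ ε * c / 16 * n :=
        mul_le_mul_of_nonneg_right (min_le_right _ _) hn.le
      have h6 : 0 < ε * c * n := by positivity
      nlinarith
    have h5 := h1.trans ((div_le_div_of_nonneg_right hw1 (by positivity)).trans h4)
    have h6 := h2.trans_lt h3
    calc _ < ε / 2 + ε / 2 := add_lt_add_of_le_of_lt h5 h6
      _ = ε := by ring

theorem Pr_not_loc (hd : DN (mu G)) {α β lo hi : ℝ} (hα : -m1 (mu G) < α) (h1 : α < lo)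
    (h2 : lo ≤ hi) (h3 : hi < β) (hβ : β < m1 (mu G)) (k : ℤ) (Y : ℕ) :
    Tendsto (fun N : ℤ => Pr G (Loc (mu G) k N α β lo hi Y)ᶜ) atTop (𝓝 0) := by
  have hα' : |α| < m1 (mu G) := abs_lt.2 ⟨hα, by linarith⟩
  have hβ' : |β| < m1 (mu G) := abs_lt.2 ⟨by linarith, hβ⟩
  have hlo : |lo| < m1 (mu G) := abs_lt.2 ⟨by linarith, by linarith⟩
  have hhi : |hi| < m1 (mu G) := abs_lt.2 ⟨by linarith, by linarith⟩
  have g1 := hd.thp_lt_thm hα' hlo h1
  have g2 := hd.thp_lt_thm hhi hβ' h3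
  set ζ : ℝ := min (thm (mu G) lo - thp (mu G) α) (thm (mu G) β - thp (mu G) hi) / 2 with hζdef
  have hζ : 0 < ζ := half_pos (lt_min (by linarith) (by linarith))
  have hζ1 : 2 * ζ ≤ thm (mu G) lo - thp (mu G) α := by
    have := min_le_left (thm (mu G) lo - thp (mu G) α) (thm (mu G) β - thp (mu G) hi)
    linarith
  have hζ2 : 2 * ζ ≤ thm (mu G) β - thp (mu G) hi := by
    have := min_le_right (thm (mu G) lo - thp (mu G) α) (thm (mu G) β - thp (mu G) hi)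
    linarith
  let E : ℝ → ℤ → ℤ → Set Env := fun s y N => {t | ∃ γ : Pth, IsLine t k N s γ ∧ γ.p 0 = (k, y) ∧
      (((γ.p γ.n).2 : ℝ) ≤ (thm (mu G) s - ζ) * N ∨ (thp (mu G) s + ζ) * N ≤ ((γ.p γ.n).2 : ℝ))}
  have hlim : Tendsto (fun N : ℤ => ∑ y ∈ Finset.Icc (-(Y : ℤ)) Y,
      (Pr G (E α y N) + Pr G (E β y N))) atTop (𝓝 (∑ y ∈ Finset.Icc (-(Y : ℤ)) Y, (0 + 0))) :=
    tendsto_finsetSum _ fun y _ => (Pr_line_end hd hα' hζ k y).add (Pr_line_end hd hβ' hζ k y)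
  simp only [add_zero, Finset.sum_const_zero] at hlim
  refine squeeze_zero' (Eventually.of_forall fun N => Pr_nonneg G _) ?_ hlim
  obtain ⟨n2, hn2⟩ := exists_nat_gt ((Y : ℝ) * (1 + |thm (mu G) lo| + |thp (mu G) hi|) / ζ)
  filter_upwards [eventually_ge_atTop k, eventually_gt_atTop (Y : ℤ), eventually_ge_atTop (n2 : ℤ)]
    with N hk hY hN
  have hbig : (Y : ℝ) * (1 + |thm (mu G) lo| + |thp (mu G) hi|) ≤ ζ * N := by
    have h4 : (n2 : ℝ) ≤ N := by exact_mod_cast hN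
    rw [div_lt_iff₀ hζ] at hn2
    nlinarith
  have hN0 : (0 : ℝ) ≤ N := by
    have : (0 : ℤ) ≤ N := by omega
    exact_mod_cast this
  refine (Pr_le_sum_of_ae G (Finset.Icc (-(Y : ℤ)) Y) (fun y => E α y N ∪ E β y N) ?_).trans
    (Finset.sum_le_sum fun y _ => Pr_union_le G _ _)
  filter_upwards [ae_fld G] with t ht hL
  by_contra hcon
  apply hL
  intro y xc yc b hy hxc hyc hsl
  have hy' : y ∈ Finset.Icc (-(Y : ℤ)) Y := Finset.mem_Icc.2 (abs_le.1 hy)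
  have hnα : t ∉ E α y N := fun h => hcon ⟨y, hy', Or.inl h⟩
  have hnβ : t ∉ E β y N := fun h => hcon ⟨y, hy', Or.inr h⟩
  have hx : (k, y) ∈ strip k N := ⟨le_rfl, hk⟩
  have hpos : (0 : ℝ) < ((N - xc : ℤ) : ℝ) := by
    have := (abs_le.1 hxc).2
    have : 0 < N - xc := by omega
    exact_mod_cast this
  have hb1 := (hd.thm_le_iff hlo _).2 hsl.1
  have hb2 := (hd.le_thp_iff hhi _).2 hsl.2
  rw [le_div_iff₀ hpos] at hb1
  rw [div_le_iff₀ hpos] at hb2
  push_cast at hb1 hb2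
  have hxc' : |(xc : ℝ)| ≤ Y := by exact_mod_cast hxc
  have hyc' : |(yc : ℝ)| ≤ Y := by exact_mod_cast hyc
  have a1 := (abs_le.1 hyc').1
  have a2 := (abs_le.1 hyc').2
  have a3 : |thm (mu G) lo * xc| ≤ |thm (mu G) lo| * Y := by
    rw [abs_mul]
    exact mul_le_mul_of_nonneg_left hxc' (abs_nonneg _)
  have a4 : |thp (mu G) hi * xc| ≤ |thp (mu G) hi| * Y := by
    rw [abs_mul]
    exact mul_le_mul_of_nonneg_left hxc' (abs_nonneg _)
  have a5 := (abs_le.1 a3).2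
  have a6 := (abs_le.1 a4).1
  have a7 : 0 ≤ |thm (mu G) lo| * Y := by positivity
  have a8 : 0 ≤ |thp (mu G) hi| * Y := by positivity
  have a9 := mul_le_mul_of_nonneg_right hζ1 hN0
  have a10 := mul_le_mul_of_nonneg_right hζ2 hN0
  constructor
  · obtain ⟨γ, hγ, h0⟩ := exists_line ht hα' hx
    refine ⟨γ, hγ, h0, ?_⟩
    have h5 : ((γ.p γ.n).2 : ℝ) < (thp (mu G) α + ζ) * N := by
      by_contra h
      exact hnα ⟨γ, hγ, h0, Or.inr (not_lt.1 h)⟩
    have h6 : ((γ.p γ.n).2 : ℝ) ≤ b := by nlinarith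
    exact_mod_cast h6
  · obtain ⟨γ, hγ, h0⟩ := exists_line ht hβ' hx
    refine ⟨γ, hγ, h0, ?_⟩
    have h5 : (thm (mu G) β - ζ) * N < ((γ.p γ.n).2 : ℝ) := by
      by_contra h
      exact hnβ ⟨γ, hγ, h0, Or.inl (not_lt.1 h)⟩
    have h6 : (b : ℝ) ≤ ((γ.p γ.n).2 : ℝ) := by nlinarith
    exact_mod_cast h6

end Crest.Agent.R151
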