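import Crest.Agent.R151.BBud1
import Crest.Agent.R151.BShape2

/-! Row 151, part B: the budget bound and the bounded density of slopes. -/

set_option autoImplicit false

namespace Crest.Agent.R151

open MeasureTheory ProbabilityTheory Crest.ProbabilityR.FirstPassage Filter Topology
open scoped Classical

variable {G : Measure ℝ} [Law G]

theorem bbud2_bound {α β lo hi K : ℝ} (hα : |α| < m1 (mu G)) (hβ : |β| < m1 (mu G)) (hαβ : α ≤ β)
    (hK : 0 < K) {m Rr H Y Y0 : ℕ} {N1 N2 : ℤ} (hN1 : 3 ≤ N1) (hN2 : 3 ≤ N2) (hY : Y0 + H ≤ Y) :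
    (Y0 : ℝ) * (Pr G {t | ∃ y : ℤ, 0 ≤ y ∧ y < H ∧ t ∈ Gap (mu G) m K lo hi Rr Y (1 - N1) N2 y} -
      Pr G (Loc (mu G) 1 N2 α β lo hi (Y + m))ᶜ -
      Pr G (Loc (mu G) 1 N1 (-β) (-α) (-hi) (-lo) (Y + m))ᶜ) ≤
      ((Rr : ℝ) + 2 * m + H + 1) * (1 + (β - α) / K * (Y + 2 * m)) := by
  have hα' : |-α| < m1 (mu G) := by rwa [abs_neg]
  have hβ' : |-β| < m1 (mu G) := by rwa [abs_neg]
  let A : ℤ → Set Env := fun y0 => {t | ∃ y : ℤ, y0 ≤ y ∧ y < y0 + H ∧
    t ∈ Gap (mu G) m K lo hi Rr Y (1 - N1) N2 y}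
  let LR : Set Env := Loc (mu G) 1 N2 α β lo hi (Y + m)
  let LL : Set Env := Loc (mu G) 1 N1 (-β) (-α) (-hi) (-lo) (Y + m)
  have mA : ∀ y0, MeasurableSet (A y0 ∩ (LR ∩ act rfl1 ⁻¹' LL)) := by
    intro y0
    refine MeasurableSet.inter ?_ ((measurableSet_loc _ _ _ _ _ _ _ _).inter
      (measurable_act _ (measurableSet_loc _ _ _ _ _ _ _ _)))
    have e : A y0 = ⋃ y : ℤ, ⋃ _ : y0 ≤ y ∧ y < y0 + H,
        Gap (mu G) m K lo hi Rr Y (1 - N1) N2 y := by
      ext t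
      simp only [A, Set.mem_ofPred_eq, Set.mem_iUnion, exists_prop, and_assoc]
    rw [e]
    exact MeasurableSet.iUnion fun y => MeasurableSet.iUnion fun _ =>
      measurableSet_gap _ _ _ _ _ _ _ _ _ _
  have pA : ∀ y0, Pr G (A y0) =
      Pr G {t | ∃ y : ℤ, 0 ≤ y ∧ y < H ∧ t ∈ Gap (mu G) m K lo hi Rr Y (1 - N1) N2 y} := by
    intro y0
    rw [← Pr_act G (tr (0, y0)) {t | ∃ y : ℤ, 0 ≤ y ∧ y < H ∧ _}]
    congr 1
    ext t
    simp only [A, Set.mem_ofPred_eq, Set.mem_preimage, gap_tr]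
    constructor
    · rintro ⟨y, a1, a2, a3⟩
      exact ⟨y - y0, by omega, by omega, by rwa [sub_add_cancel]⟩
    · rintro ⟨y, a1, a2, a3⟩
      exact ⟨y + y0, by omega, by omega, a3⟩
  have pA' : ∀ y0, Pr G (A y0) - Pr G LRᶜ - Pr G LLᶜ ≤ Pr G (A y0 ∩ (LR ∩ act rfl1 ⁻¹' LL)) := by
    intro y0
    have h1 := Pr_le_add_of_ae G (A := A y0) (B := A y0 ∩ (LR ∩ act rfl1 ⁻¹' LL))
      (C := LRᶜ ∪ act rfl1 ⁻¹' LLᶜ) (Eventually.of_forall fun t ht => by
        by_cases a1 : t ∈ LR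
        · by_cases a2 : act rfl1 t ∈ LL
          · exact Or.inl ⟨ht, a1, a2⟩
          · exact Or.inr (Or.inr a2)
        · exact Or.inr (Or.inl a1))
    have h2 := Pr_union_le G LRᶜ (act rfl1 ⁻¹' LLᶜ)
    rw [Pr_act] at h2
    linarith
  obtain ⟨i1, e1⟩ := integral_Dinc (G := G) (k := 1) (N := N2) (by omega) hα hβ (-m) (Y + m)
  obtain ⟨i2, e2⟩ := integral_Dinc (G := G) (k := 1) (N := N1) (by omega) hβ' hα' (-m) (Y + m)
  have i3 := (integrable_act G rfl1 _).2 i2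
  have e3 := (integral_act G rfl1 (fun t => Dinc t 1 N1 (-β) (-α) (-m) (Y + m))).trans e2
  have i4 : Integrable (fun t => (Dinc t 1 N2 α β (-m) (Y + m) +
      Dinc (act rfl1 t) 1 N1 (-β) (-α) (-m) (Y + m)) / (2 * K)) (iidLaw G) :=
    (i1.add i3).div_const _
  have i5 : Integrable (fun t => 1 + (Dinc t 1 N2 α β (-m) (Y + m) +
      Dinc (act rfl1 t) 1 N1 (-β) (-α) (-m) (Y + m)) / (2 * K)) (iidLaw G) :=
    (integrable_const _).add i4
  have key := sum_Pr_le_integral G (Finset.Ico (0 : ℤ) Y0) mA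
    (i5.const_mul ((Rr : ℝ) + 2 * m + H + 1)) (by
      filter_upwards [ae_fld G] with t ht
      by_cases hg : t ∈ LR ∩ act rfl1 ⁻¹' LL
      · have h1 := gap_count ht hα hβ hαβ hK (lo := lo) (hi := hi) (m := m) (Rr := Rr) (H := H)
          (Y := Y) (Y0 := Y0) (Y' := Y + m) (L := 1 - N1) (R := N2) (by omega) (by omega) hY le_rfl
          hg.1 (by rw [sub_sub_cancel]; exact hg.2)
          ((Finset.Ico (0 : ℤ) Y0).filter (fun i => t ∈ A i ∩ (LR ∩ act rfl1 ⁻¹' LL)))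
          (fun y0 hy0 => by
            obtain ⟨a1, a2⟩ := Finset.mem_filter.1 hy0
            exact ⟨(Finset.mem_Ico.1 a1).1, (Finset.mem_Ico.1 a1).2, a2.1⟩)
        rw [sub_sub_cancel] at h1
        convert h1
      · refine le_trans (le_of_eq (Nat.cast_eq_zero.2 (Finset.card_eq_zero.2
          (Finset.eq_empty_of_forall_notMem fun i hi => ?_)))) ?_
        · simp only [Finset.mem_filter] at hi
          exact hg hi.2.2
        have a1 := Dinc_nonneg ht (k := 1) (N := N2) (by omega) hα hβ hαβ (y1 := -m) (y2 := Y + m)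
          (by omega)
        have a2 := Dinc_nonneg ((fld_rfl1 t).2 ht) (k := 1) (N := N1) (by omega) hβ' hα'
          (by linarith) (y1 := -m) (y2 := Y + m) (by omega)
        positivity)
  rw [integral_const_mul, integral_add (integrable_const _) i4, integral_div, integral_add i1 i3,
    e1, e3, integral_const] at key
  have h2 := Finset.card_nsmul_le_sum (Finset.Ico (0 : ℤ) Y0) _ _
    (fun y0 _ => (pA y0 ▸ pA' y0 :
      Pr G {t | ∃ y : ℤ, 0 ≤ y ∧ y < H ∧ t ∈ Gap (mu G) m K lo hi Rr Y (1 - N1) N2 y} -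
        Pr G LRᶜ - Pr G LLᶜ ≤ Pr G (A y0 ∩ (LR ∩ act rfl1 ⁻¹' LL))))
  rw [Int.card_Ico, sub_zero, Int.toNat_natCast, nsmul_eq_mul] at h2
  refine h2.trans (key.trans (le_of_eq ?_))
  simp only [probReal_univ, smul_eq_mul, one_mul]
  push_cast
  field_simp
  ring

theorem small_gap (hd : DN (mu G)) {α β lo hi K : ℝ} (hα : -m1 (mu G) < α) (h1 : α < lo)
    (h2 : lo ≤ hi) (h3 : hi < β) (hβ : β < m1 (mu G)) (hK : 0 < K) {m Rr H Y : ℕ} (hH : 1 ≤ H)
    (hHY : 2 * H ≤ Y) (hmY : m ≤ Y) :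
    Small2 (fun N1 N2 => Pr G {t | ∃ y : ℤ, 0 ≤ y ∧ y < H ∧
        t ∈ Gap (mu G) m K lo hi Rr Y (1 - N1) N2 y})
      (12 * ((Rr : ℝ) + H + m + 1) * ((β - α) / K + 1 / Y)) := by
  have hα' : |α| < m1 (mu G) := abs_lt.2 ⟨hα, by linarith⟩
  have hβ' : |β| < m1 (mu G) := abs_lt.2 ⟨by linarith, hβ⟩
  have hαβ : α ≤ β := by linarith
  have sR := (small_of_tendsto (Pr_not_loc hd hα h1 h2 h3 hβ 1 (Y + m))).right
  have sL := (small_of_tendsto (Pr_not_loc hd (α := -β) (β := -α) (lo := -hi) (hi := -lo)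
    (by linarith) (by linarith) (by linarith) (by linarith) (by linarith) 1 (Y + m))).left
  have s0 := ((small2_const (12 * ((Rr : ℝ) + H + m + 1) * ((β - α) / K + 1 / Y))).add sR).add sL
  rw [add_zero, add_zero] at s0
  refine s0.of_le ⟨3, fun N1 N2 hN1 hN2 => ?_⟩
  have hb := bbud2_bound hα' hβ' hαβ hK (lo := lo) (hi := hi) (m := m) (Rr := Rr) (H := H) (Y := Y)
    (Y0 := Y - H) hN1 hN2 (by omega)
  set p := Pr G {t | ∃ y : ℤ, 0 ≤ y ∧ y < H ∧ t ∈ Gap (mu G) m K lo hi Rr Y (1 - N1) N2 y}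
  set qR := Pr G (Loc (mu G) 1 N2 α β lo hi (Y + m))ᶜ
  set qL := Pr G (Loc (mu G) 1 N1 (-β) (-α) (-hi) (-lo) (Y + m))ᶜ
  have hY0 : (0 : ℝ) < Y := by
    have : 0 < Y := by omega
    exact_mod_cast this
  have hY1 : (Y : ℝ) / 2 ≤ ((Y - H : ℕ) : ℝ) := by
    rw [Nat.cast_sub (by omega)]
    have : ((2 * H : ℕ) : ℝ) ≤ Y := by exact_mod_cast hHY
    push_cast at this
    linarith
  have hm : (m : ℝ) ≤ Y := by exact_mod_cast hmY
  have hx : 0 ≤ (β - α) / K := div_nonneg (by linarith) hK.le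
  have h4 : ((Rr : ℝ) + 2 * m + H + 1) * (1 + (β - α) / K * (Y + 2 * m)) ≤
      (Y : ℝ) / 2 * (12 * ((Rr : ℝ) + H + m + 1) * ((β - α) / K + 1 / Y)) := by
    have e : (Y : ℝ) / 2 * (12 * ((Rr : ℝ) + H + m + 1) * ((β - α) / K + 1 / Y)) =
        (2 * ((Rr : ℝ) + H + m + 1)) * (3 + (β - α) / K * (3 * Y)) := by
      field_simp
      ring
    rw [e]
    have a1 : (0 : ℝ) ≤ Rr := Nat.cast_nonneg _
    have a2 : (0 : ℝ) ≤ H := Nat.cast_nonneg _
    have a3 : (0 : ℝ) ≤ m := Nat.cast_nonneg _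
    refine mul_le_mul (by linarith) (add_le_add (by norm_num) ?_) (by positivity) (by positivity)
    exact mul_le_mul_of_nonneg_left (by linarith) hx
  have h5 : 0 ≤ 12 * ((Rr : ℝ) + H + m + 1) * ((β - α) / K + 1 / Y) := by positivity
  have h6 := hb.trans (h4.trans (mul_le_mul_of_nonneg_right hY1 h5))
  have h7 := le_of_mul_le_mul_left h6 (by linarith)
  linarith

theorem small_wev (hd : DN (mu G)) {lo hi η : ℝ} (h1 : -m1 (mu G) < lo) (h2 : lo ≤ hi)
    (h3 : hi < m1 (mu G)) (hη : 0 < η) (m : ℕ) :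
    Small2 (fun N1 N2 => Pr G (Wev (mu G) m η lo hi (1 - N1) N2 0 0))
      (50 * ((m : ℝ) + 1) * (hi - lo) / η) := by
  refine Small2.of_forall_gt fun b hb => ?_
  have hc : (0 : ℝ) < 50 * ((m : ℝ) + 1) := by positivity
  set c : ℝ := 50 * ((m : ℝ) + 1) with hcdef
  set e : ℝ := b - c * (hi - lo) / η with he
  have he0 : 0 < e := by linarith
  set δ : ℝ := min (min (lo + m1 (mu G)) (m1 (mu G) - hi) / 2) (e * η / (4 * c)) with hδ
  have hδ0 : 0 < δ := lt_min (half_pos (lt_min (by linarith) (by linarith))) (by positivity)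
  have hδ1 : δ ≤ min (lo + m1 (mu G)) (m1 (mu G) - hi) / 2 := min_le_left _ _
  have hδ2 : δ ≤ e * η / (4 * c) := min_le_right _ _
  have hδ3 := min_le_left (lo + m1 (mu G)) (m1 (mu G) - hi)
  have hδ4 := min_le_right (lo + m1 (mu G)) (m1 (mu G) - hi)
  obtain ⟨n, hn⟩ := exists_nat_gt (2 * c / e)
  have hs := small_gap hd (α := lo - δ) (β := hi + δ) (lo := lo) (hi := hi) (K := η) (by linarith)
    (by linarith) h2 (by linarith) (by linarith) hη (m := m) (Rr := 2 * m) (H := 1) (Y := n + m + 2)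
    le_rfl (by omega) (by omega)
  refine (hs.of_le ⟨0, fun N1 N2 _ _ => Pr_mono_ae G ?_⟩).mono_right ?_
  · filter_upwards [ae_nn G] with t ht h
    exact ⟨0, le_rfl, by norm_num, wev_subset_gap ht h _⟩
  · have a3 : (0 : ℝ) ≤ m := Nat.cast_nonneg _
    have a4 : (0 : ℝ) ≤ n := Nat.cast_nonneg _
    have a5 : 1 / ((n + m + 2 : ℕ) : ℝ) ≤ e / (2 * c) := by
      rw [div_lt_iff₀ he0] at hn
      rw [div_le_div_iff₀ (by positivity) (by positivity)]
      push_cast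
      nlinarith
    have a6 : (hi + δ - (lo - δ)) / η ≤ (hi - lo) / η + e / (2 * c) := by
      have a7 : 2 * δ / η ≤ e / (2 * c) := by
        rw [le_div_iff₀ (by positivity)] at hδ2
        rw [div_le_div_iff₀ hη (by positivity)]
        linarith
      have a8 : (hi + δ - (lo - δ)) / η = (hi - lo) / η + 2 * δ / η := by ring
      linarith
    have a9 : 0 ≤ (hi + δ - (lo - δ)) / η := div_nonneg (by linarith) hη.le
    calc 12 * (((2 * m : ℕ) : ℝ) + ((1 : ℕ) : ℝ) + m + 1) *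
          ((hi + δ - (lo - δ)) / η + 1 / ((n + m + 2 : ℕ) : ℝ))
        ≤ c * ((hi - lo) / η + e / (2 * c) + e / (2 * c)) := by
          refine mul_le_mul ?_ (add_le_add a6 a5) (by positivity) hc.le
          push_cast
          linarith
      _ = c * (hi - lo) / η + e := by
          field_simp
          ring
      _ = b := by rw [he]; ring

end Crest.Agent.R151
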