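import Crest.Agent.R151.BInc2

/-! Row 151, part B: confinement of long geodesics. -/

set_option autoImplicit false

namespace Crest.Agent.R151

open MeasureTheory ProbabilityTheory Crest.ProbabilityR.FirstPassage Filter Topology
open scoped Classical

variable {G : Measure ℝ} [Law G]

theorem BConf1_low (hd : DN (mu G)) {n : ℕ} {t : Env} (ht : NN t)
    (hl : t ∈ LowL G (g0 (mu G)) 2 0 n) {Γ : Pth} (hΓ : Γ.Ok) {i0 j : ℕ} (h0 : i0 ≤ j)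
    (hj : j ≤ Γ.n) (hb : Γ.p i0 ∈ box 0 n) :
    (m1 (mu G) - g0 (mu G)) * (nrm (Γ.p j - Γ.p i0) : ℝ) - g0 (mu G) * n ≤ Γ.cost t i0 j := by
  have h1 := hl (Γ.p i0) (box_mono 0 (by omega) hb) (Γ.p j)
  have h2 := hd.m1_norm_le (rv (Γ.p j - Γ.p i0))
  rw [norm_rv] at h2
  have h3 := T_le_cost ht hΓ h0 hj
  nlinarith

theorem BConf1_rpow {x a : ℝ} (hx : 1 ≤ x) (ha : a ≤ 1) : x ^ a ≤ x := by
  simpa using Real.rpow_le_rpow_of_exponent_le hx ha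

/-- deterministic part -/
theorem cf_of_events (hd : DN (mu G)) (C : ℝ) : ∃ (A n0 : ℕ), 2 ≤ A ∧ ∀ n : ℕ, n0 ≤ n → ∀ L R : ℤ,
    L ≤ -(3 * n : ℤ) → (2 * n : ℤ) ≤ R → ∀ t : Env, NN t →
      t ∈ UpTo G C 0 (2 * n) (2 * n, 0) → t ∈ LowL G (g0 (mu G)) 2 0 n →
      t ∈ PL (mu G) (2 * n) R (-Sk (mu G) 4) (Sk (mu G) 4) (-Sk (mu G) 3) (Sk (mu G) 3) (g0 (mu G))
        (4 * ((2 * n : ℕ) : ℝ)) (2 * n) →
      t ∈ CF (mu G) A n L R := by
  have hm := hd.m1_pos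
  have hg := hd.g0_pos
  have h4 : Sk (mu G) 4 = m1 (mu G) - 4 * g0 (mu G) := by rw [DN.Sk_eq]; norm_num
  have h4p := hd.Sk_pos 4
  set m := m1 (mu G) with hmdef
  set g := g0 (mu G) with hgdef
  have hmg : 0 < m - g := by linarith
  obtain ⟨K1, hK1⟩ : ∃ K1 : ℝ, K1 = 4 * m + 2 * |C| + 8 * g := ⟨_, rfl⟩
  obtain ⟨K2, hK2⟩ : ∃ K2 : ℝ, K2 = K1 + (m - 3 * g) * ((K1 + m) / (2 * g)) := ⟨_, rfl⟩
  refine ⟨⌈K2⌉₊ + ⌈(K2 + g) / (m - g)⌉₊ + 2, 1, by omega, ?_⟩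
  intro n hn L R hL hR t ht hup hlow hpl Γ hΓ i0 i hi0 hi hb hcol
  obtain ⟨hgeo, hin, hs, he, xc, yc, hx, hy, hsl⟩ := hΓ
  have hn0 : (0 : ℝ) ≤ n := Nat.cast_nonneg n
  have hn1 : (1 : ℝ) ≤ ((2 * n : ℕ) : ℝ) := by exact_mod_cast (by omega : 1 ≤ 2 * n)
  obtain ⟨i1, hi1, hi1n, hc1, hlast⟩ := exists_last_level (fun k => (Γ.p k).1) hi
    (fun k _ _ => hgeo.1.col_step k) (2 * n : ℤ) hcol (by rw [he]; exact hR)
  have hb' := (nrm_le_iff _ _).1 hb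
  simp only [sub_zero, abs_le] at hb'
  obtain ⟨i', hi', hT⟩ := UpTo.exists_earlier G hup hgeo.1 (hi0.trans hi)
    (box_mono 0 (by omega) hb) (by
      refine (BConf1_rpow hn1 (by norm_num)).trans ?_
      have h1 := abs_fst_le_nrm (Γ.p 0 - Γ.p i0)
      rw [Prod.fst_sub, hs, abs_le] at h1
      exact_mod_cast (by omega : 2 * n ≤ nrm (Γ.p 0 - Γ.p i0)))
  have hP := hpl 0 xc yc (Γ.p Γ.n).2 (by simp) hx hy hsl
  have hcost := cost_to_last ht hgeo hin he (i' := i') (i1 := i1) (by omega) hi1n hc1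
    (fun j h1 h2 => by
      rcases h1.eq_or_lt with h | h
      · rw [← h]; exact hc1.ge
      · exact (hlast j h h2).le) hP
  obtain ⟨w, hw⟩ : ∃ w : ℝ, w = ((Γ.p i1).2 : ℝ) := ⟨_, rfl⟩
  have e1 : (((Γ.p i1).2 - 0 : ℤ) : ℝ) = w := by simp [hw]
  have e2 : ((0 - (Γ.p i1).2 : ℤ) : ℝ) = -w := by simp [hw]
  rw [e1, e2] at hcost
  have e3 : max w 0 + max (-w) 0 = |w| := by
    rcases le_total 0 w with h | h
    · rw [max_eq_left h, max_eq_right (by linarith), abs_of_nonneg h, add_zero]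
    · rw [max_eq_right h, max_eq_left (by linarith), abs_of_nonpos h, zero_add]
  have hmu : mu G (rv (((2 * n, 0) : V) - Γ.p i0)) ≤ m * (4 * n) := by
    refine (hd.le_m1_norm _).trans (mul_le_mul_of_nonneg_left ?_ hm.le)
    have a1 : |(2 * n : ℤ) - (Γ.p i0).1| ≤ 3 * n := by rw [abs_le]; omega
    have a2 : |(0 : ℤ) - (Γ.p i0).2| ≤ n := by rw [abs_le]; omega
    have a3 : |(((2 * n : ℤ) - (Γ.p i0).1 : ℤ) : ℝ)| ≤ 3 * n := by exact_mod_cast a1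
    have a4 : |(((0 : ℤ) - (Γ.p i0).2 : ℤ) : ℝ)| ≤ n := by exact_mod_cast a2
    simp only [rv, Prod.fst_sub, Prod.snd_sub]
    linarith
  have hC : C * ((2 * n : ℕ) : ℝ) ^ ((3 : ℝ) / 4) ≤ |C| * (2 * n) := by
    have a1 := BConf1_rpow hn1 (show (3 : ℝ) / 4 ≤ 1 by norm_num)
    have a2 : (0 : ℝ) ≤ ((2 * n : ℕ) : ℝ) ^ ((3 : ℝ) / 4) := by positivity
    calc C * ((2 * n : ℕ) : ℝ) ^ ((3 : ℝ) / 4) ≤ |C| * ((2 * n : ℕ) : ℝ) ^ ((3 : ℝ) / 4) :=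
          mul_le_mul_of_nonneg_right (le_abs_self C) a2
      _ ≤ |C| * ((2 * n : ℕ) : ℝ) := mul_le_mul_of_nonneg_left a1 (abs_nonneg C)
      _ = |C| * (2 * n) := by push_cast; ring
  have hup1 : Γ.cost t i0 i1 ≤ K1 * n + (m - 3 * g) * |w| := by
    have a1 : Γ.cost t i0 i1 ≤ Γ.cost t i' i1 := Γ.cost_mono ht hi' le_rfl
    have a2 : Sk (mu G) 4 * max w 0 - -Sk (mu G) 4 * max (-w) 0 = (m - 4 * g) * |w| := by
      rw [← e3, h4]; ring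
    push_cast at hcost
    rw [hK1]
    nlinarith
  have hw1 : |w| - n ≤ (nrm (Γ.p i1 - Γ.p i0) : ℝ) := by
    have a1 := abs_snd_le_nrm (Γ.p i1 - Γ.p i0)
    rw [Prod.snd_sub, abs_le] at a1
    have a2 : |(Γ.p i1).2| - n ≤ (nrm (Γ.p i1 - Γ.p i0) : ℤ) := by
      rcases abs_cases (Γ.p i1).2 with h | h <;> omega
    rw [hw]
    exact_mod_cast a2
  have hlow1 := BConf1_low hd ht hlow hgeo.1 (hi0.trans hi1) hi1n hb
  have hw2 : |w| ≤ (K1 + m) / (2 * g) * n := by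
    rw [div_mul_eq_mul_div, le_div_iff₀ (by positivity)]
    have a1 := mul_le_mul_of_nonneg_left hw1 hmg.le
    nlinarith
  have hup2 : Γ.cost t i0 i1 ≤ K2 * n := by
    have a1 := mul_le_mul_of_nonneg_left hw2 (show 0 ≤ m - 3 * g by linarith)
    rw [hK2]
    nlinarith
  refine ⟨?_, fun j h1 h2 => ?_⟩
  · have a1 : Γ.cost t i0 i ≤ Γ.cost t i0 i1 := Γ.cost_mono ht le_rfl hi1
    have a2 := Nat.le_ceil K2
    have a3 : (0 : ℝ) ≤ ⌈(K2 + g) / (m - g)⌉₊ := Nat.cast_nonneg _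
    push_cast
    nlinarith
  · have a1 : Γ.cost t i0 j ≤ Γ.cost t i0 i1 := Γ.cost_mono ht le_rfl (h2.trans hi1)
    have a2 := BConf1_low hd ht hlow hgeo.1 h1 (h2.trans hi) hb
    have a3 : (nrm (Γ.p j - Γ.p i0) : ℝ) ≤ (K2 + g) / (m - g) * n := by
      rw [div_mul_eq_mul_div, le_div_iff₀ hmg]
      nlinarith
    have a4 : (nrm (Γ.p j - Γ.p i0) : ℝ) ≤ (⌈(K2 + g) / (m - g)⌉₊ * n : ℕ) := by
      push_cast
      exact a3.trans (mul_le_mul_of_nonneg_right (Nat.le_ceil _) hn0)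
    have a5 : nrm (Γ.p j - Γ.p i0) ≤ ⌈(K2 + g) / (m - g)⌉₊ * n := by exact_mod_cast a4
    have a6 := nrm_triangle 0 (Γ.p i0) (Γ.p j)
    have a7 : nrm (Γ.p i0 - 0) ≤ n := hb
    show nrm (Γ.p j - 0) ≤ _
    nlinarith

theorem small_not_cf (hd : DN (mu G)) : ∃ A : ℕ, 2 ≤ A ∧ ∀ p : ℝ, 0 < p → ∃ n0 : ℕ, ∀ n : ℕ, n0 ≤ n →
    Small2 (fun N1 N2 => Pr G (CF (mu G) A n (1 - N1) N2)ᶜ) p := by
  obtain ⟨C, hC, hup⟩ := Pr_not_upTo G
  obtain ⟨A, n1, hA, hcf⟩ := cf_of_events hd C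
  obtain ⟨C', c, hC', hc, hlow⟩ := Pr_not_lowL G hd.g0_pos 2
  refine ⟨A, hA, fun p hp => ?_⟩
  have h3 := hd.Sk_pos 3
  have h34 : Sk (mu G) 3 < Sk (mu G) 4 := by
    have := DN.Sk_succ (μ := mu G) 3
    linarith [hd.g0_pos]
  have h4 := hd.Sk_lt (show 4 < 8 by norm_num)
  obtain ⟨Y0, hY⟩ := small_not_pl hd (α := -Sk (mu G) 4) (β := Sk (mu G) 4) (lo := -Sk (mu G) 3)
    (hi := Sk (mu G) 3) (by linarith) (by linarith) (by linarith) h34 h4 hd.g0_pos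
    (show 0 < p / 3 by positivity)
  have t1 : Tendsto (fun n : ℕ => C / ((2 * n : ℕ) : ℝ) ^ ((1 : ℝ) / 4)) atTop (𝓝 0) :=
    Tendsto.div_atTop tendsto_const_nhds ((tendsto_rpow_atTop (by norm_num)).comp
      (tendsto_natCast_atTop_atTop.comp
        (tendsto_atTop_mono (fun n => by simp only [id]; omega) tendsto_id)))
  have t2 : Tendsto (fun n : ℕ => C' * Real.exp (-(c * n))) atTop (𝓝 0) := by
    have := (Real.tendsto_exp_neg_atTop_nhds_zero.comp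
      (tendsto_natCast_atTop_atTop.const_mul_atTop hc)).const_mul C'
    simpa using this
  obtain ⟨n0, hn0⟩ := eventually_atTop.1 (((t1.eventually (ge_mem_nhds (show 0 < p / 3 by positivity))).and
    (t2.eventually (ge_mem_nhds (show 0 < p / 3 by positivity)))).and
    (eventually_ge_atTop (n1 + Y0 + 1)))
  refine ⟨n0, fun n hn => ?_⟩
  obtain ⟨⟨a1, a2⟩, a3⟩ := hn0 n hn
  have s1 := (small2_const (p / 3 + p / 3)).add (hY (2 * n) (by omega) (2 * n)).right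
  refine (s1.of_le ⟨3 * n + 1, fun N1 N2 h1 h2 => ?_⟩).mono_right (by linarith)
  have b1 := (hup 0 (2 * n) (by omega) (2 * n, 0) (by
    show nrm _ ≤ _
    rw [nrm_le_iff]
    simp)).trans a1
  have b2 := (hlow 0 n).trans a2
  refine (Pr_le_add_of_ae G (B := (UpTo G C 0 (2 * n) (2 * n, 0))ᶜ ∪ (LowL G (g0 (mu G)) 2 0 n)ᶜ)
    ((ae_nn G).mono fun t ht h => ?_)).trans
      (add_le_add ((Pr_union_le G _ _).trans (add_le_add b1 b2)) le_rfl)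
  by_contra hcon
  simp only [Set.mem_union, Set.mem_compl_iff, not_or, not_not] at hcon
  exact h (hcf n (by omega) (1 - N1) N2 (by omega) (by omega) t ht hcon.1.1 hcon.1.2 hcon.2)

end Crest.Agent.R151
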