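import Crest.Agent.R151.BInc2

/-! Row 151, part B: confinement of lines, uniformly in the slope. -/

set_option autoImplicit false

namespace Crest.Agent.R151

open MeasureTheory ProbabilityTheory Crest.ProbabilityR.FirstPassage Filter Topology
open scoped Classical

variable {G : Measure ℝ} [Law G]

/-- deterministic part -/
theorem lct_of_events (hd : DN (mu G)) : ∃ A : ℕ, 2 ≤ A ∧ ∀ (h n : ℕ), 1 ≤ n → h ≤ n → ∀ k N : ℤ,
    k + n ≤ N → ∀ t : Env, Fld G t →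
      (∀ y : ℤ, |y| ≤ h → TD (strip k (k + n)) t (k, y) (k + n, 0) ≤ (2 * m1 (mu G) + 1) * n) →
      t ∈ LowL G (g0 (mu G)) 1 (k, 0) n → t ∈ Lip (mu G) (k + n) N 0 n →
      t ∈ LCt (mu G) A h n k N := by
  have hg := hd.g0_pos
  have hm := hd.m1_pos
  have h8 := hd.Sk_pos 0
  have e5 := DN.Sk_eq (μ := mu G) 5
  have hS4 := hd.Sk_lt (show 4 < 8 by norm_num)
  rw [DN.Sk_eq] at h8
  set m := m1 (mu G) with hmd
  set g := g0 (mu G) with hgd
  have hmg : 0 < m - g := by push_cast at h8; linarith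
  set K := (2 * m + 1 + g) + m * ((3 * m + 1 + g) / (2 * g)) with hK
  refine ⟨⌈(K + g) / (m - g)⌉₊ + 2, by omega,
    fun h n hn hh k N hN t ht hTD hL hLip s hs γ hγ h0 h0' i hi hik i' hi' => ?_⟩
  have hs' : |s| < m := hs.trans_lt hS4
  have hn0 : (0 : ℤ) ≤ n := Int.natCast_nonneg n
  have hnr : (0 : ℝ) ≤ n := Nat.cast_nonneg n
  have hok := hγ.1.1
  obtain ⟨y, hy⟩ : ∃ y, γ.p 0 = (k, y) := ⟨(γ.p 0).2, Prod.ext h0 rfl⟩
  rw [hy] at h0'
  have hyn : |y| ≤ n := h0'.trans (by exact_mod_cast hh)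
  obtain ⟨i1, a1, a2, a3, a4⟩ := exists_last_level (fun j => (γ.p j).1) hi
    (fun j _ _ => hok.col_step j) (k + n) hik (by rw [hγ.2.1]; exact hN)
  obtain ⟨w, hw⟩ : ∃ w, γ.p i1 = (k + n, w) := ⟨(γ.p i1).2, Prod.ext a3 rfl⟩
  have hx0 : nrm (γ.p 0 - (k, 0)) ≤ n := by
    rw [hy, nrm_le_iff]
    simpa using hyn
  have low : ∀ j ≤ γ.n, (m - g) * (nrm (γ.p j - γ.p 0) : ℝ) - g * n ≤ γ.cost t 0 j := fun j hj => by
    have b1 := hL (γ.p 0) (by rw [one_mul]; exact hx0) (γ.p j)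
    have b2 := hd.m1_norm_le (rv (γ.p j - γ.p 0))
    rw [norm_rv] at b2
    have b3 := T_le_cost ht.nn hok (Nat.zero_le j) hj
    linarith
  have up : γ.cost t 0 i1 ≤ (2 * m + 1 + g) * n + (m - 3 * g) * |(w : ℝ)| := by
    have c1 := hγ.cost_eq ht hs' (Nat.zero_le i1) a2
    have c2 := (hγ.suffix_restrict ht (show k ≤ k + n by omega) hs' a2 fun j hj hj' => by
      rcases hj.eq_or_lt with rfl | hj
      · exact a3.ge
      · exact (a4 j hj hj').le).2
    have c3 := Gd_le_add ht hs' (k := k) (N := N) (x := (k, y)) (x' := (k + n, 0))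
      ⟨le_rfl, by dsimp only; omega⟩ ⟨by dsimp only; omega, hN⟩
    have c4 := TD_anti ht.nn (D := strip k (k + n)) (D' := strip k N)
      (fun x hx => ⟨hx.1, hx.2.trans hN⟩) (x := (k, y)) (z := (k + n, 0))
      (conn_strip ⟨le_rfl, by dsimp only; omega⟩ ⟨by dsimp only; omega, le_rfl⟩)
    have c5 := Gd_anti ht (show k ≤ k + n by omega) hs' (N := N) (x := (k + n, 0)) ⟨le_rfl, hN⟩
    have c6 := (abs_le.1 (hLip s hs w)).1
    have c7 := hTD y h0'
    rw [hy, hw] at c1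
    rw [hw] at c2
    simp only [Gf, sub_zero, e5] at c6
    push_cast at c6
    linarith
  have hw' : |(w : ℝ)| ≤ (3 * m + 1 + g) / (2 * g) * n := by
    have d1 : |(w : ℝ)| - n ≤ nrm (γ.p i1 - γ.p 0) := by
      have d2 := abs_snd_le_nrm (γ.p i1 - γ.p 0)
      have d3 : (γ.p i1 - γ.p 0).2 = w - y := by rw [hw, hy]; rfl
      rw [d3] at d2
      have d4 : |w| - n ≤ (nrm (γ.p i1 - γ.p 0) : ℤ) := by
        linarith [abs_sub_abs_le_abs_sub w y]
      exact_mod_cast d4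
    have d5 := mul_le_mul_of_nonneg_left d1 hmg.le
    rw [div_mul_eq_mul_div, le_div_iff₀ (by positivity)]
    linarith [low i1 a2]
  have up' : γ.cost t 0 i' ≤ K * n := by
    refine (γ.cost_mono ht.nn le_rfl (hi'.trans a1)).trans (up.trans ?_)
    have d1 : (m - 3 * g) * |(w : ℝ)| ≤ m * |(w : ℝ)| :=
      mul_le_mul_of_nonneg_right (by linarith) (abs_nonneg _)
    have d2 := mul_le_mul_of_nonneg_left hw' hm.le
    rw [hK]
    linarith
  have fin : (nrm (γ.p i' - γ.p 0) : ℝ) ≤ ⌈(K + g) / (m - g)⌉₊ * n := by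
    refine le_trans ?_ (mul_le_mul_of_nonneg_right (Nat.le_ceil _) hnr)
    rw [div_mul_eq_mul_div, le_div_iff₀ hmg]
    linarith [low i' (hi'.trans hi)]
  have fin' : nrm (γ.p i' - γ.p 0) ≤ ⌈(K + g) / (m - g)⌉₊ * n := by exact_mod_cast fin
  have tri := nrm_triangle (k, 0) (γ.p 0) (γ.p i')
  show nrm (γ.p i' - (k, 0)) ≤ _
  rw [add_mul]
  omega

theorem small_not_lct (hd : DN (mu G)) : ∃ A : ℕ, 2 ≤ A ∧ ∀ (h : ℕ) (p : ℝ), 0 < p →
    ∃ n0 : ℕ, ∀ n : ℕ, n0 ≤ n → ∀ k : ℤ, Small (fun N => Pr G (LCt (mu G) A h n k N)ᶜ) p := by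
  obtain ⟨A, hA, H⟩ := lct_of_events hd
  refine ⟨A, hA, fun h p hp => ?_⟩
  obtain ⟨n1, h1⟩ := strip_shape hd hd.slp_one_lt
    (show 0 < p / 3 / (2 * h + 1) by positivity)
  obtain ⟨C, c, hC, hc, h2⟩ := Pr_not_lowL G hd.g0_pos 1
  obtain ⟨n3, h3⟩ := small_not_lip hd (show 0 < p / 3 by positivity)
  obtain ⟨n2, h2'⟩ : ∃ n2 : ℕ, ∀ n : ℕ, n2 ≤ n → C * Real.exp (-(c * n)) ≤ p / 3 := by
    have e : Tendsto (fun n : ℕ => C * Real.exp (-(c * n))) atTop (𝓝 (C * 0)) :=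
      (Real.tendsto_exp_neg_atTop_nhds_zero.comp
        (tendsto_natCast_atTop_atTop.const_mul_atTop hc)).const_mul C
    rw [mul_zero] at e
    exact eventually_atTop.1 (e.eventually (ge_mem_nhds (by positivity)))
  refine ⟨n1 + n2 + n3 + h + 1, fun n hn k => ?_⟩
  have hn0 : (0 : ℝ) < n := by exact_mod_cast (show 0 < n by omega)
  have hhn : (h : ℝ) ≤ n := by exact_mod_cast (show h ≤ n by omega)
  set E : ℤ → Set Env := fun y => {t | (n : ℝ) ≤
    |TD (strip k (k + n)) t (k, y) (k + n, y + -y) - mu G ((n : ℝ), ((-y : ℤ) : ℝ))|} with hE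
  have hyr : ∀ y : ℤ, |y| ≤ h → |((-y : ℤ) : ℝ)| ≤ n := fun y hy => by
    refine le_trans ?_ hhn
    rw [← abs_neg] at hy
    exact_mod_cast hy
  have b1 : Pr G (⋃ y ∈ Finset.Icc (-(h : ℤ)) h, E y) ≤ p / 3 := by
    refine (Pr_le_card_mul G (Finset.Icc (-(h : ℤ)) h) E (p := p / 3 / (2 * h + 1))
      (Eventually.of_forall fun t ht => by simpa using ht) fun y hy => ?_).trans (le_of_eq ?_)
    · have hy' := abs_le.1 ((div_le_one hn0).2 (hyr y (abs_le.2 (Finset.mem_Icc.1 hy))) |>.trans_eq'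
        (by rw [abs_div, abs_of_pos hn0]) : |((-y : ℤ) : ℝ) / n| ≤ 1)
      obtain ⟨i1, i2⟩ := h1 n (by omega) k y (-y) (abs_le.2
        ⟨by rw [← hd.slp_neg]; exact hd.slp_mono hy'.1, hd.slp_mono hy'.2⟩)
      refine (Pr_markov G (i1.sub (integrable_const _)).abs
        (Eventually.of_forall fun t => abs_nonneg _) hn0).trans ?_
      rw [div_le_iff₀ hn0]
      exact i2
    · have e : ((Finset.Icc (-(h : ℤ)) h).card : ℝ) = 2 * h + 1 := by
        have e1 : ((Finset.Icc (-(h : ℤ)) h).card : ℤ) = 2 * h + 1 := by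
          rw [Int.card_Icc_of_le _ _ (by omega)]; ring
        exact_mod_cast e1
      rw [e]; field_simp
  have b2 := (h2 (k, 0) n).trans (h2' n (by omega))
  refine (((small_const (p / 3 + p / 3)).add (h3 n (by exact_mod_cast (show n3 ≤ n by omega))
    (k + n) 0)).mono_right (by linarith)).of_le ?_
  filter_upwards [eventually_ge_atTop (k + n)] with N hN
  refine (Pr_le_add_of_ae G (B := (⋃ y ∈ Finset.Icc (-(h : ℤ)) h, E y) ∪
    (LowL G (g0 (mu G)) 1 (k, 0) n)ᶜ) (C := (Lip (mu G) (k + n) N 0 n)ᶜ) ?_).trans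
    (add_le_add ((Pr_union_le G _ _).trans (add_le_add b1 b2)) le_rfl)
  filter_upwards [ae_fld G] with t ht hc
  by_contra hcon
  simp only [Set.mem_union, Set.mem_compl_iff, not_or, not_not, Set.mem_iUnion, not_exists] at hcon
  refine hc (H h n (by omega) (by omega) k N hN t ht (fun y hy => ?_) hcon.1.2 hcon.2)
  have c1 := hcon.1.1 y (Finset.mem_Icc.2 (abs_le.1 hy))
  simp only [hE, Set.mem_ofPred_eq, not_le, add_neg_cancel] at c1
  have c2 := hd.le_m1_norm ((n : ℝ), ((-y : ℤ) : ℝ))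
  have c3 := mul_le_mul_of_nonneg_left (hyr y hy) hd.m1_pos.le
  simp only [abs_of_pos hn0] at c2
  linarith [(abs_lt.1 c1).2]

end Crest.Agent.R151
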