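import Crest.Agent.R151.TKesten
import Crest.Agent.R167.Planar

/-! Row 151 toolkit: crossing paths in a vertical strip intersect. -/

set_option autoImplicit false

namespace Crest.Agent.R151

open MeasureTheory ProbabilityTheory Crest.ProbabilityR.FirstPassage
open scoped Classical

theorem cross_rtg {γ : Pth} (h : γ.Ok) {i : ℕ} (hi : i ≤ γ.n) :
    Relation.ReflTransGen (R167.NN {z | ∃ k ≤ γ.n, z = (γ.p k).swap}) (γ.p 0).swap
      (γ.p i).swap := by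
  induction i with
  | zero => exact .refl
  | succ i ih =>
    refine (ih (by omega)).tail ⟨⟨i, by omega, rfl⟩, ⟨i + 1, hi, rfl⟩, ?_⟩
    have := (adj_iff _ _).1 (h i (by omega))
    simp only [Prod.fst_swap, Prod.snd_swap]
    omega

/-- a path from the lower left to the upper right point meets a path from the upper left to the
lower right point -/
theorem cross_lemma {a b y1 y2 z1 z2 : ℤ} (hy : y1 ≤ y2) (hz : z1 ≤ z2) {γ δ : Pth}
    (hγ : γ.Joins (strip a b) (a, y1) (b, z2)) (hδ : δ.Joins (strip a b) (a, y2) (b, z1)) :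
    ∃ i ≤ γ.n, ∃ j ≤ δ.n, γ.p i = δ.p j := by
  obtain ⟨o1, i1, s1, e1⟩ := hγ
  obtain ⟨o2, i2, s2, e2⟩ := hδ
  have hab : a ≤ b := by
    have := (i1 0 (Nat.zero_le _)).2
    rwa [s1] at this
  rcases hab.eq_or_lt with rfl | hab
  · have c1 : ∀ k ≤ γ.n, (γ.p k).1 = a := fun k hk => le_antisymm (i1 k hk).2 (i1 k hk).1
    have c2 : ∀ k ≤ δ.n, (δ.p k).1 = a := fun k hk => le_antisymm (i2 k hk).2 (i2 k hk).1
    by_cases h : y2 ≤ z2
    · obtain ⟨k, -, hk, e⟩ := exists_level (fun k => (γ.p k).2) (Nat.zero_le γ.n)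
        (fun k _ _ => o1.row_step k) y2 (Or.inl (by simp only [s1, e1]; exact ⟨hy, h⟩))
      exact ⟨k, hk, 0, Nat.zero_le _, by rw [s2]; exact Prod.ext (c1 k hk) e⟩
    · obtain ⟨k, -, hk, e⟩ := exists_level (fun k => (δ.p k).2) (Nat.zero_le δ.n)
        (fun k _ _ => o2.row_step k) z2 (Or.inr (by simp only [s2, e2]; exact ⟨hz, by omega⟩))
      exact ⟨γ.n, le_rfl, k, hk, by rw [e1]; exact (Prod.ext (c2 k hk) e).symm⟩
  · obtain ⟨z, ⟨i, hi, rfl⟩, j, hj, e⟩ := R167.strip_cross hab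
      (by rintro _ ⟨k, hk, rfl⟩; exact i1 k hk) (by rintro _ ⟨k, hk, rfl⟩; exact i2 k hk)
      (by rw [s1]; rfl) (by rw [e1]; rfl) (by rw [s2]; rfl) (by rw [e2]; rfl)
      (by rw [s1, s2]; exact hy) (by rw [e1, e2]; exact hz) (cross_rtg o1 le_rfl)
      (cross_rtg o2 le_rfl)
    exact ⟨i, hi, j, hj, Prod.swap_injective e⟩

/-- the same for portions of longer paths -/
theorem cross_lemma' {a b : ℤ} {γ δ : Pth} (hγ : γ.Ok) (hδ : δ.Ok) {i0 i1 j0 j1 : ℕ}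
    (hi : i0 ≤ i1) (hi1 : i1 ≤ γ.n) (hj : j0 ≤ j1) (hj1 : j1 ≤ δ.n)
    (sγ : ∀ i, i0 ≤ i → i ≤ i1 → γ.p i ∈ strip a b) (sδ : ∀ j, j0 ≤ j → j ≤ j1 → δ.p j ∈ strip a b)
    (c1 : (γ.p i0).1 = a) (c2 : (γ.p i1).1 = b) (c3 : (δ.p j0).1 = a) (c4 : (δ.p j1).1 = b)
    (hy : (γ.p i0).2 ≤ (δ.p j0).2) (hz : (δ.p j1).2 ≤ (γ.p i1).2) :
    ∃ i j, i0 ≤ i ∧ i ≤ i1 ∧ j0 ≤ j ∧ j ≤ j1 ∧ γ.p i = δ.p j := by
  have j1' := Pth.sub_joins hγ hi hi1 sγ
  have j2' := Pth.sub_joins hδ hj hj1 sδ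
  rw [← Prod.mk.eta (p := γ.p i0), ← Prod.mk.eta (p := γ.p i1), c1, c2] at j1'
  rw [← Prod.mk.eta (p := δ.p j0), ← Prod.mk.eta (p := δ.p j1), c3, c4] at j2'
  obtain ⟨i, hi', j, hj', e⟩ := cross_lemma hy hz j1' j2'
  change i ≤ i1 - i0 at hi'
  change j ≤ j1 - j0 at hj'
  rw [Pth.sub_p _ _ _ hi', Pth.sub_p _ _ _ hj'] at e
  exact ⟨i0 + i, j0 + j, by omega, by omega, by omega, by omega, e⟩

/-- crossing inequality -/
theorem cross_ineq {t : Env} (ht : NN t) {a b y1 y2 z1 z2 : ℤ} (hab : a ≤ b) (hy : y1 ≤ y2)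
    (hz : z1 ≤ z2) :
    TD (strip a b) t (a, y1) (b, z1) + TD (strip a b) t (a, y2) (b, z2) ≤
      TD (strip a b) t (a, y1) (b, z2) + TD (strip a b) t (a, y2) (b, z1) := by
  have ml : ∀ y : ℤ, ((a, y) : V) ∈ strip a b := fun y => ⟨le_rfl, hab⟩
  have mr : ∀ y : ℤ, ((b, y) : V) ∈ strip a b := fun y => ⟨hab, le_rfl⟩
  have key : ∀ γ δ : Pth, γ.Joins (strip a b) (a, y1) (b, z2) →
      δ.Joins (strip a b) (a, y2) (b, z1) →
      TD (strip a b) t (a, y1) (b, z1) + TD (strip a b) t (a, y2) (b, z2) ≤ γ.tot t + δ.tot t := by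
    intro γ δ hγ hδ
    obtain ⟨i, hi, j, hj, e⟩ := cross_lemma hy hz hγ hδ
    obtain ⟨o1, i1, s1, e1⟩ := hγ
    obtain ⟨o2, i2, s2, e2⟩ := hδ
    have hm := i1 i hi
    have a1 := TD_le_cost ht o1 (Nat.zero_le i) hi fun k _ hk => i1 k (hk.trans hi)
    have a2 := TD_le_cost ht o1 hi le_rfl fun k _ hk => i1 k hk
    have a3 := TD_le_cost ht o2 (Nat.zero_le j) hj fun k _ hk => i2 k (hk.trans hj)
    have a4 := TD_le_cost ht o2 hj le_rfl fun k _ hk => i2 k hk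
    rw [s1] at a1
    rw [e1] at a2
    rw [s2, ← e] at a3
    rw [e2, ← e] at a4
    have b1 := TD_triangle ht (conn_strip (ml y1) hm) (conn_strip hm (mr z1))
    have b2 := TD_triangle ht (conn_strip (ml y2) hm) (conn_strip hm (mr z2))
    have c1 := γ.cost_add t (Nat.zero_le i) hi
    have c2 := δ.cost_add t (Nat.zero_le j) hj
    unfold Pth.tot
    linarith
  have h1 : ∀ δ : Pth, δ.Joins (strip a b) (a, y2) (b, z1) →
      TD (strip a b) t (a, y1) (b, z1) + TD (strip a b) t (a, y2) (b, z2) - δ.tot t ≤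
        TD (strip a b) t (a, y1) (b, z2) := fun δ hδ =>
    le_TD (conn_strip (ml _) (mr _)) fun γ hγ => by linarith [key γ δ hγ hδ]
  have h2 : TD (strip a b) t (a, y1) (b, z1) + TD (strip a b) t (a, y2) (b, z2) -
      TD (strip a b) t (a, y1) (b, z2) ≤ TD (strip a b) t (a, y2) (b, z1) :=
    le_TD (conn_strip (ml _) (mr _)) fun δ hδ => by linarith [h1 δ hδ]
  linarith

end Crest.Agent.R151
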