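import Crest.Agent.R151.TCoup1
import Crest.Agent.R151.TCoup2

/-! Row 151 toolkit: the gap lemma. -/

set_option autoImplicit false

namespace Crest.Agent.R151

open MeasureTheory ProbabilityTheory Crest.ProbabilityR.FirstPassage
open scoped Classical

theorem gap_first (n : ℕ) (T : Finset ℤ) :
    (T.filter fun i => (T.filter fun k => k < i).card < n).card = min T.card n := by
  induction T using Finset.induction_on_max with
  | empty => simp
  | insert a T ha ih =>
    have h0 : a ∉ T := fun h => lt_irrefl _ (ha a h)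
    have h1 : ((insert a T).filter fun k => k < a) = T := by
      rw [Finset.filter_insert, if_neg (lt_irrefl a), Finset.filter_true_of_mem ha]
    have h2 : (T.filter fun i => ((insert a T).filter fun k => k < i).card < n) =
        T.filter fun i => (T.filter fun k => k < i).card < n :=
      Finset.filter_congr fun i hi => by
        rw [Finset.filter_insert, if_neg (not_lt.2 (ha i hi).le)]
    rw [Finset.filter_insert, h1, h2, Finset.card_insert_of_notMem h0]
    split_ifs with h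
    · rw [Finset.card_insert_of_notMem fun h' => h0 (Finset.mem_filter.1 h').1, ih]
      omega
    · rw [ih]
      omega

theorem gap_card {α κ : Type*} [MeasurableSpace α] (μ : Measure α) [IsFiniteMeasure μ]
    (s : Finset κ) {A : κ → Set α} (hA : ∀ i, MeasurableSet (A i)) :
    ∫ t, ((s.filter (fun i => t ∈ A i)).card : ℝ) ∂μ = ∑ i ∈ s, μ.real (A i) := by
  have e : ∀ t, ((s.filter (fun i => t ∈ A i)).card : ℝ) =
      ∑ i ∈ s, (A i).indicator (fun _ => (1 : ℝ)) t := fun t => by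
    rw [Finset.card_filter]
    push_cast
    exact Finset.sum_congr rfl fun i _ => by simp [Set.indicator_apply]
  simp_rw [e]
  rw [integral_finsetSum _ fun i _ => (integrable_const 1).indicator (hA i)]
  exact Finset.sum_congr rfl fun i _ => by rw [integral_indicator_const _ (hA i)]; simp

theorem gap_union {α κ : Type*} [MeasurableSpace α] (μ : Measure α) [IsFiniteMeasure μ]
    [Countable κ] {F : κ → Set α} {a : κ → ℝ} {x : ℝ} (h : ∀ j, μ.real (F j) ≤ a j)
    (hs : HasSum a x) : μ.real (⋃ j, F j) ≤ x := by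
  have h0 : ∀ j, 0 ≤ a j := fun j => measureReal_nonneg.trans (h j)
  refine ENNReal.toReal_le_of_le_ofReal (hs.nonneg h0) ((measure_iUnion_le F).trans ?_)
  rw [← hs.tsum_eq, ENNReal.ofReal_tsum_of_nonneg h0 hs.summable]
  refine ENNReal.tsum_le_tsum fun j => ?_
  rw [← ofReal_measureReal (measure_ne_top μ (F j))]
  exact ENNReal.ofReal_le_ofReal (h j)

/-- one index: at least half of the event is followed by `B` or by the failure of `Ω1` -/
theorem gap_one (G : Measure ℝ) [Law G] (U : Finset (Sym2 V)) {s J : ℝ} (hs0 : 0 ≤ s)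
    (hs : s ≤ s0 G) {ι : Type} [Countable ι] {W : ι → Set Env} {H : ι → Finset (Sym2 V)}
    {B Ω1 S : Set Env} (hW : ∀ j, MeasurableSet (W j)) (hS : MeasurableSet S)
    (hSW : ∀ t ∈ S, ∃ j, t ∈ W j)
    (hH : ∀ j, (W j).Nonempty → H j ⊆ U ∧ J + 1 ≤ (H j).card * s / 2)
    (hhi : ∀ j, ∀ t ∈ W j, ∀ e ∈ H j, t e ∈ hi G)
    (hB : ∀ j, ∀ t ∈ W j, ∀ t' ∈ Ω1, Low G U t t' →
        J ≤ ((H j).filter (fun e => t' e ∈ lo G)).card → t' ∈ B) :
    Pr G S ≤ 2 * (Qc G).real (tS G U 0 ⁻¹' S ∩ tS G U s ⁻¹' (B ∪ Ω1ᶜ)) := by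
  obtain ⟨f, hf⟩ := Countable.exists_injective_nat ι
  set A : ι → Set Env := fun j => S ∩ W j ∩ ⋂ k, ⋂ _ : f k < f j, (W k)ᶜ with hA
  have hAm : ∀ j, MeasurableSet (A j) := fun j =>
    (hS.inter (hW j)).inter (.iInter fun k => .iInter fun _ => (hW k).compl)
  have hAd : Pairwise fun j k => Disjoint (A j) (A k) := fun j k hjk => by
    refine Set.disjoint_left.2 fun t h1 h2 => ?_
    simp only [hA, Set.mem_inter_iff, Set.mem_iInter, Set.mem_compl_iff] at h1 h2
    rcases lt_or_gt_of_ne (hf.ne hjk) with h | h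
    · exact h2.2 j h h1.1.2
    · exact h1.2 k h h2.1.2
  have hAS : ⋃ j, A j = S := by
    refine Set.Subset.antisymm (Set.iUnion_subset fun j t ht => ht.1.1) fun t ht => ?_
    obtain ⟨j, hj, hm⟩ := (measure f).wf.has_min {j | t ∈ W j} (hSW t ht)
    refine Set.mem_iUnion.2 ⟨j, ⟨ht, hj⟩, ?_⟩
    simp only [Set.mem_iInter, Set.mem_compl_iff]
    exact fun k hk h => hm k h hk
  have hP : ∀ X : Set Env, MeasurableSet X → (Qc G).real (tS G U 0 ⁻¹' X) = Pr G X := fun X hX =>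
    (measurePreserving_tS_zero G U).measureReal_preimage hX.nullMeasurableSet
  have h1 := (Pr_iUnion_disjoint G hAm hAd).mul_right (1 / 2)
  rw [hAS] at h1
  have h2 := gap_union (Qc G) (F := fun j => {ω | tS G U 0 ω ∈ A j ∧
      (((H j).filter (fun e => tS G U s ω e ∈ lo G)).card : ℝ) < J}) (fun j => by
    rcases (W j).eq_empty_or_nonempty with h | h
    · simp [hA, h, Pr_empty]
    have h3 := flips_bound G U (H j) (hH j h).1 (s := 0) (s' := s) (by simpa using hs0.trans hs)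
      (by rwa [abs_of_nonneg hs0]) hs0 (hAm j) (fun t ht => hhi j t ht.1.2) J
    rw [hP _ (hAm j), sub_zero] at h3
    refine h3.trans (mul_le_mul_of_nonneg_left ?_ (Pr_nonneg G _))
    calc _ ≤ Real.exp (-1) := Real.exp_le_exp.2 (by linarith [(hH j h).2])
      _ ≤ 1 / 2 := by
        rw [Real.exp_neg, one_div]
        exact inv_anti₀ two_pos (by linarith [Real.add_one_le_exp (1 : ℝ)])) h1
  have h3 : (Qc G).real (tS G U 0 ⁻¹' S) ≤
      (Qc G).real ((tS G U 0 ⁻¹' S ∩ tS G U s ⁻¹' (B ∪ Ω1ᶜ)) ∪ ⋃ j, {ω | tS G U 0 ω ∈ A j ∧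
        (((H j).filter (fun e => tS G U s ω e ∈ lo G)).card : ℝ) < J}) := by
    refine ENNReal.toReal_mono (measure_ne_top _ _) (measure_mono_ae ?_)
    filter_upwards [ae_goodC G] with ω hω h
    obtain ⟨j, hj⟩ := Set.mem_iUnion.1 (hAS.ge h)
    rcases lt_or_ge (((H j).filter (fun e => tS G U s ω e ∈ lo G)).card : ℝ) J with h4 | h4
    · exact Or.inr (Set.mem_iUnion.2 ⟨j, hj, h4⟩)
    · refine Or.inl ⟨h, ?_⟩
      by_cases h5 : tS G U s ω ∈ Ω1
      · exact Or.inl (hB j _ hj.1.2 _ h5 (low_tS G U hs0 hω) h4)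
      · exact Or.inr h5
  have h4 := h3.trans (measureReal_union_le _ _)
  rw [hP _ hS] at h4
  linarith

theorem gap_lemma (G : Measure ℝ) [Law G] : ∃ c C : ℝ, 0 < c ∧ 0 < C ∧
    ∀ (U : Finset (Sym2 V)) (m : ℕ) (J : ℝ) (ι : Type) [Countable ι] (I : Finset ℤ)
      (W : ℤ → ι → Set Env) (H : ℤ → ι → Finset (Sym2 V)) (B : ℤ → Set Env) (Ω1 : Set Env) (n : ℕ),
      1 ≤ m → J + 1 ≤ c * m / √(U.card) → (∀ i j, MeasurableSet (W i j)) →
      (∀ i, MeasurableSet (B i)) → MeasurableSet Ω1 →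
      (∀ i j, (W i j).Nonempty → H i j ⊆ U ∧ m ≤ (H i j).card) →
      (∀ i j, ∀ t ∈ W i j, ∀ e ∈ H i j, t e ∈ hi G) →
      (∀ i ∈ I, ∀ j, ∀ t ∈ W i j, ∀ t' ∈ Ω1, Low G U t t' →
        J ≤ ((H i j).filter (fun e => t' e ∈ lo G)).card → t' ∈ B i) →
      ∫ t, ((min ((I.filter (fun i => ∃ j, t ∈ W i j)).card) n : ℕ) : ℝ) ∂(iidLaw G) ≤
        C * (n : ℝ) ^ ((1 : ℝ) / 4) * (∑ i ∈ I, Pr G (B i)) ^ ((3 : ℝ) / 4) +
          C * n * Pr G Ω1ᶜ ^ ((3 : ℝ) / 4) := by
  obtain ⟨C1, hC1, H1⟩ := holder4 G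
  obtain ⟨C2, hC2, H2⟩ := holder4_set G
  have hs0 := s0_pos G
  refine ⟨s0 G / 2, 2 * (Real.exp (C1 * s0 G ^ 2) + Real.exp (C2 * s0 G ^ 2)), by positivity,
    by positivity, fun U m J ι _ I W H B Ω1 n hm hJ hW hB hΩ hH hhi hL => ?_⟩
  have hp1 : 0 ≤ (n : ℝ) ^ ((1 : ℝ) / 4) * (∑ i ∈ I, Pr G (B i)) ^ ((3 : ℝ) / 4) :=
    mul_nonneg (by positivity) (Real.rpow_nonneg (Finset.sum_nonneg fun i _ => Pr_nonneg G _) _)
  have hp2 : 0 ≤ (n : ℝ) * Pr G Ω1ᶜ ^ ((3 : ℝ) / 4) :=
    mul_nonneg (by positivity) (Real.rpow_nonneg (Pr_nonneg G _) _)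
  have he1 := Real.exp_pos (C1 * s0 G ^ 2)
  have he2 := Real.exp_pos (C2 * s0 G ^ 2)
  rcases U.eq_empty_or_nonempty with rfl | hU
  · have : ∀ t i j, t ∉ W i j := fun t i j h => by
      have h1 := hH i j ⟨t, h⟩
      have := Finset.card_le_card h1.1
      rw [Finset.card_empty] at this
      omega
    simp only [this, exists_false, Finset.filter_false, Finset.card_empty, Nat.zero_min,
      Nat.cast_zero, integral_zero]
    nlinarith [mul_nonneg he1.le hp1, mul_nonneg he1.le hp2, mul_nonneg he2.le hp1,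
      mul_nonneg he2.le hp2]
  have hu : (1 : ℝ) ≤ U.card := by exact_mod_cast hU.card_pos
  have hu1 : 1 ≤ √(U.card : ℝ) := Real.one_le_sqrt.2 hu
  set s := s0 G / √(U.card : ℝ) with hs
  have hs1 : 0 ≤ s := by positivity
  have hs2 : s ≤ s0 G := div_le_self hs0.le hu1
  have hs3 : |s| ≤ s0 G := by rwa [abs_of_nonneg hs1]
  have hs4 : ∀ C : ℝ, C * s ^ 2 * U.card = C * s0 G ^ 2 := fun C => by
    rw [hs, div_pow, Real.sq_sqrt (by positivity)]
    field_simp
  have hWm : ∀ i, MeasurableSet {t | ∃ j, t ∈ W i j} := fun i => by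
    simpa only [Set.ofPred_exists, Set.ofPred_mem_eq] using MeasurableSet.iUnion (hW i)
  obtain ⟨X, hX⟩ : ∃ X : ℤ → Set Env, ∀ i t, t ∈ X i ↔ ∃ j, t ∈ W i j :=
    ⟨fun i => {t | ∃ j, t ∈ W i j}, fun _ _ => Iff.rfl⟩
  have hXm : ∀ i, MeasurableSet (X i) := fun i => by
    convert hWm i using 1
    exact Set.ext (hX i)
  obtain ⟨S, hS⟩ : ∃ S : ℤ → Set Env, ∀ i, S i = X i ∩
      {t | ((I.filter fun k => k < i).filter fun k => t ∈ X k).card < n} := ⟨_, fun _ => rfl⟩
  have hSm : ∀ i, MeasurableSet (S i) := fun i => hS i ▸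
    (hXm i).inter (measurableSet_lt (measurable_card_filter _ hXm) measurable_const)
  have hSc : ∀ t, (I.filter fun i => t ∈ S i).card =
      min (I.filter fun i => ∃ j, t ∈ W i j).card n := fun t => by
    rw [← gap_first, Finset.filter_filter]
    congr 1
    refine Finset.filter_congr fun i _ => ?_
    rw [Finset.filter_comm]
    simp only [hS, hX, Set.mem_inter_iff, Set.mem_ofPred_eq]
  simp_rw [← hSc]
  rw [(integral_card_filter G I hSm).2]
  have hm0 := measurable_tS G U 0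
  have hms := measurable_tS G U s
  obtain ⟨D, hD⟩ : ∃ D : ℤ → Set CΩ, ∀ i, D i = tS G U 0 ⁻¹' S i ∩ tS G U s ⁻¹' (B i ∪ Ω1ᶜ) :=
    ⟨_, fun _ => rfl⟩
  have h1 : ∑ i ∈ I, Pr G (S i) ≤ 2 * ∑ i ∈ I, (Qc G).real (D i) := by
    rw [Finset.mul_sum]
    refine Finset.sum_le_sum fun i hi => hD i ▸ gap_one G U hs1 hs2 (hW i) (hSm i)
      (fun t ht => (hX i t).1 (hS i ▸ ht).1)
      (fun j hj => ⟨(hH i j hj).1, hJ.trans ?_⟩) (hhi i) (hL i hi)
    have : (m : ℝ) ≤ (H i j).card := by exact_mod_cast (hH i j hj).2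
    calc s0 G / 2 * m / √(U.card : ℝ) = m * s / 2 := by rw [hs]; ring
      _ ≤ _ := by gcongr
  rw [← gap_card (Qc G) I (A := D) fun i =>
    hD i ▸ (hm0 (hSm i)).inter (hms ((hB i).union hΩ.compl))] at h1
  set F : Env → ℝ := fun t => ((min (I.filter fun i => t ∈ B i).card n : ℕ) : ℝ) with hF
  have hFm : Measurable F :=
    (measurable_from_top (f := fun k : ℕ => ((min k n : ℕ) : ℝ))).comp (measurable_card_filter I hB)
  have hF0 : ∀ t, 0 ≤ F t := fun t => Nat.cast_nonneg _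
  have hFn : ∀ t, F t ≤ n := fun t => Nat.cast_le.2 (min_le_right _ _)
  have hFi : Integrable (fun ω => F (tS G U s ω)) (Qc G) :=
    (integrable_const (n : ℝ)).mono' (hFm.comp hms).aestronglyMeasurable
      (.of_forall fun ω => by rw [Real.norm_of_nonneg (hF0 _)]; exact hFn _)
  have hIi : Integrable ((tS G U s ⁻¹' Ω1ᶜ).indicator fun _ => (n : ℝ)) (Qc G) :=
    (integrable_const _).indicator (hms hΩ.compl)
  have h2 : ∫ ω, ((I.filter fun i => ω ∈ D i).card : ℝ)
      ∂(Qc G) ≤ ∫ ω, F (tS G U s ω) + (tS G U s ⁻¹' Ω1ᶜ).indicator (fun _ => (n : ℝ)) ω ∂(Qc G) := by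
    refine integral_mono_of_nonneg (.of_forall fun ω => Nat.cast_nonneg _) (hFi.add hIi)
      (.of_forall fun ω => ?_)
    have h3 : (I.filter fun i => ω ∈ D i).card ≤ n :=
      (Finset.card_le_card (Finset.monotone_filter_right _ fun i _ h => (hD i ▸ h).1)).trans
        ((hSc (tS G U 0 ω)).trans_le (min_le_right _ _))
    by_cases h : tS G U s ω ∈ Ω1
    · have h4 : (I.filter fun i => ω ∈ D i).card ≤
          (I.filter fun i => tS G U s ω ∈ B i).card :=
        Finset.card_le_card (Finset.monotone_filter_right _ fun i _ h' =>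
          Or.resolve_right (hD i ▸ h').2 fun h'' => h'' h)
      simp only
      rw [Set.indicator_of_notMem (show ω ∉ tS G U s ⁻¹' Ω1ᶜ from fun h' => h' h), add_zero]
      exact Nat.cast_le.2 (le_min h4 h3)
    · simp only
      rw [Set.indicator_of_mem (show ω ∈ tS G U s ⁻¹' Ω1ᶜ from h)]
      exact (Nat.cast_le.2 h3).trans (le_add_of_nonneg_left (hF0 _))
  rw [integral_add hFi hIi, integral_indicator_const _ (hms hΩ.compl), smul_eq_mul] at h2
  have h3 := H1 U s hs3 F n hFm hF0 hFn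
  have h4 := H2 U s hs3 _ hΩ.compl
  rw [hs4] at h3 h4
  have h5 : (∫ t, F t ^ ((4 : ℝ) / 3) ∂(iidLaw G)) ^ ((3 : ℝ) / 4) ≤
      (n : ℝ) ^ ((1 : ℝ) / 4) * (∑ i ∈ I, Pr G (B i)) ^ ((3 : ℝ) / 4) := by
    have h6 : ∫ t, F t ^ ((4 : ℝ) / 3) ∂(iidLaw G) ≤ (n : ℝ) ^ ((1 : ℝ) / 3) * ∑ i ∈ I, Pr G (B i) := by
      rw [← (integral_card_filter G I hB).2, ← integral_const_mul]
      refine integral_mono_of_nonneg (.of_forall fun t => Real.rpow_nonneg (hF0 t) _)
        ((integral_card_filter G I hB).1.const_mul _) (.of_forall fun t => ?_)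
      simp only
      rw [show (4 : ℝ) / 3 = 1 / 3 + 1 by norm_num, Real.rpow_add' (hF0 t) (by norm_num),
        Real.rpow_one]
      exact mul_le_mul (Real.rpow_le_rpow (hF0 t) (hFn t) (by norm_num))
        (Nat.cast_le.2 (min_le_left _ _)) (hF0 t) (by positivity)
    refine (Real.rpow_le_rpow (integral_nonneg fun t => Real.rpow_nonneg (hF0 t) _) h6
      (by norm_num)).trans (le_of_eq ?_)
    rw [Real.mul_rpow (by positivity) (Finset.sum_nonneg fun i _ => Pr_nonneg G _),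
      ← Real.rpow_mul (by positivity)]
    norm_num
  have h6 := mul_le_mul_of_nonneg_left h5 he1.le
  have h7 := mul_le_mul_of_nonneg_right h4 (Nat.cast_nonneg (α := ℝ) n)
  nlinarith [mul_nonneg he1.le hp2, mul_nonneg he2.le hp1]

end Crest.Agent.R151
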