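import Crest.Agent.R151.TPeierls
import Crest.Agent.R151.TConc

/-! Row 151 toolkit: exponential lower deviations. -/

set_option autoImplicit false

namespace Crest.Agent.R151

open MeasureTheory ProbabilityTheory Crest.ProbabilityR.FirstPassage
open scoped Classical

theorem tld_steps {γ : Pth} (hγ : γ.Ok) {ℓ : ℕ} (hℓ : 1 ≤ ℓ) (m : ℕ) : ∀ a : ℕ, a ≤ γ.n → γ.n - a ≤ m →
    ∃ (J : ℕ) (τ : ℕ → ℕ), τ 0 = a ∧ τ (J + 1) = γ.n ∧ (∀ j ≤ J, τ j ≤ τ (j + 1)) ∧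
      (∀ j < J, nrm (γ.p (τ (j + 1)) - γ.p (τ j)) = ℓ ∧ τ j + ℓ ≤ τ (j + 1)) ∧
      (∀ j ≤ J, ∀ i, τ j ≤ i → i ≤ τ (j + 1) → γ.p i ∈ box (γ.p (τ j)) ℓ) ∧
      a + J * ℓ ≤ γ.n := by
  have base : ∀ a : ℕ, a ≤ γ.n → (∀ i, a ≤ i → i ≤ γ.n → nrm (γ.p i - γ.p a) ≤ ℓ) →
      ∃ (J : ℕ) (τ : ℕ → ℕ), τ 0 = a ∧ τ (J + 1) = γ.n ∧ (∀ j ≤ J, τ j ≤ τ (j + 1)) ∧
      (∀ j < J, nrm (γ.p (τ (j + 1)) - γ.p (τ j)) = ℓ ∧ τ j + ℓ ≤ τ (j + 1)) ∧
      (∀ j ≤ J, ∀ i, τ j ≤ i → i ≤ τ (j + 1) → γ.p i ∈ box (γ.p (τ j)) ℓ) ∧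
      a + J * ℓ ≤ γ.n := by
    intro a ha h
    refine ⟨0, fun j => if j = 0 then a else γ.n, by simp, by simp, ?_, ?_, ?_, by simpa using ha⟩
    · intro j hj
      obtain rfl : j = 0 := by omega
      simpa using ha
    · intro j hj
      omega
    · intro j hj i h1 h2
      obtain rfl : j = 0 := by omega
      exact h i (by simpa using h1) (by simpa using h2)
  induction m with
  | zero =>
    intro a ha hm
    refine base a ha fun i h1 h2 => ?_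
    obtain rfl : i = a := by omega
    simp [nrm_zero]
  | succ m ih =>
    intro a ha hm
    by_cases h : ∀ i, a ≤ i → i ≤ γ.n → nrm (γ.p i - γ.p a) ≤ ℓ
    · exact base a ha h
    push Not at h
    obtain ⟨i, h1, h2, h3⟩ := h
    obtain ⟨k, k1, k2, k3, k4⟩ := exists_first_level (fun k => (nrm (γ.p k - γ.p a) : ℤ)) h1
      (fun k _ _ => hγ.nrm_step (γ.p a) k) (ℓ : ℤ) (by simp [nrm_zero]) (by exact_mod_cast h3.le)
    have k3' : nrm (γ.p k - γ.p a) = ℓ := by exact_mod_cast k3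
    have k5 := hγ.nrm_sub_le k1
    obtain ⟨J, τ, t0, t1, t2, t3, t4, t5⟩ := ih k (k2.trans h2) (by omega)
    refine ⟨J + 1, fun j => Nat.casesOn j a τ, rfl, t1, ?_, ?_, ?_, ?_⟩
    · rintro (_ | j) hj
      · show a ≤ τ 0
        omega
      · exact t2 j (by omega)
    · rintro (_ | j) hj
      · show nrm (γ.p (τ 0) - γ.p a) = ℓ ∧ a + ℓ ≤ τ 0
        rw [t0]
        exact ⟨k3', by omega⟩
      · exact t3 j (by omega)
    · rintro (_ | j) hj i' g1 g2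
      · change a ≤ i' at g1
        change i' ≤ τ 0 at g2
        show nrm (γ.p i' - γ.p a) ≤ ℓ
        rw [t0] at g2
        rcases g2.eq_or_lt with rfl | g3
        · exact k3'.le
        · have := k4 i' g1 g3
          exact_mod_cast this.le
      · exact t4 j (by omega) i' g1 g2
    · rw [add_mul]
      omega

/-- cutting a path at successive exits of boxes of radius `ℓ` -/
theorem exists_steps {γ : Pth} (hγ : γ.Ok) {ℓ : ℕ} (hℓ : 1 ≤ ℓ) :
    ∃ (J : ℕ) (τ : ℕ → ℕ), τ 0 = 0 ∧ τ (J + 1) = γ.n ∧ (∀ j ≤ J, τ j ≤ τ (j + 1)) ∧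
      (∀ j < J, nrm (γ.p (τ (j + 1)) - γ.p (τ j)) = ℓ ∧ τ j + ℓ ≤ τ (j + 1)) ∧
      (∀ j ≤ J, ∀ i, τ j ≤ i → i ≤ τ (j + 1) → γ.p i ∈ box (γ.p (τ j)) ℓ) ∧
      J * ℓ ≤ γ.n := by
  simpa using tld_steps hγ hℓ γ.n 0 (Nat.zero_le _) (Nat.sub_le _ _)

/-- deterministic lower bound for the cost of a self-avoiding path from the local lower tail -/
theorem tot_ge_of_nbad (G : Measure ℝ) [Law G] : ∃ C : ℝ, 0 < C ∧ ∀ (ℓ : ℕ), 1 ≤ ℓ →
    ∀ (t : Env), NN t → ∀ γ : Pth, γ.Ok → γ.SA →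
      mu G (rv (γ.p γ.n - γ.p 0)) - C * ((γ.n : ℝ) / ℓ + 1) * (ℓ : ℝ) ^ ((3 : ℝ) / 5) -
        C * (ℓ : ℝ) ^ 3 * γ.nbad ℓ (fun c => LowBad G ((ℓ : ℤ) • c) (2 * ℓ)) t ≤ γ.tot t := by
  obtain ⟨M, hM, hMu⟩ := (mu_ok G).upper
  refine ⟨M + 2, by positivity, fun ℓ hℓ t ht γ hγ hs => ?_⟩
  obtain ⟨J, τ, t0, t1, t2, t3, t4, t5⟩ := exists_steps hγ hℓ
  set A : V → Set Env := fun c => LowBad G ((ℓ : ℤ) • c) (2 * ℓ) with hA
  have hℓ0 : (0 : ℝ) < ℓ := by exact_mod_cast hℓ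
  have hmono : ∀ i j, i ≤ j → j ≤ J + 1 → τ i ≤ τ j := by
    intro i j hij hj
    induction j, hij using Nat.le_induction with
    | base => exact le_rfl
    | succ k _ ih => exact (ih (by omega)).trans (t2 k (by omega))
  have hle : ∀ j ≤ J + 1, τ j ≤ γ.n := fun j hj => t1 ▸ hmono j (J + 1) hj le_rfl
  have hcost : ∀ k ≤ J + 1, ∑ j ∈ Finset.range k, γ.cost t (τ j) (τ (j + 1)) = γ.cost t 0 (τ k) := by
    intro k
    induction k with
    | zero => intro _; simp [t0, Pth.cost_self]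
    | succ k ih =>
      intro hk
      rw [Finset.sum_range_succ, ih (by omega), γ.cost_add t (Nat.zero_le _) (t2 k (by omega))]
  have hsum : ∑ j ∈ Finset.range (J + 1), rv (γ.p (τ (j + 1)) - γ.p (τ j)) = rv (γ.p γ.n - γ.p 0) := by
    simp only [rv_sub]
    rw [Finset.sum_range_sub (fun j => rv (γ.p (τ j))), t0, t1]
  have h35 : (((2 * ℓ : ℕ) : ℝ)) ^ ((3 : ℝ) / 5) ≤ 2 * (ℓ : ℝ) ^ ((3 : ℝ) / 5) := by
    push_cast
    rw [Real.mul_rpow (by norm_num) hℓ0.le]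
    refine mul_le_mul_of_nonneg_right ?_ (by positivity)
    exact (Real.rpow_le_rpow_of_exponent_le (by norm_num) (by norm_num : (3 : ℝ) / 5 ≤ 1)).trans
      (Real.rpow_one 2).le
  have hp35 : 0 ≤ (ℓ : ℝ) ^ ((3 : ℝ) / 5) := by positivity
  have hseg : ∀ j ∈ Finset.range (J + 1), mu G (rv (γ.p (τ (j + 1)) - γ.p (τ j))) ≤
      γ.cost t (τ j) (τ (j + 1)) + 2 * (ℓ : ℝ) ^ ((3 : ℝ) / 5) +
        if t ∈ A (cell ℓ (γ.p (τ j))) then M * ℓ else 0 := by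
    intro j hj
    have hj' : j ≤ J := Nat.lt_succ_iff.1 (Finset.mem_range.1 hj)
    split_ifs with hb
    · have h1 := hMu (rv (γ.p (τ (j + 1)) - γ.p (τ j)))
      rw [norm_rv] at h1
      have h2 : (nrm (γ.p (τ (j + 1)) - γ.p (τ j)) : ℝ) ≤ ℓ := by
        exact_mod_cast t4 j hj' (τ (j + 1)) (t2 j hj') le_rfl
      have h3 := γ.cost_nonneg ht (τ j) (τ (j + 1))
      nlinarith
    · have h1 := cost_ge_of_not_lowBad hb hγ (t2 j hj') (hle (j + 1) (by omega)) fun i i1 i2 =>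
        box_subset_box (by have := nrm_sub_cell hℓ (γ.p (τ j)); omega) (t4 j hj' i i1 i2)
      linarith
  have hcard : ((Finset.range (J + 1)).filter (fun j => t ∈ A (cell ℓ (γ.p (τ j))))).card ≤
      ℓ ^ 2 * γ.nbad ℓ A t := by
    refine le_trans (Finset.card_le_card_of_injOn τ ?_ ?_) (card_bad_times_le hℓ hs A t)
    · intro j hj
      obtain ⟨h1, h2⟩ := Finset.mem_filter.1 (Finset.mem_coe.1 hj)
      have := hle j (Finset.mem_range.1 h1).le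
      exact Finset.mem_coe.2 (Finset.mem_filter.2 ⟨Finset.mem_range.2 (by omega), h2⟩)
    · have hlt : ∀ i j, i < j → j ≤ J → τ i < τ j := by
        intro i j hij hj
        have h1 := (t3 i (by omega)).2
        have h2 := hmono (i + 1) j hij (by omega)
        omega
      intro i hi j hj hij
      have hi' := Finset.mem_range.1 (Finset.mem_filter.1 (Finset.mem_coe.1 hi)).1
      have hj' := Finset.mem_range.1 (Finset.mem_filter.1 (Finset.mem_coe.1 hj)).1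
      rcases lt_trichotomy i j with h | h | h
      · exact absurd hij (hlt i j h (by omega)).ne
      · exact h
      · exact absurd hij (hlt j i h (by omega)).ne'
  have h1 := (mu_ok G).sum_le (Finset.range (J + 1)) (fun j => rv (γ.p (τ (j + 1)) - γ.p (τ j)))
  rw [hsum] at h1
  have h2 := Finset.sum_le_sum hseg
  rw [Finset.sum_add_distrib, Finset.sum_add_distrib, hcost _ le_rfl, t1, ← Finset.sum_filter,
    Finset.sum_const, Finset.sum_const, Finset.card_range, nsmul_eq_mul, nsmul_eq_mul] at h2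
  have h3 : (((Finset.range (J + 1)).filter (fun j => t ∈ A (cell ℓ (γ.p (τ j))))).card : ℝ) ≤
      (ℓ : ℝ) ^ 2 * γ.nbad ℓ A t := by exact_mod_cast hcard
  have h4 : (J : ℝ) ≤ (γ.n : ℝ) / ℓ := by
    rw [le_div_iff₀ hℓ0]
    exact_mod_cast t5
  have h5 : ((J + 1 : ℕ) : ℝ) * (2 * (ℓ : ℝ) ^ ((3 : ℝ) / 5)) ≤
      (M + 2) * ((γ.n : ℝ) / ℓ + 1) * (ℓ : ℝ) ^ ((3 : ℝ) / 5) := by
    push_cast
    have : (0 : ℝ) ≤ (γ.n : ℝ) / ℓ := by positivity
    have e : ((J : ℝ) + 1) * 2 ≤ (M + 2) * ((γ.n : ℝ) / ℓ + 1) := by nlinarith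
    nlinarith
  have h6 : (((Finset.range (J + 1)).filter (fun j => t ∈ A (cell ℓ (γ.p (τ j))))).card : ℝ) *
      (M * ℓ) ≤ (M + 2) * (ℓ : ℝ) ^ 3 * γ.nbad ℓ A t := by
    refine (mul_le_mul_of_nonneg_right h3 (by positivity)).trans ?_
    have : (0 : ℝ) ≤ (ℓ : ℝ) ^ 3 * γ.nbad ℓ A t := by positivity
    nlinarith
  have h7 : γ.tot t = γ.cost t 0 γ.n := rfl
  linarith

theorem locFam_lowBad (G : Measure ℝ) [Law G] : ∃ C : ℝ, 0 < C ∧ ∀ ℓ K : ℕ, 1 ≤ ℓ → 1 ≤ K →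
    LocFam G ℓ K (C / (ℓ : ℝ) ^ 100) (fun c => LowBad G ((ℓ : ℤ) • c) (K * ℓ)) := by
  obtain ⟨C, hC, h⟩ := Pr_lowBad G
  refine ⟨C, hC, fun ℓ K hℓ hK c => ⟨measurableSet_lowBad G _ _,
    (dep_lowBad G _ _).mono (LE_subset_ED _), (h _ _ (Nat.mul_pos hK hℓ)).trans ?_⟩⟩
  have h1 : (0 : ℝ) < ℓ := by exact_mod_cast hℓ
  have h2 : (ℓ : ℝ) ≤ ((K * ℓ : ℕ) : ℝ) := by exact_mod_cast Nat.le_mul_of_pos_left ℓ hK
  gcongr

theorem tld_half (k : ℕ) : ((1 : ℝ) / 2) ^ k ≤ Real.exp (-((k : ℝ) / 2)) := by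
  have h : (1 : ℝ) / 2 ≤ Real.exp (-(1 / 2)) := by
    have := Real.add_one_le_exp (-(1 / 2) : ℝ)
    linarith
  calc ((1 : ℝ) / 2) ^ k ≤ Real.exp (-(1 / 2)) ^ k := pow_le_pow_left₀ (by norm_num) h k
    _ = Real.exp (-((k : ℝ) / 2)) := by rw [← Real.exp_nat_mul]; congr 1; ring

theorem tld_choose {a b : ℝ} (hb : 0 < b) (D : ℝ) :
    ∃ ℓ : ℕ, 1 ≤ ℓ ∧ D ≤ ℓ ∧ a / ℓ * (ℓ : ℝ) ^ ((3 : ℝ) / 5) ≤ b := by
  have h1 : Filter.Tendsto (fun ℓ : ℕ => a * (ℓ : ℝ) ^ (-((2 : ℝ) / 5))) Filter.atTop (nhds (a * 0)) :=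
    ((tendsto_rpow_neg_atTop (by norm_num)).comp tendsto_natCast_atTop_atTop).const_mul a
  rw [mul_zero] at h1
  obtain ⟨ℓ, ⟨h2, h3⟩, h4⟩ := (((h1.eventually (gt_mem_nhds hb)).and
    (tendsto_natCast_atTop_atTop.eventually_ge_atTop D)).and (Filter.eventually_ge_atTop 1)).exists
  refine ⟨ℓ, h4, h3, le_trans (le_of_eq ?_) h2.le⟩
  have h5 : (0 : ℝ) < ℓ := by exact_mod_cast h4
  rw [show -((2 : ℝ) / 5) = (3 : ℝ) / 5 - 1 by norm_num, Real.rpow_sub_one h5.ne']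
  ring

theorem tld_large (G : Measure ℝ) [Law G] {ζ : ℝ} (hζ : 0 < ζ) : ∃ c N : ℝ, 0 < c ∧
    ∀ x z : V, N ≤ nrm (z - x) → Pr G {t | T t x z ≤ mu G (rv (z - x)) - ζ * nrm (z - x)} ≤
      2 * Real.exp (-(c * nrm (z - x))) := by
  obtain ⟨M, hM, hMu⟩ := (mu_ok G).upper
  obtain ⟨C, hC, hCt⟩ := tot_ge_of_nbad G
  obtain ⟨C', hC', hCl⟩ := locFam_lowBad G
  have hh := h1_pos G
  obtain ⟨L, hL⟩ := exists_nat_ge (max 1 (2 * M / h1 G))
  have hL1 : (1 : ℝ) ≤ L := (le_max_left _ _).trans hL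
  have hL1' : 1 ≤ L := by exact_mod_cast hL1
  have hL2 : 2 * M ≤ L * h1 G := by
    have := (le_max_right _ _).trans hL
    rwa [div_le_iff₀ hh] at this
  obtain ⟨ℓ, hℓ, hℓD, hℓ3⟩ := tld_choose (a := C * L) (b := ζ / 8) (by positivity)
    (2 * (100000 * ((L : ℝ) + 1) ^ 2 * C' * (200 * C / ζ) ^ 2))
  have hℓ1 : (1 : ℝ) ≤ ℓ := by exact_mod_cast hℓ
  have hℓ0 : (0 : ℝ) < ℓ := by linarith
  set a : ℝ := ζ / (100 * C * (ℓ : ℝ) ^ 3) with ha
  have ha0 : 0 < a := by positivity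
  refine ⟨min (1 / 2) (a / 4), max 1 (max (2 / a) (8 * C * (ℓ : ℝ) ^ ((3 : ℝ) / 5) / ζ)),
    by positivity, fun x z hN => ?_⟩
  set n := nrm (z - x) with hn
  have hn1 : (1 : ℝ) ≤ n := (le_max_left _ _).trans hN
  have hn2 : 2 ≤ n * a := by
    have := ((le_max_left _ _).trans (le_max_right _ _)).trans hN
    rwa [div_le_iff₀ ha0] at this
  have hn3 : 8 * C * (ℓ : ℝ) ^ ((3 : ℝ) / 5) ≤ n * ζ := by
    have := ((le_max_right _ _).trans (le_max_right _ _)).trans hN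
    rwa [div_le_iff₀ hζ] at this
  set r := ⌊a * n⌋₊ with hr
  have hr1 : (r : ℝ) ≤ a * n := Nat.floor_le (by positivity)
  have hr2 : a * n < r + 1 := Nat.lt_floor_add_one _
  have hr3 : a * n / 2 ≤ r := by linarith
  have hr4 : 1 ≤ r := by
    have : (1 : ℝ) ≤ r := by linarith
    exact_mod_cast this
  have hr0 : (0 : ℝ) < r := by exact_mod_cast hr4
  have hP := peierls_path G hℓ (hCl ℓ 2 hℓ (by norm_num)) x (L * n) r hr4
  have hK := Pr_kesBad G x (L * n)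
  refine (Pr_le_add_of_ae G (B := KesBad G x (L * n)) (C := {t | ∃ γ : Pth, γ.Ok ∧ γ.p 0 = x ∧
    γ.n ≤ L * n ∧ (2 * 2 + 1) ^ 2 * r ≤
      γ.nbad ℓ (fun c => LowBad G ((ℓ : ℤ) • c) (2 * ℓ)) t}) ?_).trans ?_
  · filter_upwards [ae_nn G] with t ht hT
    have hT' : T t x z < mu G (rv (z - x)) - ζ * n / 2 := by
      have : T t x z ≤ mu G (rv (z - x)) - ζ * n := hT
      nlinarith
    obtain ⟨γ, ⟨hγ, -, h0, h1'⟩, hs, hlt⟩ := exists_tot_lt ht (conn_univ x z) hT'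
    have hmu : mu G (rv (z - x)) ≤ M * n := by
      have := hMu (rv (z - x))
      rwa [norm_rv] at this
    by_cases hk : t ∈ KesBad G x (L * n)
    · exact Or.inl hk
    right
    have hlen : γ.n ≤ L * n := by
      by_contra hc
      have g1 := cost_ge_of_not_kesBad G ht hγ hs (a := 0) (k := L * n) (by omega) (h0 ▸ hk)
      have g2 : γ.cost t 0 (0 + L * n) ≤ γ.tot t := γ.cost_mono ht le_rfl (by omega)
      push_cast at g1
      nlinarith
    refine ⟨γ, hγ, h0, hlen, ?_⟩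
    have g1 := hCt ℓ hℓ t ht γ hγ hs
    rw [h0, h1'] at g1
    set B := γ.nbad ℓ (fun c => LowBad G ((ℓ : ℤ) • c) (2 * ℓ)) t with hB
    have g2 : (γ.n : ℝ) ≤ L * n := by exact_mod_cast hlen
    have g3 : C * ((γ.n : ℝ) / ℓ + 1) * (ℓ : ℝ) ^ ((3 : ℝ) / 5) ≤ ζ * n / 4 := by
      have e1 : (γ.n : ℝ) / ℓ ≤ L * n / ℓ := div_le_div_of_nonneg_right g2 hℓ0.le
      have e2 : C * ((γ.n : ℝ) / ℓ + 1) * (ℓ : ℝ) ^ ((3 : ℝ) / 5) ≤
          C * (L * n / ℓ + 1) * (ℓ : ℝ) ^ ((3 : ℝ) / 5) := by gcongr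
      have e3 : C * (L * n / ℓ + 1) * (ℓ : ℝ) ^ ((3 : ℝ) / 5) =
          (C * L / ℓ * (ℓ : ℝ) ^ ((3 : ℝ) / 5)) * n + C * (ℓ : ℝ) ^ ((3 : ℝ) / 5) := by ring
      have e4 : (C * L / ℓ * (ℓ : ℝ) ^ ((3 : ℝ) / 5)) * n ≤ ζ / 8 * n :=
        mul_le_mul_of_nonneg_right hℓ3 (by positivity)
      linarith
    have g4 : ζ * n / 4 ≤ C * (ℓ : ℝ) ^ 3 * B := by linarith
    have g5 : 25 * (a * n) ≤ B := by
      have e1 : 25 * (a * n) = ζ * n / 4 / (C * (ℓ : ℝ) ^ 3) := by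
        rw [ha]; field_simp; norm_num
      rw [e1, div_le_iff₀ (by positivity)]
      linarith
    have g6 : (25 : ℝ) * r ≤ B := by linarith
    exact_mod_cast g6
  · have e1 : Pr G (KesBad G x (L * n)) ≤ Real.exp (-(min (1 / 2) (a / 4) * n)) := by
      refine hK.trans ((tld_half _).trans (Real.exp_le_exp.2 ?_))
      have := min_le_left (1 / 2 : ℝ) (a / 4)
      push_cast
      nlinarith
    have e2 : 100000 * (((L * n : ℕ) : ℝ) / ℓ + 1) ^ 2 * (C' / (ℓ : ℝ) ^ 100) / (r : ℝ) ^ 2 ≤ 1 / 2 := by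
      have f1 : ((L * n : ℕ) : ℝ) / ℓ + 1 ≤ (L + 1) * n := by
        have : ((L * n : ℕ) : ℝ) / ℓ ≤ L * n := by
          push_cast
          exact div_le_self (by positivity) hℓ1
        linarith
      have f2 : (n : ℝ) ≤ 200 * C / ζ * (ℓ : ℝ) ^ 3 * r := by
        have : (n : ℝ) = 200 * C / ζ * (ℓ : ℝ) ^ 3 * (a * n / 2) := by
          rw [ha]; field_simp; norm_num
        rw [this]
        gcongr
      have f3 : ((L * n : ℕ) : ℝ) / ℓ + 1 ≤ (L + 1) * (200 * C / ζ * (ℓ : ℝ) ^ 3 * r) :=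
        f1.trans (by gcongr)
      have f4 : (ℓ : ℝ) ^ 7 ≤ (ℓ : ℝ) ^ 100 := pow_le_pow_right₀ hℓ1 (by norm_num)
      calc 100000 * (((L * n : ℕ) : ℝ) / ℓ + 1) ^ 2 * (C' / (ℓ : ℝ) ^ 100) / (r : ℝ) ^ 2
          ≤ 100000 * ((L + 1) * (200 * C / ζ * (ℓ : ℝ) ^ 3 * r)) ^ 2 * (C' / (ℓ : ℝ) ^ 7) /
            (r : ℝ) ^ 2 := by gcongr
        _ = (100000 * ((L : ℝ) + 1) ^ 2 * C' * (200 * C / ζ) ^ 2) / ℓ := by field_simp
        _ ≤ 1 / 2 := by rw [div_le_iff₀ hℓ0]; linarith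
    have e3 := hP.trans ((pow_le_pow_left₀ (by positivity) e2 r).trans (tld_half r))
    have e4 : Real.exp (-((r : ℝ) / 2)) ≤ Real.exp (-(min (1 / 2) (a / 4) * n)) := by
      refine Real.exp_le_exp.2 ?_
      have := min_le_right (1 / 2 : ℝ) (a / 4)
      nlinarith
    linarith

theorem lower_LD (G : Measure ℝ) [Law G] {ζ : ℝ} (hζ : 0 < ζ) : ∃ C c : ℝ, 0 < C ∧ 0 < c ∧
    ∀ x z : V, Pr G {t | T t x z ≤ mu G (rv (z - x)) - ζ * nrm (z - x)} ≤
      C * Real.exp (-(c * nrm (z - x))) := by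
  obtain ⟨c, N, hc, h⟩ := tld_large G hζ
  refine ⟨2 + Real.exp (c * N), c, by positivity, hc, fun x z => ?_⟩
  have h0 := Real.exp_pos (-(c * nrm (z - x)))
  have h1 := Real.exp_pos (c * N)
  rcases le_total N (nrm (z - x)) with hN | hN
  · exact (h x z hN).trans (by nlinarith)
  · refine (Pr_le_one G _).trans ?_
    have h2 : 1 ≤ Real.exp (c * N) * Real.exp (-(c * nrm (z - x))) := by
      rw [← Real.exp_add]
      exact Real.one_le_exp (by nlinarith)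
    nlinarith

theorem tld_summable {b : ℝ} (hb : 0 < b) : Summable (fun w : V => Real.exp (-(b * nrm w))) := by
  have h1 : Summable (fun n : ℕ => Real.exp (n * -(b / 2))) :=
    Real.summable_exp_nat_mul_iff.2 (by linarith)
  have h2 : Summable (fun a : ℤ => Real.exp (a.natAbs * -(b / 2))) := by
    refine Summable.of_nat_of_neg ?_ ?_
    · simpa using h1
    · simpa using h1
  have h3 := h2.mul_of_nonneg h2 (fun _ => (Real.exp_pos _).le) (fun _ => (Real.exp_pos _).le)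
  refine h3.of_nonneg_of_le (fun _ => (Real.exp_pos _).le) fun w => ?_
  rw [← Real.exp_add]
  refine Real.exp_le_exp.2 ?_
  have e1 : (w.1.natAbs : ℝ) ≤ nrm w := by exact_mod_cast le_max_left _ _
  have e2 : (w.2.natAbs : ℝ) ≤ nrm w := by exact_mod_cast le_max_right _ _
  nlinarith

theorem tld_shortfall (G : Measure ℝ) [Law G] {ζ : ℝ} (hζ : 0 < ζ) : ∃ C c : ℝ, 0 < C ∧ 0 < c ∧
    ∀ (x : V) (y : ℝ), 0 ≤ y →
      Pr G {t | ∃ z : V, T t x z ≤ mu G (rv (z - x)) - ζ * nrm (z - x) - y} ≤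
        C * Real.exp (-(c * y)) := by
  obtain ⟨M, hM, hMu⟩ := (mu_ok G).upper
  obtain ⟨C, c, hC, hc, h⟩ := lower_LD G hζ
  have hs := tld_summable (b := c / 2) (by positivity)
  have hS : 0 ≤ ∑' w : V, Real.exp (-(c / 2 * nrm w)) := tsum_nonneg fun _ => (Real.exp_pos _).le
  refine ⟨C * (∑' w : V, Real.exp (-(c / 2 * nrm w)) + 1), c / (2 * M), by positivity, by positivity,
    fun x y hy => ?_⟩
  have key := Pr_iUnion_le G (fun w : V => {t | y ≤ M * nrm w ∧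
      T t x (x + w) ≤ mu G (rv (x + w - x)) - ζ * nrm (x + w - x)})
    (a := fun w : V => C * Real.exp (-(c / (2 * M) * y)) * Real.exp (-(c / 2 * nrm w)))
    (fun w => by
      by_cases hw : y ≤ M * nrm w
      · simp only [hw, true_and]
        refine (h x (x + w)).trans ?_
        rw [mul_assoc, ← Real.exp_add, add_sub_cancel_left]
        refine mul_le_mul_of_nonneg_left (Real.exp_le_exp.2 ?_) hC.le
        have : c / (2 * M) * y ≤ c / (2 * M) * (M * nrm w) :=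
          mul_le_mul_of_nonneg_left hw (by positivity)
        have e : c / (2 * M) * (M * nrm w) = c / 2 * nrm w := by field_simp
        linarith
      · simp only [hw, false_and, Set.ofPred_false, Pr_empty]
        positivity) (hs.mul_left _)
  rw [tsum_mul_left] at key
  refine le_trans (Pr_mono_ae G ?_) (key.trans ?_)
  · filter_upwards [ae_nn G] with t ht
    rintro ⟨z, hz⟩
    refine Set.mem_iUnion.2 ⟨z - x, ?_, ?_⟩
    · have h1 := T_nonneg ht x z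
      have h2 := hMu (rv (z - x))
      rw [norm_rv] at h2
      have h3 : 0 ≤ ζ * nrm (z - x) := by positivity
      linarith
    · rw [add_sub_cancel]
      linarith
  · have := Real.exp_pos (-(c / (2 * M) * y))
    nlinarith [mul_pos hC this]

/-- from every point of a box of size `A L` to every point of the plane -/
def LowL (G : Measure ℝ) (ζ : ℝ) (A : ℕ) (o : V) (L : ℕ) : Set Env :=
  {t | ∀ x ∈ box o (A * L), ∀ z : V, mu G (rv (z - x)) - ζ * ((nrm (z - x) : ℝ) + L) ≤ T t x z}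

theorem measurableSet_lowL (G : Measure ℝ) (ζ : ℝ) (A : ℕ) (o : V) (L : ℕ) :
    MeasurableSet (LowL G ζ A o L) := by
  have e : LowL G ζ A o L = ⋂ x : V, ⋂ _ : x ∈ box o (A * L), ⋂ z : V,
      {t | mu G (rv (z - x)) - ζ * ((nrm (z - x) : ℝ) + L) ≤ T t x z} := by
    ext t
    simp only [LowL, Set.mem_iInter, Set.mem_ofPred_eq]
  rw [e]
  exact MeasurableSet.iInter fun x => MeasurableSet.iInter fun _ => MeasurableSet.iInter fun z =>
    measurableSet_le measurable_const (measurable_T x z)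

theorem Pr_not_lowL (G : Measure ℝ) [Law G] {ζ : ℝ} (hζ : 0 < ζ) (A : ℕ) :
    ∃ C c : ℝ, 0 < C ∧ 0 < c ∧ ∀ (o : V) (L : ℕ),
      Pr G (LowL G ζ A o L)ᶜ ≤ C * Real.exp (-(c * L)) := by
  obtain ⟨C, c, hC, hc, h⟩ := tld_shortfall G hζ
  set b : ℝ := c * ζ / 4 with hb
  have hb0 : 0 < b := by positivity
  have hm : 0 < min 1 b := by positivity
  refine ⟨C * ((2 * A + 1) / min 1 b) ^ 2, c * ζ / 2, by positivity, by positivity, fun o L => ?_⟩
  have key := Pr_le_card_mul G (boxF o (A * L)) (A := (LowL G ζ A o L)ᶜ)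
    (fun x => {t | ∃ z : V, T t x z ≤ mu G (rv (z - x)) - ζ * nrm (z - x) - ζ * L})
    (p := C * Real.exp (-(c * (ζ * L)))) (Filter.Eventually.of_forall fun t ht => by
      simp only [LowL, Set.mem_compl_iff, Set.mem_ofPred_eq, not_forall, not_le] at ht
      obtain ⟨x, hx, z, hz⟩ := ht
      exact ⟨x, mem_boxF.2 hx, z, by linarith⟩) (fun x _ => h x _ (by positivity))
  refine key.trans ?_
  rw [card_boxF]
  have h1 : min 1 b * ((L : ℝ) + 1) ≤ Real.exp (b * L) := by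
    have := Real.add_one_le_exp (b * L)
    have g1 := min_le_left 1 b
    have g2 := min_le_right 1 b
    have g3 : (0 : ℝ) ≤ L := Nat.cast_nonneg _
    nlinarith
  have h2 : ((2 * (A * L) + 1 : ℕ) : ℝ) ≤ (2 * A + 1) / min 1 b * Real.exp (b * L) := by
    rw [div_mul_eq_mul_div, le_div_iff₀ hm]
    push_cast
    have g3 : (0 : ℝ) ≤ L := Nat.cast_nonneg _
    have g4 : (0 : ℝ) ≤ A := Nat.cast_nonneg _
    have g5 : (2 * ((A : ℝ) * L) + 1) ≤ (2 * A + 1) * (L + 1) := by nlinarith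
    calc (2 * ((A : ℝ) * L) + 1) * min 1 b ≤ (2 * A + 1) * (L + 1) * min 1 b := by gcongr
      _ = (2 * A + 1) * (min 1 b * (L + 1)) := by ring
      _ ≤ (2 * A + 1) * Real.exp (b * L) := by gcongr
  have h3 : Real.exp (b * L) ^ 2 * Real.exp (-(c * (ζ * L))) = Real.exp (-(c * ζ / 2 * L)) := by
    rw [sq, ← Real.exp_add, ← Real.exp_add, hb]
    congr 1
    ring
  calc (((2 * (A * L) + 1) ^ 2 : ℕ) : ℝ) * (C * Real.exp (-(c * (ζ * L))))
      = ((2 * (A * L) + 1 : ℕ) : ℝ) ^ 2 * (C * Real.exp (-(c * (ζ * L)))) := by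
        rw [Nat.cast_pow]
    _ ≤ ((2 * A + 1) / min 1 b * Real.exp (b * L)) ^ 2 * (C * Real.exp (-(c * (ζ * L)))) := by
        gcongr
    _ = C * ((2 * A + 1) / min 1 b) ^ 2 *
          (Real.exp (b * L) ^ 2 * Real.exp (-(c * (ζ * L)))) := by ring
    _ = _ := by rw [h3]

/-- tail of the largest shortfall from one point -/
theorem Pr_shortfall (G : Measure ℝ) [Law G] {ζ : ℝ} (hζ : 0 < ζ) : ∃ C c : ℝ, 0 < C ∧ 0 < c ∧
    ∀ (x : V) (y : ℝ), 0 ≤ y →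
      Pr G {t | ∃ z : V, T t x z ≤ mu G (rv (z - x)) - ζ * nrm (z - x) - y} ≤
        C * Real.exp (-(c * y)) := by
  exact tld_shortfall G hζ

end Crest.Agent.R151
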