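import Crest.Agent.R151.TTess

/-! Row 151 toolkit: link with the frozen definitions. -/

set_option autoImplicit false

namespace Crest.Agent.R151

open MeasureTheory ProbabilityTheory Crest.ProbabilityR.FirstPassage
open scoped Classical

theorem tlink_of_walk (t : Env) {x z : V} (w : squareLattice.Walk x z) :
    ∃ γ : Pth, γ.Joins Set.univ x z ∧ walkCost t w = γ.tot t := by
  induction w with
  | nil =>
    obtain ⟨γ, -, -, h1, h2⟩ := Pth.exists_triv _
    exact ⟨γ, h1.mono (Set.subset_univ _), by simp [walkCost, h2]⟩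
  | cons h p ih =>
    obtain ⟨δ, h1, h2⟩ := ih
    obtain ⟨γ, -, -, h3, h4⟩ := Pth.exists_step h
    refine ⟨γ.app δ, (h3.mono (Set.subset_univ _)).app h1, ?_⟩
    rw [Pth.app_tot (h3.2.2.2.trans h1.2.2.1.symm), h4, ← h2]
    simp [walkCost]

theorem tlink_to_walk (t : Env) {γ : Pth} (h : γ.Ok) {k : ℕ} (hk : k ≤ γ.n) :
    ∃ w : squareLattice.Walk (γ.p 0) (γ.p k), walkCost t w = γ.cost t 0 k := by
  induction k with
  | zero => exact ⟨.nil, by simp [walkCost, Pth.cost_self]⟩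
  | succ k ih =>
    obtain ⟨w, hw⟩ := ih (by omega)
    refine ⟨w.concat (h k hk), ?_⟩
    rw [Pth.cost_succ _ _ (Nat.zero_le k), ← hw]
    simp [walkCost, SimpleGraph.Walk.edges_concat, Pth.edge]

theorem T_eq_passageTime (t : Env) (x z : V) : T t x z = passageTime t x z := by
  unfold T TD passageTime iInf
  congr 1
  ext c
  constructor
  · rintro ⟨γ, ⟨h1, -, rfl, rfl⟩, rfl⟩
    exact tlink_to_walk t h1 le_rfl
  · rintro ⟨w, rfl⟩
    exact tlink_of_walk t w

/-- a finite segment of a bigeodesic -/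
def seg (v : ℤ → V) (i : ℤ) (n : ℕ) : Pth := Pth.of n (fun k => v (i + k))

theorem seg_p (v : ℤ → V) (i : ℤ) (n : ℕ) {k : ℕ} (hk : k ≤ n) : (seg v i n).p k = v (i + k) :=
  Pth.of_p n _ hk

theorem tlink_sum (f : ℤ → ℝ) (i : ℤ) (n : ℕ) :
    ∑ k ∈ Finset.Ico i (i + n), f k = ∑ k ∈ Finset.Ico 0 n, f (i + k) := by
  induction n with
  | zero => simp
  | succ n ih =>
    rw [Finset.sum_Ico_succ_top (Nat.zero_le n), ← ih, Nat.cast_succ, ← add_assoc,
      ← Finset.insert_Ico_right_eq_Ico_add_one (by omega), Finset.sum_insert (by simp), add_comm]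

theorem isGeo_seg {t : Env} (ht : NN t) {v : ℤ → V} (h : IsBigeodesic t v) (i : ℤ) (n : ℕ) :
    IsGeo Set.univ t (seg v i n) := by
  have hn : (seg v i n).n = n := rfl
  refine ⟨fun k hk => ?_, Pth.in_univ _, fun a ha b hb e => ?_, ?_⟩
  · rw [hn] at hk
    rw [seg_p _ _ _ hk.le, seg_p _ _ _ hk, Nat.cast_succ, ← add_assoc]
    exact h.2.1 _
  · rw [hn] at ha hb
    rw [seg_p _ _ _ ha, seg_p _ _ _ hb] at e
    have := h.1 e
    omega
  · rw [hn, seg_p _ _ _ (Nat.zero_le n), seg_p _ _ _ le_rfl, Nat.cast_zero, add_zero]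
    rcases Nat.eq_zero_or_pos n with rfl | hpos
    · rw [Nat.cast_zero, add_zero, TD_self ht]
      exact Pth.cost_self _ _ _
    · have := h.2.2 i (i + n) (by omega)
      rw [← T_eq_passageTime, tlink_sum] at this
      rw [show TD Set.univ t (v i) (v (i + n)) = T t (v i) (v (i + n)) from rfl, ← this]
      unfold Pth.tot Pth.cost
      refine Finset.sum_congr rfl fun k hk => ?_
      have hk' : k < n := (Finset.mem_Ico.1 hk).2
      rw [Pth.edge, seg_p _ _ _ hk'.le, seg_p _ _ _ hk', Nat.cast_succ, ← add_assoc]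

theorem tlink_shift {t : Env} {v : ℤ → V} (h : IsBigeodesic t v) (x : V) :
    IsBigeodesic (act (tr x) t) (fun i => v i - x) := by
  refine ⟨fun a b e => h.1 (sub_left_injective e), fun i => ?_, fun i j hij => ?_⟩
  · have := (isAut_tr x (v i - x) (v (i + 1) - x)).1 (by
      simp only [tr_apply, sub_add_cancel]; exact h.2.1 i)
    exact this
  · rw [← T_eq_passageTime, T_act (isAut_tr x), T_eq_passageTime]
    simp only [act_mk, tr_apply, sub_add_cancel]
    exact h.2.2 i j hij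

/-- a bigeodesic exists somewhere with positive outer probability only if one passes through the
origin at time `0` with positive outer probability -/
theorem bigeo_origin (G : Measure ℝ) [IsProbabilityMeasure G]
    (h : Pr G {t | ∃ v : ℤ → V, IsBigeodesic t v ∧ v 0 = 0} = 0) :
    iidLaw G {t | ∃ v : ℤ → ℤ × ℤ, IsBigeodesic t v} = 0 := by
  refine measure_mono_null (t := ⋃ x : V, act (tr x) ⁻¹' {t | ∃ v : ℤ → V, IsBigeodesic t v ∧ v 0 = 0})
    ?_ (measure_iUnion_null fun x => ?_)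
  · rintro t ⟨v, hv⟩
    exact Set.mem_iUnion.2 ⟨v 0, _, tlink_shift hv (v 0), sub_self _⟩
  · rw [← Pr_eq_zero_iff, Pr_act, h]

theorem tlink_gamma_sq {κ r : ℝ} (hκ : 0 < κ) (hr : 0 < r) :
    ∫⁻ x, ENNReal.ofReal (x ^ 2) ∂(gammaMeasure κ r) < ⊤ := by
  have hm : Measurable (gammaPDF κ r) := (measurable_gammaPDFReal κ r).ennreal_ofReal
  unfold gammaMeasure
  rw [lintegral_withDensity_eq_lintegral_mul _ hm (by fun_prop)]
  have hi : IntegrableOn (fun x : ℝ => r ^ κ / Real.Gamma κ * (x ^ (κ + 1) * Real.exp (-r * x ^ (1 : ℝ))))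
      (Set.Ioi 0) :=
    (integrableOn_rpow_mul_exp_neg_mul_rpow (by linarith) one_pos hr).const_mul _
  have h2 := hi.lintegral_lt_top
  rw [← lintegral_indicator measurableSet_Ioi] at h2
  refine lt_of_le_of_lt (lintegral_mono fun x => ?_) h2
  rcases lt_trichotomy x 0 with hx | rfl | hx
  · simp [gammaPDF_of_neg hx]
  · simp
  · rw [Set.indicator_of_mem (show x ∈ Set.Ioi (0 : ℝ) from hx), Pi.mul_apply, gammaPDF_of_nonneg hx.le,
      ← ENNReal.ofReal_mul' (sq_nonneg x)]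
    apply le_of_eq
    congr 1
    rw [show κ + 1 = (κ - 1) + 2 by ring, Real.rpow_add hx, Real.rpow_two, Real.rpow_one, neg_mul]
    ring

theorem law_gamma {κ r : ℝ} (hκ : 0 < κ) (hr : 0 < r) : Law (gammaMeasure κ r) := by
  have h1 := isProbabilityMeasure_gammaMeasure hκ hr
  have h2 : NullSingletonClass (gammaMeasure κ r) := by unfold gammaMeasure; infer_instance
  refine { nonneg := ?_, mom := ?_ }
  · unfold gammaMeasure
    rw [withDensity_apply _ measurableSet_Iio]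
    exact lintegral_gammaPDF_of_nonpos le_rfl
  · calc ∫⁻ x, ENNReal.ofReal ((⨅ i, x i) ^ 2) ∂(Measure.pi fun _ : Fin 4 => gammaMeasure κ r)
        ≤ ∫⁻ x, ∑ i : Fin 4, ENNReal.ofReal (x i ^ 2) ∂(Measure.pi fun _ : Fin 4 => gammaMeasure κ r) := by
          refine lintegral_mono fun x => ?_
          obtain ⟨i, hi⟩ := exists_eq_ciInf_of_finite (f := x)
          rw [← hi]
          exact Finset.single_le_sum (f := fun i => ENNReal.ofReal (x i ^ 2)) (fun _ _ => zero_le)
            (Finset.mem_univ i)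
      _ = ∑ i : Fin 4, ∫⁻ x, ENNReal.ofReal (x i ^ 2) ∂(Measure.pi fun _ : Fin 4 => gammaMeasure κ r) :=
          lintegral_finsetSum _ fun i _ => by fun_prop
      _ < ⊤ := by
          refine ENNReal.sum_lt_top.2 fun i _ => ?_
          rw [(measurePreserving_eval (fun _ : Fin 4 => gammaMeasure κ r) i).lintegral_comp
            (f := fun x : ℝ => ENNReal.ofReal (x ^ 2)) (by fun_prop)]
          exact tlink_gamma_sq hκ hr

theorem eq_mu_of_tendsto (G : Measure ℝ) [Law G] (μ : ℝ × ℝ → ℝ)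
    (hμ : ∀ v : ℝ × ℝ, ∀ᵐ t ∂(iidLaw G),
      Filter.Tendsto (fun s : ℝ => passageTime t (0, 0) (⌊s * v.1⌋, ⌊s * v.2⌋) / s)
        Filter.atTop (nhds (μ v))) : μ = mu G := by
  funext v
  by_contra hne
  obtain ⟨ε, hε, hεe⟩ : ∃ ε : ℝ, 0 < ε ∧ 3 * ε = |μ v - mu G v| :=
    ⟨|μ v - mu G v| / 3, by have := abs_pos.2 (sub_ne_zero.2 hne); positivity, by ring⟩
  obtain ⟨C, hC, hC'⟩ := integral_abs_T_sub G
  set x : ℕ → V := fun n => (⌊(n : ℝ) * v.1⌋, ⌊(n : ℝ) * v.2⌋) with hx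
  have hA : Filter.Tendsto (fun n : ℕ => Pr G {t | ε ≤ |T t 0 (x n) / n - μ v|}) Filter.atTop (nhds 0) := by
    refine Pr_tendsto_zero G (fun n => ?_) ?_
    · exact measurableSet_le measurable_const
        (((measurable_T 0 (x n)).div_const _).sub_const _).abs
    · filter_upwards [hμ v] with t ht
      have h1 := ht.comp tendsto_natCast_atTop_atTop
      filter_upwards [Metric.tendsto_nhds.1 h1 ε hε] with n hn
      rw [not_le, T_eq_passageTime]
      exact hn
  have hnrm : ∀ n : ℕ, 1 ≤ n → (nrm (x n - 0) : ℝ) ≤ (‖v‖ + 1) * n := by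
    intro n hn
    have h1 := tmu1_fl_le ((n : ℝ) • v)
    have h2 : tmu1_fl ((n : ℝ) • v) = x n := rfl
    have h3 := norm_add_le (rv (x n) - (n : ℝ) • v) ((n : ℝ) • v)
    have h4 : (1 : ℝ) ≤ n := by exact_mod_cast hn
    rw [h2] at h1
    rw [sub_add_cancel, norm_smul, Real.norm_natCast] at h3
    rw [sub_zero, tmu1_nrm]
    nlinarith [norm_nonneg v]
  have hB : ∀ n : ℕ, 1 ≤ n → Pr G {t | ε * n ≤ |T t 0 (x n) - hm G (x n - 0)|} ≤
      C * (‖v‖ + 1) ^ ((3 : ℝ) / 5) / ε * (n : ℝ) ^ (-((2 : ℝ) / 5)) := by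
    intro n hn
    have h4 : (0 : ℝ) < n := by exact_mod_cast hn
    refine (Pr_markov G ((integrable_T G 0 (x n)).sub (integrable_const _)).abs
      (Filter.Eventually.of_forall fun t => abs_nonneg _) (by positivity)).trans ?_
    refine (div_le_div_of_nonneg_right (hC' 0 (x n)) (by positivity)).trans ?_
    have h5 : (nrm (x n - 0) : ℝ) ^ ((3 : ℝ) / 5) ≤ (‖v‖ + 1) ^ ((3 : ℝ) / 5) * (n : ℝ) ^ ((3 : ℝ) / 5) := by
      rw [← Real.mul_rpow (by positivity) h4.le]
      exact Real.rpow_le_rpow (Nat.cast_nonneg _) (hnrm n hn) (by norm_num)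
    have h6 : (n : ℝ) ^ ((3 : ℝ) / 5) = (n : ℝ) ^ (-((2 : ℝ) / 5)) * n := by
      rw [← Real.rpow_add_one h4.ne']; norm_num
    rw [h6] at h5
    calc C * (nrm (x n - 0) : ℝ) ^ ((3 : ℝ) / 5) / (ε * n)
        ≤ C * ((‖v‖ + 1) ^ ((3 : ℝ) / 5) * ((n : ℝ) ^ (-((2 : ℝ) / 5)) * n)) / (ε * n) := by gcongr
      _ = _ := by field_simp
  have hB' : Filter.Tendsto (fun n : ℕ => C * (‖v‖ + 1) ^ ((3 : ℝ) / 5) / ε * (n : ℝ) ^ (-((2 : ℝ) / 5)))
      Filter.atTop (nhds 0) := by
    have := ((tendsto_rpow_neg_atTop (by norm_num : (0 : ℝ) < 2 / 5)).comp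
      tendsto_natCast_atTop_atTop).const_mul (C * (‖v‖ + 1) ^ ((3 : ℝ) / 5) / ε)
    rwa [mul_zero] at this
  have hS := hA.add hB'
  rw [add_zero] at hS
  obtain ⟨n, h1, h2, h3⟩ := ((hS.eventually_lt_const one_pos).and
    ((Metric.tendsto_nhds.1 (tendsto_mu G v) ε hε).and (Filter.eventually_ge_atTop 1))).exists
  have h4 : (0 : ℝ) < n := by exact_mod_cast h3
  have h5 : Pr G Set.univ ≤ Pr G {t | ε ≤ |T t 0 (x n) / n - μ v|} +
      Pr G {t | ε * n ≤ |T t 0 (x n) - hm G (x n - 0)|} := by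
    refine Pr_le_add_of_ae G (Filter.Eventually.of_forall fun t _ => ?_)
    by_contra hcon
    simp only [Set.mem_ofPred_eq, not_or, not_le, sub_zero] at hcon
    rw [Real.dist_eq] at h2
    have h6 : |T t 0 (x n) / n - hm G (x n) / n| < ε := by
      rw [← sub_div, abs_div, abs_of_pos h4, div_lt_iff₀ h4]; exact hcon.2
    have h7 := abs_lt.1 hcon.1
    have h8 := abs_lt.1 h2
    have h9 := abs_lt.1 h6
    have : |μ v - mu G v| < 3 * ε := abs_lt.2 ⟨by linarith, by linarith⟩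
    linarith
  rw [Pr_univ] at h5
  linarith [hB n h3]

end Crest.Agent.R151
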