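import Crest.Agent.R151.TUp
import Crest.Agent.R151.TLD
import Crest.Agent.R151.TCross
import Crest.Agent.R151.TGap
import Crest.Agent.R151.TLink

/-! Row 151, part B (no bigeodesics): definitions.  See `PlanB.lean`. -/

set_option autoImplicit false

namespace Crest.Agent.R151

open MeasureTheory ProbabilityTheory Crest.ProbabilityR.FirstPassage Filter Topology
open scoped Classical

/-- a lattice-symmetric norm that is differentiable off the origin -/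
structure DN (μ : ℝ × ℝ → ℝ) : Prop where
  ok : NormOK μ
  diff : ∀ v : ℝ × ℝ, v ≠ 0 → DifferentiableAt ℝ μ v

/-- norm of the unit vectors -/
def m1 (μ : ℝ × ℝ → ℝ) : ℝ := μ (0, 1)
/-- slope of `θ ↦ μ (1, θ)` -/
noncomputable def slp (μ : ℝ × ℝ → ℝ) (θ : ℝ) : ℝ := deriv (fun x : ℝ => μ (1, x)) θ
/-- one eighth of the gap between the slope on the diagonal and `m1` -/
noncomputable def g0 (μ : ℝ × ℝ → ℝ) : ℝ := (m1 μ - slp μ 1) / 8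
/-- the slope thresholds `S k = slp 1 + k g0`, so that `S 8 = m1` -/
noncomputable def Sk (μ : ℝ × ℝ → ℝ) (k : ℕ) : ℝ := slp μ 1 + k * g0 μ
noncomputable def thm (μ : ℝ × ℝ → ℝ) (s : ℝ) : ℝ := sInf {θ | s ≤ slp μ θ}
noncomputable def thp (μ : ℝ × ℝ → ℝ) (s : ℝ) : ℝ := sSup {θ | slp μ θ ≤ s}
noncomputable def rho1 (μ : ℝ × ℝ → ℝ) (s : ℝ) : ℝ := ⨅ θ : ℝ, (μ (1, θ) - s * θ)
/-- the supporting functional with vertical slope `s` -/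
noncomputable def rho (μ : ℝ × ℝ → ℝ) (s : ℝ) : ℝ × ℝ := (rho1 μ s, s)

/-- average over `N ∈ [N0, 2 N0)` -/
noncomputable def avgZ (N0 : ℕ) (f : ℤ → ℝ) : ℝ :=
  (∑ N ∈ Finset.Ico (N0 : ℤ) (2 * N0), f N) / N0
noncomputable def avg2 (N0 : ℕ) (f : ℤ → ℤ → ℝ) : ℝ := avgZ N0 (fun N1 => avgZ N0 (f N1))
/-- the upper limit of the averages is at most `ζ` -/
def Small (f : ℤ → ℝ) (ζ : ℝ) : Prop := ∀ ζ', ζ < ζ' → ∀ᶠ N0 : ℕ in atTop, avgZ N0 f ≤ ζ'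
def Small2 (f : ℤ → ℤ → ℝ) (ζ : ℝ) : Prop := ∀ ζ', ζ < ζ' → ∀ᶠ N0 : ℕ in atTop, avg2 N0 f ≤ ζ'

/-- reflection that exchanges the columns `0` and `1` -/
def rfl1 : V ≃ V := reflX.trans (tr (1, 0))

@[simp] theorem rfl1_apply (x : V) : rfl1 x = (-x.1 + 1, x.2 + 0) := rfl

/-- regular environment in which passage times grow at least like the norm -/
def Fld (G : Measure ℝ) (t : Env) : Prop :=
  Reg G t ∧ ∀ (x : V) (n : ℕ), ∃ C : ℕ, ∀ z : V,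
    mu G (rv (z - x)) - (nrm (z - x) : ℝ) / ((n : ℝ) + 1) - C ≤ T t x z

/-- integer multiples of `s` -/
def Zs (s : ℝ) : Set ℝ := Set.range (fun z : ℤ => s * z)

/-- regular and without ties for the fields of slope `s` -/
def GN (G : Measure ℝ) (s : ℝ) (t : Env) : Prop := Fld G t ∧ Gen (Zs s) t

/-- point-to-tilted-column passage time inside the strip `[k, N]` -/
noncomputable def Gd (t : Env) (k N : ℤ) (s : ℝ) (x : V) : ℝ :=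
  ⨅ z : ℤ, (TD (strip k N) t x (N, z) - s * z)
noncomputable def Gf (t : Env) (k N : ℤ) (s : ℝ) (y : ℤ) : ℝ := Gd t k N s (k, y)
/-- point-to-point passage time from column `k` to `(N, b)` inside the strip -/
noncomputable def Phi (t : Env) (k N b y : ℤ) : ℝ := TD (strip k N) t (k, y) (N, b)

/-- an optimal path for `Gd` -/
def IsLine (t : Env) (k N : ℤ) (s : ℝ) (γ : Pth) : Prop :=
  IsGeo (strip k N) t γ ∧ (γ.p γ.n).1 = N ∧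
    γ.tot t - s * ((γ.p γ.n).2 : ℝ) = Gd t k N s (γ.p 0)

noncomputable def line (t : Env) (k N : ℤ) (s : ℝ) (x : V) : Pth :=
  pick (fun γ => IsLine t k N s γ ∧ γ.p 0 = x)

/-- increment of `Gf α - Gf β` between the heights `y1` and `y2` -/
noncomputable def Dinc (t : Env) (k N : ℤ) (α β : ℝ) (y1 y2 : ℤ) : ℝ :=
  (Gf t k N α y2 - Gf t k N β y2) - (Gf t k N α y1 - Gf t k N β y1)

/-- the slope of the direction from `(xc, yc)` to `(N, b)` lies in `[lo, hi]` -/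
def SlopeIn (μ : ℝ × ℝ → ℝ) (lo hi : ℝ) (N b xc yc : ℤ) : Prop :=
  slp μ (((b - yc : ℤ) : ℝ) / ((N - xc : ℤ) : ℝ)) ∈ Set.Icc lo hi

/-- lines of slopes `α` and `β` from the heights `|y| ≤ Y` end below and above every target whose
slope is in `[lo, hi]` -/
def Loc (μ : ℝ × ℝ → ℝ) (k N : ℤ) (α β lo hi : ℝ) (Y : ℕ) : Set Env :=
  {t | ∀ y xc yc b : ℤ, |y| ≤ Y → |xc| ≤ Y → |yc| ≤ Y → SlopeIn μ lo hi N b xc yc →
    (∃ γ : Pth, IsLine t k N α γ ∧ γ.p 0 = (k, y) ∧ (γ.p γ.n).2 ≤ b) ∧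
    (∃ γ : Pth, IsLine t k N β γ ∧ γ.p 0 = (k, y) ∧ b ≤ (γ.p γ.n).2)}

/-- vertical increments of the field have slope `-s` -/
def Inc (k N : ℤ) (s : ℝ) (y0 : ℤ) (ζ ℓ : ℝ) : Set Env :=
  {t | ∀ y : ℤ, |Gf t k N s y - Gf t k N s y0 + s * ((y - y0 : ℤ) : ℝ)| ≤
    ζ * (|((y - y0 : ℤ) : ℝ)| + ℓ)}

/-- Lipschitz control of all fields with slope at most `S 4` -/
def Lip (μ : ℝ × ℝ → ℝ) (k N y0 : ℤ) (ℓ : ℝ) : Set Env :=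
  {t | ∀ s : ℝ, |s| ≤ Sk μ 4 → ∀ y : ℤ,
    |Gf t k N s y - Gf t k N s y0| ≤ Sk μ 5 * |((y - y0 : ℤ) : ℝ)| + g0 μ * ℓ}

/-- lower bound for the increments of the point-to-point field -/
def PhiLow (t : Env) (k N b y0 : ℤ) (α β ζ ℓ : ℝ) : Prop :=
  ∀ y : ℤ, -β * max ((y - y0 : ℤ) : ℝ) 0 + α * max ((y0 - y : ℤ) : ℝ) 0 -
    ζ * (|((y - y0 : ℤ) : ℝ)| + ℓ) ≤ Phi t k N b y - Phi t k N b y0

def PL (μ : ℝ × ℝ → ℝ) (k N : ℤ) (α β lo hi ζ ℓ : ℝ) (Y : ℕ) : Set Env :=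
  {t | ∀ y0 xc yc b : ℤ, |y0| ≤ Y → |xc| ≤ Y → |yc| ≤ Y → SlopeIn μ lo hi N b xc yc →
    PhiLow t k N b y0 α β ζ ℓ}

/-- a long geodesic across the strip `[L, R]` with moderate final slope -/
def LG (μ : ℝ × ℝ → ℝ) (t : Env) (L R : ℤ) (Y : ℕ) (Γ : Pth) : Prop :=
  IsGeo Set.univ t Γ ∧ Γ.In (strip L R) ∧ (Γ.p 0).1 = L ∧ (Γ.p Γ.n).1 = R ∧
    ∃ xc yc : ℤ, |xc| ≤ Y ∧ |yc| ≤ Y ∧ SlopeIn μ (-Sk μ 3) (Sk μ 3) R (Γ.p Γ.n).2 xc yc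

/-- confinement of long geodesics at scale `n` around the origin -/
def CF (μ : ℝ × ℝ → ℝ) (A n : ℕ) (L R : ℤ) : Set Env :=
  {t | ∀ Γ : Pth, LG μ t L R (2 * n) Γ → ∀ i0 i, i0 ≤ i → i ≤ Γ.n → Γ.p i0 ∈ box 0 n →
    (Γ.p i).1 ≤ 2 * n →
      Γ.cost t i0 i ≤ A * n ∧ ∀ i', i0 ≤ i' → i' ≤ i → Γ.p i' ∈ box 0 (A * n)}

/-- confinement of lines at scale `n`, for all moderate slopes -/
def LCt (μ : ℝ × ℝ → ℝ) (A h n : ℕ) (k N : ℤ) : Set Env :=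
  {t | ∀ s : ℝ, |s| ≤ Sk μ 4 → ∀ γ : Pth, IsLine t k N s γ → (γ.p 0).1 = k → |(γ.p 0).2| ≤ h →
    ∀ i ≤ γ.n, (γ.p i).1 ≤ k + n → ∀ i' ≤ i, γ.p i' ∈ box (k, 0) (A * n)}

/-- the middle box around the cut between the columns `j` and `j + 1` -/
def midR (j y : ℤ) (m : ℕ) : Set V := rect (j + 1 - m) (j + m) (y - m) (y + m)

/-- a geodesic across the strip `[L, R]` that crosses the cut `j | j+1` only near height `y`, has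
both slopes in `[lo, hi]` and an `η`-gap at the crossing step `g` -/
structure WPath (μ : ℝ × ℝ → ℝ) (t : Env) (m : ℕ) (η lo hi : ℝ) (L R j y : ℤ) (Γ : Pth)
    (f g l : ℕ) : Prop where
  geo : IsGeo Set.univ t Γ
  ins : Γ.In (strip L R)
  start : (Γ.p 0).1 = L
  stop : (Γ.p Γ.n).1 = R
  fg : f ≤ g
  gl : g ≤ l
  ln : l < Γ.n
  left : ∀ i ≤ f, (Γ.p i).1 ≤ j
  fcol : (Γ.p f).1 = j
  lcol : (Γ.p (l + 1)).1 = j + 1
  right : ∀ i, l + 1 ≤ i → i ≤ Γ.n → j + 1 ≤ (Γ.p i).1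
  lcol' : (Γ.p l).1 = j
  fcol' : (Γ.p (f + 1)).1 = j + 1
  mid : ∀ i, f ≤ i → i ≤ l + 1 → Γ.p i ∈ midR j y m
  gcol : (Γ.p g).1 + (Γ.p (g + 1)).1 = 2 * j + 1
  sR : SlopeIn μ lo hi R (Γ.p Γ.n).2 j y
  sL : SlopeIn μ (-hi) (-lo) (1 - L) (Γ.p 0).2 (-j) y
  gap : ∀ δ : Pth, δ.Joins Set.univ (Γ.p 0) (Γ.p Γ.n) → Γ.edge g ∉ δ.edges →
    Γ.tot t + η ≤ δ.tot t

def Wev (μ : ℝ × ℝ → ℝ) (m : ℕ) (η lo hi : ℝ) (L R j y : ℤ) : Set Env :=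
  {t | ∃ (Γ : Pth) (f g l : ℕ), WPath μ t m η lo hi L R j y Γ f g l}

/-- fine slope intervals -/
def loI (ε : ℝ) (i : ℤ) : ℝ := ((i : ℝ) - 1) * ε
def hiI (ε : ℝ) (i : ℤ) : ℝ := ((i : ℝ) + 1) * ε
def alI (ε : ℝ) (i : ℤ) : ℝ := ((i : ℝ) - 2) * ε
def beI (ε : ℝ) (i : ℤ) : ℝ := ((i : ℝ) + 2) * ε
/-- the admissible fine indices -/
noncomputable def Idx (μ : ℝ × ℝ → ℝ) (ε : ℝ) : Finset ℤ :=
  Finset.Icc (-(⌈Sk μ 1 / ε⌉ + 1)) (⌈Sk μ 1 / ε⌉ + 1)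

def Wi (μ : ℝ × ℝ → ℝ) (m : ℕ) (η ε : ℝ) (i : ℤ) (L R j y : ℤ) : Set Env :=
  Wev μ m η (loI ε i) (hiI ε i) L R j y

def Wall (μ : ℝ × ℝ → ℝ) (m : ℕ) (η ε : ℝ) (L R j y : ℤ) : Set Env :=
  {t | ∃ i ∈ Idx μ ε, t ∈ Wi μ m η ε i L R j y}

/-- a geodesic across the strip through the origin with nearly equal slopes -/
def W0 (μ : ℝ × ℝ → ℝ) (ε : ℝ) (L R : ℤ) : Set Env :=
  {t | ∃ (Γ : Pth) (i0 : ℕ) (sR sL : ℝ), IsGeo Set.univ t Γ ∧ Γ.In (strip L R) ∧ (Γ.p 0).1 = L ∧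
    (Γ.p Γ.n).1 = R ∧ i0 ≤ Γ.n ∧ Γ.p i0 = 0 ∧ |sR| ≤ Sk μ 1 ∧ |sL| ≤ Sk μ 1 ∧ |sR - sL| ≤ ε ∧
    SlopeIn μ sR sR R (Γ.p Γ.n).2 0 0 ∧ SlopeIn μ (-sL) (-sL) (1 - L) (Γ.p 0).2 0 0}

/-- cost of the best route from `(L,a)` to `(R,b)` through the middle box at height `y` of the cut
`0 | 1`, entering at height `yf` and leaving at height `yl` -/
noncomputable def Rte (t : Env) (m : ℕ) (L R a b y yf yl : ℤ) : ℝ :=
  TD (strip L 0) t (L, a) (0, yf) + TD (midR 0 y m) t (0, yf) (1, yl) +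
    TD (strip 1 R) t (1, yl) (R, b)

/-- a route at height `y` beats by `K` all routes at heights between `Rr` and `Y` away -/
def Gap (μ : ℝ × ℝ → ℝ) (m : ℕ) (K lo hi : ℝ) (Rr Y : ℕ) (L R y : ℤ) : Set Env :=
  {t | ∃ a b yf yl : ℤ, SlopeIn μ lo hi R b 0 y ∧ SlopeIn μ (-hi) (-lo) (1 - L) a 0 y ∧
    |yf - y| ≤ m ∧ |yl - y| ≤ m ∧
    ∀ y' yf' yl' : ℤ, (Rr : ℤ) < |y' - y| → |y' - y| ≤ Y → |yf' - y'| ≤ m → |yl' - y'| ≤ m →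
      Rte t m L R a b y yf yl + K ≤ Rte t m L R a b y' yf' yl'}

/-- every `W`-path at the cut `0 | 1` and height `|y| ≤ n` stays, on the columns `(0, n]`, within
`w` of the ray of direction `θ` -/
def Tube (μ : ℝ × ℝ → ℝ) (m : ℕ) (lo hi θ w : ℝ) (n : ℕ) (L R : ℤ) : Set Env :=
  {t | ∀ (y : ℤ) (Γ : Pth) (f g l : ℕ), |y| ≤ n → WPath μ t m 0 lo hi L R 0 y Γ f g l →
    ∀ i ≤ Γ.n, 0 < (Γ.p i).1 → (Γ.p i).1 ≤ n →
      |((Γ.p i).2 : ℝ) - y - θ * (Γ.p i).1| ≤ w}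

/-- first visit to column `j` -/
noncomputable def fvt (γ : Pth) (j : ℤ) : ℕ := sInf {i | i ≤ γ.n ∧ (γ.p i).1 = j}

/-- height of the first visit to column `j` of the line from `(k, y)` -/
noncomputable def wpos (t : Env) (k N : ℤ) (s : ℝ) (j y : ℤ) : ℤ :=
  ((line t k N s (k, y)).p (fvt (line t k N s (k, y)) j)).2

def Top (t : Env) (k N : ℤ) (s : ℝ) (j y : ℤ) : Prop := wpos t k N s j y < wpos t k N s j (y + 1)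

/-- the line from `(k, y)` does not return to the columns `≤ ks` after reaching column `j` -/
def NB (t : Env) (k N : ℤ) (s : ℝ) (j ks y : ℤ) : Prop :=
  ∀ i, fvt (line t k N s (k, y)) j ≤ i → i ≤ (line t k N s (k, y)).n →
    ks < ((line t k N s (k, y)).p i).1

/-- density of first-visit heights -/
noncomputable def dens (G : Measure ℝ) (k N : ℤ) (s : ℝ) (j : ℤ) : ℝ :=
  Pr G {t | Top t k N s j 0}

/-- all lines from `(1, y)`, `|y| ≤ h`, meet inside `box 0 r` -/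
def Meet (N : ℤ) (s : ℝ) (h r : ℕ) : Set Env :=
  {t | ∀ y y' : ℤ, |y| ≤ h → |y'| ≤ h → ∃ i1 i2, i1 ≤ (line t 1 N s (1, y)).n ∧
    i2 ≤ (line t 1 N s (1, y')).n ∧ (line t 1 N s (1, y)).p i1 = (line t 1 N s (1, y')).p i2 ∧
    (∀ i ≤ i1, (line t 1 N s (1, y)).p i ∈ box 0 r) ∧
    (∀ i ≤ i2, (line t 1 N s (1, y')).p i ∈ box 0 r)}

/-- near tie at the edge `e` for the field from `x` -/
def NT (k N : ℤ) (s η : ℝ) (x : V) (e : Sym2 V) : Set Env :=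
  {t | ∃ γ δ : Pth, IsLine t k N s δ ∧ δ.p 0 = x ∧ e ∉ δ.edges ∧ γ.Ok ∧ γ.SA ∧
    γ.In (strip k N) ∧ γ.p 0 = x ∧ (γ.p γ.n).1 = N ∧ e ∈ γ.edges ∧
    γ.tot t - s * ((γ.p γ.n).2 : ℝ) ≤ Gd t k N s x + η}

/-- some near tie from a point `(1, y)`, `|y| ≤ h`, at an edge of `box (1,0) r` -/
def NTs (N : ℤ) (s η : ℝ) (h r : ℕ) : Set Env :=
  {t | ∃ y : ℤ, |y| ≤ h ∧ ∃ e ∈ edgesIn (boxF (1, 0) r), t ∈ NT 1 N s η (1, y) e}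

/-- two `W`-paths at different heights of the cut `0 | 1` -/
def Pair (μ : ℝ × ℝ → ℝ) (m : ℕ) (η lo hi : ℝ) (H : ℕ) (L R y : ℤ) : Set Env :=
  {t | t ∈ Wev μ m η lo hi L R 0 y ∧ ∃ y' : ℤ, (2 * m : ℤ) < |y' - y| ∧ |y' - y| ≤ H ∧
    t ∈ Wev μ m η lo hi L R 0 y'}

/-- two `W`-paths at different heights of the cut `j | j+1` whose right parts meet within `r` -/
def TL (μ : ℝ × ℝ → ℝ) (m : ℕ) (η lo hi : ℝ) (H r : ℕ) (L R j y : ℤ) : Set Env :=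
  {t | ∃ (y' : ℤ) (Γ1 : Pth) (f1 g1 l1 : ℕ) (Γ2 : Pth) (f2 g2 l2 i1 i2 : ℕ),
    (2 * m : ℤ) < |y' - y| ∧ |y' - y| ≤ H ∧ WPath μ t m η lo hi L R j y Γ1 f1 g1 l1 ∧
    WPath μ t m η lo hi L R j y' Γ2 f2 g2 l2 ∧ l1 < i1 ∧ i1 ≤ Γ1.n ∧ l2 < i2 ∧ i2 ≤ Γ2.n ∧
    Γ1.p i1 = Γ2.p i2 ∧ (∀ i, l1 < i → i ≤ i1 → Γ1.p i ∈ box (j, y) r) ∧
    (∀ i, l2 < i → i ≤ i2 → Γ2.p i ∈ box (j, y) r)}

/-- merge vertices of a finite family of paths -/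
def MergeV {ι : Type} (s : Finset ι) (F : ι → Pth) : Set V :=
  {c | ∃ a ∈ s, ∃ b ∈ s, ∃ i j, i < (F a).n ∧ j < (F b).n ∧ (F a).p (i + 1) = c ∧
    (F b).p (j + 1) = c ∧ (F a).p i ≠ (F b).p j}

end Crest.Agent.R151
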