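import Crest.Agent.R151.BGeo2

/-! Row 151, part B: the orientation lemma. -/

set_option autoImplicit false

namespace Crest.Agent.R151

open MeasureTheory ProbabilityTheory Crest.ProbabilityR.FirstPassage Filter Topology
open scoped Classical

/-- `ρ` supports `μ` at `v` -/
def G3Sup (μ : ℝ × ℝ → ℝ) (ρ v : ℝ × ℝ) : Prop := dot ρ v = μ v ∧ ∀ w, dot ρ w ≤ μ w

/-- the functional `dot ρ` -/
noncomputable def g3L (ρ : ℝ × ℝ) : (ℝ × ℝ) →L[ℝ] ℝ :=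
  ρ.1 • ContinuousLinearMap.fst ℝ ℝ ℝ + ρ.2 • ContinuousLinearMap.snd ℝ ℝ ℝ

theorem g3L_apply (ρ v : ℝ × ℝ) : g3L ρ v = dot ρ v := by simp [g3L, dot]

theorem g3_fderiv {μ : ℝ × ℝ → ℝ} (h : DN μ) {ρ v : ℝ × ℝ} (hv : v ≠ 0) (hs : G3Sup μ ρ v) :
    fderiv ℝ μ v = g3L ρ := by
  have h1 : IsLocalMin (fun w => μ w - g3L ρ w) v := Eventually.of_forall fun w => by
    simp only [g3L_apply]
    linarith [hs.1, hs.2 w]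
  exact sub_eq_zero.1 (h1.hasFDerivAt_eq_zero ((h.diff v hv).hasFDerivAt.sub (g3L ρ).hasFDerivAt))

theorem g3_uniq {μ : ℝ × ℝ → ℝ} (h : DN μ) {ρ τ v : ℝ × ℝ} (hv : v ≠ 0) (h1 : G3Sup μ ρ v)
    (h2 : G3Sup μ τ v) : ρ = τ := by
  have e := (g3_fderiv h hv h1).symm.trans (g3_fderiv h hv h2)
  have e1 := congrArg (fun L => L (1, 0)) e
  have e2 := congrArg (fun L => L (0, 1)) e
  simp only [g3L_apply, dot, mul_one, mul_zero, add_zero, zero_add] at e1 e2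
  exact Prod.ext e1 e2

theorem g3_closed {μ : ℝ × ℝ → ℝ} (h : DN μ) {X : Type} [TopologicalSpace X] {f g : X → ℝ × ℝ}
    (hf : Continuous f) (hg : Continuous g) : IsClosed {x | G3Sup μ (f x) (g x)} := by
  have hc := h.ok.continuous
  have e : {x | G3Sup μ (f x) (g x)} =
      {x | dot (f x) (g x) = μ (g x)} ∩ ⋂ w, {x | dot (f x) w ≤ μ w} := by
    ext x
    simp [G3Sup]
  rw [e]
  unfold dot
  exact (isClosed_eq (by fun_prop) (by fun_prop)).inter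
    (isClosed_iInter fun w => isClosed_le (by fun_prop) continuous_const)

theorem g3_ae {μ : ℝ × ℝ → ℝ} (h : DN μ) (A : ℝ) {ζ : ℝ} (hζ : 0 < ζ) : ∃ ζ' : ℝ, 0 < ζ' ∧
    ∀ p q ρ τ : ℝ × ℝ, 1 / 4 ≤ ‖p‖ → ‖p‖ ≤ A → 1 / 4 ≤ ‖q‖ → ‖q‖ ≤ A → G3Sup μ ρ p →
      G3Sup μ τ q → μ p + μ q - ζ' ≤ μ (p + q) → ‖ρ - τ‖ ≤ ζ := by
  have hc := h.ok.continuous
  set K : Set (((ℝ × ℝ) × (ℝ × ℝ)) × ((ℝ × ℝ) × (ℝ × ℝ))) :=
    {x | 1 / 4 ≤ ‖x.1.1‖} ∩ {x | ‖x.1.1‖ ≤ A} ∩ {x | 1 / 4 ≤ ‖x.1.2‖} ∩ {x | ‖x.1.2‖ ≤ A} ∩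
      {x | G3Sup μ x.2.1 x.1.1} ∩ {x | G3Sup μ x.2.2 x.1.2} ∩ {x | ζ ≤ ‖x.2.1 - x.2.2‖} with hK
  have hcl : IsClosed K :=
    ((((((isClosed_le (by fun_prop) (by fun_prop)).inter
      (isClosed_le (by fun_prop) (by fun_prop))).inter
      (isClosed_le (by fun_prop) (by fun_prop))).inter
      (isClosed_le (by fun_prop) (by fun_prop))).inter
      (g3_closed h (by fun_prop) (by fun_prop))).inter
      (g3_closed h (by fun_prop) (by fun_prop))).inter (isClosed_le (by fun_prop) (by fun_prop))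
  have hcp : IsCompact K := by
    refine (isCompact_closedBall 0 (max A (μ (0, 1)))).of_isClosed_subset hcl ?_
    rintro ⟨⟨p, q⟩, ρ, τ⟩ ⟨⟨⟨⟨⟨⟨-, h2⟩, -⟩, h4⟩, h5⟩, h6⟩, -⟩
    rw [mem_closedBall_zero_iff, Prod.norm_def, Prod.norm_def, Prod.norm_def]
    exact max_le_max (max_le h2 h4) (max_le (h.ok.support_bound h5.2) (h.ok.support_bound h6.2))
  obtain ⟨c, hc0, hc1⟩ := hcp.exists_forall_le' (a := (0 : ℝ))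
    (f := fun x => μ x.1.1 + μ x.1.2 - μ (x.1.1 + x.1.2)) (by fun_prop) (by
      rintro ⟨⟨p, q⟩, ρ, τ⟩ ⟨⟨⟨⟨⟨⟨h1, -⟩, h3⟩, -⟩, h5⟩, h6⟩, h7⟩
      have hp : p ≠ 0 := norm_pos_iff.1 (lt_of_lt_of_le (by norm_num) h1)
      have hq : q ≠ 0 := norm_pos_iff.1 (lt_of_lt_of_le (by norm_num) h3)
      by_contra hn
      obtain ⟨l, l1, l2⟩ := h.ok.exists_support (p + q)
      have e : dot l (p + q) = dot l p + dot l q := by simp [dot]; ring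
      have a1 := l2 p
      have a2 := l2 q
      have hn' : μ p + μ q - μ (p + q) ≤ 0 := not_lt.1 hn
      have e1 : ρ = l := g3_uniq h hp h5 ⟨by linarith, l2⟩
      have e2 : τ = l := g3_uniq h hq h6 ⟨by linarith, l2⟩
      have h8 : ζ ≤ ‖ρ - τ‖ := h7
      rw [e1, e2, sub_self, norm_zero] at h8
      linarith)
  refine ⟨c / 2, half_pos hc0, fun p q ρ τ h1 h2 h3 h4 h5 h6 h7 => ?_⟩
  by_contra hn
  have := hc1 ((p, q), ρ, τ) ⟨⟨⟨⟨⟨⟨h1, h2⟩, h3⟩, h4⟩, h5⟩, h6⟩, (not_le.1 hn).le⟩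
  simp only at this
  linarith

/-- near equality in the triangle inequality forces nearly equal gradients -/
theorem DN.almost_eq {μ : ℝ × ℝ → ℝ} (h : DN μ) {A ζ : ℝ} (hζ : 0 < ζ) : ∃ ζ' : ℝ, 0 < ζ' ∧
    ∀ p q : ℝ × ℝ, 1 / 4 ≤ ‖p‖ → ‖p‖ ≤ A → 1 / 4 ≤ ‖q‖ → ‖q‖ ≤ A → μ p + μ q - ζ' ≤ μ (p + q) →
      ‖fderiv ℝ μ p - fderiv ℝ μ q‖ ≤ ζ := by
  obtain ⟨ζ', h0, H⟩ := g3_ae h A (half_pos hζ)
  refine ⟨ζ', h0, fun p q h1 h2 h3 h4 h5 => ?_⟩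
  obtain ⟨ρ, hρ⟩ := h.ok.exists_support p
  obtain ⟨τ, hτ⟩ := h.ok.exists_support q
  have h6 := H p q ρ τ h1 h2 h3 h4 hρ hτ h5
  rw [g3_fderiv h (norm_pos_iff.1 (lt_of_lt_of_le (by norm_num) h1)) hρ,
    g3_fderiv h (norm_pos_iff.1 (lt_of_lt_of_le (by norm_num) h3)) hτ]
  refine ContinuousLinearMap.opNorm_le_bound _ hζ.le fun w => ?_
  have e : (g3L ρ - g3L τ) w = (ρ - τ).1 * w.1 + (ρ - τ).2 * w.2 := by
    simp [g3L]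
    ring
  rw [e]
  refine (norm_add_le _ _).trans ?_
  rw [norm_mul, norm_mul]
  have a1 := mul_le_mul ((norm_fst_le (ρ - τ)).trans h6) (norm_fst_le w) (norm_nonneg _)
    (half_pos hζ).le
  have a2 := mul_le_mul ((norm_snd_le (ρ - τ)).trans h6) (norm_snd_le w) (norm_nonneg _)
    (half_pos hζ).le
  linarith

theorem G3Sup.smul {μ : ℝ × ℝ → ℝ} (h : DN μ) {ρ v : ℝ × ℝ} (hs : G3Sup μ ρ v) {c : ℝ}
    (hc : 0 ≤ c) : G3Sup μ ρ (c • v) := by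
  refine ⟨?_, hs.2⟩
  rw [h.ok.smul c v hc, ← hs.1]
  simp [dot]
  ring

theorem G3Sup.neg {μ : ℝ × ℝ → ℝ} (h : DN μ) {ρ v : ℝ × ℝ} (hs : G3Sup μ ρ v) :
    G3Sup μ (-ρ) (-v) := by
  refine ⟨?_, fun w => ?_⟩
  · rw [h.ok.neg, ← hs.1]
    simp [dot]
  · have := hs.2 (-w)
    rw [h.ok.neg] at this
    simpa [dot] using this

theorem G3Sup.swap {μ : ℝ × ℝ → ℝ} (h : DN μ) {ρ v : ℝ × ℝ} (hs : G3Sup μ ρ v) :
    G3Sup μ (ρ.2, ρ.1) (v.2, v.1) := by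
  refine ⟨?_, fun w => ?_⟩
  · rw [h.ok.swap, ← hs.1]
    simp [dot]
    ring
  · have := hs.2 (w.2, w.1)
    rw [h.ok.swap] at this
    simp only [dot] at this ⊢
    linarith

theorem g3_ae' {μ : ℝ × ℝ → ℝ} (h : DN μ) (A : ℝ) {ζ : ℝ} (hζ : 0 < ζ) : ∃ ζ' : ℝ, 0 < ζ' ∧
    ∀ (N : ℝ) (p q ρ τ : ℝ × ℝ), 0 < N → N ≤ 4 * ‖p‖ → ‖p‖ ≤ A * N → N ≤ 4 * ‖q‖ → ‖q‖ ≤ A * N →
      G3Sup μ ρ p → G3Sup μ τ q → μ p + μ q - ζ' * N ≤ μ (p + q) → ‖ρ - τ‖ ≤ ζ := by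
  obtain ⟨ζ', h0, H⟩ := g3_ae h A hζ
  refine ⟨ζ', h0, fun N p q ρ τ hN h1 h2 h3 h4 h5 h6 h7 => ?_⟩
  have hi : 0 < N⁻¹ := inv_pos.2 hN
  have n1 : ∀ v : ℝ × ℝ, N ≤ 4 * ‖v‖ → 1 / 4 ≤ ‖N⁻¹ • v‖ := fun v hv => by
    rw [norm_smul, Real.norm_eq_abs, abs_of_pos hi, le_inv_mul_iff₀ hN]
    linarith
  have n2 : ∀ v : ℝ × ℝ, ‖v‖ ≤ A * N → ‖N⁻¹ • v‖ ≤ A := fun v hv => by
    rw [norm_smul, Real.norm_eq_abs, abs_of_pos hi, inv_mul_le_iff₀ hN]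
    linarith
  refine H (N⁻¹ • p) (N⁻¹ • q) ρ τ (n1 p h1) (n2 p h2) (n1 q h3) (n2 q h4) (h5.smul h hi.le)
    (h6.smul h hi.le) ?_
  rw [← smul_add, h.ok.smul _ _ hi.le, h.ok.smul _ _ hi.le, h.ok.smul _ _ hi.le]
  have := mul_le_mul_of_nonneg_left h7 hi.le
  rwa [mul_sub, mul_add, mul_left_comm, inv_mul_cancel₀ hN.ne', mul_one] at this

theorem g3_sym {μ : ℝ × ℝ → ℝ} (h : DN μ) (ρ₀ : ℝ × ℝ) :
    ∃ σ : V ≃ V, (σ = Equiv.refl V ∨ σ = ngt ∨ σ = swp ∨ σ = swp.trans ngt) ∧ ∃ ρ₁ : ℝ × ℝ,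
      |ρ₁.2| ≤ ρ₁.1 ∧ ∀ (v : V) (ρ : ℝ × ℝ), G3Sup μ ρ (rv v) → nrm (σ v) = nrm v ∧
        ∃ ρ', G3Sup μ ρ' (rv (σ v)) ∧ ‖ρ' - ρ₁‖ = ‖ρ - ρ₀‖ := by
  rcases le_total |ρ₀.2| |ρ₀.1| with h1 | h1
  · rcases le_total 0 ρ₀.1 with h2 | h2
    · exact ⟨_, Or.inl rfl, ρ₀, by rwa [abs_of_nonneg h2] at h1, fun v ρ hs => ⟨rfl, ρ, hs, rfl⟩⟩
    · refine ⟨_, Or.inr (Or.inl rfl), -ρ₀, by simpa [abs_of_nonpos h2] using h1, fun v ρ hs =>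
        ⟨by simp [nrm], -ρ, by simpa [rv_neg] using hs.neg h, ?_⟩⟩
      rw [← norm_neg]
      congr 1
      abel
  · rcases le_total 0 ρ₀.2 with h2 | h2
    · refine ⟨_, Or.inr (Or.inr (Or.inl rfl)), (ρ₀.2, ρ₀.1), by rwa [abs_of_nonneg h2] at h1,
        fun v ρ hs => ⟨by simp [nrm, max_comm], (ρ.2, ρ.1), hs.swap h, ?_⟩⟩
      simp [Prod.norm_def, max_comm]
    · refine ⟨_, Or.inr (Or.inr (Or.inr rfl)), -(ρ₀.2, ρ₀.1),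
        by simpa [abs_of_nonpos h2] using h1, fun v ρ hs => ⟨by simp [nrm, max_comm], -(ρ.2, ρ.1),
          by simpa [rv_neg, rv] using (hs.swap h).neg h, ?_⟩⟩
      rw [neg_sub_neg, norm_sub_rev]
      simp [Prod.norm_def, max_comm]

theorem g3_slp {μ : ℝ × ℝ → ℝ} (h : DN μ) {ρ v : ℝ × ℝ} (hs : G3Sup μ ρ v) (hv : 0 < v.1) :
    slp μ (v.2 / v.1) = ρ.2 := by
  have e : μ (1, v.2 / v.1) = ρ.1 + ρ.2 * (v.2 / v.1) := by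
    have h1 := h.ok.homog hv v.2
    have h2 := hs.1
    simp only [dot] at h2
    apply mul_left_cancel₀ hv.ne'
    rw [← h1, ← h2]
    field_simp
  have h1 : IsLocalMin (fun x : ℝ => μ (1, x) - ρ.2 * x) (v.2 / v.1) :=
    Eventually.of_forall fun x => by
      have := hs.2 (1, x)
      simp only [dot] at this ⊢
      linarith
  have h2 := h1.hasDerivAt_eq_zero
    ((h.hasDerivAt (v.2 / v.1)).sub ((hasDerivAt_id (v.2 / v.1)).const_mul ρ.2))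
  linarith

theorem g3_real {μ : ℝ × ℝ → ℝ} (h : DN μ) {ρ v : ℝ × ℝ} (hs : G3Sup μ ρ v) (hv : 0 < ‖v‖)
    (hρ : |ρ.2| ≤ ρ.1 + g0 μ) :
    |ρ.2| ≤ slp μ 1 + g0 μ / 2 ∧ 0 < v.1 ∧ g0 μ * ‖v‖ ≤ m1 μ * v.1 := by
  have hg := h.g0_pos
  have h1 : |ρ.2| ≤ slp μ 1 + g0 μ / 2 := by
    have a1 := hs.2 (1, 1)
    have a2 := hs.2 (1, -1)
    rw [h.ok.refl2] at a2
    simp only [dot] at a1 a2
    have a3 := h.two_slp_one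
    rcases abs_cases ρ.2 with a | a <;> linarith [a.1]
  have h2 := h.m1_norm_le v
  have h3 := hs.1
  simp only [dot] at h3
  have h4 : m1 μ = slp μ 1 + 8 * g0 μ := by unfold g0; ring
  have h5 : ρ.2 * v.2 ≤ (slp μ 1 + g0 μ / 2) * ‖v‖ := by
    refine (le_abs_self _).trans ?_
    rw [abs_mul]
    exact mul_le_mul h1 (norm_snd_le v) (abs_nonneg _) ((abs_nonneg _).trans h1)
  have h6 : 7 * (g0 μ * ‖v‖) ≤ ρ.1 * v.1 := by nlinarith [mul_pos hg hv]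
  have h7 : |v.1| ≤ ‖v‖ := norm_fst_le v
  have h8 : 0 < v.1 := by
    by_contra hn
    have hn' := not_lt.1 hn
    rw [abs_of_nonpos hn'] at h7
    have := abs_nonneg ρ.2
    nlinarith [mul_pos hg hv, mul_le_mul_of_nonneg_left h7 hg.le,
      mul_nonneg (show 0 ≤ ρ.1 + g0 μ by linarith) (neg_nonneg.2 hn')]
  refine ⟨h1, h8, ?_⟩
  have h9 : ρ.1 ≤ m1 μ := (le_abs_self _).trans ((norm_fst_le ρ).trans (h.ok.support_bound hs.2))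
  nlinarith [mul_pos hg hv, mul_le_mul_of_nonneg_right h9 h8.le]

theorem g3_shift {x z B d δ N : ℝ} (hx : 0 < x) (hd0 : 0 ≤ d) (hd1 : d ≤ 1) (hz : |z| ≤ B * x)
    (hN : N ≤ 4 * (B * x)) (hδ : 0 < δ) (hB : 0 < B) (hM : 4 * B ^ 2 < δ * N) :
    |z / x| ≤ B ∧ |z / (x + d)| ≤ B ∧ |z / (x + d) - z / x| < δ := by
  have hxd : 0 < x + d := by linarith
  refine ⟨?_, ?_, ?_⟩
  · rw [abs_div, abs_of_pos hx, div_le_iff₀ hx]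
    exact hz
  · rw [abs_div, abs_of_pos hxd, div_le_iff₀ hxd]
    nlinarith
  · have e : z / (x + d) - z / x = -(z * d) / (x * (x + d)) := by
      field_simp
      ring
    rw [e, abs_div, abs_neg, abs_mul, abs_of_nonneg hd0, abs_of_pos (mul_pos hx hxd),
      div_lt_iff₀ (mul_pos hx hxd)]
    have h1 : B < δ * x := by
      have := mul_le_mul_of_nonneg_left hN hδ.le
      nlinarith
    have h2 : |z| * d ≤ B * x := (mul_le_of_le_one_right (abs_nonneg z) hd1).trans hz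
    nlinarith [mul_lt_mul_of_pos_right h1 hx, mul_nonneg (mul_pos hδ hx).le hd0]

/-- orientation lemma for two families of lattice vectors at scale `N0` -/
theorem DN.orient {μ : ℝ × ℝ → ℝ} (h : DN μ) : ∃ B : ℕ, 1 ≤ B ∧ ∀ (A : ℕ) (ε : ℝ), 0 < ε →
    ∃ (ζ : ℝ) (M : ℕ), 0 < ζ ∧ ∀ N0 : ℕ, M ≤ N0 → ∀ P Q : Set V, P.Nonempty → Q.Nonempty →
      (∀ v ∈ P ∪ Q, N0 ≤ 4 * nrm v ∧ nrm v ≤ A * N0) →
      (∀ p ∈ P, ∀ q ∈ Q, μ (rv p) + μ (rv q) - ζ * N0 ≤ μ (rv (p + q))) →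
      ∃ σ : V ≃ V, (σ = Equiv.refl V ∨ σ = ngt ∨ σ = swp ∨ σ = swp.trans ngt) ∧
        ∀ v ∈ P ∪ Q, (nrm v : ℤ) ≤ B * (σ v).1 ∧ ∀ d : ℤ, (d = 0 ∨ d = 1) →
          |slp μ (((σ v).2 : ℝ) / (((σ v).1 + d : ℤ) : ℝ))| ≤ Sk μ 1 ∧
          ∀ w ∈ P ∪ Q, ∀ d' : ℤ, (d' = 0 ∨ d' = 1) →
            |slp μ (((σ v).2 : ℝ) / (((σ v).1 + d : ℤ) : ℝ)) -
              slp μ (((σ w).2 : ℝ) / (((σ w).1 + d' : ℤ) : ℝ))| ≤ ε := by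
  have hg := h.g0_pos
  obtain ⟨B, hB1, hB⟩ : ∃ B : ℕ, 1 ≤ B ∧ m1 μ ≤ g0 μ * B := by
    obtain ⟨n, hn⟩ := exists_nat_ge (m1 μ / g0 μ)
    refine ⟨n + 1, by omega, ?_⟩
    rw [div_le_iff₀ hg] at hn
    push_cast
    linarith
  have hB0 : (0 : ℝ) < B := by exact_mod_cast hB1
  refine ⟨B, hB1, fun A ε hε => ?_⟩
  obtain ⟨e, he, he1, he2⟩ : ∃ e : ℝ, 0 < e ∧ e ≤ ε / 8 ∧ e ≤ g0 μ / 4 :=
    ⟨min (ε / 8) (g0 μ / 4), by positivity, min_le_left _ _, min_le_right _ _⟩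
  obtain ⟨ζ, hζ, H⟩ := g3_ae' h A he
  obtain ⟨δ, hδ, U⟩ := Metric.uniformContinuousOn_iff.1
    ((isCompact_Icc (a := -(B : ℝ)) (b := B)).uniformContinuousOn_of_continuous
      h.slp_continuous.continuousOn) e he
  obtain ⟨M, hM⟩ := exists_nat_gt (4 * (B : ℝ) ^ 2 / δ)
  refine ⟨ζ, M, hζ, fun N0 hN0 P Q ⟨p0, hp0⟩ ⟨q0, hq0⟩ hn hpq => ?_⟩
  have hM' : 4 * (B : ℝ) ^ 2 < δ * N0 := by
    rw [div_lt_iff₀ hδ] at hM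
    have : (M : ℝ) ≤ N0 := by exact_mod_cast hN0
    nlinarith
  have hN : (0 : ℝ) < N0 := (pos_iff_pos_of_mul_pos (lt_of_le_of_lt (by positivity) hM')).1 hδ
  have n1 : ∀ v ∈ P ∪ Q, (N0 : ℝ) ≤ 4 * ‖rv v‖ := fun v hv => by
    rw [norm_rv]; exact_mod_cast (hn v hv).1
  have n2 : ∀ v ∈ P ∪ Q, ‖rv v‖ ≤ (A : ℝ) * N0 := fun v hv => by
    rw [norm_rv]; exact_mod_cast (hn v hv).2
  have H' : ∀ p ∈ P, ∀ q ∈ Q, ∀ ρ τ, G3Sup μ ρ (rv p) → G3Sup μ τ (rv q) → ‖ρ - τ‖ ≤ e :=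
    fun p hp q hq ρ τ h1 h2 => H N0 _ _ ρ τ hN (n1 p (Or.inl hp)) (n2 p (Or.inl hp))
      (n1 q (Or.inr hq)) (n2 q (Or.inr hq)) h1 h2 (by rw [← rv_add]; exact hpq p hp q hq)
  obtain ⟨ρ₀, hρ₀⟩ := h.ok.exists_support (rv q0)
  obtain ⟨τ₀, hτ₀⟩ := h.ok.exists_support (rv p0)
  have near : ∀ v ∈ P ∪ Q, ∀ ρ, G3Sup μ ρ (rv v) → ‖ρ - ρ₀‖ ≤ 2 * e := by
    rintro v (hv | hv) ρ hρ
    · linarith [H' v hv q0 hq0 ρ ρ₀ hρ hρ₀]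
    · have a1 := H' p0 hp0 v hv τ₀ ρ hτ₀ hρ
      have a2 := H' p0 hp0 q0 hq0 τ₀ ρ₀ hτ₀ hρ₀
      have a3 := norm_sub_le_norm_sub_add_norm_sub ρ τ₀ ρ₀
      rw [norm_sub_rev] at a1
      linarith
  obtain ⟨σ, hσ, ρ₁, hρ₁, S⟩ := g3_sym h ρ₀
  have core : ∀ v ∈ P ∪ Q, (nrm v : ℤ) ≤ B * (σ v).1 ∧ ∃ b : ℝ, |b| ≤ slp μ 1 + g0 μ / 2 ∧
      |b - ρ₁.2| ≤ 2 * e ∧ ∀ d : ℤ, (d = 0 ∨ d = 1) →
        |slp μ (((σ v).2 : ℝ) / (((σ v).1 + d : ℤ) : ℝ)) - b| ≤ e := by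
    intro v hv
    obtain ⟨ρ, hρ⟩ := h.ok.exists_support (rv v)
    obtain ⟨e1, ρ', s', e2⟩ := S v ρ hρ
    have a1 : ‖ρ' - ρ₁‖ ≤ 2 * e := e2 ▸ near v hv ρ hρ
    have a2 : |ρ'.1 - ρ₁.1| ≤ 2 * e := (norm_fst_le (ρ' - ρ₁)).trans a1
    have a3 : |ρ'.2 - ρ₁.2| ≤ 2 * e := (norm_snd_le (ρ' - ρ₁)).trans a1
    have a4 : (N0 : ℝ) ≤ 4 * ‖rv (σ v)‖ := by
      rw [norm_rv, e1, ← norm_rv]; exact n1 v hv
    obtain ⟨b1, b2, b3⟩ := g3_real h s' (by linarith) (by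
      have := abs_sub_abs_le_abs_sub ρ'.2 ρ₁.2
      have := (abs_le.1 a2).1
      linarith)
    have b4 : ‖rv (σ v)‖ ≤ B * (rv (σ v)).1 := by
      refine le_of_mul_le_mul_left (b3.trans ?_) hg
      rw [← mul_assoc]
      exact mul_le_mul_of_nonneg_right hB b2.le
    refine ⟨?_, ρ'.2, b1, a3, fun d hd => ?_⟩
    · rw [norm_rv, e1] at b4
      simp only [rv] at b4
      exact_mod_cast b4
    · obtain ⟨c1, c2, c3⟩ := g3_shift (d := (d : ℝ)) (z := (rv (σ v)).2) b2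
        (by rcases hd with rfl | rfl <;> simp) (by rcases hd with rfl | rfl <;> simp)
        ((norm_snd_le (rv (σ v))).trans b4) (a4.trans (by linarith)) hδ hB0 hM'
      have c4 := U _ (abs_le.1 c2) _ (abs_le.1 c1) c3
      rw [g3_slp h s' b2, Real.dist_eq] at c4
      push_cast
      exact c4.le
  refine ⟨σ, hσ, fun v hv => ?_⟩
  obtain ⟨c1, b, c2, c3, c4⟩ := core v hv
  refine ⟨c1, fun d hd => ⟨?_, fun w hw d' hd' => ?_⟩⟩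
  · have a1 := c4 d hd
    have a2 := abs_sub_abs_le_abs_sub (slp μ (((σ v).2 : ℝ) / (((σ v).1 + d : ℤ) : ℝ))) b
    simp only [Sk, Nat.cast_one, one_mul]
    linarith
  · obtain ⟨-, b', -, c3', c4'⟩ := core w hw
    have a1 := abs_le.1 (c4 d hd)
    have a2 := abs_le.1 (c4' d' hd')
    have a3 := abs_le.1 c3
    have a4 := abs_le.1 c3'
    rw [abs_le]
    constructor <;> linarith [a1.1, a1.2, a2.1, a2.2, a3.1, a3.2, a4.1, a4.2]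

end Crest.Agent.R151
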