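import Crest.Agent.R151.BW1
import Crest.Agent.R151.BGeo3

/-! Row 151, part B: a bigeodesic through the origin produces the finite-volume event `W0`. -/

set_option autoImplicit false

namespace Crest.Agent.R151

open MeasureTheory ProbabilityTheory Crest.ProbabilityR.FirstPassage Filter Topology
open scoped Classical

variable {G : Measure ℝ} [Law G]

/-- an injective nearest-neighbour sequence from the origin reaches every level -/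
theorem bw2_escape {u : ℕ → V} (hu : Function.Injective u) (h0 : u 0 = 0)
    (hs : ∀ k, nrm (u (k + 1) - u k) ≤ 1) (r : ℕ) :
    ∃ τ, nrm (u τ) = r ∧ ∀ k < τ, nrm (u k) < r := by
  have hex : ∃ j, r ≤ nrm (u j) := by
    by_contra hc
    push Not at hc
    have : (Set.range u).Finite := by
      refine (boxF 0 r).finite_toSet.subset ?_
      rintro _ ⟨j, rfl⟩
      rw [coe_boxF]
      show nrm (u j - 0) ≤ r
      rw [sub_zero]; exact (hc j).le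
    exact Set.infinite_range_of_injective hu this
  obtain ⟨j, hj⟩ := hex
  obtain ⟨k, -, -, h1, h2⟩ := exists_first_level (fun k => (nrm (u k) : ℤ)) (Nat.zero_le j)
    (fun k _ _ => by
      have a1 := nrm_triangle 0 (u k) (u (k + 1))
      have a2 := nrm_triangle 0 (u (k + 1)) (u k)
      rw [nrm_sub_comm (u k) (u (k + 1))] at a2
      simp only [sub_zero] at a1 a2
      have := hs k
      rw [abs_le]; constructor <;> omega) (r : ℤ)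
    (by simp only [h0, nrm_zero]; omega) (by exact_mod_cast hj)
  exact ⟨k, by exact_mod_cast h1, fun k' hk' => by exact_mod_cast h2 k' (Nat.zero_le _) hk'⟩

theorem bw2_small (K : ℝ) (A : ℕ) {ζ : ℝ} (hζ : 0 < ζ) : ∃ M : ℕ, ∀ N : ℕ, M ≤ N →
    K * ((A * N : ℕ) : ℝ) ^ ((3 : ℝ) / 4) ≤ ζ * N := by
  have ht : Tendsto (fun N : ℕ => (N : ℝ) ^ ((1 : ℝ) / 4)) atTop atTop :=
    (tendsto_rpow_atTop (by norm_num)).comp tendsto_natCast_atTop_atTop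
  obtain ⟨M, hM⟩ := eventually_atTop.1 (ht.eventually_ge_atTop (K * (A : ℝ) ^ ((3 : ℝ) / 4) / ζ))
  refine ⟨M, fun N hN => ?_⟩
  have h1 := hM N hN
  rw [div_le_iff₀ hζ] at h1
  have hN0 : (0 : ℝ) ≤ N := Nat.cast_nonneg N
  have e1 : ((A * N : ℕ) : ℝ) ^ ((3 : ℝ) / 4) = (A : ℝ) ^ ((3 : ℝ) / 4) * (N : ℝ) ^ ((3 : ℝ) / 4) := by
    push_cast
    exact Real.mul_rpow (Nat.cast_nonneg A) hN0
  have e2 : (N : ℝ) = (N : ℝ) ^ ((1 : ℝ) / 4) * (N : ℝ) ^ ((3 : ℝ) / 4) := by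
    rw [← Real.rpow_add' hN0 (by norm_num)]
    norm_num
  have h3 : 0 ≤ (N : ℝ) ^ ((3 : ℝ) / 4) := Real.rpow_nonneg hN0 _
  rw [e1]
  calc K * ((A : ℝ) ^ ((3 : ℝ) / 4) * (N : ℝ) ^ ((3 : ℝ) / 4))
      = (K * (A : ℝ) ^ ((3 : ℝ) / 4)) * (N : ℝ) ^ ((3 : ℝ) / 4) := by ring
    _ ≤ ((N : ℝ) ^ ((1 : ℝ) / 4) * ζ) * (N : ℝ) ^ ((3 : ℝ) / 4) :=
        mul_le_mul_of_nonneg_right h1 h3
    _ = ζ * ((N : ℝ) ^ ((1 : ℝ) / 4) * (N : ℝ) ^ ((3 : ℝ) / 4)) := by ring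
    _ = ζ * N := by rw [← e2]

theorem bw2_sym {σ : V ≃ V} (h : σ = Equiv.refl V ∨ σ = ngt ∨ σ = swp ∨ σ = swp.trans ngt) :
    IsAut σ ∧ σ 0 = 0 ∧ (∀ x, σ (-x) = -σ x) ∧ (∀ x, nrm (σ x) = nrm x) ∧
      ∀ x y, nrm (σ x - σ y) = nrm (x - y) := by
  rcases h with rfl | rfl | rfl | rfl
  · exact ⟨isAut_refl, rfl, fun _ => rfl, fun _ => rfl, fun _ _ => rfl⟩
  · refine ⟨isAut_ngt, by simp, fun _ => by simp, fun x => by simp [nrm_neg], fun x y => ?_⟩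
    rw [ngt_apply, ngt_apply, neg_sub_neg, nrm_sub_comm]
  · refine ⟨isAut_swp, rfl, fun _ => rfl, fun x => ?_, fun x y => ?_⟩
    · simp only [swp_apply, nrm]; exact max_comm _ _
    · simp only [swp_apply, nrm, Prod.fst_sub, Prod.snd_sub]; exact max_comm _ _
  · refine ⟨isAut_swp.trans isAut_ngt, by simp, fun _ => by simp, fun x => ?_, fun x y => ?_⟩
    · simp only [Equiv.trans_apply, ngt_apply, swp_apply, nrm_neg]
      simp only [nrm]; exact max_comm _ _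
    · simp only [Equiv.trans_apply, ngt_apply, swp_apply]
      rw [neg_sub_neg, nrm_sub_comm]
      simp only [nrm, Prod.fst_sub, Prod.snd_sub]; exact max_comm _ _

/-- near additivity of the norm along a bigeodesic -/
theorem bw2_add {C : ℝ} {L : ℕ} (hL : 1 ≤ L) {t : Env} (ht : NN t) {v : ℤ → V}
    (hv : IsBigeodesic t v) (h0 : v 0 = 0) (hU : t ∈ Up G C 0 L)
    (hlow : ∀ x ∈ box 0 L, ∀ z ∈ box 0 L,
      mu G (rv (z - x)) - (L : ℝ) ^ ((3 : ℝ) / 5) ≤ T t x z)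
    {Jp Jm i i' : ℕ} (hp : nrm (v Jp) = 2 * L) (hm : nrm (v (-(Jm : ℤ))) = 2 * L) (hi : i ≤ Jp)
    (hi' : i' ≤ Jm) (bi : nrm (v i) ≤ L) (bi' : nrm (v (-(i' : ℤ))) ≤ L) :
    mu G (rv (v i)) + mu G (rv (-v (-(i' : ℤ)))) - (2 + |C|) * (L : ℝ) ^ ((3 : ℝ) / 4) ≤
      mu G (rv (v i + -v (-(i' : ℤ)))) := by
  set γ := seg v (-(Jm : ℤ)) (Jm + Jp) with hγ
  have hn : γ.n = Jm + Jp := rfl
  have hg : IsGeo Set.univ t γ := isGeo_seg ht hv _ _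
  have pa : γ.p (Jm - i') = v (-(i' : ℤ)) := by
    rw [hγ, seg_p _ _ _ (by omega)]; congr 1; push_cast [hi']; ring
  have po : γ.p Jm = 0 := by
    rw [hγ, seg_p _ _ _ (by omega), neg_add_cancel, h0]
  have pb : γ.p (Jm + i) = v i := by
    rw [hγ, seg_p _ _ _ (by omega)]; congr 1; push_cast; ring
  have p0 : γ.p 0 = v (-(Jm : ℤ)) := by
    rw [hγ, seg_p _ _ _ (by omega)]; congr 1; simp
  have pn : γ.p γ.n = v Jp := by
    rw [hn, hγ, seg_p _ _ _ le_rfl]; congr 1; push_cast; ring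
  have ba : v (-(i' : ℤ)) ∈ box 0 L := by show nrm (_ - 0) ≤ L; rwa [sub_zero]
  have bb : v i ∈ box 0 L := by show nrm (_ - 0) ≤ L; rwa [sub_zero]
  have hL1 : (L : ℝ) ^ ((1 : ℝ) / 10) ≤ L := by
    have := tup_rpow_le hL (a := (1 : ℝ) / 10) (b := 1) (by norm_num)
    rwa [Real.rpow_one] at this
  have hL2 : (L : ℝ) ^ ((3 : ℝ) / 5) ≤ (L : ℝ) ^ ((3 : ℝ) / 4) := tup_rpow_le hL (by norm_num)
  have hup := Up.geo_cost G ht hU hg (i := Jm - i') (j := Jm + i) (by omega) (by omega)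
    (by rwa [pa]) (by rwa [pb])
    (by
      rw [p0, pa]
      refine hL1.trans ?_
      have := nrm_triangle 0 (v (-(i' : ℤ))) (v (-(Jm : ℤ)))
      simp only [sub_zero] at this
      exact_mod_cast (by omega : L ≤ nrm (v (-(Jm : ℤ)) - v (-(i' : ℤ)))))
    (by
      rw [pn, pb]
      refine hL1.trans ?_
      have := nrm_triangle 0 (v i) (v Jp)
      simp only [sub_zero] at this
      exact_mod_cast (by omega : L ≤ nrm (v Jp - v i)))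
  have c1 := hg.cost_eq ht (a := Jm - i') (b := Jm) (by omega) (by omega)
  have c2 := hg.cost_eq ht (a := Jm) (b := Jm + i) (by omega) (by omega)
  have c3 := γ.cost_add t (a := Jm - i') (b := Jm) (c := Jm + i) (by omega) (by omega)
  rw [pa, po] at c1
  rw [po, pb] at c2
  rw [pa, pb] at hup
  have l1 := hlow _ ba _ (mem_box_self 0 L)
  have l2 := hlow _ (mem_box_self 0 L) _ bb
  rw [zero_sub] at l1
  rw [sub_zero] at l2
  have h3 : 0 ≤ (L : ℝ) ^ ((3 : ℝ) / 4) := Real.rpow_nonneg (Nat.cast_nonneg _) _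
  have h4 : C * (L : ℝ) ^ ((3 : ℝ) / 4) ≤ |C| * (L : ℝ) ^ ((3 : ℝ) / 4) :=
    mul_le_mul_of_nonneg_right (le_abs_self C) h3
  rw [← sub_eq_add_neg]
  unfold T at l1 l2
  nlinarith

/-- first passage of a half of the bigeodesic to a given column -/
theorem bw2_col {B N0 : ℕ} (hB : 1 ≤ B) {u : ℕ → V} (h0 : u 0 = 0)
    (hs : ∀ k, nrm (u (k + 1) - u k) ≤ 1) {τ : ℕ} (hτ : nrm (u τ) = (2 * B + 1) * N0)
    (hN0 : 1 ≤ N0) (hP : ∀ k ≤ τ, N0 ≤ 4 * nrm (u k) → (nrm (u k) : ℤ) ≤ B * (u k).1) {c : ℤ}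
    (hc0 : 0 ≤ c) (hc : c < 2 * N0) :
    ∃ i ≤ τ, (u i).1 = c ∧ ∀ k ≤ i, (u k).1 ≤ c ∧ -(N0 : ℤ) < 4 * (u k).1 := by
  have hτ' : c ≤ (u τ).1 := by
    have h1 := hP τ le_rfl (by rw [hτ]; nlinarith)
    rw [hτ] at h1
    push_cast at h1
    by_contra hlt
    push Not at hlt
    have hB' : (1 : ℤ) ≤ B := by exact_mod_cast hB
    have hN' : (1 : ℤ) ≤ N0 := by exact_mod_cast hN0
    have : (B : ℤ) * (u τ).1 ≤ B * (2 * N0) := mul_le_mul_of_nonneg_left (by omega) (by omega)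
    nlinarith
  obtain ⟨i, -, hi, h1, h2⟩ := exists_first_level (fun k => (u k).1) (Nat.zero_le τ)
    (fun k _ _ => by
      have a1 := abs_fst_le_nrm (u (k + 1) - u k)
      have a2 := hs k
      rw [Prod.fst_sub] at a1
      exact a1.trans (by exact_mod_cast a2)) c (by simp only [h0]; exact hc0) hτ'
  refine ⟨i, hi, h1, fun k hk => ⟨?_, ?_⟩⟩
  · rcases hk.lt_or_eq with hk' | rfl
    · exact (h2 k (Nat.zero_le _) hk').le
    · exact h1.le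
  · by_cases hk4 : N0 ≤ 4 * nrm (u k)
    · have h3 := hP k (hk.trans hi) hk4
      have hB' : (1 : ℤ) ≤ B := by exact_mod_cast hB
      have : 0 ≤ (u k).1 := by
        by_contra hneg
        push Not at hneg
        have : (B : ℤ) * (u k).1 < 0 := mul_neg_of_pos_of_neg (by omega) hneg
        omega
      omega
    · have a1 := abs_le.1 (abs_fst_le_nrm (u k))
      omega

/-- deterministic part -/
theorem w0_of_bigeo (hd : DN (mu G)) : ∃ A : ℕ, 1 ≤ A ∧ ∀ (C ε : ℝ), 0 < ε → ∃ M : ℕ, ∀ N0 : ℕ,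
    M ≤ N0 → ∀ t : Env, NN t → (∃ v : ℤ → V, IsBigeodesic t v ∧ v 0 = 0) → t ∈ Up G C 0 (A * N0) →
      (∀ x ∈ box 0 (A * N0), ∀ z ∈ box 0 (A * N0),
        mu G (rv (z - x)) - ((A * N0 : ℕ) : ℝ) ^ ((3 : ℝ) / 5) ≤ T t x z) →
      ∃ σ : V ≃ V, (σ = Equiv.refl V ∨ σ = ngt ∨ σ = swp ∨ σ = swp.trans ngt) ∧
        ∀ N1 N2 : ℤ, (N0 : ℤ) ≤ N1 → N1 < 2 * N0 → (N0 : ℤ) ≤ N2 → N2 < 2 * N0 →
          act σ.symm t ∈ W0 (mu G) ε (1 - N1) N2 := by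
  obtain ⟨B, hB, hor⟩ := hd.orient
  refine ⟨2 * B + 1, by omega, fun C ε hε => ?_⟩
  obtain ⟨ζ, M1, hζ, hor⟩ := hor (2 * B + 1) ε hε
  obtain ⟨M2, hM2⟩ := bw2_small (2 + |C|) (2 * B + 1) hζ
  refine ⟨max 2 (max M1 M2), fun N0 hN0 t ht ⟨v, hv, h0⟩ hU hlow => ?_⟩
  have hN2 : 2 ≤ N0 := le_trans (le_max_left _ _) hN0
  have hNM1 : M1 ≤ N0 := le_trans ((le_max_left _ _).trans (le_max_right _ _)) hN0
  have hNM2 : M2 ≤ N0 := le_trans ((le_max_right _ _).trans (le_max_right _ _)) hN0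
  obtain ⟨L, hLe⟩ : ∃ L : ℕ, L = (2 * B + 1) * N0 := ⟨_, rfl⟩
  have hsm := hM2 N0 hNM2
  rw [← hLe] at hU hlow hsm
  have hLN : N0 ≤ L := by rw [hLe]; nlinarith
  have hL : 1 ≤ L := by omega
  have ip : Function.Injective (fun k : ℕ => v k) := fun a b h => by
    have := hv.1 h
    omega
  have im : Function.Injective (fun k : ℕ => v (-(k : ℤ))) := fun a b h => by
    have := hv.1 h
    omega
  have sp : ∀ k : ℕ, nrm (v ((k + 1 : ℕ) : ℤ) - v k) ≤ 1 := fun k => by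
    have : Adj (v k) (v (k + 1)) := hv.2.1 k
    push_cast
    exact this.nrm_sub.le
  have sm : ∀ k : ℕ, nrm (v (-((k + 1 : ℕ) : ℤ)) - v (-(k : ℤ))) ≤ 1 := fun k => by
    have : Adj (v (-((k + 1 : ℕ) : ℤ))) (v (-((k + 1 : ℕ) : ℤ) + 1)) := hv.2.1 _
    have e : -((k + 1 : ℕ) : ℤ) + 1 = -(k : ℤ) := by push_cast; ring
    rw [e] at this
    exact this.symm.nrm_sub.le
  have zp : (fun k : ℕ => v k) 0 = 0 := by simpa using h0
  have zm : (fun k : ℕ => v (-(k : ℤ))) 0 = 0 := by simpa using h0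
  obtain ⟨τp, tp1, tp2⟩ := bw2_escape ip zp sp L
  obtain ⟨τm, tm1, tm2⟩ := bw2_escape im zm sm L
  obtain ⟨Jp, jp1, -⟩ := bw2_escape ip zp sp (2 * L)
  obtain ⟨Jm, jm1, -⟩ := bw2_escape im zm sm (2 * L)
  have bp : ∀ k ≤ τp, nrm (v k) ≤ L := fun k hk => by
    rcases hk.lt_or_eq with hk' | rfl
    · exact (tp2 k hk').le
    · exact tp1.le
  have bm : ∀ k ≤ τm, nrm (v (-(k : ℤ))) ≤ L := fun k hk => by
    rcases hk.lt_or_eq with hk' | rfl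
    · exact (tm2 k hk').le
    · exact tm1.le
  have hJp : τp ≤ Jp := by
    by_contra hc
    have := bp Jp (by omega)
    omega
  have hJm : τm ≤ Jm := by
    by_contra hc
    have := bm Jm (by omega)
    omega
  obtain ⟨σ, hσ, hO⟩ := hor N0 hNM1 {x | ∃ k ≤ τp, x = v k ∧ N0 ≤ 4 * nrm x}
    {x | ∃ k ≤ τm, x = -v (-(k : ℤ)) ∧ N0 ≤ 4 * nrm x}
    ⟨v τp, τp, le_rfl, rfl, by omega⟩
    ⟨-v (-(τm : ℤ)), τm, le_rfl, rfl, by rw [nrm_neg]; omega⟩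
    (by
      rintro x (⟨k, hk, rfl, hx⟩ | ⟨k, hk, rfl, hx⟩)
      · exact ⟨hx, hLe ▸ bp k hk⟩
      · exact ⟨hx, by rw [nrm_neg]; exact hLe ▸ bm k hk⟩)
    (by
      rintro _ ⟨i, hi, rfl, -⟩ _ ⟨i', hi', rfl, -⟩
      have := bw2_add hL ht hv h0 hU hlow jp1 jm1 (hi.trans hJp) (hi'.trans hJm) (bp i hi)
        (bm i' hi')
      linarith)
  obtain ⟨aut, s0, sneg, snrm, ssub⟩ := bw2_sym hσ
  refine ⟨σ, hσ, fun N1 N2 a1 a2 b1 b2 => ?_⟩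
  obtain ⟨ip, hip, cp1, cp2⟩ := bw2_col hB (N0 := N0) (u := fun k : ℕ => σ (v k))
    (by simpa [h0] using s0) (fun k => by rw [ssub]; exact sp k) (τ := τp)
    (by rw [snrm, ← hLe]; exact tp1) (by omega)
    (fun k hk hk4 => by
      rw [snrm] at hk4 ⊢
      exact (hO _ (Or.inl ⟨k, hk, rfl, hk4⟩)).1) (c := N2) (by omega) b2
  obtain ⟨im, him, cm1, cm2⟩ := bw2_col hB (N0 := N0) (u := fun k : ℕ => σ (-v (-(k : ℤ))))
    (by simpa [h0] using s0)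
    (fun k => by rw [ssub, neg_sub_neg, nrm_sub_comm]; exact sm k) (τ := τm)
    (by rw [snrm, nrm_neg, ← hLe]; exact tm1) (by omega)
    (fun k hk hk4 => by
      rw [snrm] at hk4 ⊢
      exact (hO _ (Or.inr ⟨k, hk, rfl, hk4⟩)).1) (c := N1 - 1) (by omega) (by omega)
  have mp : v ip ∈ {x | ∃ k ≤ τp, x = v k ∧ N0 ≤ 4 * nrm x} ∪
      {x | ∃ k ≤ τm, x = -v (-(k : ℤ)) ∧ N0 ≤ 4 * nrm x} := by
    refine Or.inl ⟨ip, hip, rfl, ?_⟩
    have := abs_le.1 (abs_fst_le_nrm (σ (v ip)))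
    rw [snrm] at this
    omega
  have mm : -v (-(im : ℤ)) ∈ {x | ∃ k ≤ τp, x = v k ∧ N0 ≤ 4 * nrm x} ∪
      {x | ∃ k ≤ τm, x = -v (-(k : ℤ)) ∧ N0 ≤ 4 * nrm x} := by
    refine Or.inr ⟨im, him, rfl, ?_⟩
    have := abs_le.1 (abs_fst_le_nrm (σ (-v (-(im : ℤ)))))
    rw [snrm] at this
    omega
  obtain ⟨q1, q2⟩ := (hO _ mp).2 0 (Or.inl rfl)
  obtain ⟨q3, -⟩ := (hO _ mm).2 1 (Or.inr rfl)
  have q4 := q2 _ mm 1 (Or.inr rfl)
  set Γ := (seg v (-(im : ℤ)) (im + ip)).map σ with hΓ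
  have hn : Γ.n = im + ip := rfl
  have hp : ∀ k ≤ im + ip, Γ.p k = σ (v (-(im : ℤ) + k)) := fun k hk => by
    rw [hΓ, Pth.map_p, seg_p _ _ _ hk]
  have p0 : Γ.p 0 = -σ (-v (-(im : ℤ))) := by
    rw [hp 0 (Nat.zero_le _), sneg, neg_neg]; simp
  have pn : Γ.p Γ.n = σ (v ip) := by
    rw [hn, hp _ le_rfl]; congr 2; push_cast; ring
  refine ⟨Γ, im, _, _, ?_, ?_, ?_, ?_, by omega, ?_, q1, q3, q4, ?_, ?_⟩
  · have := (isGeo_act aut.symm Set.univ t Γ).2 (by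
      rw [hΓ, Pth.map_symm_map]; exact isGeo_seg ht hv _ _)
    rwa [Set.preimage_univ] at this
  · intro k hk
    rw [hp k hk]
    rcases le_total k im with h | h
    · obtain ⟨r1, r2⟩ := cm2 (im - k) (by omega)
      have e : -(im : ℤ) + k = -((im - k : ℕ) : ℤ) := by push_cast [h]; ring
      rw [e]
      simp only [sneg, Prod.fst_neg] at r1 r2
      constructor <;> omega
    · obtain ⟨r1, r2⟩ := cp2 (k - im) (by omega)
      have e : -(im : ℤ) + k = ((k - im : ℕ) : ℤ) := by push_cast [h]; ring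
      rw [e]
      constructor <;> omega
  · rw [p0, Prod.fst_neg, cm1]; ring
  · rw [pn, cp1]
  · rw [hp im (by omega), neg_add_cancel, h0, s0]
  · unfold SlopeIn
    rw [pn, cp1, sub_zero, sub_zero, add_zero]
    exact ⟨le_rfl, le_rfl⟩
  · unfold SlopeIn
    rw [p0, cm1, ← hd.slp_neg, sub_zero, sub_zero, Prod.snd_neg]
    have e : (((-(σ (-v (-(im : ℤ)))).2 : ℤ) : ℝ) / ((1 - (1 - N1) : ℤ) : ℝ)) =
        -(((σ (-v (-(im : ℤ)))).2 : ℝ) / ((N1 - 1 + 1 : ℤ) : ℝ)) := by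
      push_cast
      rw [neg_div]; congr 2; ring
    rw [e]
    exact ⟨le_rfl, le_rfl⟩

theorem w0_lower (hd : DN (mu G))
    (h : 0 < Pr G {t | ∃ v : ℤ → V, IsBigeodesic t v ∧ v 0 = 0}) :
    ∃ p0 : ℝ, 0 < p0 ∧ ∀ ε : ℝ, 0 < ε → ∃ M : ℕ, ∀ N0 : ℕ, M ≤ N0 → ∀ N1 N2 : ℤ, (N0 : ℤ) ≤ N1 →
      N1 < 2 * N0 → (N0 : ℤ) ≤ N2 → N2 < 2 * N0 → p0 ≤ Pr G (W0 (mu G) ε (1 - N1) N2) := by
  obtain ⟨A, hA, hw⟩ := w0_of_bigeo hd
  obtain ⟨C1, hC1, h1⟩ := Pr_not_up G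
  obtain ⟨C2, hC2, h2⟩ := Pr_lowT G
  obtain ⟨P, hP⟩ : ∃ P, P = Pr G {t | ∃ v : ℤ → V, IsBigeodesic t v ∧ v 0 = 0} := ⟨_, rfl⟩
  rw [← hP] at h
  refine ⟨P / 8, by positivity, fun ε hε => ?_⟩
  obtain ⟨M1, hw⟩ := hw C1 ε hε
  obtain ⟨M2, hM2⟩ := exists_nat_ge (2 * (C1 + C2) / P)
  refine ⟨max 1 (max M1 M2), fun N0 hN0 N1 N2 a1 a2 b1 b2 => ?_⟩
  have hN1 : 1 ≤ N0 := le_trans (le_max_left _ _) hN0
  have hNM1 : M1 ≤ N0 := le_trans ((le_max_left _ _).trans (le_max_right _ _)) hN0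
  have hNM2 : M2 ≤ N0 := le_trans ((le_max_right _ _).trans (le_max_right _ _)) hN0
  have hLN : N0 ≤ A * N0 := Nat.le_mul_of_pos_left _ hA
  have hL : 1 ≤ A * N0 := by omega
  have b1' := h1 0 (A * N0) hL
  have b2' := h2 0 (A * N0) hL
  obtain ⟨W, hW⟩ : ∃ W, W = W0 (mu G) ε (1 - N1) N2 := ⟨_, rfl⟩
  have key : P ≤ Pr G ((act (Equiv.refl V).symm ⁻¹' W ∪ act ngt.symm ⁻¹' W) ∪
      (act swp.symm ⁻¹' W ∪ act (swp.trans ngt).symm ⁻¹' W)) +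
      Pr G ((Up G C1 0 (A * N0))ᶜ ∪ {t | ∃ x ∈ box 0 (A * N0), ∃ z ∈ box 0 (A * N0),
        T t x z < mu G (rv (z - x)) - ((A * N0 : ℕ) : ℝ) ^ ((3 : ℝ) / 5)}) := by
    rw [hP]
    refine Pr_le_add_of_ae G ((ae_nn G).mono fun t ht hb => ?_)
    by_cases hU : t ∈ Up G C1 0 (A * N0)
    · by_cases hl : ∀ x ∈ box 0 (A * N0), ∀ z ∈ box 0 (A * N0),
          mu G (rv (z - x)) - ((A * N0 : ℕ) : ℝ) ^ ((3 : ℝ) / 5) ≤ T t x z
      · obtain ⟨σ, hσ, hs⟩ := hw N0 hNM1 t ht hb hU hl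
        have := hs N1 N2 a1 a2 b1 b2
        rw [← hW] at this
        left
        rcases hσ with rfl | rfl | rfl | rfl
        · exact Or.inl (Or.inl this)
        · exact Or.inl (Or.inr this)
        · exact Or.inr (Or.inl this)
        · exact Or.inr (Or.inr this)
      · push Not at hl
        exact Or.inr (Or.inr hl)
    · exact Or.inr (Or.inl hU)
  have u1 := Pr_union_le G (act (Equiv.refl V).symm ⁻¹' W ∪ act ngt.symm ⁻¹' W)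
    (act swp.symm ⁻¹' W ∪ act (swp.trans ngt).symm ⁻¹' W)
  have u2 := Pr_union_le G (act (Equiv.refl V).symm ⁻¹' W) (act ngt.symm ⁻¹' W)
  have u3 := Pr_union_le G (act swp.symm ⁻¹' W) (act (swp.trans ngt).symm ⁻¹' W)
  have u4 := Pr_union_le G (Up G C1 0 (A * N0))ᶜ
    {t | ∃ x ∈ box 0 (A * N0), ∃ z ∈ box 0 (A * N0),
      T t x z < mu G (rv (z - x)) - ((A * N0 : ℕ) : ℝ) ^ ((3 : ℝ) / 5)}
  rw [Pr_act, Pr_act] at u2 u3
  have hLr : (1 : ℝ) ≤ ((A * N0 : ℕ) : ℝ) := by exact_mod_cast hL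
  have hpow : (M2 : ℝ) ≤ ((A * N0 : ℕ) : ℝ) ^ 100 := by
    have e1 : (M2 : ℝ) ≤ ((A * N0 : ℕ) : ℝ) := by exact_mod_cast hNM2.trans hLN
    exact e1.trans (le_self_pow₀ hLr (by norm_num))
  have hpos : (0 : ℝ) < ((A * N0 : ℕ) : ℝ) ^ 100 := by positivity
  have hsum : C1 / ((A * N0 : ℕ) : ℝ) ^ 100 + C2 / ((A * N0 : ℕ) : ℝ) ^ 100 ≤ P / 2 := by
    rw [← add_div, div_le_iff₀ hpos]
    have e2 := hM2.trans hpow
    rw [div_le_iff₀ h] at e2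
    linarith
  rw [← hW]
  linarith

end Crest.Agent.R151
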