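import Crest.Agent.R151.BW1
import Crest.Agent.R151.BConf1

/-! Row 151, part B: from `W0` to `W`-paths with a localized middle part and a gap. -/

set_option autoImplicit false

namespace Crest.Agent.R151

open MeasureTheory ProbabilityTheory Crest.ProbabilityR.FirstPassage Filter Topology
open scoped Classical

variable {G : Measure ℝ} [Law G]

theorem BW3_p (Γ : Pth) {i : ℕ} (hi : i ≤ Γ.n) :
    (Γ.rev.map rfl1).p i = (-(Γ.p (Γ.n - i)).1 + 1, (Γ.p (Γ.n - i)).2 + 0) := by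
  rw [Pth.map_p, Γ.rev_p hi, rfl1_apply]

theorem BW3_geo {t : Env} {Γ : Pth} (h : IsGeo Set.univ t Γ) :
    IsGeo Set.univ (act rfl1 t) (Γ.rev.map rfl1) := by
  have e : (Γ.rev.map rfl1).map rfl1 = Γ.rev :=
    Pth.ext' rfl fun i _ => by rw [Pth.map_p, Pth.map_p, rfl1_rfl1]
  refine (isGeo_act isAut_rfl1 Set.univ t _).2 ?_
  rw [e]
  exact h.rev

theorem wall_of_w0 (hd : DN (mu G)) {A n : ℕ} (hn : 1 ≤ n) {ε : ℝ} (hε : 0 < ε) {L R : ℤ}
    (hL : L ≤ 0) (hR : 1 ≤ R) {t : Env} (ht : NN t) (h : t ∈ W0 (mu G) ε L R)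
    (h1 : t ∈ CF (mu G) A n L R) (h2 : act rfl1 t ∈ CF (mu G) A n (1 - R) (1 - L)) :
    t ∈ Wall (mu G) (A * n + 1) 0 ε L R 0 0 := by
  obtain ⟨Γ, i0, sR, sL, hg, hin, h0, hN, hi0, hp0, hsR, hsL, hs, sRi, sLi⟩ := h
  have hstep : ∀ k, |(Γ.p (k + 1)).1 - (Γ.p k).1| ≤ 1 := hg.1.col_step
  obtain ⟨l, -, hl, hl0, hl1⟩ := exists_last_level (fun i => (Γ.p i).1) (Nat.zero_le Γ.n)
    (fun k _ _ => hstep k) 0 (by simpa [h0] using hL) (by simp only [hN]; omega)
  obtain ⟨k, -, hk, hk0, hk1⟩ := exists_first_level (fun i => (Γ.p i).1) (Nat.zero_le Γ.n)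
    (fun k _ _ => hstep k) 1 (by simp only [h0]; omega) (by simpa [hN] using hR)
  have hln : l < Γ.n := lt_of_le_of_ne hl fun e => by rw [e, hN] at hl0; omega
  have hl2 : (Γ.p (l + 1)).1 = 1 := by
    have a1 := hl1 (l + 1) (Nat.lt_succ_self l) hln
    have a2 := abs_le.1 (hstep l)
    omega
  obtain ⟨f, rfl⟩ : ∃ f, k = f + 1 := by
    cases k with
    | zero => rw [h0] at hk0; omega
    | succ f => exact ⟨f, rfl⟩
  have hf0 : (Γ.p f).1 = 0 := by
    have a1 := hk1 f (Nat.zero_le _) (Nat.lt_succ_self f)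
    have a2 := abs_le.1 (hstep f)
    omega
  have hfl : f ≤ l := by
    by_contra hc
    have := hl1 f (not_le.1 hc) (by omega)
    omega
  have hil : i0 ≤ l := by
    by_contra hc
    have := hl1 i0 (not_le.1 hc) hi0
    rw [hp0] at this
    exact lt_irrefl _ this
  have h13 := hd.Sk_mono (show 1 ≤ 3 by norm_num)
  have lg1 : LG (mu G) t L R (2 * n) Γ :=
    ⟨hg, hin, h0, hN, 0, 0, by simp, by simp,
      sRi.mono (by linarith [(abs_le.1 hsR).1]) (by linarith [(abs_le.1 hsR).2])⟩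
  have lg2 : LG (mu G) (act rfl1 t) (1 - R) (1 - L) (2 * n) (Γ.rev.map rfl1) := by
    refine ⟨BW3_geo hg, fun i hi => ?_, ?_, ?_, 0, 0, by simp, by simp, ?_⟩
    · have := hin (Γ.n - i) (Nat.sub_le _ _)
      rw [BW3_p Γ hi]
      obtain ⟨a1, a2⟩ := this
      constructor <;> simp only <;> omega
    · rw [BW3_p Γ (Nat.zero_le _), Nat.sub_zero, hN]
      simp only
      omega
    · rw [Pth.map_n, Pth.rev_n, BW3_p Γ le_rfl, Nat.sub_self, h0]
      simp only
      omega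
    · rw [Pth.map_n, Pth.rev_n, BW3_p Γ le_rfl, Nat.sub_self, add_zero]
      exact sLi.mono (by linarith [(abs_le.1 hsL).2]) (by linarith [(abs_le.1 hsL).1])
  obtain ⟨i, hi, hiR, hiL⟩ := exists_Idx hε hsR hsL hs
  refine ⟨i, hi, Γ, f, l, l, ⟨hg, hin, h0, hN, hfl, le_rfl, hln, fun i hi => ?_, hf0, by omega,
    fun i hi hi' => ?_, hl0, by omega, fun i hi hi' => ?_, by omega, sRi.mono hiR.1 hiR.2, ?_,
    fun δ hδ _ => ?_⟩⟩
  · have := hk1 i (Nat.zero_le _) (by omega)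
    omega
  · have := hl1 i (by omega) hi'
    omega
  · rcases le_total i0 i with hc | hc
    · have a1 := (h1 Γ lg1 i0 (l + 1) (by omega) hln (by rw [hp0]; exact mem_box_self _ _)
        (by rw [hl2]; omega)).2 i hc hi'
      have a2 := (nrm_le_iff _ _).1 a1
      rw [sub_zero, abs_le, abs_le] at a2
      unfold midR rect
      simp only [Set.mem_ofPred_eq]
      push_cast at a2 ⊢
      omega
    · have a1 := (h2 _ lg2 (Γ.n - i0) (Γ.n - f) (by omega) (Nat.sub_le _ _) (by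
          rw [BW3_p Γ (Nat.sub_le _ _), Nat.sub_sub_self hi0, hp0]
          refine (nrm_le_iff _ _).2 ?_
          simp only [Prod.fst_zero, Prod.snd_zero, neg_zero, zero_add, sub_zero, abs_one, abs_zero]
          omega) (by
          rw [BW3_p Γ (Nat.sub_le _ _), Nat.sub_sub_self (by omega), hf0]
          simp only
          omega)).2 (Γ.n - i) (by omega) (by omega)
      rw [BW3_p Γ (Nat.sub_le _ _), Nat.sub_sub_self (by omega)] at a1
      have a2 := (nrm_le_iff _ _).1 a1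
      rw [sub_zero, abs_le, abs_le] at a2
      unfold midR rect
      simp only [Set.mem_ofPred_eq]
      push_cast at a2 ⊢
      omega
  · rw [neg_zero]
    exact sLi.mono (neg_le_neg hiL.2) (neg_le_neg hiL.1)
  · rw [add_zero, hg.2.2.2]
    exact TD_le ht hδ

theorem small_w0_diff (hd : DN (mu G)) {ζ : ℝ} (hζ : 0 < ζ) : ∃ m : ℕ, ∀ ε : ℝ, 0 < ε →
    Small2 (fun N1 N2 =>
      Pr G (W0 (mu G) ε (1 - N1) N2 \ Wall (mu G) m 0 ε (1 - N1) N2 0 0)) ζ := by
  obtain ⟨A, -, hA⟩ := small_not_cf hd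
  obtain ⟨n0, hn0⟩ := hA _ (half_pos hζ)
  have h := hn0 (max n0 1) (le_max_left _ _)
  refine ⟨A * max n0 1 + 1, fun ε hε => ?_⟩
  refine ((h.add h.swap).of_le ⟨1, fun N1 N2 h1 h2 => ?_⟩).mono_right (add_halves ζ).le
  rw [← Pr_act G rfl1 (CF (mu G) A (max n0 1) (1 - N2) N1)ᶜ]
  refine Pr_le_add_of_ae G ?_
  filter_upwards [ae_nn G] with t ht hw
  by_contra hc
  rw [not_or] at hc
  refine hw.2 (wall_of_w0 hd (le_max_right _ _) hε (by omega) h2 ht hw.1 (not_not.1 hc.1) ?_)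
  rw [sub_sub_cancel]
  exact not_not.1 hc.2

/-- lowering the weight of the crossing edge creates a gap -/
theorem BW3_lower {μ : ℝ × ℝ → ℝ} {m : ℕ} {η lo hi : ℝ} {L R j y : ℤ} {t t' : Env} (ht : NN t)
    {Γ : Pth} {f g l : ℕ} (h : WPath μ t' m 0 lo hi L R j y Γ f g l)
    (he : ∀ e, e ≠ Γ.edge g → t e = t' e) (h0 : t (Γ.edge g) ≤ t' (Γ.edge g))
    (hη : t (Γ.edge g) + η ≤ t' (Γ.edge g)) : WPath μ t m η lo hi L R j y Γ f g l := by
  have hmem : Γ.edge g ∈ Γ.edges := Pth.mem_edges.2 ⟨g, lt_of_le_of_lt h.gl h.ln, rfl⟩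
  refine { h with geo := ?_, gap := fun δ hδ hne => ?_ }
  · refine h.geo.lower ht (fun e => ?_) fun e hne => he e fun e' => hne (e' ▸ hmem)
    by_cases hc : e = Γ.edge g
    · rw [hc]; exact h0
    · exact (he e hc).le
  · have a1 := h.gap δ hδ hne
    have a2 : δ.tot t = δ.tot t' := δ.cost_congr fun i _ hi =>
      he _ fun e' => hne (Pth.mem_edges.2 ⟨i, hi, e'⟩)
    have a3 : Γ.tot t - t (Γ.edge g) = Γ.tot t' - t' (Γ.edge g) := by
      rw [Pth.tot_eq_sum_edges h.geo.1 h.geo.2.2.1, Pth.tot_eq_sum_edges h.geo.1 h.geo.2.2.1,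
        ← Finset.sum_erase_eq_sub hmem, ← Finset.sum_erase_eq_sub hmem]
      exact Finset.sum_congr rfl fun e he' => he e (Finset.ne_of_mem_erase he')
    linarith

theorem Pr_wall_diff (μ : ℝ × ℝ → ℝ) (m : ℕ) (η ε : ℝ) (L R : ℤ) :
    Pr G (Wall μ m 0 ε L R 0 0 \ Wall μ m η ε L R 0 0) ≤ (2 * m + 1) * omg G η := by
  obtain ⟨B, hB⟩ : ∃ B : ℤ → Set Env, ∀ h, B h = ({t | NN t} ∩ {t | ∃ i ∈ Idx μ ε, ∃ (Γ : Pth)
      (f g l : ℕ), Γ.edge g = s((0, h), (1, h)) ∧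
        WPath μ t m 0 (loI ε i) (hiI ε i) L R 0 0 Γ f g l}) \ Wall μ m η ε L R 0 0 :=
    ⟨_, fun _ => rfl⟩
  have hcard : (((Finset.Icc (-(m : ℤ)) m).card : ℕ) : ℝ) = 2 * m + 1 := by
    rw [Int.card_Icc, show (m : ℤ) + 1 - -(m : ℤ) = ((2 * m + 1 : ℕ) : ℤ) by push_cast; ring,
      Int.toNat_natCast]
    push_cast
    ring
  rw [← hcard]
  refine Pr_le_card_mul G _ B ?_ fun h _ => ?_
  · filter_upwards [ae_nn G] with t ht hw
    obtain ⟨⟨i, hi, Γ, f, g, l, hW⟩, hw2⟩ := hw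
    have a1 := hW.mid g hW.fg (hW.gl.trans (Nat.le_succ _))
    have a2 := (adj_iff _ _).1 (hW.geo.1 g (lt_of_le_of_lt hW.gl hW.ln))
    have a3 := hW.gcol
    refine ⟨(Γ.p g).2, ?_, ?_⟩
    · obtain ⟨-, -, b1, b2⟩ := a1
      rw [Finset.mem_Icc]
      omega
    · rw [hB]
      refine ⟨⟨ht, i, hi, Γ, f, g, l, ?_, hW⟩, hw2⟩
      unfold Pth.edge
      rw [Sym2.eq_iff, Prod.ext_iff, Prod.ext_iff, Prod.ext_iff, Prod.ext_iff]
      dsimp only
      omega
  · have hm : MeasurableSet (B h) := by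
      rw [hB]
      refine (measurableSet_nn.inter ?_).diff (measurableSet_wall _ _ _ _ _ _ _ _)
      simp only [Set.ofPred_exists, Set.ofPred_and]
      refine MeasurableSet.iUnion fun i => (MeasurableSet.const _).inter ?_
      refine MeasurableSet.iUnion fun Γ => MeasurableSet.iUnion fun f =>
        MeasurableSet.iUnion fun g => MeasurableSet.iUnion fun l =>
          (MeasurableSet.const _).inter (measurableSet_wpath _ _ _ _ _ _ _ _ _ _ _ _ _)
    have key : ∀ t ∈ B h, ∀ t' ∈ B h, (∀ e', e' ≠ s((0, h), (1, h)) → t e' = t' e') →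
        t s((0, h), (1, h)) ≤ t' s((0, h), (1, h)) →
        t' s((0, h), (1, h)) - t s((0, h), (1, h)) ≤ η := by
      intro t ht t' ht' he hle
      rw [hB] at ht ht'
      obtain ⟨⟨-, i, hi, Γ, f, g, l, e, hW⟩, -⟩ := ht'
      by_contra hc
      rw [← e] at he hle hc
      exact ht.2 ⟨i, hi, Γ, f, g, l, BW3_lower ht.1.1 hW he hle (by linarith [not_le.1 hc])⟩
    refine Pr_le_omg G s((0, h), (1, h)) hm fun t ht t' ht' he => ?_
    rcases le_total (t s((0, h), (1, h))) (t' s((0, h), (1, h))) with hc | hc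
    · rw [abs_sub_comm, abs_of_nonneg (sub_nonneg.2 hc)]
      exact key t ht t' ht' he hc
    · rw [abs_of_nonneg (sub_nonneg.2 hc)]
      exact key t' ht' t ht (fun e' he' => (he e' he').symm) hc

end Crest.Agent.R151
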