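import Crest.Agent.R151.BTubeB
import Crest.Agent.R151.BW2
import Crest.Agent.R151.BW3

/-! Row 151, part B: no bigeodesics. -/

set_option autoImplicit false

namespace Crest.Agent.R151

open MeasureTheory ProbabilityTheory Crest.ProbabilityR.FirstPassage Filter Topology
open scoped Classical

theorem BFinal_pow {M u : ℝ} (hM : 0 ≤ M) (hu : 0 < u) :
    (u ^ 8 * √(M * u ^ 8)) ^ ((3 : ℝ) / 4) = √M ^ ((3 : ℝ) / 4) * u ^ 9 := by
  have e1 : √(M * u ^ 8) = √M * u ^ 4 := by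
    rw [Real.sqrt_mul hM, show u ^ 8 = (u ^ 4) ^ 2 by ring, Real.sqrt_sq (by positivity)]
  have e2 : (u ^ 12) ^ ((3 : ℝ) / 4) = u ^ 9 := by
    rw [← Real.rpow_natCast, ← Real.rpow_mul hu.le, ← Real.rpow_natCast]
    norm_num
  rw [e1, show u ^ 8 * (√M * u ^ 4) = √M * u ^ 12 by ring,
    Real.mul_rpow (Real.sqrt_nonneg _) (by positivity), e2]

theorem wall_small {G : Measure ℝ} [Law G] (hd : DN (mu G)) (m : ℕ) {η ζ : ℝ} (hη : 0 < η)
    (hζ : 0 < ζ) : ∃ ε : ℝ, 0 < ε ∧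
      Small2 (fun N1 N2 => Pr G (Wall (mu G) m η ε (1 - N1) N2 0 0)) ζ := by
  obtain ⟨C, δ0, hC, hδ0, hT⟩ := tube_bound hd
  obtain ⟨C2, hC2, hB⟩ := hd.card_bad_intervals
  have hm1 := hd.m1_pos
  have hg0 := hd.g0_pos
  have hS3 : Sk (mu G) 3 < m1 (mu G) := hd.Sk_lt (by norm_num)
  obtain ⟨M, hM, hM'⟩ : ∃ M : ℝ, 0 < M ∧ 100 * C2 * ((m : ℝ) + 1) / (M * η) = ζ / 3 :=
    ⟨300 * C2 * ((m : ℝ) + 1) / (η * ζ), by positivity, by field_simp; ring⟩
  set B : ℝ := 4 * m1 (mu G) * (C * ((m : ℝ) + 1) * √M ^ ((3 : ℝ) / 4)) with hBd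
  have hB0 : 0 < B := by positivity
  obtain ⟨u, hu, hu1, hu2, hu3, hu4⟩ : ∃ u : ℝ, 0 < u ∧ u ≤ 1 ∧ u ≤ g0 (mu G) / 200 ∧ u ≤ δ0 / M ∧
      u ≤ ζ / 3 / B :=
    ⟨min (min 1 (g0 (mu G) / 200)) (min (δ0 / M) (ζ / 3 / B)), by positivity,
      (min_le_left _ _).trans (min_le_left _ _), (min_le_left _ _).trans (min_le_right _ _),
      (min_le_right _ _).trans (min_le_left _ _), (min_le_right _ _).trans (min_le_right _ _)⟩
  have hpow := BFinal_pow hM.le hu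
  have heu : u ^ 8 ≤ u := pow_le_of_le_one hu.le hu1 (by norm_num)
  obtain ⟨e, he⟩ : ∃ e, e = u ^ 8 := ⟨_, rfl⟩
  rw [← he] at hpow heu
  have he0 : 0 < e := by rw [he]; positivity
  have hMe : M * e ≤ δ0 := by
    have := (le_div_iff₀ hM).1 (heu.trans hu3)
    linarith
  obtain ⟨K, hK1, hK2, hK3⟩ := exists_coarse hd he0 (heu.trans hu2)
  set ζ' : ℝ := ζ / 3 * e / (4 * m1 (mu G)) with hζ'
  have hζ0 : 0 < ζ' := by positivity
  set g : ℝ := C * ((m : ℝ) + 1) * (e * √(M * e)) ^ ((3 : ℝ) / 4) + ζ' with hg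
  have hgpos : 0 ≤ g := by positivity
  set b : ℝ := 50 * ((m : ℝ) + 1) * (2 * e) / η with hb
  have hb0 : 0 ≤ b := by positivity
  have key : ∀ k ∈ K, ∀ᶠ ε : ℝ in 𝓝[>] 0, Small2 (fun N1 N2 => Pr G {t | ∃ i ∈ (Idx (mu G) ε).filter
      (fun i => k * e - e ≤ loI ε i ∧ hiI ε i ≤ k * e + e), t ∈ Wi (mu G) m η ε i (1 - N1) N2 0 0})
      ((if M * e < thp (mu G) (k * e + 102 * e) - thm (mu G) (k * e - 102 * e) then b else 0) + g) := by
    intro k hk
    have h1 := hK2 k hk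
    split_ifs with hbad
    · refine Eventually.of_forall fun ε => ?_
      have h2 := abs_le.1 (show |(k : ℝ) * e| ≤ Sk (mu G) 3 - 102 * e by linarith)
      have h3 := small_wev hd (lo := k * e - e) (hi := k * e + e) (by linarith [h2.1]) (by linarith)
        (by linarith [h2.2]) hη m
      rw [show (k : ℝ) * e + e - (k * e - e) = 2 * e by ring] at h3
      refine (h3.of_le ⟨0, fun N1 N2 _ _ => Pr_mono G ?_⟩).mono_right (by linarith)
      rintro t ⟨i, hi, ht⟩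
      exact Wev_mono le_rfl (Finset.mem_filter.1 hi).2.1 (Finset.mem_filter.1 hi).2.2 ht
    · obtain ⟨ε0, hε0, h2⟩ := hT m η e (k * e) (M * e) ζ' hη he0 h1 (not_lt.1 hbad) (by positivity)
        hMe hζ0
      filter_upwards [Ioc_mem_nhdsGT hε0] with ε hε
      rw [zero_add]
      exact h2 ε hε.1 hε.2 _ (Finset.filter_subset _ _) fun i hi => (Finset.mem_filter.1 hi).2
  obtain ⟨ε, hε1, hε2⟩ := (((Finset.eventually_all K).2 key).and
    (Ioc_mem_nhdsGT (half_pos he0))).exists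
  refine ⟨ε, hε2.1, ((Small2.sum K hε1).of_le ⟨0, fun N1 N2 _ _ => ?_⟩).mono_right ?_⟩
  · refine Pr_le_sum_of_ae G K _ (Eventually.of_forall ?_)
    rintro t ⟨i, hi, ht⟩
    obtain ⟨k, hk, h1⟩ := hK3 ε hε2.1 hε2.2 i hi
    exact ⟨k, hk, i, Finset.mem_filter.2 ⟨hi, h1⟩, ht⟩
  · rw [Finset.sum_add_distrib, ← Finset.sum_filter, Finset.sum_const, Finset.sum_const,
      nsmul_eq_mul, nsmul_eq_mul]
    have a1 := mul_le_mul_of_nonneg_right (hB e (M * e) he0 (by positivity) K hK2) hb0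
    have a2 : C2 / (M * e) * b = ζ / 3 := by
      rw [← hM', hb]
      field_simp
      ring
    have a3 := mul_le_mul_of_nonneg_right hK1 hgpos
    have a4 : 4 * m1 (mu G) / e * g = B * u + ζ / 3 := by
      rw [hg, hpow, hζ', hBd, he]
      field_simp
    have a5 := (le_div_iff₀ hB0).1 hu4
    linarith

theorem no_bigeo (G : Measure ℝ) [Law G]
    (hd : ∀ v : ℝ × ℝ, v ≠ 0 → DifferentiableAt ℝ (mu G) v) :
    iidLaw G {t | ∃ v : ℤ → ℤ × ℤ, IsBigeodesic t v} = 0 := by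
  have hD : DN (mu G) := ⟨mu_ok G, hd⟩
  refine bigeo_origin G (le_antisymm (not_lt.1 fun h => ?_) (Pr_nonneg G _))
  obtain ⟨p0, hp0, hp⟩ := w0_lower hD h
  obtain ⟨m, hm⟩ := small_w0_diff hD (ζ := p0 / 4) (by positivity)
  obtain ⟨η, hη, hη'⟩ := exists_omg_le (G := G) (ζ := p0 / 4 / (2 * m + 1)) (by positivity)
  obtain ⟨ε, hε, hw⟩ := wall_small hD m hη (ζ := p0 / 4) (by positivity)
  have h1 : (2 * m + 1) * omg G η ≤ p0 / 4 := by
    rw [le_div_iff₀ (by positivity)] at hη'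
    linarith
  have h2 : Small2 (fun N1 N2 => Pr G (W0 (mu G) ε (1 - N1) N2)) (p0 / 4 + p0 / 4 + p0 / 4) := by
    refine (((hm ε hε).add (small2_const (p0 / 4))).add hw).of_le ⟨0, fun N1 N2 _ _ => ?_⟩
    have a1 := Pr_sub_le_inter_compl G (W0 (mu G) ε (1 - N1) N2) (Wall (mu G) m 0 ε (1 - N1) N2 0 0)
    have a2 := Pr_sub_le_inter_compl G (Wall (mu G) m 0 ε (1 - N1) N2 0 0)
      (Wall (mu G) m η ε (1 - N1) N2 0 0)
    have a3 := Pr_wall_diff (G := G) (mu G) m η ε (1 - N1) N2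
    rw [← Set.sdiff_eq] at a1 a2
    linarith
  have := h2.le_of_eventually_ge (hp ε hε)
  linarith

end Crest.Agent.R151
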