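import Crest.Agent.R151.BGeo2

/-! Row 151, part B: the fields `Gd` and their optimal paths (deterministic). -/

set_option autoImplicit false

namespace Crest.Agent.R151

open MeasureTheory ProbabilityTheory Crest.ProbabilityR.FirstPassage Filter Topology
open scoped Classical

theorem Fld.nn {G : Measure ℝ} {t : Env} (h : Fld G t) : NN t := by
  exact h.1.1.nn
theorem zero_mem_Zs (s : ℝ) : (0 : ℝ) ∈ Zs s := by
  exact ⟨0, by simp⟩
theorem countable_Zs (s : ℝ) : (Zs s).Countable := by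
  exact Set.countable_range _
theorem Zs_neg (s : ℝ) : Zs (-s) = Zs s := by
  ext a
  constructor <;> rintro ⟨z, rfl⟩ <;> exact ⟨-z, by simp⟩

variable {G : Measure ℝ} [Law G]

theorem bfld1_mem {k N : ℤ} {x : V} (hx : x ∈ strip k N) (z : ℤ) : ((N, z) : V) ∈ strip k N :=
  ⟨hx.1.trans hx.2, le_rfl⟩

theorem bfld1_coer {t : Env} (ht : Fld G t) {k N : ℤ} {s : ℝ} (hs : |s| < m1 (mu G)) {x : V}
    (hx : x ∈ strip k N) : ∃ c : ℝ, 0 < c ∧ ∃ C : ℝ, ∀ z : ℤ,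
      c * |((z - x.2 : ℤ) : ℝ)| - C ≤ TD (strip k N) t x (N, z) - s * z := by
  obtain ⟨n, hn⟩ := exists_nat_one_div_lt (sub_pos.2 hs)
  obtain ⟨C, hC⟩ := ht.2 x n
  refine ⟨m1 (mu G) - |s| - 1 / ((n : ℝ) + 1), sub_pos.2 hn, C + s * x.2, fun z => ?_⟩
  have h1 := hC (N, z)
  have h2 := T_le_TD ht.nn (conn_strip hx (bfld1_mem hx z))
  have h3 := (mu_ok G).axis_le (rv ((N, z) - x))
  rw [norm_rv] at h3
  have h4 : |((z - x.2 : ℤ) : ℝ)| ≤ (nrm ((N, z) - x) : ℝ) := by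
    exact_mod_cast abs_snd_le_nrm ((N, z) - x)
  have h5 : s * ((z - x.2 : ℤ) : ℝ) ≤ |s| * (nrm ((N, z) - x) : ℝ) := by
    refine (le_abs_self _).trans ?_
    rw [abs_mul]
    gcongr
  have h6 := mul_le_mul_of_nonneg_left h4 (sub_pos.2 hn).le
  rw [div_eq_mul_one_div] at h1
  unfold m1 at h6 ⊢
  push_cast at h5 h6 ⊢
  linarith

theorem Gd_bdd {t : Env} (ht : Fld G t) {k N : ℤ} {s : ℝ} (hs : |s| < m1 (mu G)) {x : V}
    (hx : x ∈ strip k N) :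
    BddBelow (Set.range (fun z : ℤ => TD (strip k N) t x (N, z) - s * z)) := by
  obtain ⟨c, hc, C, h⟩ := bfld1_coer ht hs hx
  refine ⟨-C, ?_⟩
  rintro _ ⟨z, rfl⟩
  have : 0 ≤ c * |((z - x.2 : ℤ) : ℝ)| := by positivity
  exact le_trans (by linarith) (h z)
theorem Gd_le {t : Env} (ht : Fld G t) {k N : ℤ} {s : ℝ} (hs : |s| < m1 (mu G)) {x : V}
    (hx : x ∈ strip k N) (z : ℤ) : Gd t k N s x ≤ TD (strip k N) t x (N, z) - s * z := by
  exact ciInf_le (Gd_bdd ht hs hx) z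
theorem Gd_le_tot {t : Env} (ht : Fld G t) {k N : ℤ} {s : ℝ} (hs : |s| < m1 (mu G)) {γ : Pth}
    (h : γ.Ok) (hin : γ.In (strip k N)) (hN : (γ.p γ.n).1 = N) :
    Gd t k N s (γ.p 0) ≤ γ.tot t - s * ((γ.p γ.n).2 : ℝ) := by
  refine (Gd_le ht hs (hin 0 (Nat.zero_le _)) (γ.p γ.n).2).trans (sub_le_sub_right ?_ _)
  exact TD_le ht.nn ⟨h, hin, rfl, Prod.ext hN rfl⟩
theorem exists_line {t : Env} (ht : Fld G t) {k N : ℤ} {s : ℝ} (hs : |s| < m1 (mu G)) {x : V}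
    (hx : x ∈ strip k N) : ∃ γ : Pth, IsLine t k N s γ ∧ γ.p 0 = x := by
  obtain ⟨c, hc, C, h⟩ := bfld1_coer ht hs hx
  set F : ℤ → ℝ := fun z => TD (strip k N) t x (N, z) - s * z with hF
  have hfin : {z | F z ≤ F 0}.Finite := by
    obtain ⟨M, hM⟩ := exists_nat_ge ((F 0 + C) / c)
    refine (Set.finite_Icc (x.2 - M) (x.2 + M)).subset fun z hz => ?_
    have h1 : c * |((z - x.2 : ℤ) : ℝ)| - C ≤ F 0 := (h z).trans hz
    rw [div_le_iff₀ hc] at hM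
    have h2 : |((z - x.2 : ℤ) : ℝ)| ≤ M := le_of_mul_le_mul_left (by linarith) hc
    have h3 : |z - x.2| ≤ M := by exact_mod_cast h2
    rw [abs_le] at h3
    exact ⟨by omega, by omega⟩
  obtain ⟨z, hz0, hz⟩ := Set.exists_min_image _ F hfin ⟨0, le_refl (F 0)⟩
  have hG : Gd t k N s x = F z := by
    refine le_antisymm (Gd_le ht hs hx z) (le_ciInf fun w => ?_)
    rcases le_total (F w) (F 0) with h1 | h1
    · exact hz w h1
    · exact le_trans hz0 h1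
  obtain ⟨γ, hγ, h0, h1⟩ := exists_geo G ht.1 (conn_strip hx (bfld1_mem hx z))
  refine ⟨γ, ⟨hγ, by rw [h1], ?_⟩, h0⟩
  rw [hγ.2.2.2, h0, h1, hG]
theorem line_spec {t : Env} (ht : Fld G t) {k N : ℤ} {s : ℝ} (hs : |s| < m1 (mu G)) {x : V}
    (hx : x ∈ strip k N) : IsLine t k N s (line t k N s x) ∧ (line t k N s x).p 0 = x := by
  exact pick_spec (exists_line ht hs hx)
theorem Gd_le_add {t : Env} (ht : Fld G t) {k N : ℤ} {s : ℝ} (hs : |s| < m1 (mu G)) {x x' : V}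
    (hx : x ∈ strip k N) (hx' : x' ∈ strip k N) :
    Gd t k N s x ≤ TD (strip k N) t x x' + Gd t k N s x' := by
  rw [← sub_le_iff_le_add']
  refine le_ciInf fun z => ?_
  have h1 := Gd_le ht hs hx z
  have h2 := TD_triangle ht.nn (conn_strip hx hx') (conn_strip hx' (bfld1_mem hx z))
  linarith
theorem Gd_le_cost_add {t : Env} (ht : Fld G t) {k N : ℤ} {s : ℝ} (hs : |s| < m1 (mu G)) {γ : Pth}
    (h : γ.Ok) {a b : ℕ} (hab : a ≤ b) (hb : b ≤ γ.n)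
    (hin : ∀ i, a ≤ i → i ≤ b → γ.p i ∈ strip k N) :
    Gd t k N s (γ.p a) ≤ γ.cost t a b + Gd t k N s (γ.p b) := by
  have h1 := Gd_le_add ht hs (hin a le_rfl hab) (hin b hab le_rfl)
  have h2 := TD_le_cost ht.nn h hab hb hin
  linarith
theorem Gd_anti {t : Env} (ht : Fld G t) {k k' N : ℤ} (hk : k ≤ k') {s : ℝ} (hs : |s| < m1 (mu G))
    {x : V} (hx : x ∈ strip k' N) : Gd t k N s x ≤ Gd t k' N s x := by
  have hsub : strip k' N ⊆ strip k N := fun y hy => ⟨hk.trans hy.1, hy.2⟩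
  refine le_ciInf fun z => (Gd_le ht hs (hsub hx) z).trans (sub_le_sub_right ?_ _)
  exact TD_anti ht.nn hsub (conn_strip hx (bfld1_mem hx z))
theorem IsLine.Gd_eq {t : Env} {k N : ℤ} {s : ℝ} {γ : Pth} (h : IsLine t k N s γ) :
    Gd t k N s (γ.p 0) = TD (strip k N) t (γ.p 0) (N, (γ.p γ.n).2) - s * ((γ.p γ.n).2 : ℝ) := by
  have e : ((N, (γ.p γ.n).2) : V) = γ.p γ.n := Prod.ext h.2.1.symm rfl
  rw [e, ← h.2.2, h.1.2.2.2]

theorem bfld1_tail {t : Env} (ht : Fld G t) {k N : ℤ} {s : ℝ} (hs : |s| < m1 (mu G)) {γ : Pth}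
    (h : γ.Ok) (hN : (γ.p γ.n).1 = N) {a : ℕ} (ha : a ≤ γ.n)
    (hin : ∀ i, a ≤ i → i ≤ γ.n → γ.p i ∈ strip k N) :
    Gd t k N s (γ.p a) ≤ γ.cost t a γ.n - s * ((γ.p γ.n).2 : ℝ) := by
  have := Gd_le_tot ht hs (h.sub a le_rfl) (Pth.sub_in ha hin) (by rw [γ.sub_p_last ha, hN])
  rwa [γ.sub_p_zero, γ.sub_p_last ha, γ.sub_tot t ha] at this

theorem bfld1_tail_eq {t : Env} (ht : Fld G t) {k N : ℤ} {s : ℝ} (hs : |s| < m1 (mu G)) {γ : Pth}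
    (h : IsLine t k N s γ) {a : ℕ} (ha : a ≤ γ.n) :
    γ.cost t a γ.n - s * ((γ.p γ.n).2 : ℝ) = Gd t k N s (γ.p a) := by
  have h1 := bfld1_tail ht hs h.1.1 h.2.1 ha fun i _ hi => h.1.2.1 i hi
  have h2 := Gd_le_cost_add ht hs h.1.1 (Nat.zero_le a) ha fun i _ hi => h.1.2.1 i (hi.trans ha)
  have h3 := γ.cost_add t (Nat.zero_le a) ha
  have h4 := h.2.2
  unfold Pth.tot at h4
  linarith

theorem IsLine.cost_eq {t : Env} (ht : Fld G t) {k N : ℤ} {s : ℝ} (hs : |s| < m1 (mu G)) {γ : Pth}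
    (h : IsLine t k N s γ) {a b : ℕ} (hab : a ≤ b) (hb : b ≤ γ.n) :
    γ.cost t a b = Gd t k N s (γ.p a) - Gd t k N s (γ.p b) := by
  have h1 := bfld1_tail_eq ht hs h hb
  have h2 := bfld1_tail_eq ht hs h (hab.trans hb)
  have h3 := γ.cost_add t hab hb
  linarith
theorem IsLine.suffix {t : Env} (ht : Fld G t) {k N : ℤ} {s : ℝ} (hs : |s| < m1 (mu G)) {γ : Pth}
    (h : IsLine t k N s γ) {a : ℕ} (ha : a ≤ γ.n) : IsLine t k N s (γ.sub a γ.n) := by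
  refine ⟨h.1.sub ht.nn ha le_rfl, by rw [γ.sub_p_last ha, h.2.1], ?_⟩
  rw [γ.sub_p_zero, γ.sub_p_last ha, γ.sub_tot t ha]
  exact bfld1_tail_eq ht hs h ha
/-- a suffix that stays in a narrower strip is a line of that strip -/
theorem IsLine.suffix_restrict {t : Env} (ht : Fld G t) {k k' N : ℤ} (hk : k ≤ k') {s : ℝ}
    (hs : |s| < m1 (mu G)) {γ : Pth} (h : IsLine t k N s γ) {a : ℕ} (ha : a ≤ γ.n)
    (hin : ∀ i, a ≤ i → i ≤ γ.n → k' ≤ (γ.p i).1) :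
    IsLine t k' N s (γ.sub a γ.n) ∧ Gd t k' N s (γ.p a) = Gd t k N s (γ.p a) := by
  have hsub : strip k' N ⊆ strip k N := fun y hy => ⟨hk.trans hy.1, hy.2⟩
  have hin' : ∀ i, a ≤ i → i ≤ γ.n → γ.p i ∈ strip k' N :=
    fun i h1 h2 => ⟨hin i h1 h2, (h.1.2.1 i h2).2⟩
  have h1 := bfld1_tail_eq ht hs h ha
  have h2 : Gd t k' N s (γ.p a) = Gd t k N s (γ.p a) :=
    le_antisymm ((bfld1_tail ht hs h.1.1 h.2.1 ha hin').trans h1.le)
      (Gd_anti ht hk hs (hin' a le_rfl ha))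
  refine ⟨⟨(h.1.sub ht.nn ha le_rfl).restrict ht.nn hsub (Pth.sub_in ha hin'),
    by rw [γ.sub_p_last ha, h.2.1], ?_⟩, h2⟩
  rw [γ.sub_p_zero, γ.sub_p_last ha, γ.sub_tot t ha, h1, h2]
/-- a self-avoiding path of optimal value is a line -/
theorem isLine_of_le {t : Env} (ht : Fld G t) {k N : ℤ} {s : ℝ} (hs : |s| < m1 (mu G)) {γ : Pth}
    (h : γ.Ok) (hsa : γ.SA) (hin : γ.In (strip k N)) (hN : (γ.p γ.n).1 = N)
    (hle : γ.tot t - s * ((γ.p γ.n).2 : ℝ) ≤ Gd t k N s (γ.p 0)) : IsLine t k N s γ := by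
  refine ⟨⟨h, hin, hsa, le_antisymm ?_ (TD_le ht.nn ⟨h, hin, rfl, rfl⟩)⟩, hN,
    le_antisymm hle (Gd_le_tot ht hs h hin hN)⟩
  have h1 := Gd_le ht hs (hin 0 (Nat.zero_le _)) (γ.p γ.n).2
  have e : ((N, (γ.p γ.n).2) : V) = γ.p γ.n := Prod.ext hN.symm rfl
  rw [e] at h1
  linarith
omit [Law G] in
theorem IsLine.unique {t : Env} {k N : ℤ} {s : ℝ} (hg : Gen (Zs s) t) {γ δ : Pth}
    (hγ : IsLine t k N s γ) (hδ : IsLine t k N s δ) (h0 : γ.p 0 = δ.p 0) : γ = δ := by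
  refine hg.eq_of_mem hγ.1.1 hγ.1.2.2.1 hδ.1.1 hδ.1.2.2.1 h0 ⟨(γ.p γ.n).2 - (δ.p δ.n).2, ?_⟩
  have h1 := hγ.2.2
  have h2 := hδ.2.2
  rw [h0] at h1
  push_cast
  linarith
theorem IsLine.eq_line {t : Env} {k N : ℤ} {s : ℝ} (ht : GN G s t) {γ : Pth}
    (hγ : IsLine t k N s γ) : γ = line t k N s (γ.p 0) := by
  have h := pick_spec (q := fun δ => IsLine t k N s δ ∧ δ.p 0 = γ.p 0) ⟨γ, hγ, rfl⟩
  exact hγ.unique ht.2 h.1 h.2.symm
/-- lines that meet coincide from then on -/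
theorem IsLine.coalesce {t : Env} {k N : ℤ} {s : ℝ} (ht : GN G s t) (hs : |s| < m1 (mu G))
    {γ δ : Pth} (hγ : IsLine t k N s γ) (hδ : IsLine t k N s δ) {i j : ℕ} (hi : i ≤ γ.n)
    (hj : j ≤ δ.n) (h : γ.p i = δ.p j) :
    γ.n - i = δ.n - j ∧ ∀ r, γ.p (i + r) = δ.p (j + r) := by
  have e : γ.sub i γ.n = δ.sub j δ.n :=
    (hγ.suffix ht.1 hs hi).unique ht.2 (hδ.suffix ht.1 hs hj)
      (by rw [γ.sub_p_zero, δ.sub_p_zero, h])
  have en : γ.n - i = δ.n - j := congrArg Pth.n e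
  refine ⟨en, fun r => ?_⟩
  rcases le_total r (γ.n - i) with hr | hr
  · rw [← γ.sub_p i γ.n hr, ← δ.sub_p j δ.n (en ▸ hr), e]
  · rw [γ.p_of_ge (by omega), δ.p_of_ge (by omega), ← γ.sub_p_last hi, ← δ.sub_p_last hj, e]

end Crest.Agent.R151
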