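import Crest.Agent.R151.BFld1

/-! Row 151, part B: measurability, locality and equivariance of the fields. -/

set_option autoImplicit false

namespace Crest.Agent.R151

open MeasureTheory ProbabilityTheory Crest.ProbabilityR.FirstPassage Filter Topology
open scoped Classical

theorem bf3_forall {ι : Sort*} [Countable ι] {p : Env → ι → Prop}
    (h : ∀ i, MeasurableSet {t | p t i}) : MeasurableSet {t | ∀ i, p t i} := by
  have : {t | ∀ i, p t i} = ⋂ i, {t | p t i} := by ext; simp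
  rw [this]
  exact MeasurableSet.iInter h
theorem bf3_exists {ι : Sort*} [Countable ι] {p : Env → ι → Prop}
    (h : ∀ i, MeasurableSet {t | p t i}) : MeasurableSet {t | ∃ i, p t i} := by
  have : {t | ∃ i, p t i} = ⋃ i, {t | p t i} := by ext; simp
  rw [this]
  exact MeasurableSet.iUnion h
theorem bf3_and {p q : Env → Prop} (hp : MeasurableSet {t | p t}) (hq : MeasurableSet {t | q t}) :
    MeasurableSet {t | p t ∧ q t} := hp.inter hq
theorem bf3_imp {p q : Env → Prop} (hp : MeasurableSet {t | p t}) (hq : MeasurableSet {t | q t}) :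
    MeasurableSet {t | p t → q t} := by
  have : {t | p t → q t} = {t | p t}ᶜ ∪ {t | q t} := by
    ext t
    simp only [Set.mem_ofPred_eq, Set.mem_union, Set.mem_compl_iff]
    tauto
  rw [this]
  exact hp.compl.union hq
theorem bf3_strip (v : V) (k N : ℤ) : strip k N = tr v ⁻¹' strip (k + v.1) (N + v.1) := by
  rw [preimage_tr_strip, add_sub_cancel_right, add_sub_cancel_right]
theorem bf3_fld {G : Measure ℝ} {σ : V ≃ V} (hσ : IsAut σ)
    (h1 : ∀ x z, mu G (rv (σ z - σ x)) = mu G (rv (z - x)))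
    (h2 : ∀ x z, nrm (σ z - σ x) = nrm (z - x)) (t : Env) : Fld G (act σ t) ↔ Fld G t := by
  unfold Fld
  rw [reg_act hσ]
  refine and_congr_right fun _ => ⟨fun h x n => ?_, fun h x n => ?_⟩
  · obtain ⟨C, hC⟩ := h (σ.symm x) n
    refine ⟨C, fun z => ?_⟩
    have := hC (σ.symm z)
    rw [T_act hσ, ← h1, ← h2] at this
    simpa only [Equiv.apply_symm_apply] using this
  · obtain ⟨C, hC⟩ := h (σ x) n
    refine ⟨C, fun z => ?_⟩
    have := hC (σ z)
    rw [h1, h2] at this
    rw [T_act hσ]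
    exact this

theorem isAut_rfl1 : IsAut rfl1 := by
  exact isAut_reflX.trans (isAut_tr _)
theorem rfl1_rfl1 (x : V) : rfl1 (rfl1 x) = x := by
  ext <;> simp
theorem act_rfl1_rfl1 (t : Env) : act rfl1 (act rfl1 t) = t := by
  have : rfl1.trans rfl1 = Equiv.refl V := by
    ext x : 1
    exact rfl1_rfl1 x
  rw [act_act, this, act_refl]
theorem preimage_rfl1_strip (a b : ℤ) : rfl1 ⁻¹' strip a b = strip (1 - b) (1 - a) := by
  ext x
  simp only [strip, Set.mem_preimage, rfl1_apply, Set.mem_ofPred_eq]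
  omega
/-- the left strip read in the reflected environment -/
theorem TD_left (t : Env) (L j a y : ℤ) :
    TD (strip L j) t (L, a) (j, y) = Phi (act rfl1 t) (1 - j) (1 - L) a y := by
  unfold Phi
  rw [← preimage_rfl1_strip, TD_act isAut_rfl1, TD_symm]
  congr 1
  · ext <;> simp
  · ext <;> simp

theorem measurableSet_fld (G : Measure ℝ) : MeasurableSet {t | Fld G t} := by
  refine (measurableSet_reg G).inter ?_
  show MeasurableSet {t : Env | ∀ (x : V) (n : ℕ), ∃ C : ℕ, ∀ z : V,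
    mu G (rv (z - x)) - (nrm (z - x) : ℝ) / ((n : ℝ) + 1) - C ≤ T t x z}
  refine bf3_forall fun x => bf3_forall fun n => bf3_exists fun C => bf3_forall fun z => ?_
  exact measurableSet_le measurable_const (measurable_T x z)
theorem measurableSet_gn (G : Measure ℝ) (s : ℝ) : MeasurableSet {t | GN G s t} := by
  exact (measurableSet_fld G).inter (measurableSet_gen (countable_Zs s).measurableSet)
theorem ae_fld (G : Measure ℝ) [Law G] : ∀ᵐ t ∂(iidLaw G), Fld G t := by
  refine (ae_reg G).and (ae_all_iff.2 fun x => ae_all_iff.2 fun n => ?_)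
  have hζ : (0 : ℝ) < 1 / ((n : ℝ) + 1) := by positivity
  obtain ⟨C, c, hC, hc, h⟩ := Pr_shortfall G hζ
  rw [ae_iff, ← Pr_eq_zero_iff]
  refine le_antisymm ?_ (Pr_nonneg G _)
  have hlim : Tendsto (fun y : ℕ => C * Real.exp (-(c * (y : ℝ)))) atTop (𝓝 0) := by
    have h1 : Tendsto (fun y : ℕ => c * (y : ℝ)) atTop atTop :=
      Tendsto.const_mul_atTop hc tendsto_natCast_atTop_atTop
    have h2 := (Real.tendsto_exp_neg_atTop_nhds_zero.comp h1).const_mul C
    simpa using h2
  refine ge_of_tendsto' hlim fun y => le_trans (Pr_mono G ?_) (h x y (Nat.cast_nonneg y))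
  intro t ht
  simp only [Set.mem_ofPred_eq, not_exists, not_forall, not_le] at ht ⊢
  obtain ⟨z, hz⟩ := ht y
  refine ⟨z, ?_⟩
  have : 1 / ((n : ℝ) + 1) * (nrm (z - x) : ℝ) = (nrm (z - x) : ℝ) / ((n : ℝ) + 1) := by ring
  rw [this]
  exact hz.le
theorem ae_gn (G : Measure ℝ) [Law G] (s : ℝ) : ∀ᵐ t ∂(iidLaw G), GN G s t := by
  exact (ae_fld G).and (ae_gen G (countable_Zs s))
theorem fld_tr {G : Measure ℝ} (v : V) (t : Env) : Fld G (act (tr v) t) ↔ Fld G t := by
  refine bf3_fld (isAut_tr v) (fun x z => ?_) (fun x z => ?_) t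
  · simp only [tr_apply, add_sub_add_right_eq_sub]
  · simp only [tr_apply, add_sub_add_right_eq_sub]
theorem fld_rfl1 {G : Measure ℝ} [Law G] (t : Env) : Fld G (act rfl1 t) ↔ Fld G t := by
  refine bf3_fld isAut_rfl1 (fun x z => ?_) (fun x z => ?_) t
  · have h := (mu_ok G).refl1 ((z - x).1 : ℝ) ((z - x).2 : ℝ)
    have e : rv (rfl1 z - rfl1 x) = (-((z - x).1 : ℝ), ((z - x).2 : ℝ)) := by
      simp only [rv, rfl1_apply, Prod.fst_sub, Prod.snd_sub]
      ext <;> push_cast <;> ring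
    rw [e, h]
    rfl
  · simp only [nrm, rfl1_apply, Prod.fst_sub, Prod.snd_sub]
    omega
theorem gn_tr {G : Measure ℝ} (s : ℝ) (v : V) (t : Env) : GN G s (act (tr v) t) ↔ GN G s t := by
  unfold GN
  rw [fld_tr, gen_act (isAut_tr v)]

theorem measurable_Gd (k N : ℤ) (s : ℝ) (x : V) : Measurable (fun t => Gd t k N s x) := by
  exact Measurable.iInf fun z => (measurable_TD _ _ _).sub_const _
theorem measurable_Gf (k N : ℤ) (s : ℝ) (y : ℤ) : Measurable (fun t => Gf t k N s y) := by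
  exact measurable_Gd k N s (k, y)
theorem measurable_Phi (k N b y : ℤ) : Measurable (fun t => Phi t k N b y) := by
  exact measurable_TD _ _ _
theorem measurable_Dinc (k N : ℤ) (α β : ℝ) (y1 y2 : ℤ) :
    Measurable (fun t => Dinc t k N α β y1 y2) := by
  exact ((measurable_Gf _ _ _ _).sub (measurable_Gf _ _ _ _)).sub
    ((measurable_Gf _ _ _ _).sub (measurable_Gf _ _ _ _))
theorem measurableSet_isLine (k N : ℤ) (s : ℝ) (γ : Pth) :
    MeasurableSet {t | IsLine t k N s γ} := by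
  refine bf3_and (measurableSet_isGeo _ _) (bf3_and (MeasurableSet.const _) ?_)
  exact measurableSet_eq_fun ((measurable_tot γ).sub_const _) (measurable_Gd _ _ _ _)
theorem measP_line (k N : ℤ) (s : ℝ) (x : V) : MeasP (fun t => line t k N s x) := by
  exact measP_pick fun γ => bf3_and (measurableSet_isLine k N s γ) (MeasurableSet.const _)
theorem measurableSet_loc (μ : ℝ × ℝ → ℝ) (k N : ℤ) (α β lo hi : ℝ) (Y : ℕ) :
    MeasurableSet (Loc μ k N α β lo hi Y) := by
  refine bf3_forall fun y => bf3_forall fun xc => bf3_forall fun yc => bf3_forall fun b =>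
    bf3_forall fun _ => bf3_forall fun _ => bf3_forall fun _ => bf3_forall fun _ => ?_
  exact bf3_and
    (bf3_exists fun γ => bf3_and (measurableSet_isLine _ _ _ _) (MeasurableSet.const _))
    (bf3_exists fun γ => bf3_and (measurableSet_isLine _ _ _ _) (MeasurableSet.const _))
theorem measurableSet_inc (k N : ℤ) (s : ℝ) (y0 : ℤ) (ζ ℓ : ℝ) :
    MeasurableSet (Inc k N s y0 ζ ℓ) := by
  refine bf3_forall fun y => ?_
  exact measurableSet_le
    (((measurable_Gf _ _ _ _).sub (measurable_Gf _ _ _ _)).add_const _).abs measurable_const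
theorem measurableSet_pl (μ : ℝ × ℝ → ℝ) (k N : ℤ) (α β lo hi ζ ℓ : ℝ) (Y : ℕ) :
    MeasurableSet (PL μ k N α β lo hi ζ ℓ Y) := by
  refine bf3_forall fun y => bf3_forall fun xc => bf3_forall fun yc => bf3_forall fun b =>
    bf3_forall fun _ => bf3_forall fun _ => bf3_forall fun _ => bf3_forall fun _ =>
    bf3_forall fun y' => ?_
  exact measurableSet_le measurable_const ((measurable_Phi _ _ _ _).sub (measurable_Phi _ _ _ _))
theorem measurableSet_cf (μ : ℝ × ℝ → ℝ) (A n : ℕ) (L R : ℤ) : MeasurableSet (CF μ A n L R) := by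
  refine bf3_forall fun Γ => bf3_imp ?_ ?_
  · exact bf3_and (measurableSet_isGeo _ _) (MeasurableSet.const _)
  · refine bf3_forall fun i0 => bf3_forall fun i => bf3_forall fun _ => bf3_forall fun _ =>
      bf3_forall fun _ => bf3_forall fun _ => bf3_and ?_ (MeasurableSet.const _)
    exact measurableSet_le (measurable_cost _ _ _) measurable_const
theorem measurableSet_meet (N : ℤ) (s : ℝ) (h r : ℕ) : MeasurableSet (Meet N s h r) := by
  refine bf3_forall fun y => bf3_forall fun y' => bf3_forall fun _ => bf3_forall fun _ => ?_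
  refine (measP_line 1 N s (1, y)).measurableSet (q := fun t γ => ∃ i1 i2, i1 ≤ γ.n ∧
    i2 ≤ (line t 1 N s (1, y')).n ∧ γ.p i1 = (line t 1 N s (1, y')).p i2 ∧
    (∀ i ≤ i1, γ.p i ∈ box 0 r) ∧
    (∀ i ≤ i2, (line t 1 N s (1, y')).p i ∈ box 0 r)) fun γ => ?_
  exact (measP_line 1 N s (1, y')).measurableSet (q := fun _ δ => ∃ i1 i2, i1 ≤ γ.n ∧
    i2 ≤ δ.n ∧ γ.p i1 = δ.p i2 ∧ (∀ i ≤ i1, γ.p i ∈ box 0 r) ∧
    (∀ i ≤ i2, δ.p i ∈ box 0 r)) fun δ => MeasurableSet.const _
theorem measurableSet_nt (k N : ℤ) (s η : ℝ) (x : V) (e : Sym2 V) :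
    MeasurableSet (NT k N s η x e) := by
  refine bf3_exists fun γ => bf3_exists fun δ => bf3_and (measurableSet_isLine _ _ _ _) ?_
  refine bf3_and (MeasurableSet.const _) <| bf3_and (MeasurableSet.const _) <|
    bf3_and (MeasurableSet.const _) <| bf3_and (MeasurableSet.const _) <|
    bf3_and (MeasurableSet.const _) <| bf3_and (MeasurableSet.const _) <|
    bf3_and (MeasurableSet.const _) <| bf3_and (MeasurableSet.const _) ?_
  exact measurableSet_le ((measurable_tot γ).sub_const _) ((measurable_Gd _ _ _ _).add_const _)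
theorem measurableSet_nts (N : ℤ) (s η : ℝ) (h r : ℕ) : MeasurableSet (NTs N s η h r) := by
  exact bf3_exists fun y => bf3_and (MeasurableSet.const _) <| bf3_exists fun e =>
    bf3_and (MeasurableSet.const _) (measurableSet_nt _ _ _ _ _ _)

theorem depF_Gd (k N : ℤ) (s : ℝ) (x : V) : DepF (LE (strip k N)) (fun t => Gd t k N s x) := by
  intro t t' h
  simp only [Gd, TD_congr h]
theorem depF_Dinc (k N : ℤ) (α β : ℝ) (y1 y2 : ℤ) :
    DepF (LE (strip k N)) (fun t => Dinc t k N α β y1 y2) := by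
  intro t t' h
  have e : ∀ s x, Gd t k N s x = Gd t' k N s x := fun s x => depF_Gd k N s x t t' h
  simp only [Dinc, Gf, e]
theorem dep_isLine (k N : ℤ) (s : ℝ) (γ : Pth) : Dep (LE (strip k N)) {t | IsLine t k N s γ} := by
  rintro t t' h ⟨h1, h2, h3⟩
  refine ⟨h1.congr h, h2, ?_⟩
  have e1 : γ.tot t = γ.tot t' := depF_tot h1.1 h1.2.1 t t' h
  have e2 : Gd t k N s (γ.p 0) = Gd t' k N s (γ.p 0) := depF_Gd k N s _ t t' h
  rw [← e1, ← e2]
  exact h3
theorem depF_line (k N : ℤ) (s : ℝ) (x : V) : DepF (LE (strip k N)) (fun t => line t k N s x) := by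
  exact depF_pick (q := fun t γ => IsLine t k N s γ ∧ γ.p 0 = x)
    fun γ t t' h ht => ⟨dep_isLine k N s γ t t' h ht.1, ht.2⟩
theorem dep_pl (μ : ℝ × ℝ → ℝ) (k N : ℤ) (α β lo hi ζ ℓ : ℝ) (Y : ℕ) :
    Dep (LE (strip k N)) (PL μ k N α β lo hi ζ ℓ Y) := by
  intro t t' h ht y0 xc yc b h1 h2 h3 h4 y
  have := ht y0 xc yc b h1 h2 h3 h4 y
  simp only [Phi, TD_congr h] at this ⊢
  exact this
theorem dep_meet (N : ℤ) (s : ℝ) (h r : ℕ) : Dep (LE (strip 1 N)) (Meet N s h r) := by
  intro t t' he ht y y' h1 h2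
  have e : ∀ x, line t 1 N s x = line t' 1 N s x := fun x => depF_line 1 N s x t t' he
  have := ht y y' h1 h2
  simp only [e] at this
  exact this
theorem dep_nts (N : ℤ) (s η : ℝ) (h r : ℕ) : Dep (LE (strip 1 N)) (NTs N s η h r) := by
  rintro t t' he ⟨y, hy, e, hE, γ, δ, h1, h2, h3, h4, h5, h6, h7, h8, h9, h10⟩
  refine ⟨y, hy, e, hE, γ, δ, dep_isLine _ _ _ _ t t' he h1, h2, h3, h4, h5, h6, h7, h8, h9, ?_⟩
  have e1 : γ.tot t = γ.tot t' := depF_tot h4 h6 t t' he
  have e2 : Gd t 1 N s (1, y) = Gd t' 1 N s (1, y) := depF_Gd 1 N s _ t t' he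
  rw [← e1, ← e2]
  exact h10
/-- the left fields read only the left strip -/
theorem depF_Dinc_left (N : ℤ) (α β : ℝ) (y1 y2 : ℤ) :
    DepF (LE (strip (1 - N) 0)) (fun t => Dinc (act rfl1 t) 1 N α β y1 y2) := by
  have e : strip 1 N = rfl1 ⁻¹' strip (1 - N) 0 := by
    rw [preimage_rfl1_strip]
    congr 1
    ring
  have h := depF_Dinc 1 N α β y1 y2
  rw [e] at h
  intro t t' he
  have h2 := Dep.act_LE isAut_rfl1 (h.preimage {Dinc (act rfl1 t) 1 N α β y1 y2}) t t' he rfl
  exact Eq.symm h2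
theorem disjoint_LE_strip (L R : ℤ) : Disjoint (LE (strip L 0)) (LE (strip 1 R)) := by
  refine (disjoint_ED ?_).mono (LE_subset_ED _) (LE_subset_ED _)
  rw [Set.disjoint_left]
  rintro x ⟨-, h1⟩ ⟨h2, -⟩
  omega

variable {G : Measure ℝ} [Law G]

theorem Gd_tr {t : Env} (ht : Fld G t) (v : V) {k N : ℤ} {s : ℝ} (hs : |s| < m1 (mu G)) {x : V}
    (hx : x ∈ strip k N) :
    Gd (act (tr v) t) k N s x = Gd t (k + v.1) (N + v.1) s (x + v) + s * v.2 := by
  have hx' : x + v ∈ strip (k + v.1) (N + v.1) := by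
    obtain ⟨h1, h2⟩ := hx
    constructor <;> simp only [Prod.fst_add] <;> omega
  unfold Gd
  rw [ciInf_add (Gd_bdd ht hs hx')]
  refine Eq.trans (iInf_congr fun z => ?_) (Equiv.addRight v.2).iInf_comp
  rw [bf3_strip v k N, TD_act (isAut_tr v)]
  simp only [tr_apply, Equiv.coe_addRight]
  have e : ((N, z) : V) + v = (N + v.1, z + v.2) := rfl
  rw [e]
  push_cast
  ring
theorem Gf_tr {t : Env} (ht : Fld G t) (v : V) {k N : ℤ} (hk : k ≤ N) {s : ℝ}
    (hs : |s| < m1 (mu G)) (y : ℤ) :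
    Gf (act (tr v) t) k N s y = Gf t (k + v.1) (N + v.1) s (y + v.2) + s * v.2 := by
  unfold Gf
  rw [Gd_tr ht v hs (x := (k, y)) ⟨le_rfl, hk⟩]
  rfl
theorem isLine_tr {t : Env} (ht : Fld G t) (v : V) {k N : ℤ} {s : ℝ} (hs : |s| < m1 (mu G))
    (γ : Pth) :
    IsLine (act (tr v) t) k N s γ ↔ IsLine t (k + v.1) (N + v.1) s (γ.map (tr v)) := by
  unfold IsLine
  have e : IsGeo (strip k N) (act (tr v) t) γ ↔
      IsGeo (strip (k + v.1) (N + v.1)) t (γ.map (tr v)) := by
    rw [bf3_strip v k N, isGeo_act (isAut_tr v)]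
  rw [← e]
  refine and_congr_right fun hg => ?_
  have hx : γ.p 0 ∈ strip k N := hg.2.1 0 (Nat.zero_le _)
  rw [Gd_tr ht v hs hx, Pth.map_tot]
  simp only [Pth.map_n, Pth.map_p, tr_apply, Prod.fst_add, Prod.snd_add, add_left_inj]
  push_cast
  refine and_congr_right fun _ => ?_
  constructor <;> intro h <;> linarith
theorem line_tr {t : Env} {s : ℝ} (ht : GN G s t) (v : V) {k N : ℤ} (hs : |s| < m1 (mu G)) {x : V}
    (hx : x ∈ strip k N) :
    (line (act (tr v) t) k N s x).map (tr v) = line t (k + v.1) (N + v.1) s (x + v) := by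
  obtain ⟨h1, h2⟩ := line_spec ((fld_tr v t).2 ht.1) hs hx
  have h3 := IsLine.eq_line ht ((isLine_tr ht.1 v hs _).1 h1)
  rw [Pth.map_p, h2, tr_apply] at h3
  exact h3
theorem Pr_inc_tr {k N : ℤ} (hk : k ≤ N) {s : ℝ} (hs : |s| < m1 (mu G)) (y0 : ℤ) (ζ ℓ : ℝ) :
    Pr G (Inc k N s y0 ζ ℓ)ᶜ = Pr G (Inc 0 (N - k) s 0 ζ ℓ)ᶜ := by
  rw [← Pr_act G (tr (k, y0)) (Inc 0 (N - k) s 0 ζ ℓ)ᶜ]
  have key : ∀ t, Fld G t →
      (act (tr (k, y0)) t ∈ Inc 0 (N - k) s 0 ζ ℓ ↔ t ∈ Inc k N s y0 ζ ℓ) := by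
    intro t ht
    have e : ∀ y, Gf (act (tr (k, y0)) t) 0 (N - k) s y = Gf t k N s (y + y0) + s * y0 := by
      intro y
      rw [Gf_tr ht (k, y0) (by omega) hs]
      simp only [zero_add, sub_add_cancel]
    simp only [Inc, Set.mem_ofPred_eq, e, zero_add, sub_zero]
    constructor
    · intro h y
      have := h (y - y0)
      rw [sub_add_cancel] at this
      convert this using 2
      ring
    · intro h y
      have := h (y + y0)
      rw [add_sub_cancel_right] at this
      convert this using 2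
      ring
  apply le_antisymm
  · refine Pr_mono_ae G ((ae_fld G).mono fun t ht h h' => h ((key t ht).1 h'))
  · refine Pr_mono_ae G ((ae_fld G).mono fun t ht h h' => h ((key t ht).2 h'))

end Crest.Agent.R151
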