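import Crest.Agent.R151.BFld2
import Crest.Agent.R151.BFld3

/-! Row 151, part B: integrability of the fields and their mean increments. -/

set_option autoImplicit false

namespace Crest.Agent.R151

open MeasureTheory ProbabilityTheory Crest.ProbabilityR.FirstPassage Filter Topology
open scoped Classical

theorem BFld4_summable {c : ℝ} (hc : 0 < c) (C : ℝ) :
    Summable fun k : ℕ => (2 : ℝ) ^ k * (C * Real.exp (-(c * (1 * 2 ^ k)))) := by
  have h : Summable fun k : ℕ => (2 : ℝ) ^ k * Real.exp (-(c * (1 * 2 ^ k))) := by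
    refine Summable.of_nonneg_of_le (fun k => by positivity) (fun k => ?_)
      (summable_geometric_two.mul_left (2 / c ^ 2))
    have hx : (0 : ℝ) < c * (1 * 2 ^ k) := by positivity
    have h1 := Real.quadratic_le_exp_of_nonneg hx.le
    have h2 : (c * (1 * 2 ^ k)) ^ 2 / 2 ≤ Real.exp (c * (1 * 2 ^ k)) := by linarith
    rw [Real.exp_neg]
    calc (2 : ℝ) ^ k * (Real.exp (c * (1 * 2 ^ k)))⁻¹
        ≤ 2 ^ k * ((c * (1 * 2 ^ k)) ^ 2 / 2)⁻¹ := by gcongr
      _ = 2 / c ^ 2 * (1 / 2) ^ k := by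
        rw [one_div, inv_pow]
        field_simp
  exact (h.mul_left C).congr fun k => by ring

theorem BFld4_vert {μ : ℝ × ℝ → ℝ} (h : NormOK μ) (v : ℝ × ℝ) : m1 μ * |v.2| ≤ μ v := by
  obtain ⟨a, b⟩ := v
  have h1 := h.add_le (a, b) (-a, b)
  have h2 := h.smul_abs (2 * b) (0, 1)
  have e : ((a, b) : ℝ × ℝ) + (-a, b) = (2 * b) • ((0, 1) : ℝ × ℝ) := by
    ext <;> simp; ring
  rw [e, h2, h.refl1, abs_mul, abs_two] at h1
  unfold m1
  simp only
  linarith

variable {G : Measure ℝ} [Law G]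

/-- an integrable (exponential tail) bound for the shortfall of passage times from a point -/
theorem exists_shortfall {ζ : ℝ} (hζ : 0 < ζ) : ∃ Y : Env → ℝ, Measurable Y ∧ (∀ t, 0 ≤ Y t) ∧
    Integrable Y (iidLaw G) ∧ ∀ᵐ t ∂(iidLaw G), ∀ z : V,
      mu G (rv z) - ζ * nrm z - Y t ≤ T t 0 z := by
  obtain ⟨C, c, hC, hc, hP⟩ := Pr_shortfall G hζ
  set S : Env → ENNReal := fun t =>
    ⨆ z : V, ENNReal.ofReal (mu G (rv z) - ζ * nrm z - T t 0 z) with hS
  have hm : Measurable fun t => (S t).toReal :=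
    (Measurable.iSup fun z =>
      (measurable_const.sub (measurable_T 0 z)).ennreal_ofReal).ennreal_toReal
  refine ⟨fun t => (S t).toReal, hm, fun _ => ENNReal.toReal_nonneg, ?_, ?_⟩
  · refine (integral_le_of_tail G hm (Eventually.of_forall fun _ => ENNReal.toReal_nonneg) one_pos
      (b := fun k => C * Real.exp (-(c * (1 * 2 ^ k)))) (fun k => ?_) (BFld4_summable hc C)).1
    refine le_trans (Pr_mono G fun t ht => ?_) (hP 0 (1 * 2 ^ k) (by positivity))
    have h0 : (0 : ℝ) ≤ 1 * 2 ^ k := by positivity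
    have ht' : 1 * 2 ^ k < (S t).toReal := ht
    have hne : S t ≠ ⊤ := by
      intro h
      rw [h, ENNReal.toReal_top] at ht'
      linarith
    obtain ⟨z, hz⟩ := lt_iSup_iff.1 ((ENNReal.ofReal_lt_iff_lt_toReal h0 hne).2 ht')
    have := (ENNReal.ofReal_lt_ofReal_iff_of_nonneg h0).1 hz
    exact ⟨z, by rw [sub_zero]; linarith⟩
  · filter_upwards [ae_fld G] with t ht z
    obtain ⟨n, hn⟩ := exists_nat_one_div_lt hζ
    obtain ⟨K, hK⟩ := ht.2 0 n
    have hne : S t ≠ ⊤ := by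
      refine ne_top_of_le_ne_top (ENNReal.ofReal_ne_top (r := K)) (iSup_le fun w => ?_)
      refine ENNReal.ofReal_le_ofReal ?_
      have h1 := hK w
      rw [sub_zero] at h1
      have h2 : (nrm w : ℝ) / ((n : ℝ) + 1) ≤ ζ * nrm w := by
        rw [div_eq_mul_one_div, mul_comm]
        exact mul_le_mul_of_nonneg_right hn.le (Nat.cast_nonneg _)
      linarith
    have := (ENNReal.ofReal_le_iff_le_toReal hne).1 (le_iSup (fun z : V =>
      ENNReal.ofReal (mu G (rv z) - ζ * nrm z - T t 0 z)) z)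
    linarith

theorem integrable_Gf {k N : ℤ} (hk : k + 2 ≤ N) {s : ℝ} (hs : |s| < m1 (mu G)) (y : ℤ) :
    Integrable (fun t => Gf t k N s y) (iidLaw G) := by
  have hζ : 0 < m1 (mu G) - |s| := sub_pos.2 hs
  obtain ⟨Y, -, -, hY, hle⟩ := exists_shortfall (G := G) hζ
  obtain ⟨C, -, hC⟩ := strip_moment G
  have hx : ((k, y) : V) ∈ strip k N := ⟨le_rfl, by simp only; omega⟩
  have hz : ∀ z : ℤ, ((N, z) : V) ∈ strip k N := fun z => ⟨by simp only; omega, le_rfl⟩
  have hup := (hC k N hk (k, y) (N, y) hx (hz y) (strip k N) Set.inter_subset_left).1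
  refine integrable_of_le_of_le (measurable_Gf k N s y).aestronglyMeasurable
    (g₁ := fun t => -((m1 (mu G) - |s|) * ((N - k : ℤ) : ℝ)) - s * y - Y (act (tr (k, y)) t))
    (g₂ := fun t => TD (strip k N) t (k, y) (N, y) - s * y) ?_ ?_
    ((integrable_const _).sub ((integrable_act G _ Y).2 hY)) (hup.sub (integrable_const _))
  · filter_upwards [ae_nn G, ae_act G (tr (k, y)) hle] with t ht h1
    refine le_ciInf fun z => ?_
    have h2 := h1 (N - k, z - y)
    rw [T_act (isAut_tr _)] at h2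
    have e1 : tr (k, y) (0 : V) = (k, y) := by simp
    have e2 : tr (k, y) ((N - k, z - y) : V) = (N, z) := by simp
    rw [e1, e2] at h2
    have h3 := T_le_TD ht (conn_strip hx (hz z))
    have h4 := BFld4_vert (mu_ok G) (rv (N - k, z - y))
    have h5 : ((nrm (N - k, z - y) : ℕ) : ℝ) ≤ ((N - k : ℤ) : ℝ) + |((z - y : ℤ) : ℝ)| := by
      have : ((nrm (N - k, z - y) : ℕ) : ℤ) ≤ (N - k) + |z - y| := by
        have := abs_nonneg (z - y)
        unfold nrm
        rw [Int.abs_eq_natAbs]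
        simp only
        omega
      exact_mod_cast this
    have h6 := mul_le_mul_of_nonneg_left h5 hζ.le
    have h7 : s * ((z - y : ℤ) : ℝ) ≤ |s| * |((z - y : ℤ) : ℝ)| := by
      rw [← abs_mul]; exact le_abs_self _
    have h8 : s * ((z - y : ℤ) : ℝ) = s * z - s * y := by push_cast; ring
    simp only [rv] at h2 h4
    linarith
  · filter_upwards [ae_fld G] with t ht
    exact Gd_le ht hs hx y

theorem integral_Gf {k N : ℤ} (hk : k + 2 ≤ N) {s : ℝ} (hs : |s| < m1 (mu G)) (y : ℤ) :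
    ∫ t, Gf t k N s y ∂(iidLaw G) = ∫ t, Gf t 0 (N - k) s 0 ∂(iidLaw G) - s * y := by
  rw [← integral_act G (tr (k, y)) (fun t => Gf t 0 (N - k) s 0)]
  have h1 : ∀ᵐ t ∂(iidLaw G), Gf (act (tr (k, y)) t) 0 (N - k) s 0 = Gf t k N s y + s * y := by
    filter_upwards [ae_fld G] with t ht
    rw [Gf_tr ht (k, y) (by omega) hs]
    simp
  rw [integral_congr_ae h1, integral_add (integrable_Gf hk hs y) (integrable_const _)]
  simp

theorem integral_Dinc {k N : ℤ} (hk : k + 2 ≤ N) {α β : ℝ} (hα : |α| < m1 (mu G))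
    (hβ : |β| < m1 (mu G)) (y1 y2 : ℤ) :
    Integrable (fun t => Dinc t k N α β y1 y2) (iidLaw G) ∧
    ∫ t, Dinc t k N α β y1 y2 ∂(iidLaw G) = (β - α) * ((y2 - y1 : ℤ) : ℝ) := by
  have a1 := integrable_Gf hk hα y1
  have a2 := integrable_Gf hk hα y2
  have b1 := integrable_Gf hk hβ y1
  have b2 := integrable_Gf hk hβ y2
  have c1 : Integrable (fun t => Gf t k N α y1 - Gf t k N β y1) (iidLaw G) := a1.sub b1
  have c2 : Integrable (fun t => Gf t k N α y2 - Gf t k N β y2) (iidLaw G) := a2.sub b2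
  refine ⟨c2.sub c1, ?_⟩
  unfold Dinc
  rw [integral_sub c2 c1, integral_sub a2 b2, integral_sub a1 b1,
    integral_Gf hk hα y1, integral_Gf hk hα y2, integral_Gf hk hβ y1, integral_Gf hk hβ y2]
  push_cast
  ring

theorem Pr_Dinc_ge {k N : ℤ} (hk : k + 2 ≤ N) {α β : ℝ} (hα : |α| < m1 (mu G))
    (hβ : |β| < m1 (mu G)) (hαβ : α ≤ β) {y1 y2 : ℤ} (hy : y1 ≤ y2) {η : ℝ} (hη : 0 < η) :
    Pr G {t | η ≤ Dinc t k N α β y1 y2} ≤ (β - α) * ((y2 - y1 : ℤ) : ℝ) / η := by
  obtain ⟨h1, h2⟩ := integral_Dinc hk hα hβ y1 y2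
  rw [← h2]
  refine Pr_markov G h1 ?_ hη
  filter_upwards [ae_fld G] with t ht
  exact Dinc_nonneg ht (by omega) hα hβ hαβ hy

theorem Pr_Dinc_left_ge {N : ℤ} (hN : 3 ≤ N) {α β : ℝ} (hα : |α| < m1 (mu G))
    (hβ : |β| < m1 (mu G)) (hαβ : α ≤ β) {y1 y2 : ℤ} (hy : y1 ≤ y2) {η : ℝ} (hη : 0 < η) :
    Pr G {t | η ≤ Dinc (act rfl1 t) 1 N α β y1 y2} ≤ (β - α) * ((y2 - y1 : ℤ) : ℝ) / η := by
  have := Pr_act G rfl1 {t | η ≤ Dinc t 1 N α β y1 y2}
  exact (le_of_eq this).trans (Pr_Dinc_ge (by omega) hα hβ hαβ hy hη)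

/-- vertical increments are bounded by moves inside three columns -/
theorem abs_Gf_sub_le {t : Env} (ht : Fld G t) {k N : ℤ} (hk : k + 2 ≤ N) {s : ℝ}
    (hs : |s| < m1 (mu G)) (y y' : ℤ) :
    |Gf t k N s y - Gf t k N s y'| ≤ TD (strip k (k + 2)) t (k, y) (k, y') := by
  have hx : ∀ y : ℤ, ((k, y) : V) ∈ strip k (k + 2) := fun y => ⟨le_rfl, by simp only; omega⟩
  have hsub : strip k (k + 2) ⊆ strip k N := fun x hx => ⟨hx.1, hx.2.trans hk⟩
  have key : ∀ y y' : ℤ, Gf t k N s y - Gf t k N s y' ≤ TD (strip k (k + 2)) t (k, y) (k, y') :=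
    fun y y' => by
      have h1 := Gd_le_add ht hs (hsub (hx y)) (hsub (hx y'))
      have h2 := TD_anti ht.nn hsub (conn_strip (hx y) (hx y'))
      unfold Gf
      linarith
  have h1 := key y y'
  have h2 := key y' y
  rw [TD_symm] at h2
  exact abs_le.2 ⟨by linarith, h1⟩

end Crest.Agent.R151
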