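import Crest.Agent.R151.BFld2
import Crest.Agent.R151.BFld3

/-! Row 151, part B: near ties are rare; without them geodesics follow the lines. -/

set_option autoImplicit false

namespace Crest.Agent.R151

open MeasureTheory ProbabilityTheory Crest.ProbabilityR.FirstPassage Filter Topology
open scoped Classical

variable {G : Measure ℝ} [Law G]

theorem BFol_half {s : ℝ} (hs : |s| < m1 (mu G)) {k N : ℤ} {η : ℝ} {x : V} {e : Sym2 V}
    {t t' : Env} (ht : Fld G t) (ht' : Fld G t') (h : t ∈ NT k N s η x e)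
    (h' : t' ∈ NT k N s η x e) (he : ∀ e', e' ≠ e → t e' = t' e') : t' e - t e ≤ η := by
  obtain ⟨-, δ, hδ, δ0, eδ, -⟩ := h
  obtain ⟨γ, -, -, -, -, o, sa, hin, γ0, γN, eγ, hv⟩ := h'
  have a1 := Gd_le_tot ht' hs hδ.1.1 hδ.1.2.1 hδ.2.1
  have a2 : δ.tot t = δ.tot t' := by
    refine δ.cost_congr fun i _ hi => he _ fun hh => eδ ?_
    exact Pth.mem_edges.2 ⟨i, hi, hh⟩
  have a3 := hδ.2.2
  have a4 := Gd_le_tot ht hs o hin γN
  have a5 : γ.tot t - t e = γ.tot t' - t' e := by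
    rw [Pth.tot_eq_sum_edges o sa, Pth.tot_eq_sum_edges o sa, ← Finset.add_sum_erase _ _ eγ,
      ← Finset.add_sum_erase _ _ eγ]
    have : ∑ x ∈ γ.edges.erase e, t x = ∑ x ∈ γ.edges.erase e, t' x :=
      Finset.sum_congr rfl fun e' h' => he e' (Finset.ne_of_mem_erase h')
    rw [this]; ring
  rw [δ0] at a1 a3
  rw [γ0] at a4
  linarith

theorem Pr_nt {s : ℝ} (hs : |s| < m1 (mu G)) (k N : ℤ) (η : ℝ) (x : V) (e : Sym2 V) :
    Pr G (NT k N s η x e) ≤ omg G η := by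
  have h1 : Pr G (NT k N s η x e) ≤ Pr G (NT k N s η x e ∩ {t | Fld G t}) :=
    Pr_mono_ae G ((ae_fld G).mono fun t ht h => ⟨h, ht⟩)
  refine h1.trans (Pr_le_omg G e ((measurableSet_nt k N s η x e).inter (measurableSet_fld G)) ?_)
  intro t ht t' ht' he
  have a1 := BFol_half hs ht.2 ht'.2 ht.1 ht'.1 he
  have a2 := BFol_half hs ht'.2 ht.2 ht'.1 ht.1 (fun e' h' => (he e' h').symm)
  exact abs_le.2 ⟨by linarith, by linarith⟩

theorem Pr_nts {s : ℝ} (hs : |s| < m1 (mu G)) (N : ℤ) (η : ℝ) (h r : ℕ) :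
    Pr G (NTs N s η h r) ≤ (2 * h + 1) * (4 * (2 * r + 1) ^ 2) * omg G η := by
  have h1 := Pr_le_card_mul G (Finset.Icc (-(h : ℤ)) h ×ˢ edgesIn (boxF (1, 0) r))
    (A := NTs N s η h r) (fun p => NT 1 N s η (1, p.1) p.2) (p := omg G η)
    (Filter.Eventually.of_forall fun t ht => by
      obtain ⟨y, hy, e, he, hh⟩ := ht
      exact ⟨(y, e), Finset.mem_product.2 ⟨Finset.mem_Icc.2 (abs_le.1 hy), he⟩, hh⟩)
    (fun p _ => Pr_nt hs _ _ _ _ _)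
  refine h1.trans (mul_le_mul_of_nonneg_right ?_ (omg_nonneg G η))
  have h2 := card_edgesIn_le (boxF ((1, 0) : V) r)
  rw [card_boxF] at h2
  have h3 : (Finset.Icc (-(h : ℤ)) h).card = 2 * h + 1 := by
    rw [Int.card_Icc]; omega
  rw [Finset.card_product, h3]
  have h4 : (2 * h + 1) * (edgesIn (boxF ((1, 0) : V) r)).card ≤
      (2 * h + 1) * (4 * (2 * r + 1) ^ 2) := Nat.mul_le_mul_left _ h2
  exact_mod_cast h4

theorem follow (hd : DN (mu G)) {t : Env} {α β : ℝ} (ht : GN G α t) (hα : |α| ≤ Sk (mu G) 4)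
    (hβ : |β| ≤ Sk (mu G) 4) (hαβ : α ≤ β) {N y1 b : ℤ} {γ : Pth} (hγ : IsGeo (strip 1 N) t γ)
    (h0 : γ.p 0 = (1, y1)) (h1 : γ.p γ.n = (N, b)) {h r H' : ℕ} (hy : |y1| ≤ h) (hh : h ≤ r)
    {A η : ℝ} (hA : 0 ≤ A) (hH : (A + 3 * m1 (mu G)) * r < 2 * g0 (mu G) * H')
    (lα : ∃ δ : Pth, IsLine t 1 N α δ ∧ δ.p 0 = (1, (H' : ℤ)) ∧ (δ.p δ.n).2 ≤ b)
    (lβ : ∃ δ : Pth, IsLine t 1 N β δ ∧ δ.p 0 = (1, y1) ∧ b ≤ (δ.p δ.n).2)
    (hD : Dinc t 1 N α β (-(H' : ℤ)) H' < η) (hnt : t ∉ NTs N α η h r)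
    (hlip : t ∈ Lip (mu G) 1 N 0 r) (hlow : t ∈ LowL G (g0 (mu G)) 1 (1, 0) r)
    (hcost : ∀ i ≤ γ.n, γ.p i ∈ box (1, 0) r → γ.cost t 0 i ≤ A * r) :
    ∀ i ≤ γ.n, (∀ i' ≤ i, γ.p i' ∈ box (1, 0) r) →
      i ≤ (line t 1 N α (1, y1)).n ∧ ∀ i' ≤ i, γ.p i' = (line t 1 N α (1, y1)).p i' := by
  have hF := ht.1
  have hnn := hF.nn
  have hα' : |α| < m1 (mu G) := hα.trans_lt (hd.Sk_lt (by norm_num))
  have hβ' : |β| < m1 (mu G) := hβ.trans_lt (hd.Sk_lt (by norm_num))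
  obtain ⟨δ, hδ, δ0, δb⟩ := lα
  obtain ⟨δ', hδ', δ0', δb'⟩ := lβ
  have hm := hd.m1_pos
  have hg := hd.g0_pos
  have hS5 : Sk (mu G) 5 = m1 (mu G) - 3 * g0 (mu G) := by
    rw [DN.Sk_eq]; norm_num
  have hS0 := hd.Sk_pos 5
  have hr0 : (0 : ℝ) ≤ r := Nat.cast_nonneg r
  have hH0 : (0 : ℝ) ≤ H' := Nat.cast_nonneg H'
  have hrH : r < H' := by
    have : (r : ℝ) < H' := by
      by_contra hh
      push Not at hh
      have := mul_nonneg hA hr0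
      nlinarith
    exact_mod_cast this
  have hyy := abs_le.1 hy
  have hN : 1 ≤ N := by
    have := hγ.2.1 γ.n le_rfl
    rw [h1] at this
    exact this.1
  have hex : ∃ i, i ≤ γ.n ∧ ∃ j ≤ δ.n, γ.p i = δ.p j := by
    obtain ⟨i, j, -, hi, -, hj, e⟩ := cross_lemma' (a := 1) (b := N) hγ.1 hδ.1.1 (Nat.zero_le γ.n)
      le_rfl (Nat.zero_le δ.n) le_rfl (fun i _ hi => hγ.2.1 i hi) (fun i _ hi => hδ.1.2.1 i hi)
      (by rw [h0]) (by rw [h1]) (by rw [δ0]) hδ.2.1 (by rw [h0, δ0]; simp only; omega)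
      (by rw [h1]; exact δb)
    exact ⟨i, hi, j, hj, e⟩
  obtain ⟨I, ⟨hI, J, hJ, eIJ⟩, hmin⟩ : ∃ I, (I ≤ γ.n ∧ ∃ j ≤ δ.n, γ.p I = δ.p j) ∧
      ∀ i < I, ¬ (i ≤ γ.n ∧ ∃ j ≤ δ.n, γ.p i = δ.p j) :=
    ⟨Nat.find hex, Nat.find_spec hex, fun i hi => Nat.find_min hex hi⟩
  have c1 : δ.cost t 0 J = Gf t 1 N α H' - Gd t 1 N α (γ.p I) := by
    rw [hδ.cost_eq hF hα' (Nat.zero_le J) hJ, δ0, eIJ]; rfl
  have hbox : γ.p I ∉ box (1, 0) r := by
    intro hc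
    have a1 := Gd_le_cost_add hF hα' hγ.1 (Nat.zero_le I) hI (fun i _ hi => hγ.2.1 i (hi.trans hI))
    rw [h0] at a1
    change Gf t 1 N α y1 ≤ _ at a1
    have a2 := hcost I hI hc
    have a3 := (abs_le.1 (hlip α hα H')).2
    have a4 := (abs_le.1 (hlip α hα y1)).1
    have a5 : |(((H' : ℤ) - 0 : ℤ) : ℝ)| = H' := by simp
    have a6 : |((y1 - 0 : ℤ) : ℝ)| ≤ r := by
      have : |y1 - 0| ≤ (r : ℤ) := by rw [sub_zero]; omega
      exact_mod_cast this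
    rw [a5] at a3
    have a7 := mul_le_mul_of_nonneg_left a6 hS0.le
    have a8 := T_le_cost hnn hδ.1.1 (Nat.zero_le J) hJ
    rw [δ0, ← eIJ, T_symm] at a8
    have a9 := hlow (γ.p I) (by rwa [one_mul]) (1, (H' : ℤ))
    have b1 := hd.m1_norm_le (rv ((1, (H' : ℤ)) - γ.p I))
    rw [norm_rv] at b1
    have b2 : (H' : ℝ) - r ≤ (nrm ((1, (H' : ℤ)) - γ.p I) : ℝ) := by
      have e1 := abs_snd_le_nrm ((1, (H' : ℤ)) - γ.p I)
      have e2 := ((nrm_le_iff _ _).1 hc).2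
      simp only [Prod.snd_sub, sub_zero] at e1 e2
      have e3 : (H' : ℤ) - r ≤ (nrm ((1, (H' : ℤ)) - γ.p I) : ℤ) := by
        have := (abs_le.1 e2).2
        have := le_abs_self ((H' : ℤ) - (γ.p I).2)
        omega
      exact_mod_cast e3
    have b3 := mul_le_mul_of_nonneg_left b2 (show 0 ≤ m1 (mu G) - g0 (mu G) by linarith)
    rw [hS5] at a3 a4 a7
    have b4 := mul_nonneg hg.le hr0
    have b5 := mul_nonneg hm.le hr0
    nlinarith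
  -- the competitor
  have hj : (γ.sub 0 I).p (γ.sub 0 I).n = (δ.sub J δ.n).p 0 := by
    rw [Pth.sub_p_last _ (Nat.zero_le I), Pth.sub_p_zero, eIJ]
  have κo : ((γ.sub 0 I).app (δ.sub J δ.n)).Ok := (hγ.1.sub 0 hI).app (hδ.1.1.sub J le_rfl) hj
  have κi : ((γ.sub 0 I).app (δ.sub J δ.n)).In (strip 1 N) :=
    (hγ.2.1.sub 0 I).app (hδ.1.2.1.sub J δ.n)
  have κs : ((γ.sub 0 I).app (δ.sub J δ.n)).SA := by
    refine (hγ.2.2.1.sub (Nat.zero_le I) hI).app (hδ.1.2.2.1.sub hJ le_rfl) hj ?_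
    intro i hi j hj' e
    change i ≤ I - 0 at hi
    change j ≤ δ.n - J at hj'
    rw [Pth.sub_p _ _ _ hi, Pth.sub_p _ _ _ hj', zero_add] at e
    have : ¬ i < I := fun hh => hmin i hh ⟨by omega, J + j, by omega, e⟩
    have hiI : i = I := by omega
    rw [hiI, eIJ] at e
    have := hδ.1.2.2.1 J hJ (J + j) (by omega) e
    omega
  have κ0 : ((γ.sub 0 I).app (δ.sub J δ.n)).p 0 = (1, y1) := by
    rw [Pth.app_p_left _ _ (Nat.zero_le _), Pth.sub_p_zero, h0]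
  have κn : ((γ.sub 0 I).app (δ.sub J δ.n)).p ((γ.sub 0 I).app (δ.sub J δ.n)).n = δ.p δ.n := by
    rw [Pth.app_n, Pth.app_p_right hj, Pth.sub_p_last _ hJ]
  have κv : ((γ.sub 0 I).app (δ.sub J δ.n)).tot t - α * ((δ.p δ.n).2 : ℝ) ≤
      Gd t 1 N α (1, y1) + η := by
    rw [Pth.app_tot hj, Pth.sub_tot _ _ (Nat.zero_le I), Pth.sub_tot _ _ hJ]
    have a1 := bfld1_tail_eq hF hα' hδ hJ
    rw [← eIJ] at a1
    have a2 := γ.cost_add t (Nat.zero_le I) hI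
    have a3 : γ.cost t 0 γ.n = Phi t 1 N b y1 := by
      have := hγ.2.2.2
      rw [h0, h1] at this
      exact this
    have a4 := hγ.cost_eq hnn hI le_rfl
    rw [h1] at a4
    have m1' : ((1, (H' : ℤ)) : V) ∈ strip 1 N := ⟨le_rfl, hN⟩
    have m2 : γ.p I ∈ strip 1 N := hγ.2.1 I hI
    have m3 : ((N, b) : V) ∈ strip 1 N := ⟨hN, le_rfl⟩
    have a5 := TD_triangle hnn (conn_strip m1' m2) (conn_strip m2 m3)
    change Phi t 1 N b H' ≤ _ at a5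
    have a6 := TD_le_cost hnn (D := strip 1 N) hδ.1.1 (Nat.zero_le J) hJ
      (fun i _ hi => hδ.1.2.1 i (hi.trans hJ))
    rw [δ0, ← eIJ] at a6
    have a7 := le_Phi_incr hF hN hβ' (y2 := (H' : ℤ)) (by omega) hδ' δ0' δb'
    have a8 := Dinc_mono hF hN hα' hβ' hαβ (y1 := y1) (y2 := (H' : ℤ)) (y1' := -(H' : ℤ))
      (y2' := (H' : ℤ)) (by omega) le_rfl
    have a9 : Dinc t 1 N α β y1 H' =
      (Gf t 1 N α H' - Gf t 1 N β H') - (Gf t 1 N α y1 - Gf t 1 N β y1) := rfl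
    change _ ≤ Gf t 1 N α y1 + η
    linarith
  intro i hi hb
  have hiI : i < I := by
    by_contra hh
    exact hbox (hb I (by omega))
  obtain ⟨hl, l0⟩ := line_spec hF hα' (x := (1, y1)) (k := 1) (N := N) ⟨le_rfl, hN⟩
  refine Pth.prefix_eq_of_edges hγ.1 hγ.2.2.1 hl.1.1 hl.1.2.2.1 (h0.trans l0.symm) hi ?_
  intro i' hi'
  by_contra hh
  refine hnt ⟨y1, hy, γ.edge i', ?_, _, _, hl, l0, hh, κo, κs, κi, κ0, ?_, ?_, ?_⟩
  · exact mem_edgesIn.2 ⟨_, _, mem_boxF.2 (hb i' (by omega)), mem_boxF.2 (hb (i' + 1) (by omega)),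
      hγ.1 i' (by omega), rfl⟩
  · rw [κn]; exact hδ.2.1
  · rw [Pth.app_edges hj]
    refine Finset.mem_union_left _ (Pth.mem_edges.2 ⟨i', ?_, ?_⟩)
    · change i' < I - 0
      omega
    · rw [Pth.sub_edge _ _ _ (by omega), zero_add]
  · rw [κn]; exact κv

end Crest.Agent.R151
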