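import Crest.Agent.R151.BDefs

/-! Row 151, part B: the slope function of a differentiable lattice norm. -/

set_option autoImplicit false

namespace Crest.Agent.R151

open MeasureTheory ProbabilityTheory Crest.ProbabilityR.FirstPassage Filter Topology
open scoped Classical

namespace DN
variable {μ : ℝ × ℝ → ℝ}

theorem hasDerivAt (h : DN μ) (θ : ℝ) : HasDerivAt (fun x : ℝ => μ (1, x)) (slp μ θ) θ := by
  have h1 : DifferentiableAt ℝ μ ((fun x : ℝ => ((1 : ℝ), x)) θ) := h.diff _ (by simp)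
  have h2 : DifferentiableAt ℝ (fun x : ℝ => ((1 : ℝ), x)) θ := by fun_prop
  exact (h1.comp θ h2).hasDerivAt
theorem bg1_tan (h : DN μ) (θ x : ℝ) : μ (1, θ) + slp μ θ * (x - θ) ≤ μ (1, x) := by
  rcases lt_trichotomy θ x with hx | hx | hx
  · have := h.ok.convexOn_slope.le_slope_of_hasDerivAt (Set.mem_univ θ) (Set.mem_univ x) hx
      (h.hasDerivAt θ)
    rw [slope_def_field, le_div_iff₀ (sub_pos.2 hx)] at this
    linarith
  · simp [hx]
  · have := h.ok.convexOn_slope.slope_le_of_hasDerivAt (Set.mem_univ x) (Set.mem_univ θ) hx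
      (h.hasDerivAt θ)
    rw [slope_def_field, div_le_iff₀ (sub_pos.2 hx)] at this
    linarith
theorem slp_mono (h : DN μ) : Monotone (slp μ) := by
  refine monotone_iff_forall_lt.2 fun x y hxy => ?_
  have h1 := h.bg1_tan x y
  have h2 := h.bg1_tan y x
  by_contra hc
  nlinarith [mul_pos (sub_pos.2 (not_le.1 hc)) (sub_pos.2 hxy)]
theorem slp_continuous (h : DN μ) : Continuous (slp μ) := by
  have hO : (slp μ '' Set.univ).OrdConnected :=
    Set.ordConnected_univ.image_deriv fun x _ => (h.hasDerivAt x).differentiableAt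
  refine continuous_iff_continuousAt.2 fun a => tendsto_order.2 ⟨fun b hb => ?_, fun b hb => ?_⟩
  · by_cases hx : ∀ x, b < slp μ x
    · exact Eventually.of_forall hx
    · push Not at hx
      obtain ⟨x, hx⟩ := hx
      obtain ⟨c, -, hc⟩ := hO.out ⟨x, trivial, rfl⟩ ⟨a, trivial, rfl⟩
        (show (b + slp μ a) / 2 ∈ Set.Icc (slp μ x) (slp μ a) from ⟨by linarith, by linarith⟩)
      have hca : c < a := h.slp_mono.reflect_lt (by linarith)
      filter_upwards [Ioi_mem_nhds hca] with y hy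
      linarith [h.slp_mono (le_of_lt hy)]
  · by_cases hx : ∀ x, slp μ x < b
    · exact Eventually.of_forall hx
    · push Not at hx
      obtain ⟨x, hx⟩ := hx
      obtain ⟨c, -, hc⟩ := hO.out ⟨a, trivial, rfl⟩ ⟨x, trivial, rfl⟩
        (show (b + slp μ a) / 2 ∈ Set.Icc (slp μ a) (slp μ x) from ⟨by linarith, by linarith⟩)
      have hca : a < c := h.slp_mono.reflect_lt (by linarith)
      filter_upwards [Iio_mem_nhds hca] with y hy
      linarith [h.slp_mono (le_of_lt hy)]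
theorem slp_neg (h : DN μ) (θ : ℝ) : slp μ (-θ) = -slp μ θ := by
  have h1 := (h.hasDerivAt (-θ)).comp θ (hasDerivAt_neg θ)
  have e : ((fun x : ℝ => μ (1, x)) ∘ Neg.neg) = fun x : ℝ => μ (1, x) :=
    funext fun x => h.ok.refl2 1 x
  rw [e] at h1
  linarith [h1.unique (h.hasDerivAt θ)]
theorem slp_zero (h : DN μ) : slp μ 0 = 0 := by
  have := h.slp_neg 0
  rw [neg_zero] at this
  linarith
theorem abs_slp_le (h : DN μ) (θ : ℝ) : |slp μ θ| ≤ m1 μ := by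
  have h1 := h.bg1_tan θ (θ + 1)
  have h2 := h.bg1_tan θ (θ - 1)
  have h3 := h.ok.add_le (1, θ) (0, 1)
  have h4 := h.ok.add_le (1, θ) (0, -1)
  rw [h.ok.refl2] at h4
  simp only [Prod.mk_add_mk, add_zero, ← sub_eq_add_neg] at h3 h4
  unfold m1
  rw [abs_le]
  constructor <;> linarith
theorem tangent_le (h : DN μ) (θ x : ℝ) : μ (1, θ) + slp μ θ * (x - θ) ≤ μ (1, x) := h.bg1_tan θ x
/-- on the diagonal both components of the gradient agree -/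
theorem two_slp_one (h : DN μ) : 2 * slp μ 1 = μ (1, 1) := by
  have h0 : HasDerivAt (fun x : ℝ => μ (1, x)) (slp μ 1) ((1 : ℝ)⁻¹) := by
    rw [inv_one]; exact h.hasDerivAt 1
  have h1 := (hasDerivAt_id (1 : ℝ)).mul (h0.comp 1 (hasDerivAt_inv one_ne_zero))
  have h2 : HasDerivAt (fun x : ℝ => μ (1, x)) _ 1 := h1.congr_of_eventuallyEq (by
    filter_upwards [Ioi_mem_nhds (zero_lt_one' ℝ)] with x hx
    rw [h.ok.swap x 1, h.ok.homog hx, one_div]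
    rfl)
  have h3 := h2.unique (h.hasDerivAt 1)
  simp at h3
  linarith
theorem slp_one_pos (h : DN μ) : 0 < slp μ 1 := by
  have h1 := h.two_slp_one
  have h2 : 0 < μ (1, 1) := h.ok.pos (by simp)
  linarith
theorem slp_one_lt (h : DN μ) : slp μ 1 < m1 μ := by
  by_contra hc
  have hc' : μ (1, 0) ≤ slp μ 1 := by rw [h.ok.axis_eq]; exact not_lt.1 hc
  have h1 : IsLocalMin (fun x : ℝ => μ (1, x) - slp μ 1 * x) 0 := Eventually.of_forall fun x => by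
    have := h.bg1_tan 1 x
    have := h.two_slp_one
    simp only
    linarith
  have h2 := h1.hasDerivAt_eq_zero ((h.hasDerivAt 0).sub ((hasDerivAt_id (0 : ℝ)).const_mul _))
  rw [h.slp_zero] at h2
  linarith [h.slp_one_pos]
theorem m1_pos (h : DN μ) : 0 < m1 μ := h.ok.axis_pos
theorem g0_pos (h : DN μ) : 0 < g0 μ := by
  unfold g0
  linarith [h.slp_one_lt]
theorem Sk_pos (h : DN μ) (k : ℕ) : 0 < Sk μ k := by
  unfold Sk
  have := h.slp_one_pos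
  have := h.g0_pos
  positivity
theorem Sk_succ (k : ℕ) : Sk μ (k + 1) = Sk μ k + g0 μ := by
  unfold Sk
  push_cast
  ring
theorem Sk_eq (k : ℕ) : Sk μ k = m1 μ - (8 - (k : ℝ)) * g0 μ := by
  unfold Sk g0
  ring
theorem Sk_mono (h : DN μ) {k k' : ℕ} (hk : k ≤ k') : Sk μ k ≤ Sk μ k' := by
  unfold Sk
  have : (k : ℝ) ≤ k' := Nat.cast_le.2 hk
  nlinarith [h.g0_pos]
theorem Sk_lt (h : DN μ) {k : ℕ} (hk : k < 8) : Sk μ k < m1 μ := by
  rw [Sk_eq]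
  have : (k : ℝ) < 8 := by exact_mod_cast hk
  nlinarith [h.g0_pos]
theorem exists_slp_gt (h : DN μ) {s : ℝ} (hs : s < m1 μ) : ∃ θ, s < slp μ θ := by
  by_contra hc
  push Not at hc
  have hm := h.m1_pos
  have hd : 0 < m1 μ - s := sub_pos.2 hs
  set θ := m1 μ / (m1 μ - s) + 1 with hθ
  have h0 : 0 ≤ θ := by positivity
  have h1 := h.bg1_tan θ 0
  rw [h.ok.axis_eq] at h1
  have h2 := h.ok.axis_le (1, θ)
  have h3 : θ ≤ ‖((1 : ℝ), θ)‖ := (le_abs_self θ).trans (norm_snd_le ((1 : ℝ), θ))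
  have h4 := mul_le_mul_of_nonneg_left h3 hm.le
  have h5 := mul_le_mul_of_nonneg_right (hc θ) h0
  have h6 : (m1 μ - s) * θ = m1 μ + (m1 μ - s) := by rw [hθ]; field_simp
  unfold m1 at *
  nlinarith

theorem bg1_lt (h : DN μ) {s : ℝ} (hs : -m1 μ < s) : ∃ θ, slp μ θ < s := by
  obtain ⟨θ, hθ⟩ := h.exists_slp_gt (s := -s) (by linarith)
  exact ⟨-θ, by rw [h.slp_neg]; linarith⟩
theorem bg1_eq (h : DN μ) {s : ℝ} (hs : |s| < m1 μ) : ∃ θ, slp μ θ = s := by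
  obtain ⟨a, ha⟩ := h.bg1_lt (abs_lt.1 hs).1
  obtain ⟨b, hb⟩ := h.exists_slp_gt (abs_lt.1 hs).2
  exact intermediate_value_univ a b h.slp_continuous ⟨ha.le, hb.le⟩
theorem bg1_thm (h : DN μ) {s : ℝ} (hs : |s| < m1 μ) (θ : ℝ) : thm μ s ≤ θ ↔ s ≤ slp μ θ := by
  obtain ⟨a, ha⟩ := h.bg1_lt (abs_lt.1 hs).1
  obtain ⟨b, hb⟩ := h.exists_slp_gt (abs_lt.1 hs).2
  have hB : BddBelow {θ | s ≤ slp μ θ} :=
    ⟨a, fun x hx => (h.slp_mono.reflect_lt (ha.trans_le hx)).le⟩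
  refine ⟨fun h1 => le_trans ?_ (h.slp_mono h1), fun h1 => csInf_le hB h1⟩
  exact (isClosed_le continuous_const h.slp_continuous).csInf_mem ⟨b, hb.le⟩ hB
theorem bg1_thp (h : DN μ) {s : ℝ} (hs : |s| < m1 μ) (θ : ℝ) : θ ≤ thp μ s ↔ slp μ θ ≤ s := by
  obtain ⟨a, ha⟩ := h.bg1_lt (abs_lt.1 hs).1
  obtain ⟨b, hb⟩ := h.exists_slp_gt (abs_lt.1 hs).2
  have hB : BddAbove {θ | slp μ θ ≤ s} :=
    ⟨b, fun x hx => (h.slp_mono.reflect_lt (lt_of_le_of_lt hx hb)).le⟩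
  refine ⟨fun h1 => le_trans (h.slp_mono h1) ?_, fun h1 => le_csSup hB h1⟩
  exact (isClosed_le h.slp_continuous continuous_const).csSup_mem ⟨a, ha.le⟩ hB
theorem slp_thm (h : DN μ) {s : ℝ} (hs : |s| < m1 μ) : slp μ (thm μ s) = s := by
  obtain ⟨θ, hθ⟩ := h.bg1_eq hs
  exact le_antisymm ((h.slp_mono ((h.bg1_thm hs θ).2 hθ.ge)).trans hθ.le)
    ((h.bg1_thm hs _).1 le_rfl)
theorem slp_thp (h : DN μ) {s : ℝ} (hs : |s| < m1 μ) : slp μ (thp μ s) = s := by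
  obtain ⟨θ, hθ⟩ := h.bg1_eq hs
  exact le_antisymm ((h.bg1_thp hs _).1 le_rfl)
    (hθ.ge.trans (h.slp_mono ((h.bg1_thp hs θ).2 hθ.le)))
theorem thm_le_iff (h : DN μ) {s : ℝ} (hs : |s| < m1 μ) (θ : ℝ) : thm μ s ≤ θ ↔ s ≤ slp μ θ := h.bg1_thm hs θ
theorem le_thp_iff (h : DN μ) {s : ℝ} (hs : |s| < m1 μ) (θ : ℝ) : θ ≤ thp μ s ↔ slp μ θ ≤ s := h.bg1_thp hs θ
theorem thm_le_thp (h : DN μ) {s : ℝ} (hs : |s| < m1 μ) : thm μ s ≤ thp μ s := (h.le_thp_iff hs _).2 (h.slp_thm hs).le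
theorem thp_lt_thm (h : DN μ) {a b : ℝ} (ha : |a| < m1 μ) (hb : |b| < m1 μ) (hab : a < b) :
    thp μ a < thm μ b := by
  by_contra hc
  have := (h.thm_le_iff hb _).1 (not_lt.1 hc)
  rw [h.slp_thp ha] at this
  linarith
theorem thm_mono (h : DN μ) {a b : ℝ} (ha : |a| < m1 μ) (hb : |b| < m1 μ) (hab : a ≤ b) :
    thm μ a ≤ thm μ b := (h.thm_le_iff ha _).2 (hab.trans (h.slp_thm hb).ge)
theorem thp_mono (h : DN μ) {a b : ℝ} (ha : |a| < m1 μ) (hb : |b| < m1 μ) (hab : a ≤ b) :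
    thp μ a ≤ thp μ b := (h.le_thp_iff hb _).2 ((h.slp_thp ha).le.trans hab)
theorem thm_neg (h : DN μ) {s : ℝ} (hs : |s| < m1 μ) : thm μ (-s) = -thp μ s := by
  refine eq_of_forall_ge_iff fun θ => ?_
  rw [h.thm_le_iff (by rwa [abs_neg]), neg_le (a := thp μ s), h.le_thp_iff hs, h.slp_neg, neg_le]
/-- directions with slope at most `S` in absolute value are bounded by `thp S` -/
theorem abs_le_thp (h : DN μ) {S : ℝ} (hS : S < m1 μ) {θ : ℝ} (hθ : |slp μ θ| ≤ S) :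
    |θ| ≤ thp μ S := by
  have hS' : |S| < m1 μ := by rwa [abs_of_nonneg ((abs_nonneg _).trans hθ)]
  rw [abs_le, neg_le, h.le_thp_iff hS', h.le_thp_iff hS', h.slp_neg, neg_le]
  exact abs_le.1 hθ

theorem rho1_le (h : DN μ) {s : ℝ} (hs : |s| < m1 μ) (θ : ℝ) : rho1 μ s ≤ μ (1, θ) - s * θ := by
  obtain ⟨t, ht⟩ := h.bg1_eq hs
  refine ciInf_le ⟨μ (1, t) - s * t, ?_⟩ θ
  rintro _ ⟨x, rfl⟩
  have := h.bg1_tan t x
  rw [ht] at this
  simp only
  linarith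
theorem rho1_eq (h : DN μ) {θ : ℝ} (hs : |slp μ θ| < m1 μ) :
    rho1 μ (slp μ θ) = μ (1, θ) - slp μ θ * θ := by
  refine le_antisymm (h.rho1_le hs θ) (le_ciInf fun x => ?_)
  linarith [h.bg1_tan θ x]
theorem rho1_ge (h : DN μ) {s : ℝ} (hs : |s| < m1 μ) : m1 μ - |s| ≤ rho1 μ s := by
  refine le_ciInf fun x => ?_
  have h2 := h.ok.axis_le (1, x)
  have h3 : |x| ≤ ‖((1 : ℝ), x)‖ := norm_snd_le ((1 : ℝ), x)
  have h4 : 1 ≤ ‖((1 : ℝ), x)‖ := by simp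
  have h5 : s * x ≤ |s| * ‖((1 : ℝ), x)‖ := (le_abs_self _).trans (by
    rw [abs_mul]; exact mul_le_mul_of_nonneg_left h3 (abs_nonneg _))
  have h6 := mul_le_mul_of_nonneg_left h4 (sub_pos.2 hs).le
  unfold m1 at *
  linarith
theorem rho1_le_m1 (h : DN μ) {s : ℝ} (hs : |s| < m1 μ) : rho1 μ s ≤ m1 μ := by
  have := h.rho1_le hs 0
  rw [h.ok.axis_eq] at this
  unfold m1
  linarith
theorem rho1_neg (h : DN μ) (s : ℝ) : rho1 μ (-s) = rho1 μ s := by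
  unfold rho1
  rw [← neg_surjective.iInf_comp (fun θ : ℝ => μ (1, θ) - s * θ)]
  congr 1
  funext θ
  rw [h.ok.refl2]
  ring
theorem rho1_sub (h : DN μ) {a b : ℝ} (ha : |a| < m1 μ) (hb : |b| < m1 μ) (hab : a ≤ b) :
    (b - a) * thm μ a ≤ rho1 μ a - rho1 μ b ∧ rho1 μ a - rho1 μ b ≤ (b - a) * thp μ b := by
  have h1 := h.rho1_eq (θ := thm μ a) (by rwa [h.slp_thm ha])
  have h2 := h.rho1_eq (θ := thp μ b) (by rwa [h.slp_thp hb])
  rw [h.slp_thm ha] at h1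
  rw [h.slp_thp hb] at h2
  have _ := hab
  constructor
  · linarith [h.rho1_le hb (thm μ a)]
  · linarith [h.rho1_le ha (thp μ b)]
theorem dot_rho_le (h : DN μ) {s : ℝ} (hs : |s| < m1 μ) (v : ℝ × ℝ) : dot (rho μ s) v ≤ μ v := by
  refine h.ok.support_of_slope (fun θ => ?_) ?_ v
  · have := h.rho1_le hs θ
    simp only [rho]
    linarith
  · have := h.rho1_ge hs
    simp only [rho]
    linarith
theorem dot_rho_eq (h : DN μ) {s θ : ℝ} (hs : |s| < m1 μ) (hθ : slp μ θ = s) {a : ℝ} (ha : 0 ≤ a) :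
    dot (rho μ s) (a, θ * a) = μ (a, θ * a) := by
  subst hθ
  have h1 := h.ok.smul a (1, θ) ha
  have e : a • ((1 : ℝ), θ) = (a, θ * a) := by
    ext
    · simp
    · simp [mul_comm]
  rw [e] at h1
  rw [h1]
  simp only [dot, rho, h.rho1_eq hs]
  ring
theorem m1_norm_le (h : DN μ) (v : ℝ × ℝ) : m1 μ * ‖v‖ ≤ μ v := h.ok.axis_le v
theorem le_m1_norm (h : DN μ) (v : ℝ × ℝ) : μ v ≤ m1 μ * (|v.1| + |v.2|) := by
  obtain ⟨a, b⟩ := v
  have e : ((a, b) : ℝ × ℝ) = a • ((1, 0) : ℝ × ℝ) + b • ((0, 1) : ℝ × ℝ) := by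
    ext <;> simp
  have h1 := h.ok.add_le (a • ((1, 0) : ℝ × ℝ)) (b • ((0, 1) : ℝ × ℝ))
  rw [← e, h.ok.smul_abs, h.ok.smul_abs, h.ok.axis_eq] at h1
  unfold m1
  simp only
  linarith
theorem abs_sub_le (h : DN μ) (v w : ℝ × ℝ) :
    |μ v - μ w| ≤ m1 μ * (|v.1 - w.1| + |v.2 - w.2|) := by
  have h1 := (h.ok.sub_le v w).trans (h.le_m1_norm _)
  have h2 := (h.ok.sub_le w v).trans (h.le_m1_norm _)
  simp only [Prod.fst_sub, Prod.snd_sub] at h1 h2
  rw [abs_sub_comm w.1, abs_sub_comm w.2] at h2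
  exact abs_le.2 ⟨by linarith, h1⟩

end DN

end Crest.Agent.R151
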