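import Crest.Agent.R151.BGeo1

/-! Row 151, part B: lower bounds for the excess, counting intervals with a large range of
directions. -/

set_option autoImplicit false

namespace Crest.Agent.R151

open MeasureTheory ProbabilityTheory Crest.ProbabilityR.FirstPassage Filter Topology
open scoped Classical

namespace DN
variable {μ : ℝ × ℝ → ℝ}

theorem ex_back (h : DN μ) {s : ℝ} (hs : |s| < m1 μ) (v : ℝ × ℝ) :
    2 * (m1 μ - |s|) * max (-v.1) 0 ≤ μ v - dot (rho μ s) v := by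
  obtain ⟨x, z⟩ := v
  rcases le_total 0 x with hx | hx
  · rw [max_eq_right (by simpa using hx), mul_zero, sub_nonneg]
    exact h.dot_rho_le hs _
  · rw [max_eq_left (by simpa using hx)]
    have h1 := h.dot_rho_le hs (-x, z)
    rw [h.ok.refl1] at h1
    have h2 := mul_le_mul_of_nonneg_right (h.rho1_ge hs) (neg_nonneg.2 hx)
    simp only [dot, rho] at h1 ⊢
    linarith

theorem ex_dev (h : DN μ) {s σ θ δ : ℝ} (hσ : 0 < σ) (hs : |s| + σ < m1 μ)
    (h1 : thm μ (s - σ) ≤ θ) (h2 : θ ≤ thp μ (s + σ)) (hδ : thp μ (s + σ) - thm μ (s - σ) ≤ δ)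
    (v : ℝ × ℝ) : σ * (|v.2 - θ * v.1| - δ * |v.1|) ≤ μ v - dot (rho μ s) v := by
  have hs0 : |s| < m1 μ := by linarith
  have hp : |s + σ| < m1 μ := (abs_add_le _ _).trans_lt (by rwa [abs_of_pos hσ])
  have hm : |s - σ| < m1 μ := (abs_sub _ _).trans_lt (by rwa [abs_of_pos hσ])
  have key : ∀ D : ℝ, σ * thm μ (s - σ) ≤ D → D ≤ σ * thp μ (s + σ) →
      |(D - σ * θ) * v.1| ≤ σ * δ * |v.1| := by
    intro D h3 h4
    rw [abs_mul]
    refine mul_le_mul_of_nonneg_right (abs_le.2 ⟨?_, ?_⟩) (abs_nonneg _)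
    · nlinarith
    · nlinarith
  rcases le_total 0 (v.2 - θ * v.1) with hv | hv
  · obtain ⟨h3, h4⟩ := h.rho1_sub hs0 hp (by linarith)
    rw [add_sub_cancel_left] at h3 h4
    have h5 := abs_le.1 (key _ ((mul_le_mul_of_nonneg_left (h.thm_mono hm hs0 (by linarith))
      hσ.le).trans h3) h4)
    have h6 := h.dot_rho_le hp v
    rw [abs_of_nonneg hv]
    simp only [dot, rho] at h6 ⊢
    linarith [h5.2]
  · obtain ⟨h3, h4⟩ := h.rho1_sub hm hs0 (by linarith)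
    rw [sub_sub_cancel] at h3 h4
    have h5 := abs_le.1 (key _ h3 (h4.trans (mul_le_mul_of_nonneg_left
      (h.thp_mono hs0 hp (by linarith)) hσ.le)))
    have h6 := h.dot_rho_le hm v
    rw [abs_of_nonpos hv]
    simp only [dot, rho] at h6 ⊢
    linarith [h5.1]

/-- upper bound for the excess of a direction in the range of `[a, b]` relative to a slope in `[a, b]` -/
theorem ex_upper (h : DN μ) {a b s θ : ℝ} (ha : |a| < m1 μ) (hb : |b| < m1 μ) (has : a ≤ s)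
    (hsb : s ≤ b) (h1 : thm μ a ≤ θ) (h2 : θ ≤ thp μ b) {x : ℝ} (hx : 0 ≤ x) :
    μ (x, θ * x) - dot (rho μ s) (x, θ * x) ≤ (b - a) * (thp μ b - thm μ a) * x := by
  have hin : ∀ u, a ≤ u → u ≤ b → |u| < m1 μ := fun u h3 h4 =>
    abs_lt.2 ⟨(abs_lt.1 ha).1.trans_le h3, h4.trans_lt (abs_lt.1 hb).2⟩
  have h3 := (h.thm_le_iff ha θ).1 h1
  have h4 := (h.le_thp_iff hb θ).1 h2
  have hs := hin s has hsb
  have hs' := hin _ h3 h4
  have key : rho1 μ (slp μ θ) - rho1 μ s + (slp μ θ - s) * θ ≤ (b - a) * (thp μ b - thm μ a) := by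
    rcases le_total (slp μ θ) s with h5 | h5
    · have h6 := (h.rho1_sub hs' hs h5).2
      have h7 := mul_le_mul_of_nonneg_left (h.thp_mono hs hb hsb) (sub_nonneg.2 h5)
      have h8 : (s - slp μ θ) * (thp μ b - θ) ≤ (b - a) * (thp μ b - thm μ a) :=
        mul_le_mul (by linarith) (by linarith) (by linarith) (by linarith)
      linarith
    · have h6 := (h.rho1_sub hs hs' h5).1
      have h7 := mul_le_mul_of_nonneg_left (h.thm_mono ha hs has) (sub_nonneg.2 h5)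
      have h8 : (slp μ θ - s) * (θ - thm μ a) ≤ (b - a) * (thp μ b - thm μ a) :=
        mul_le_mul (by linarith) (by linarith) (by linarith) (by linarith)
      linarith
  rw [← h.dot_rho_eq hs' rfl hx]
  have := mul_le_mul_of_nonneg_right key hx
  simp only [dot, rho]
  linarith

theorem BGeo2_up (h : DN μ) {s : ℝ} (hs : |s| < m1 μ) {ζ : ℝ} (hζ : 0 < ζ) :
    ∃ c : ℝ, 0 < c ∧ ∀ x z : ℝ, 0 < x → (thp μ s + ζ) * x ≤ z →
      rho1 μ s * x + c * (x + |z|) ≤ μ (x, z) - s * z := by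
  have h1 : s < slp μ (thp μ s + ζ / 2) := by
    by_contra h2
    have := (h.le_thp_iff hs _).2 (not_lt.1 h2)
    linarith
  obtain ⟨σ, hσ, hσ1, hσ2⟩ : ∃ σ : ℝ, 0 < σ ∧ s + σ < slp μ (thp μ s + ζ / 2) ∧ |s| + σ < m1 μ := by
    refine ⟨min (slp μ (thp μ s + ζ / 2) - s) (m1 μ - |s|) / 2, ?_, ?_, ?_⟩
    · have : 0 < min (slp μ (thp μ s + ζ / 2) - s) (m1 μ - |s|) := lt_min (by linarith) (by linarith)
      linarith
    · have := min_le_left (slp μ (thp μ s + ζ / 2) - s) (m1 μ - |s|)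
      linarith
    · have := min_le_right (slp μ (thp μ s + ζ / 2) - s) (m1 μ - |s|)
      linarith
  have hp : |s + σ| < m1 μ := (abs_add_le _ _).trans_lt (by rwa [abs_of_pos hσ])
  have hT : thp μ (s + σ) ≤ thp μ s + ζ / 2 := by
    by_contra h2
    have := (h.le_thp_iff hp _).1 (not_le.1 h2).le
    linarith
  have h2 := (h.rho1_sub hs hp (by linarith)).2
  rw [add_sub_cancel_left] at h2
  set T := thp μ (s + σ)
  have hK : 0 < 1 + (1 + |T|) * (2 / ζ) := by positivity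
  refine ⟨σ / (1 + (1 + |T|) * (2 / ζ)), by positivity, fun x z hx hz => ?_⟩
  have h3 := h.dot_rho_le hp (x, z)
  simp only [dot, rho] at h3
  have h4 := mul_le_mul_of_nonneg_right hT hx.le
  have h5 : ζ / 2 * x ≤ z - T * x := by linarith
  have h6 : x ≤ 2 / ζ * (z - T * x) := by
    calc x = 2 / ζ * (ζ / 2 * x) := by field_simp
      _ ≤ _ := mul_le_mul_of_nonneg_left h5 (by positivity)
  have h7 : 0 ≤ z - T * x := le_trans (by positivity) h5
  have h8 : |z| ≤ z - T * x + |T| * x := by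
    calc |z| = |(z - T * x) + T * x| := by rw [sub_add_cancel]
      _ ≤ |z - T * x| + |T * x| := abs_add_le _ _
      _ = _ := by rw [abs_of_nonneg h7, abs_mul, abs_of_pos hx]
  have h9 : x + |z| ≤ (1 + (1 + |T|) * (2 / ζ)) * (z - T * x) := by
    have := mul_le_mul_of_nonneg_left h6 (show 0 ≤ 1 + |T| by positivity)
    linarith
  have h10 : σ / (1 + (1 + |T|) * (2 / ζ)) * (x + |z|) ≤ σ * (z - T * x) := by
    calc σ / (1 + (1 + |T|) * (2 / ζ)) * (x + |z|)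
        ≤ σ / (1 + (1 + |T|) * (2 / ζ)) * ((1 + (1 + |T|) * (2 / ζ)) * (z - T * x)) :=
          mul_le_mul_of_nonneg_left h9 (by positivity)
      _ = _ := by rw [← mul_assoc, div_mul_cancel₀ _ hK.ne']
  have h11 := mul_le_mul_of_nonneg_right h2 hx.le
  linarith

/-- uniform lower bound away from the optimal directions -/
theorem ex_away (h : DN μ) {s : ℝ} (hs : |s| < m1 μ) {ζ : ℝ} (hζ : 0 < ζ) :
    ∃ c : ℝ, 0 < c ∧ ∀ x z : ℝ, 0 < x → (z ≤ (thm μ s - ζ) * x ∨ (thp μ s + ζ) * x ≤ z) →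
      rho1 μ s * x + c * (x + |z|) ≤ μ (x, z) - s * z := by
  have hs' : |-s| < m1 μ := by rwa [abs_neg]
  obtain ⟨c1, hc1, h1⟩ := h.BGeo2_up hs hζ
  obtain ⟨c2, hc2, h2⟩ := h.BGeo2_up hs' hζ
  refine ⟨min c1 c2, lt_min hc1 hc2, fun x z hx hz => ?_⟩
  have h0 : 0 ≤ x + |z| := by positivity
  rcases hz with hz | hz
  · have h3 := h.thm_neg hs'
    rw [neg_neg] at h3
    have h4 := h2 x (-z) hx (by rw [h3] at hz; linarith)
    rw [h.rho1_neg, abs_neg, h.ok.refl2] at h4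
    have h5 := mul_le_mul_of_nonneg_right (min_le_right c1 c2) h0
    linarith
  · have h4 := h1 x z hx hz
    have h5 := mul_le_mul_of_nonneg_right (min_le_left c1 c2) h0
    linarith

/-- coercivity with a small loss -/
theorem ex_loss (h : DN μ) {s : ℝ} (hs : |s| < m1 μ) {ζ : ℝ} (hζ : 0 < ζ) :
    ∃ ζ' : ℝ, 0 < ζ' ∧ ∀ x z : ℝ, 0 < x →
      (rho1 μ s - ζ) * x ≤ μ (x, z) - s * z - ζ' * ‖((x, z) : ℝ × ℝ)‖ := by
  obtain ⟨c, hc, h1⟩ := h.ex_away hs one_pos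
  have hB : 0 < |thm μ s| + |thp μ s| + 2 := by positivity
  refine ⟨min c (ζ / (|thm μ s| + |thp μ s| + 2)), lt_min hc (by positivity), fun x z hx => ?_⟩
  have hn : ‖((x, z) : ℝ × ℝ)‖ ≤ x + |z| := by
    rw [Prod.norm_def, Real.norm_eq_abs, Real.norm_eq_abs, abs_of_pos hx]
    exact max_le (by linarith [abs_nonneg z]) (by linarith)
  by_cases hz : z ≤ (thm μ s - 1) * x ∨ (thp μ s + 1) * x ≤ z
  · have h2 := h1 x z hx hz
    have h3 : min c (ζ / (|thm μ s| + |thp μ s| + 2)) * ‖((x, z) : ℝ × ℝ)‖ ≤ c * (x + |z|) :=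
      mul_le_mul (min_le_left _ _) hn (norm_nonneg _) hc.le
    have h4 : 0 ≤ ζ * x := by positivity
    linarith
  · push Not at hz
    have h2 := h.dot_rho_le hs (x, z)
    have a1 := mul_le_mul_of_nonneg_right (neg_abs_le (thm μ s)) hx.le
    have a2 := mul_le_mul_of_nonneg_right (le_abs_self (thp μ s)) hx.le
    have a3 : 0 ≤ |thm μ s| * x := by positivity
    have a4 : 0 ≤ |thp μ s| * x := by positivity
    have h3 : |z| ≤ (|thm μ s| + |thp μ s| + 1) * x := abs_le.2 ⟨by linarith [hz.1], by linarith [hz.2]⟩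
    have h4 : min c (ζ / (|thm μ s| + |thp μ s| + 2)) * ‖((x, z) : ℝ × ℝ)‖ ≤
        ζ / (|thm μ s| + |thp μ s| + 2) * ((|thm μ s| + |thp μ s| + 2) * x) :=
      mul_le_mul (min_le_right _ _) (by linarith) (norm_nonneg _) (by positivity)
    rw [← mul_assoc, div_mul_cancel₀ _ hB.ne'] at h4
    simp only [dot, rho] at h2
    linarith

/-- few grid intervals have a neighbourhood with a large range of directions -/
theorem card_bad_intervals (h : DN μ) : ∃ C : ℝ, 0 < C ∧ ∀ (e δ : ℝ), 0 < e → 0 < δ →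
    ∀ I : Finset ℤ, (∀ k ∈ I, |(k : ℝ) * e| + 102 * e ≤ Sk μ 3) →
      ((I.filter (fun k : ℤ => δ < thp μ (k * e + 102 * e) - thm μ (k * e - 102 * e))).card : ℝ) ≤
        C / δ := by
  have h3 : Sk μ 3 < m1 μ := h.Sk_lt (by norm_num)
  have h4 : Sk μ 4 < m1 μ := h.Sk_lt (by norm_num)
  have h34 : Sk μ 3 < Sk μ 4 := by
    rw [Sk_succ 3]
    linarith [h.g0_pos]
  have h30 := h.Sk_pos 3
  have hm3 : |-Sk μ 3| < m1 μ := by rwa [abs_neg, abs_of_pos h30]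
  have hm4 : |Sk μ 4| < m1 μ := by rwa [abs_of_pos (h.Sk_pos 4)]
  have hD : 0 ≤ thm μ (Sk μ 4) - thm μ (-Sk μ 3) :=
    sub_nonneg.2 (h.thm_mono hm3 hm4 (by linarith))
  refine ⟨205 * (thm μ (Sk μ 4) - thm μ (-Sk μ 3)) + 1, by positivity, fun e δ he hδ I hI => ?_⟩
  have key : ∀ (r : ℤ) (J : Finset ℤ), (∀ k ∈ J, k % 205 = r ∧ |(k : ℝ) * e| + 102 * e ≤ Sk μ 3 ∧
      δ < thp μ (k * e + 102 * e) - thm μ (k * e - 102 * e)) →
      ∀ b : ℝ, -Sk μ 3 ≤ b → b < m1 μ → (∀ k ∈ J, (k : ℝ) * e + 102 * e < b) →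
      (J.card : ℝ) * δ ≤ thm μ b - thm μ (-Sk μ 3) := by
    intro r J
    induction J using Finset.induction_on_max with
    | empty =>
      intro _ b hb1 hb2 _
      rw [Finset.card_empty, Nat.cast_zero, zero_mul, sub_nonneg]
      exact h.thm_mono hm3 (abs_lt.2 ⟨by linarith, hb2⟩) hb1
    | insert k J hk ih =>
      intro hJ b hb1 hb2 hb3
      obtain ⟨a1, a2, a3⟩ := hJ k (Finset.mem_insert_self _ _)
      have a4 := le_abs_self ((k : ℝ) * e)
      have a5 := neg_abs_le ((k : ℝ) * e)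
      have a6 := ih (fun k' hk' => hJ k' (Finset.mem_insert_of_mem hk')) (k * e - 102 * e)
        (by linarith) (by linarith) (fun k' hk' => by
          have b1 := (hJ k' (Finset.mem_insert_of_mem hk')).1
          have b2 := hk k' hk'
          have b3 : (k' : ℝ) + 205 ≤ k := by exact_mod_cast (by omega : k' + 205 ≤ k)
          have b4 := mul_le_mul_of_nonneg_right b3 he.le
          linarith)
      have a7 := h.thp_lt_thm (a := k * e + 102 * e) (b := b) (abs_lt.2 ⟨by linarith, by linarith⟩)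
        (abs_lt.2 ⟨by linarith, hb2⟩) (hb3 k (Finset.mem_insert_self _ _))
      rw [Finset.card_insert_of_notMem fun h' => lt_irrefl _ (hk k h')]
      push_cast
      linarith
  set F := I.filter (fun k : ℤ => δ < thp μ (k * e + 102 * e) - thm μ (k * e - 102 * e)) with hF
  have hc : F.card = ∑ r ∈ Finset.Ico (0 : ℤ) 205, (F.filter fun k => k % 205 = r).card :=
    Finset.card_eq_sum_card_fiberwise fun k _ => by
      simp only [Finset.coe_Ico, Set.mem_Ico]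
      omega
  rw [le_div_iff₀ hδ, hc]
  push_cast
  rw [Finset.sum_mul]
  refine (Finset.sum_le_card_nsmul _ _ (thm μ (Sk μ 4) - thm μ (-Sk μ 3)) fun r _ => ?_).trans ?_
  · refine key r _ (fun k hk => ?_) _ (by linarith) h4 fun k hk => ?_
    · obtain ⟨b1, b2⟩ := Finset.mem_filter.1 hk
      obtain ⟨b3, b4⟩ := Finset.mem_filter.1 b1
      exact ⟨b2, hI k b3, b4⟩
    · have := hI k (Finset.mem_filter.1 (Finset.mem_filter.1 hk).1).1
      linarith [le_abs_self ((k : ℝ) * e)]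
  · rw [Int.card_Ico, nsmul_eq_mul, show ((205 : ℤ) - 0).toNat = 205 from rfl]
    push_cast
    linarith

end DN

theorem card_Idx_le {μ : ℝ × ℝ → ℝ} (h : DN μ) {ε : ℝ} (hε : 0 < ε) (hε' : ε ≤ g0 μ / 4) :
    ((Idx μ ε).card : ℝ) ≤ 4 * m1 μ / ε := by
  have h1 := h.Sk_pos 1
  have h2 : 0 ≤ ⌈Sk μ 1 / ε⌉ := Int.ceil_nonneg (by positivity)
  have h3 : (((Idx μ ε).card : ℤ) : ℝ) = ((2 * ⌈Sk μ 1 / ε⌉ + 3 : ℤ) : ℝ) := by
    rw [Idx, Int.card_Icc_of_le _ _ (by omega)]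
    congr 1
    ring
  have h4 := (Int.ceil_lt_add_one (Sk μ 1 / ε)).le
  push_cast at h3
  have h5 := DN.Sk_eq (μ := μ) 1
  have h6 := h.g0_pos
  have h7 := h.m1_pos
  have h8 : 2 * (Sk μ 1 / ε) + 5 ≤ 4 * m1 μ / ε := by
    rw [le_div_iff₀ hε, add_mul, mul_assoc, div_mul_cancel₀ _ hε.ne']
    push_cast at h5
    linarith
  linarith
theorem neg_mem_Idx {μ : ℝ × ℝ → ℝ} {ε : ℝ} {i : ℤ} (hi : i ∈ Idx μ ε) : -i ∈ Idx μ ε := by
  rw [Idx, Finset.mem_Icc] at hi ⊢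
  omega
theorem Idx_bound {μ : ℝ × ℝ → ℝ} (h : DN μ) {ε : ℝ} (hε : 0 < ε) (hε' : ε ≤ g0 μ / 4) {i : ℤ}
    (hi : i ∈ Idx μ ε) : |(i : ℝ) * ε| ≤ Sk μ 1 + 2 * ε ∧ -Sk μ 2 ≤ alI ε i ∧ alI ε i < loI ε i ∧
      loI ε i < hiI ε i ∧ hiI ε i < beI ε i ∧ beI ε i ≤ Sk μ 2 := by
  rw [Idx, Finset.mem_Icc] at hi
  have h1 := (Int.ceil_lt_add_one (Sk μ 1 / ε)).le
  have h2 : -((⌈Sk μ 1 / ε⌉ : ℝ) + 1) ≤ i := by exact_mod_cast hi.1
  have h3 : (i : ℝ) ≤ ⌈Sk μ 1 / ε⌉ + 1 := by exact_mod_cast hi.2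
  have h4 : Sk μ 1 / ε * ε = Sk μ 1 := div_mul_cancel₀ _ hε.ne'
  have h5 := mul_le_mul_of_nonneg_right (show -(Sk μ 1 / ε + 2) ≤ i by linarith) hε.le
  have h6 := mul_le_mul_of_nonneg_right (show (i : ℝ) ≤ Sk μ 1 / ε + 2 by linarith) hε.le
  have h7 := DN.Sk_succ (μ := μ) 1
  have _ := h
  unfold alI loI hiI beI
  refine ⟨abs_le.2 ⟨by linarith, by linarith⟩, ?_, ?_, ?_, ?_, ?_⟩ <;> linarith
theorem exists_Idx {μ : ℝ × ℝ → ℝ} {ε : ℝ} (hε : 0 < ε) {a b : ℝ} (ha : |a| ≤ Sk μ 1)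
    (hb : |b| ≤ Sk μ 1) (hab : |a - b| ≤ ε) :
    ∃ i ∈ Idx μ ε, a ∈ Set.Icc (loI ε i) (hiI ε i) ∧ b ∈ Set.Icc (loI ε i) (hiI ε i) := by
  have h1 := Int.le_ceil (min a b / ε)
  have h2 := (Int.ceil_lt_add_one (min a b / ε)).le
  have h3 : min a b / ε * ε = min a b := div_mul_cancel₀ _ hε.ne'
  have h4 := mul_le_mul_of_nonneg_right h1 hε.le
  have h5 := mul_le_mul_of_nonneg_right h2 hε.le
  obtain ⟨a1, a2⟩ := abs_le.1 ha
  obtain ⟨b1, b2⟩ := abs_le.1 hb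
  obtain ⟨c1, c2⟩ := abs_le.1 hab
  have d1 := min_le_left a b
  have d2 := min_le_right a b
  have d3 : a - ε ≤ min a b := le_min (by linarith) (by linarith)
  have d4 : b - ε ≤ min a b := le_min (by linarith) (by linarith)
  refine ⟨⌈min a b / ε⌉, ?_, ?_, ?_⟩
  · rw [Idx, Finset.mem_Icc]
    have e1 : ⌈min a b / ε⌉ ≤ ⌈Sk μ 1 / ε⌉ :=
      Int.ceil_mono (div_le_div_of_nonneg_right (d1.trans a2) hε.le)
    have e2 : -(Sk μ 1 / ε) ≤ min a b / ε := by
      rw [← neg_div]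
      exact div_le_div_of_nonneg_right (le_min a1 b1) hε.le
    have e3 := Int.le_ceil (Sk μ 1 / ε)
    have e4 : -(⌈Sk μ 1 / ε⌉ : ℝ) ≤ ⌈min a b / ε⌉ := by linarith
    have e5 : -⌈Sk μ 1 / ε⌉ ≤ ⌈min a b / ε⌉ := by exact_mod_cast e4
    omega
  · unfold loI hiI
    constructor <;> linarith
  · unfold loI hiI
    constructor <;> linarith
/-- grouping the fine indices into coarse intervals of half-length `e` centred at `k e` -/
theorem exists_coarse {μ : ℝ × ℝ → ℝ} (h : DN μ) {e : ℝ} (he : 0 < e) (he' : e ≤ g0 μ / 200) :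
    ∃ K : Finset ℤ, (K.card : ℝ) ≤ 4 * m1 μ / e ∧ (∀ k ∈ K, |(k : ℝ) * e| + 102 * e ≤ Sk μ 3) ∧
      ∀ ε : ℝ, 0 < ε → ε ≤ e / 2 → ∀ i ∈ Idx μ ε, ∃ k ∈ K,
        k * e - e ≤ loI ε i ∧ hiI ε i ≤ k * e + e := by
  have hg := h.g0_pos
  have he4 : e ≤ g0 μ / 4 := by linarith
  refine ⟨Idx μ e, card_Idx_le h he he4, fun k hk => ?_, fun ε hε hεe i hi => ?_⟩
  · have h1 := (Idx_bound h he he4 hk).1
    have h2 := DN.Sk_succ (μ := μ) 1
    have h3 := DN.Sk_succ (μ := μ) 2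
    linarith
  · obtain ⟨h1, h2⟩ := abs_le.1 (Idx_bound h hε (by linarith) hi).1
    obtain ⟨h3, h4⟩ := abs_le.1 (abs_sub_round ((i : ℝ) * ε / e))
    have h5 : (i : ℝ) * ε / e * e = i * ε := div_mul_cancel₀ _ he.ne'
    have h6 := mul_le_mul_of_nonneg_right h3 he.le
    have h7 := mul_le_mul_of_nonneg_right h4 he.le
    refine ⟨round ((i : ℝ) * ε / e), ?_, ?_, ?_⟩
    · rw [Idx, Finset.mem_Icc]
      have e1 := Int.le_ceil (Sk μ 1 / e)
      have e2 : (i : ℝ) * ε / e ≤ Sk μ 1 / e + 1 := by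
        rw [div_add_one he.ne']
        exact div_le_div_of_nonneg_right (by linarith) he.le
      have e3 : -(Sk μ 1 / e + 1) ≤ (i : ℝ) * ε / e := by
        rw [div_add_one he.ne', ← neg_div]
        exact div_le_div_of_nonneg_right (by linarith) he.le
      have e4 : ((round ((i : ℝ) * ε / e) : ℤ) : ℝ) < ⌈Sk μ 1 / e⌉ + 2 := by linarith
      have e5 : -((⌈Sk μ 1 / e⌉ : ℝ) + 2) < ((round ((i : ℝ) * ε / e) : ℤ) : ℝ) := by linarith
      have e6 : round ((i : ℝ) * ε / e) < ⌈Sk μ 1 / e⌉ + 2 := by exact_mod_cast e4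
      have e7 : -(⌈Sk μ 1 / e⌉ + 2) < round ((i : ℝ) * ε / e) := by exact_mod_cast e5
      omega
    · unfold loI
      linarith
    · unfold hiI
      linarith
/-- number of fine indices inside one coarse interval -/
theorem card_fine_le {e ε s0 : ℝ} (hε : 0 < ε) (hεe : ε ≤ e) (I : Finset ℤ)
    (hI : ∀ i ∈ I, s0 - e ≤ loI ε i ∧ hiI ε i ≤ s0 + e) : (I.card : ℝ) ≤ 2 * e / ε := by
  have hsub : I ⊆ Finset.Icc ⌈(s0 - e) / ε + 1⌉ ⌊(s0 + e) / ε - 1⌋ := by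
    intro i hi
    obtain ⟨h1, h2⟩ := hI i hi
    unfold loI at h1
    unfold hiI at h2
    rw [← div_le_iff₀ hε] at h1
    rw [← le_div_iff₀ hε] at h2
    exact Finset.mem_Icc.2 ⟨Int.ceil_le.2 (by linarith), Int.le_floor.2 (by linarith)⟩
  have h0 : 0 ≤ 2 * e / ε := by
    have : 0 < e := hε.trans_le hεe
    positivity
  rcases le_or_gt ⌈(s0 - e) / ε + 1⌉ ⌊(s0 + e) / ε - 1⌋ with hle | hlt
  · have h1 : (I.card : ℤ) ≤ ⌊(s0 + e) / ε - 1⌋ + 1 - ⌈(s0 - e) / ε + 1⌉ := by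
      rw [← Int.card_Icc_of_le _ _ (by omega)]
      exact_mod_cast Finset.card_le_card hsub
    have h2 : (I.card : ℝ) ≤ ⌊(s0 + e) / ε - 1⌋ + 1 - ⌈(s0 - e) / ε + 1⌉ := by exact_mod_cast h1
    have h3 := Int.floor_le ((s0 + e) / ε - 1)
    have h4 := Int.le_ceil ((s0 - e) / ε + 1)
    have h5 : (s0 + e) / ε - (s0 - e) / ε = 2 * e / ε := by ring
    linarith
  · rw [Finset.Icc_eq_empty_of_lt hlt, Finset.subset_empty] at hsub
    rw [hsub, Finset.card_empty, Nat.cast_zero]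
    exact h0

end Crest.Agent.R151
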