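import Crest.Agent.R151.BShape2

/-! Row 151, part B: vertical increments of the fields concentrate, on average over the scale. -/

set_option autoImplicit false

namespace Crest.Agent.R151

open MeasureTheory ProbabilityTheory Crest.ProbabilityR.FirstPassage Filter Topology
open scoped Classical

theorem BInc1_geo {μ : ℝ × ℝ → ℝ} (hd : DN μ) {s : ℝ} (hs : |s| < m1 μ) {ε : ℝ} (hε : 0 < ε) :
    ∃ S : ℝ, S < m1 μ ∧ ∃ δ : ℝ, 0 < δ ∧ ∀ x : ℝ, |x - thp μ s| ≤ δ →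
      |slp μ x| ≤ S ∧ μ (1, x) - s * x - rho1 μ s ≤ ε * |x - thp μ s| := by
  set θ := thp μ s with hθ
  have h1 : slp μ θ = s := hd.slp_thp hs
  have hr : rho1 μ s = μ (1, θ) - s * θ := by
    have := hd.rho1_eq (θ := θ) (by rw [h1]; exact hs)
    rwa [h1] at this
  have hA : ∀ᶠ x in 𝓝 θ, |slp μ x| < (|s| + m1 μ) / 2 := by
    have hc : ContinuousAt (fun x => |slp μ x|) θ := hd.slp_continuous.abs.continuousAt
    refine hc.eventually_lt continuousAt_const ?_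
    rw [h1]; linarith
  have hB : ∀ᶠ x in 𝓝 θ, ‖μ (1, x) - μ (1, θ) - (x - θ) • slp μ θ‖ ≤ ε * ‖x - θ‖ :=
    (hasDerivAt_iff_isLittleO.1 (hd.hasDerivAt θ)).bound hε
  obtain ⟨δ, hδ, h⟩ := Metric.eventually_nhds_iff.1 (hA.and hB)
  refine ⟨(|s| + m1 μ) / 2, by linarith, δ / 2, by positivity, fun x hx => ?_⟩
  obtain ⟨ha, hb⟩ := h (y := x) (by rw [Real.dist_eq]; linarith)
  refine ⟨ha.le, ?_⟩
  rw [Real.norm_eq_abs, Real.norm_eq_abs, h1, smul_eq_mul] at hb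
  have := (abs_le.1 hb).2
  rw [hr]; linarith

theorem BInc1_scale {μ : ℝ × ℝ → ℝ} (hd : DN μ) {n : ℝ} (hn : 0 < n) (w : ℝ) :
    μ (n, w) = n * μ (1, w / n) := by
  rw [← hd.ok.smul n _ hn.le]
  congr 1
  ext
  · simp
  · simp only [Prod.smul_snd, smul_eq_mul]; field_simp

variable {G : Measure ℝ} [Law G]

theorem BInc1_le {t : Env} (ht : Fld G t) {s : ℝ} (hs : |s| < m1 (mu G)) {n N : ℤ} (hn : 0 ≤ n)
    (hN : n ≤ N) (y w : ℤ) :
    Gf t 0 N s y ≤ TD (strip 0 n) t (0, y) (n, w) + Gf t n N s w := by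
  have h1 : Gd t 0 N s (0, y) ≤ TD (strip 0 N) t (0, y) (n, w) + Gd t 0 N s (n, w) :=
    Gd_le_add ht hs ⟨le_rfl, hn.trans hN⟩ ⟨hn, hN⟩
  have h2 : TD (strip 0 N) t (0, y) (n, w) ≤ TD (strip 0 n) t (0, y) (n, w) :=
    TD_anti ht.nn (D := strip 0 n) (D' := strip 0 N) (fun x hx => ⟨hx.1, hx.2.trans hN⟩)
      (conn_strip ⟨le_rfl, hn⟩ ⟨hn, le_rfl⟩)
  have h3 : Gd t 0 N s (n, w) ≤ Gd t n N s (n, w) := Gd_anti ht hn hs ⟨le_rfl, hN⟩
  unfold Gf
  linarith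

theorem BInc1_step {s : ℝ} (hs : |s| < m1 (mu G)) {n N : ℤ} (hn : 0 ≤ n) (hN : n + 2 ≤ N)
    (w l : ℤ) {a0 a1 e : ℝ}
    (i0 : Integrable (fun t => TD (strip 0 n) t (0, 0) (n, w)) (iidLaw G))
    (i1 : Integrable (fun t => TD (strip 0 n) t (0, l) (n, w)) (iidLaw G))
    (h0 : ∫ t, |TD (strip 0 n) t (0, 0) (n, w) - a0| ∂(iidLaw G) ≤ e)
    (h1 : ∫ t, |TD (strip 0 n) t (0, l) (n, w) - a1| ∂(iidLaw G) ≤ e) :
    ∫ t, |Gf t 0 N s l - Gf t 0 N s 0 + s * l| ∂(iidLaw G) ≤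
      2 * (3 * e + |a1 - a0 + s * l| + (a0 - s * w -
        (∫ t, Gf t 0 N s 0 ∂(iidLaw G) - ∫ t, Gf t 0 (N - n) s 0 ∂(iidLaw G)))) := by
  have gl : Integrable (fun t => Gf t 0 N s l) (iidLaw G) := integrable_Gf (by omega) hs l
  have g0' : Integrable (fun t => Gf t 0 N s 0) (iidLaw G) := integrable_Gf (by omega) hs 0
  have gw : Integrable (fun t => Gf t n N s w) (iidLaw G) := integrable_Gf hN hs w
  have el : ∫ t, Gf t 0 N s l ∂(iidLaw G) = ∫ t, Gf t 0 N s 0 ∂(iidLaw G) - s * l := by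
    have := integral_Gf (G := G) (k := 0) (N := N) (by omega) hs l
    rwa [sub_zero] at this
  have ew := integral_Gf (G := G) hN hs w
  have j0 : Integrable (fun t => |TD (strip 0 n) t (0, 0) (n, w) - a0|) (iidLaw G) :=
    (i0.sub (integrable_const a0)).abs
  have j1 : Integrable (fun t => |TD (strip 0 n) t (0, l) (n, w) - a1|) (iidLaw G) :=
    (i1.sub (integrable_const a1)).abs
  set c := |a1 - a0 + s * l| with hc
  have k1 : Integrable (fun t => 2 * |TD (strip 0 n) t (0, l) (n, w) - a1|) (iidLaw G) :=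
    j1.const_mul 2
  have k0 : Integrable (fun t => 4 * |TD (strip 0 n) t (0, 0) (n, w) - a0|) (iidLaw G) :=
    j0.const_mul 4
  have k2 : Integrable (fun t => 2 * Gf t n N s w) (iidLaw G) := gw.const_mul 2
  have k3 : Integrable (fun t => 2 * |TD (strip 0 n) t (0, l) (n, w) - a1| +
        4 * |TD (strip 0 n) t (0, 0) (n, w) - a0|) (iidLaw G) := k1.add k0
  have k4 : Integrable (fun t => 2 * |TD (strip 0 n) t (0, l) (n, w) - a1| +
        4 * |TD (strip 0 n) t (0, 0) (n, w) - a0| + 2 * Gf t n N s w) (iidLaw G) := k3.add k2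
  have k5 : Integrable (fun t => 2 * |TD (strip 0 n) t (0, l) (n, w) - a1| +
        4 * |TD (strip 0 n) t (0, 0) (n, w) - a0| + 2 * Gf t n N s w - Gf t 0 N s 0) (iidLaw G) :=
    k4.sub g0'
  have k6 : Integrable (fun t => 2 * |TD (strip 0 n) t (0, l) (n, w) - a1| +
        4 * |TD (strip 0 n) t (0, 0) (n, w) - a0| + 2 * Gf t n N s w - Gf t 0 N s 0 -
          Gf t 0 N s l) (iidLaw G) := k5.sub gl
  have key : ∫ t, |Gf t 0 N s l - Gf t 0 N s 0 + s * l| ∂(iidLaw G) ≤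
      ∫ t, (2 * |TD (strip 0 n) t (0, l) (n, w) - a1| +
        4 * |TD (strip 0 n) t (0, 0) (n, w) - a0| + 2 * Gf t n N s w - Gf t 0 N s 0 -
          Gf t 0 N s l + (2 * c + 2 * a0 - s * l)) ∂(iidLaw G) := by
    refine integral_mono_ae ((gl.sub g0').add (integrable_const _)).abs
      (k6.add (integrable_const _)) ?_
    filter_upwards [ae_fld G] with t ht
    have u0 := BInc1_le ht hs hn (by omega : n ≤ N) 0 w
    have u1 := BInc1_le ht hs hn (by omega : n ≤ N) l w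
    have v0 := le_abs_self (TD (strip 0 n) t (0, 0) (n, w) - a0)
    have v0' := neg_abs_le (TD (strip 0 n) t (0, 0) (n, w) - a0)
    have v1 := le_abs_self (TD (strip 0 n) t (0, l) (n, w) - a1)
    have v1' := abs_nonneg (TD (strip 0 n) t (0, l) (n, w) - a1)
    have v2 : a1 - a0 + s * l ≤ c := le_abs_self _
    have v2' : 0 ≤ c := abs_nonneg _
    have v3 := abs_nonneg (TD (strip 0 n) t (0, 0) (n, w) - a0)
    refine abs_le.2 ⟨?_, ?_⟩ <;> linarith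
  rw [integral_add k6 (integrable_const _), integral_sub k5 gl, integral_sub k4 g0',
    integral_add k3 k2, integral_add k1 k0, integral_const_mul, integral_const_mul,
    integral_const_mul, integral_const, el, ew] at key
  simp only [probReal_univ, smul_eq_mul, one_mul] at key
  linarith

omit [Law G] in
/-- the choice of the scales -/
theorem BInc1_choice (hd : DN (mu G)) {s : ℝ} (hs : |s| < m1 (mu G)) {ε : ℝ} (hε : 0 < ε) :
    ∃ S : ℝ, S < m1 (mu G) ∧ ∃ q : ℕ, 1 ≤ q ∧ ∀ l n : ℕ, 1 ≤ l → n = q * l → ∃ w : ℤ,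
      |slp (mu G) ((w : ℝ) / n)| ≤ S ∧ |slp (mu G) (((w - l : ℤ) : ℝ) / n)| ≤ S ∧
      mu G ((n : ℝ), (w : ℝ)) - s * w - n * rho1 (mu G) s ≤ ε ∧
      |mu G ((n : ℝ), ((w - l : ℤ) : ℝ)) - mu G ((n : ℝ), (w : ℝ)) + s * ((l : ℤ) : ℝ)| ≤
        ε * (1 + l) := by
  obtain ⟨S, hS, δ, hδ, hgeo⟩ := BInc1_geo hd hs hε
  generalize thp (mu G) s = θ at hgeo
  obtain ⟨q, hq⟩ := exists_nat_gt (2 / δ)
  have hq0 : (0 : ℝ) < q := lt_trans (by positivity) hq
  have hqN : 1 ≤ q := by exact_mod_cast hq0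
  have hq2 : 2 / (q : ℝ) ≤ δ := by
    rw [div_le_iff₀ hq0]; rw [div_lt_iff₀ hδ] at hq; linarith
  refine ⟨S, hS, q, hqN, fun l n hl hn => ?_⟩
  have hl1 : (1 : ℝ) ≤ l := by exact_mod_cast hl
  have hnR : (n : ℝ) = q * l := by rw [hn]; push_cast; ring
  have hnq : (q : ℝ) ≤ n := by rw [hnR]; nlinarith
  have hn0' : (0 : ℝ) < n := lt_of_lt_of_le hq0 hnq
  obtain ⟨w, hw1, hw2⟩ : ∃ w : ℤ, (w : ℝ) ≤ θ * n ∧ θ * n < w + 1 :=
    ⟨_, Int.floor_le _, Int.lt_floor_add_one _⟩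
  have hx0 : |(w : ℝ) / n - θ| ≤ 1 / n := by
    have : (w : ℝ) / n - θ = (w - θ * n) / n := by field_simp
    rw [this, abs_div, abs_of_pos hn0']
    gcongr
    rw [abs_le]; constructor <;> linarith
  have hx1 : |((w - l : ℤ) : ℝ) / n - θ| ≤ (1 + l) / n := by
    have : ((w - l : ℤ) : ℝ) / n - θ = (w - l - θ * n) / n := by push_cast; field_simp
    rw [this, abs_div, abs_of_pos hn0']
    gcongr
    rw [abs_le]; constructor <;> linarith
  have hb1 : (1 + (l : ℝ)) / n ≤ δ := by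
    refine le_trans ?_ hq2
    rw [div_le_div_iff₀ hn0' hq0, hnR]; nlinarith
  have hb0 : (1 : ℝ) / n ≤ δ := by
    refine le_trans ?_ hb1
    gcongr; linarith
  obtain ⟨s0, e0⟩ := hgeo _ (hx0.trans hb0)
  obtain ⟨s1, e1⟩ := hgeo _ (hx1.trans hb1)
  have l0 := hd.rho1_le hs ((w : ℝ) / n)
  have l1 := hd.rho1_le hs (((w - l : ℤ) : ℝ) / n)
  have r0 : mu G ((n : ℝ), (w : ℝ)) - s * w - n * rho1 (mu G) s =
      n * (mu G (1, (w : ℝ) / n) - s * ((w : ℝ) / n) - rho1 (mu G) s) := by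
    rw [BInc1_scale hd hn0']; field_simp
  have r1 : mu G ((n : ℝ), ((w - l : ℤ) : ℝ)) - s * ((w - l : ℤ) : ℝ) - n * rho1 (mu G) s =
      n * (mu G (1, ((w - l : ℤ) : ℝ) / n) - s * (((w - l : ℤ) : ℝ) / n) - rho1 (mu G) s) := by
    rw [BInc1_scale hd hn0']; field_simp
  refine ⟨w, s0, s1, ?_⟩
  generalize mu G ((n : ℝ), (w : ℝ)) = a0 at r0 ⊢
  generalize mu G ((n : ℝ), ((w - l : ℤ) : ℝ)) = a1 at r1 ⊢
  have p0 : 0 ≤ a0 - s * w - n * rho1 (mu G) s := by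
    rw [r0]; exact mul_nonneg hn0'.le (by linarith)
  have p1 : 0 ≤ a1 - s * ((w - l : ℤ) : ℝ) - n * rho1 (mu G) s := by
    rw [r1]; exact mul_nonneg hn0'.le (by linarith)
  have q0 : a0 - s * w - n * rho1 (mu G) s ≤ ε := by
    rw [r0]
    calc _ ≤ n * (ε * (1 / n)) := by
          refine mul_le_mul_of_nonneg_left (e0.trans ?_) hn0'.le
          exact mul_le_mul_of_nonneg_left hx0 hε.le
      _ = ε := by field_simp
  have q1 : a1 - s * ((w - l : ℤ) : ℝ) - n * rho1 (mu G) s ≤ ε * (1 + l) := by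
    rw [r1]
    calc _ ≤ n * (ε * ((1 + l) / n)) := by
          refine mul_le_mul_of_nonneg_left (e1.trans ?_) hn0'.le
          exact mul_le_mul_of_nonneg_left hx1 hε.le
      _ = ε * (1 + l) := by field_simp
  refine ⟨q0, ?_⟩
  have hz : 0 ≤ ε * l := by positivity
  rw [Int.cast_sub] at p1 q1
  rw [abs_le]; constructor <;> linarith

theorem small_increment (hd : DN (mu G)) {s : ℝ} (hs : |s| < m1 (mu G)) {ζ : ℝ} (hζ : 0 < ζ) :
    ∃ ℓ0 : ℕ, 1 ≤ ℓ0 ∧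
      Small (fun N => ∫ t, |Gf t 0 N s ℓ0 - Gf t 0 N s 0 + s * ℓ0| ∂(iidLaw G)) (ζ * ℓ0) := by
  obtain ⟨S, hS, q, hq, hch⟩ := BInc1_choice hd hs (ε := ζ / 16) (by positivity)
  have hq0 : (0 : ℝ) < q := by exact_mod_cast hq
  obtain ⟨n0, hn0⟩ := strip_shape hd hS (ζ := ζ / (12 * q)) (by positivity)
  obtain ⟨l, hl⟩ : ∃ l : ℕ, l = n0 + 1 := ⟨_, rfl⟩
  obtain ⟨n, hn⟩ : ∃ n : ℕ, n = q * l := ⟨_, rfl⟩
  have hl1 : 1 ≤ l := by omega
  have hl1' : (1 : ℝ) ≤ l := by exact_mod_cast hl1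
  have hnn0 : n0 ≤ n := by
    have : l ≤ q * l := Nat.le_mul_of_pos_left l hq
    omega
  obtain ⟨w, s0, s1, q0, hc⟩ := hch l n hl1 hn
  obtain ⟨i0, h0⟩ := hn0 n hnn0 0 0 w s0
  obtain ⟨i1, h1⟩ := hn0 n hnn0 0 l (w - l) s1
  simp only [zero_add, add_sub_cancel] at i0 h0 i1 h1
  have he : ζ / (12 * q) * n = ζ / 12 * l := by rw [hn]; push_cast; field_simp
  rw [he] at h0 h1
  refine ⟨l, hl1, ?_⟩
  have htel := (small_telescope (tendsto_mean_Gf hd hs) n).const_mul (c := 2) (by norm_num)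
  have hsum := (small_const (ζ * l)).add htel
  rw [mul_zero, add_zero] at hsum
  refine hsum.of_le ?_
  filter_upwards [eventually_ge_atTop ((n : ℤ) + 2)] with N hN
  have := BInc1_step hs (Int.natCast_nonneg n) hN w l i0 i1 h0 h1
  have hz : ζ ≤ ζ * l := le_mul_of_one_le_right hζ.le hl1'
  rw [Int.cast_natCast] at this hc
  linarith

end Crest.Agent.R151
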