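import Crest.Agent.R151.BInc1
import Crest.Agent.R040.Hopf

/-! Row 151, part B: uniform control of vertical increments by the maximal inequality. -/

set_option autoImplicit false

namespace Crest.Agent.R151

open MeasureTheory ProbabilityTheory Crest.ProbabilityR.FirstPassage Filter Topology
open scoped Classical

theorem binc2_det (H F : ℤ → ℝ) {ℓ : ℕ} (hℓ : 1 ≤ ℓ) {c B : ℝ} (hc : 0 ≤ c) (F0 : ∀ J, 0 ≤ F J)
    (h1 : ∀ J : ℤ, |H (ℓ + J * ℓ) - H (J * ℓ)| ≤ F J)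
    (h2 : ∀ (J : ℤ) (r : ℕ), r < ℓ → |H (r + J * ℓ) - H (J * ℓ)| ≤ F J + B)
    (hp : ∀ n : ℕ, ∑ j ∈ Finset.range n, F j ≤ c * ℓ * n)
    (hn : ∀ n : ℕ, ∑ j ∈ Finset.range n, F (-j) ≤ c * ℓ * n) (y : ℤ) :
    |H y - H 0| ≤ 2 * c * (|(y : ℝ)| + 2 * ℓ) + B := by
  have a1 : ∀ n : ℕ, |H (n * ℓ) - H 0| ≤ ∑ j ∈ Finset.range n, F j := by
    intro n
    induction n with
    | zero => simp
    | succ n ih =>
      have b1 := h1 n
      have b2 := abs_sub_le (H (ℓ + n * ℓ)) (H (n * ℓ)) (H 0)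
      rw [Finset.sum_range_succ, show ((n + 1 : ℕ) : ℤ) * ℓ = ℓ + n * ℓ by push_cast; ring]
      linarith
  have a2 : ∀ n : ℕ, |H (-n * ℓ) - H 0| ≤ ∑ j ∈ Finset.range (n + 1), F (-j) := by
    intro n
    induction n with
    | zero => simpa using F0 0
    | succ n ih =>
      have b1 := h1 (-((n + 1 : ℕ) : ℤ))
      rw [show (ℓ : ℤ) + -((n + 1 : ℕ) : ℤ) * ℓ = -n * ℓ by push_cast; ring, abs_sub_comm] at b1
      have b2 := abs_sub_le (H (-((n + 1 : ℕ) : ℤ) * ℓ)) (H (-n * ℓ)) (H 0)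
      rw [Finset.sum_range_succ]
      linarith
  have hl : (0 : ℤ) < ℓ := by exact_mod_cast hℓ
  obtain ⟨r, hr⟩ := Int.eq_ofNat_of_zero_le (Int.emod_nonneg y hl.ne')
  have hr2 : r < ℓ := by
    have := Int.emod_lt_of_pos y hl
    rw [hr] at this
    exact_mod_cast this
  obtain ⟨J, hJ⟩ : ∃ J, J = y / ℓ := ⟨_, rfl⟩
  have hy : y = r + J * ℓ := by
    rw [hJ, ← hr, mul_comm]
    exact (Int.emod_add_mul_ediv y ℓ).symm
  have b1 := h2 J r hr2
  rw [← hy] at b1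
  have b2 := abs_sub_le (H y) (H (J * ℓ)) (H 0)
  have hyR : (y : ℝ) = r + J * ℓ := by rw [hy]; push_cast; ring
  have hrR : (r : ℝ) ≤ ℓ := by exact_mod_cast hr2.le
  have hr0 : (0 : ℝ) ≤ r := Nat.cast_nonneg r
  have hl0 : (0 : ℝ) ≤ ℓ := Nat.cast_nonneg ℓ
  obtain ⟨n, rfl | rfl⟩ := Int.eq_nat_or_neg J
  · have c1 := hp (n + 1)
    have c2 := a1 n
    have c3 : 0 ≤ ∑ j ∈ Finset.range n, F j := Finset.sum_nonneg fun j _ => F0 _
    rw [Finset.sum_range_succ] at c1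
    have c4 : (n : ℝ) * ℓ ≤ |(y : ℝ)| := by
      refine le_trans ?_ (le_abs_self _)
      rw [hyR]
      push_cast
      linarith
    have c5 := mul_le_mul_of_nonneg_left c4 hc
    have c6 := mul_nonneg hc hl0
    have c7 := mul_nonneg hc (abs_nonneg (y : ℝ))
    push_cast at c1
    linarith
  · have c1 := hn (n + 1)
    have c2 := a2 n
    have c3 : F (-n) ≤ ∑ j ∈ Finset.range (n + 1), F (-j) := by
      rw [Finset.sum_range_succ]
      exact le_add_of_nonneg_left (Finset.sum_nonneg fun j _ => F0 _)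
    have c4 : (n : ℝ) * ℓ ≤ |(y : ℝ)| + ℓ := by
      have := neg_le_abs (y : ℝ)
      rw [hyR] at this ⊢
      push_cast at this ⊢
      linarith
    have c5 := mul_le_mul_of_nonneg_left c4 hc
    push_cast at c1
    linarith

/-- bound for the increments inside one block -/
noncomputable def binc2Z (ℓ : ℕ) (t : Env) : ℝ :=
  ∑ r ∈ Finset.range ℓ, TD (strip 0 (0 + 2)) t (0, (r : ℤ)) (0, 0)

theorem binc2_measZ (ℓ : ℕ) : Measurable (binc2Z ℓ) :=
  Finset.measurable_sum _ fun _ _ => measurable_TD _ _ _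

variable {G : Measure ℝ} [Law G]

theorem binc2_intZ (ℓ : ℕ) : Integrable (binc2Z ℓ) (iidLaw G) := by
  obtain ⟨C, -, h⟩ := strip_moment G
  exact integrable_finsetSum _ fun r _ =>
    (h 0 (0 + 2) le_rfl _ _ ⟨le_rfl, by norm_num⟩ ⟨le_rfl, by norm_num⟩ _ Set.inter_subset_left).1

theorem binc2_tail (ℓ : ℕ) {η : ℝ} (hη : 0 < η) :
    ∃ M : ℕ, ∫ t, max (binc2Z ℓ t - M) 0 ∂(iidLaw G) ≤ η := by
  have h := tendsto_integral_of_dominated_convergence (μ := iidLaw G)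
    (F := fun (M : ℕ) t => max (binc2Z ℓ t - M) 0) (f := fun _ => (0 : ℝ)) (fun t => |binc2Z ℓ t|)
    (fun M => (((binc2_measZ ℓ).sub_const _).max measurable_const).aestronglyMeasurable)
    (binc2_intZ ℓ).abs
    (fun M => Eventually.of_forall fun t => by
      rw [Real.norm_of_nonneg (le_max_right _ _)]
      have := le_abs_self (binc2Z ℓ t)
      have h0 : (0 : ℝ) ≤ M := Nat.cast_nonneg M
      exact max_le (by linarith) (abs_nonneg _))
    (Eventually.of_forall fun t => by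
      refine tendsto_const_nhds.congr' ?_
      filter_upwards [eventually_ge_atTop ⌈binc2Z ℓ t⌉₊] with M hM
      exact (max_eq_right (sub_nonpos.2 (Nat.ceil_le.1 hM))).symm)
  rw [integral_zero] at h
  exact (h.eventually (ge_mem_nhds hη)).exists

theorem binc2_Pr {s : ℝ} (hs : |s| < m1 (mu G)) {ζ ℓ M : ℝ} (hζ : 0 < ζ) {ℓ0 : ℕ}
    (h0 : 1 ≤ ℓ0) (hℓ : ζ * (2 * ℓ0) + (M + |s| * ℓ0) ≤ ζ * ℓ) {N : ℤ} (hN : 2 ≤ N) :
    Pr G (Inc 0 N s 0 ζ ℓ)ᶜ ≤ 4 / (ζ * ℓ0) *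
      (∫ t, |Gf t 0 N s ℓ0 - Gf t 0 N s 0 + s * ℓ0| ∂(iidLaw G) +
        ∫ t, max (binc2Z ℓ0 t - M) 0 ∂(iidLaw G)) := by
  obtain ⟨F, hF⟩ : ∃ F : Env → ℝ, F = fun t => |Gf t 0 N s ℓ0 - Gf t 0 N s 0 + s * ℓ0| +
      max (binc2Z ℓ0 t - M) 0 := ⟨_, rfl⟩
  have i1 : Integrable (fun t => |Gf t 0 N s ℓ0 - Gf t 0 N s 0 + s * ℓ0|) (iidLaw G) :=
    (((integrable_Gf (by omega) hs _).sub (integrable_Gf (by omega) hs _)).add
      (integrable_const _)).abs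
  have i2 : Integrable (fun t => max (binc2Z ℓ0 t - M) 0) (iidLaw G) :=
    ((binc2_intZ ℓ0).sub (integrable_const M)).pos_part
  have hFi : Integrable F (iidLaw G) := hF ▸ i1.add i2
  have hFm : Measurable F := hF ▸
    (((measurable_Gf _ _ _ _).sub (measurable_Gf _ _ _ _)).add_const _).abs.add
      (((binc2_measZ ℓ0).sub_const _).max measurable_const)
  have hF0 : ∀ t, 0 ≤ F t := fun t => hF ▸ add_nonneg (abs_nonneg _) (le_max_right _ _)
  have hl0 : (0 : ℝ) < ℓ0 := by exact_mod_cast h0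
  have hlam : 0 < ζ / 2 * ℓ0 := by positivity
  have e1 := R040.hopf (iidLaw G) _ (measurePreserving_act G (tr (0, (ℓ0 : ℤ)))) F hFm hFi hF0 _ hlam
  have e2 := R040.hopf (iidLaw G) _ (measurePreserving_act G (tr (0, -(ℓ0 : ℤ)))) F hFm hFi hF0 _
    hlam
  refine (Pr_le_add_of_ae G ?_).trans ((add_le_add e1 e2).trans (le_of_eq ?_))
  · filter_upwards [ae_fld G] with t ht hn
    by_contra hcon
    simp only [not_or, not_exists, not_lt, act_tr_iterate, Prod.smul_mk,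
      smul_eq_mul, mul_zero] at hcon
    obtain ⟨c1, c2⟩ := hcon
    refine hn fun y => ?_
    have key : ∀ J z : ℤ, Gf t 0 N s (z + J * ℓ0) + s * ((z + J * ℓ0 : ℤ) : ℝ) -
        (Gf t 0 N s (J * ℓ0) + s * ((J * ℓ0 : ℤ) : ℝ)) =
        Gf (act (tr (0, J * ℓ0)) t) 0 N s z - Gf (act (tr (0, J * ℓ0)) t) 0 N s 0 + s * z := by
      intro J z
      rw [Gf_tr ht _ (by omega) hs, Gf_tr ht _ (by omega) hs]
      simp only [add_zero, zero_add]
      push_cast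
      ring
    have d := binc2_det (fun y => Gf t 0 N s y + s * y) (fun J => F (act (tr (0, J * ℓ0)) t)) h0
      (c := ζ / 2) (B := M + |s| * ℓ0) (by positivity) (fun J => hF0 _) (fun J => by
        rw [key, hF]
        exact le_add_of_nonneg_right (le_max_right _ _)) (fun J r hr => by
        rw [key, hF]
        have ht' := (fld_tr (0, J * ℓ0) t).2 ht
        have b1 := abs_Gf_sub_le ht' (k := 0) (N := N) (by omega) hs r 0
        have b2 : TD (strip 0 (0 + 2)) (act (tr (0, J * ℓ0)) t) (0, (r : ℤ)) (0, 0) ≤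
            binc2Z ℓ0 (act (tr (0, J * ℓ0)) t) :=
          Finset.single_le_sum (f := fun r : ℕ => TD (strip 0 (0 + 2)) (act (tr (0, J * ℓ0)) t)
            (0, (r : ℤ)) (0, 0)) (fun _ _ => TD_nonneg ht'.1.1.nn _ _ _) (Finset.mem_range.2 hr)
        have b3 : |s * ((r : ℤ) : ℝ)| ≤ |s| * ℓ0 := by
          rw [abs_mul, Int.cast_natCast, Nat.abs_cast]
          exact mul_le_mul_of_nonneg_left (by exact_mod_cast hr.le) (abs_nonneg _)
        have b4 := le_max_left (binc2Z ℓ0 (act (tr (0, J * ℓ0)) t) - M) 0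
        refine (abs_add_le _ _).trans ?_
        have b5 := abs_nonneg (Gf (act (tr (0, J * ℓ0)) t) 0 N s ℓ0 -
          Gf (act (tr (0, J * ℓ0)) t) 0 N s 0 + s * ℓ0)
        beta_reduce
        linarith) c1 (fun n => by simpa only [neg_mul, mul_neg] using c2 n) y
    rw [sub_zero, show Gf t 0 N s y - Gf t 0 N s 0 + s * y =
      Gf t 0 N s y + s * y - (Gf t 0 N s 0 + s * ((0 : ℤ) : ℝ)) by push_cast; ring]
    refine d.trans ?_
    linarith
  · rw [hF, integral_add i1 i2]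
    field_simp
    ring

theorem small_not_inc (hd : DN (mu G)) {s : ℝ} (hs : |s| < m1 (mu G)) {ζ p : ℝ} (hζ : 0 < ζ)
    (hp : 0 < p) : ∃ ℓ1 : ℕ, ∀ ℓ : ℝ, (ℓ1 : ℝ) ≤ ℓ → ∀ k y0 : ℤ,
      Small (fun N => Pr G (Inc k N s y0 ζ ℓ)ᶜ) p := by
  obtain ⟨ℓ0, h0, hsm⟩ := small_increment hd hs (show 0 < ζ * p / 8 by positivity)
  have hl0 : (0 : ℝ) < ℓ0 := by exact_mod_cast h0
  obtain ⟨M, hM⟩ := binc2_tail (G := G) ℓ0 (show 0 < ζ * p / 8 * ℓ0 by positivity)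
  refine ⟨⌈2 * ℓ0 + (M + |s| * ℓ0) / ζ⌉₊, fun ℓ hℓ k y0 => ?_⟩
  have a1 : ζ * (2 * ℓ0) + (M + |s| * ℓ0) ≤ ζ * ℓ := by
    have := mul_le_mul_of_nonneg_left ((Nat.le_ceil _).trans hℓ) hζ.le
    rwa [mul_add, mul_div_cancel₀ _ hζ.ne'] at this
  have a2 := (hsm.add (small_const (ζ * p / 8 * ℓ0))).const_mul
    (show 0 ≤ 4 / (ζ * ℓ0) by positivity)
  have a3 : Small (fun N => Pr G (Inc 0 N s 0 ζ ℓ)ᶜ) p := by
    refine (a2.of_le ?_).mono_right (le_of_eq ?_)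
    · filter_upwards [eventually_ge_atTop 2] with N hN
      refine (binc2_Pr hs hζ h0 a1 hN).trans ?_
      exact mul_le_mul_of_nonneg_left (add_le_add le_rfl hM) (by positivity)
    · field_simp
      ring
  refine (a3.shift (B := 1) (Eventually.of_forall fun N => ?_) (-k)).of_le ?_
  · rw [abs_of_nonneg (Pr_nonneg G _)]
    exact Pr_le_one G _
  · filter_upwards [eventually_ge_atTop k] with N hN
    rw [Pr_inc_tr hN hs, sub_eq_add_neg]

theorem small_not_lip (hd : DN (mu G)) {p : ℝ} (hp : 0 < p) : ∃ ℓ1 : ℕ, ∀ ℓ : ℝ, (ℓ1 : ℝ) ≤ ℓ →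
    ∀ k y0 : ℤ, Small (fun N => Pr G (Lip (mu G) k N y0 ℓ)ᶜ) p := by
  have hS : |Sk (mu G) 4| < m1 (mu G) := by
    rw [abs_of_pos (hd.Sk_pos 4)]
    exact hd.Sk_lt (by norm_num)
  obtain ⟨l1, h1⟩ := small_not_inc hd hS hd.g0_pos (half_pos hp)
  obtain ⟨l2, h2⟩ := small_not_inc hd (s := -Sk (mu G) 4) (by rwa [abs_neg]) hd.g0_pos (half_pos hp)
  refine ⟨max l1 l2, fun ℓ hℓ k y0 => ?_⟩
  rw [Nat.cast_max, max_le_iff] at hℓ
  refine (((h1 ℓ hℓ.1 k y0).add (h2 ℓ hℓ.2 k y0)).of_le ?_).mono_right (add_halves p).le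
  filter_upwards [eventually_ge_atTop k] with N hN
  refine Pr_le_add_of_ae G ?_
  filter_upwards [ae_fld G] with t ht hn
  by_contra hcon
  rw [not_or, Set.notMem_compl_iff, Set.notMem_compl_iff] at hcon
  exact hn (lip_of_inc hd ht hN hcon.1 hcon.2)

theorem small_not_pl (hd : DN (mu G)) {α β lo hi : ℝ} (hα : -m1 (mu G) < α) (h1 : α < lo)
    (h2 : lo ≤ hi) (h3 : hi < β) (hβ : β < m1 (mu G)) {ζ p : ℝ} (hζ : 0 < ζ) (hp : 0 < p) :
    ∃ Y0 : ℕ, ∀ Y : ℕ, Y0 ≤ Y → ∀ k : ℤ,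
      Small (fun N => Pr G (PL (mu G) k N α β lo hi ζ (4 * Y) Y)ᶜ) p := by
  have hα' : |α| < m1 (mu G) := abs_lt.2 ⟨hα, by linarith⟩
  have hβ' : |β| < m1 (mu G) := abs_lt.2 ⟨by linarith, hβ⟩
  obtain ⟨l1, a1⟩ := small_not_inc hd hα' hζ (half_pos hp)
  obtain ⟨l2, a2⟩ := small_not_inc hd hβ' hζ (half_pos hp)
  refine ⟨max l1 l2, fun Y hY k => ?_⟩
  rw [max_le_iff] at hY
  refine ((((a1 Y (by exact_mod_cast hY.1) k 0).add (a2 Y (by exact_mod_cast hY.2) k 0)).add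
    (small_of_tendsto (Pr_not_loc hd hα h1 h2 h3 hβ k Y))).of_le ?_).mono_right (by linarith)
  filter_upwards [eventually_ge_atTop k] with N hN
  refine le_trans (Pr_le_add_of_ae G (B := (Inc k N α 0 ζ Y)ᶜ ∪ (Inc k N β 0 ζ Y)ᶜ) ?_)
    (add_le_add (Pr_union_le G _ _) le_rfl)
  filter_upwards [ae_fld G] with t ht hn
  by_contra hcon
  rw [Set.mem_union, not_or, not_or, Set.notMem_compl_iff, Set.notMem_compl_iff,
    Set.notMem_compl_iff] at hcon
  have := pl_of_inc ht hN hα' hβ' hζ.le hcon.1.1 hcon.1.2 hcon.2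
  rw [show (2 * Y + 2 * Y : ℝ) = 4 * Y by ring] at this
  exact hn this

end Crest.Agent.R151
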