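import Crest.Agent.R151.BFld3

/-! Row 151, part B: first-visit heights of lines. -/

set_option autoImplicit false

namespace Crest.Agent.R151

open MeasureTheory ProbabilityTheory Crest.ProbabilityR.FirstPassage Filter Topology
open scoped Classical

theorem bl1_fvt_eq {γ : Pth} {j : ℤ} {i : ℕ} (hi : i ≤ γ.n) (hj : (γ.p i).1 = j)
    (hlt : ∀ i' < i, (γ.p i').1 ≠ j) : fvt γ j = i := by
  unfold fvt
  refine le_antisymm (Nat.sInf_le ⟨hi, hj⟩) ?_
  by_contra hc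
  have := Nat.sInf_mem (s := {i | i ≤ γ.n ∧ (γ.p i).1 = j}) ⟨i, hi, hj⟩
  exact hlt _ (not_le.1 hc) this.2
theorem bl1_fvt_map (γ : Pth) (c j : ℤ) : fvt (γ.map (tr (0, c))) j = fvt γ j := by
  simp [fvt, Pth.map_p]

theorem fvt_spec {γ : Pth} (h : γ.Ok) {j : ℤ} (h0 : (γ.p 0).1 ≤ j) (h1 : j ≤ (γ.p γ.n).1) :
    fvt γ j ≤ γ.n ∧ (γ.p (fvt γ j)).1 = j ∧ ∀ i < fvt γ j, (γ.p i).1 < j := by
  obtain ⟨i, -, h2, h3, h4⟩ := exists_first_level (fun i => (γ.p i).1) (Nat.zero_le γ.n)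
    (fun i _ _ => h.col_step i) j h0 h1
  rw [bl1_fvt_eq h2 h3 (fun i' hi' => (h4 i' (Nat.zero_le _) hi').ne)]
  exact ⟨h2, h3, fun i' hi' => h4 i' (Nat.zero_le _) hi'⟩
theorem fvt_eq {γ : Pth} {j : ℤ} {i : ℕ} (hi : i ≤ γ.n) (hj : (γ.p i).1 = j)
    (hlt : ∀ i' < i, (γ.p i').1 ≠ j) : fvt γ j = i := by
  exact bl1_fvt_eq hi hj hlt

theorem measurable_wpos (k N : ℤ) (s : ℝ) (j y : ℤ) : Measurable (fun t => wpos t k N s j y) := by
  exact (measP_line k N s (k, y)).measurable (F := fun _ γ => (γ.p (fvt γ j)).2)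
    fun _ => measurable_const
theorem measurableSet_top (k N : ℤ) (s : ℝ) (j y : ℤ) : MeasurableSet {t | Top t k N s j y} := by
  exact measurableSet_lt (measurable_wpos _ _ _ _ _) (measurable_wpos _ _ _ _ _)
theorem measurableSet_nb (k N : ℤ) (s : ℝ) (j ks y : ℤ) : MeasurableSet {t | NB t k N s j ks y} := by
  exact (measP_line k N s (k, y)).measurableSet
    (q := fun _ γ => ∀ i, fvt γ j ≤ i → i ≤ γ.n → ks < (γ.p i).1) fun _ => MeasurableSet.const _
theorem depF_wpos (k N : ℤ) (s : ℝ) (j y : ℤ) :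
    DepF (LE (strip k N)) (fun t => wpos t k N s j y) := by
  intro t t' h
  have e : line t k N s (k, y) = line t' k N s (k, y) := depF_line k N s _ t t' h
  simp only [wpos, e]

variable {G : Measure ℝ} [Law G]

theorem bl1_line {t : Env} {s : ℝ} (ht : GN G s t) (hs : |s| < m1 (mu G)) {k N : ℤ} (hk : k ≤ N)
    (y c : ℤ) :
    (line (act (tr (0, c)) t) k N s (k, y)).map (tr (0, c)) = line t k N s (k, y + c) := by
  rw [line_tr ht (0, c) hs (x := (k, y)) ⟨le_rfl, hk⟩]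
  simp
theorem bl1_Pr (s : ℝ) (σ : V ≃ V) {A B : Set Env} (h : ∀ t, GN G s t → (act σ t ∈ A ↔ t ∈ B)) :
    Pr G B = Pr G A := by
  rw [← Pr_act G σ A]
  apply le_antisymm
  · exact Pr_mono_ae G ((ae_gn G s).mono fun t ht h' => (h t ht).2 h')
  · exact Pr_mono_ae G ((ae_gn G s).mono fun t ht h' => (h t ht).1 h')

theorem wpos_mono {t : Env} {s : ℝ} (ht : GN G s t) (hs : |s| < m1 (mu G)) {k N j : ℤ} (hk : k ≤ j)
    (hj : j ≤ N) {y y' : ℤ} (hy : y ≤ y') : wpos t k N s j y ≤ wpos t k N s j y' := by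
  have hm : ∀ y : ℤ, ((k, y) : V) ∈ strip k N := fun y => ⟨le_rfl, hk.trans hj⟩
  obtain ⟨l1, s1⟩ := line_spec ht.1 hs (hm y)
  obtain ⟨l2, s2⟩ := line_spec ht.1 hs (hm y')
  unfold wpos
  generalize line t k N s (k, y) = γ at l1 s1
  generalize line t k N s (k, y') = δ at l2 s2
  obtain ⟨a1, a2, a3⟩ := fvt_spec (j := j) l1.1.1 (by rw [s1]; exact hk) (by rw [l1.2.1]; exact hj)
  obtain ⟨b1, b2, b3⟩ := fvt_spec (j := j) l2.1.1 (by rw [s2]; exact hk) (by rw [l2.2.1]; exact hj)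
  by_contra hcon
  have st : ∀ {γ : Pth}, IsLine t k N s γ → fvt γ j ≤ γ.n → (γ.p (fvt γ j)).1 = j →
      (∀ i < fvt γ j, (γ.p i).1 < j) → ∀ i, 0 ≤ i → i ≤ fvt γ j → γ.p i ∈ strip k j := by
    intro γ l a1 a2 a3 i _ hi
    refine ⟨(l.1.2.1 i (hi.trans a1)).1, ?_⟩
    rcases hi.lt_or_eq with h | h
    · exact (a3 i h).le
    · rw [h, a2]
  obtain ⟨i, i', -, hi, -, hi', he⟩ := cross_lemma' (a := k) (b := j) l1.1.1 l2.1.1
    (Nat.zero_le _) a1 (Nat.zero_le _) b1 (st l1 a1 a2 a3) (st l2 b1 b2 b3)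
    (by rw [s1]) a2 (by rw [s2]) b2 (by rw [s1, s2]; exact hy) (not_le.1 hcon).le
  obtain ⟨-, hc⟩ := IsLine.coalesce ht hs l1 l2 (hi.trans a1) (hi'.trans b1) he
  have c1 := hc (fvt γ j - i)
  have c2 := hc (fvt δ j - i')
  rw [Nat.add_sub_cancel' hi] at c1
  rw [Nat.add_sub_cancel' hi'] at c2
  have d1 : fvt δ j ≤ i' + (fvt γ j - i) := by
    by_contra h
    have := b3 _ (not_le.1 h)
    rw [← c1, a2] at this
    exact lt_irrefl _ this
  have d2 : fvt γ j ≤ i + (fvt δ j - i') := by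
    by_contra h
    have := a3 _ (not_le.1 h)
    rw [c2, b2] at this
    exact lt_irrefl _ this
  have d3 : i' + (fvt γ j - i) = fvt δ j := by omega
  rw [d3] at c1
  exact hcon (by rw [c1])
theorem wpos_tr {t : Env} {s : ℝ} (ht : GN G s t) (hs : |s| < m1 (mu G)) {k N : ℤ} (hk : k ≤ N)
    (j y c : ℤ) : wpos (act (tr (0, c)) t) k N s j y = wpos t k N s j (y + c) - c := by
  unfold wpos
  rw [← bl1_line ht hs hk y c, bl1_fvt_map, Pth.map_p]
  simp
theorem nb_tr {t : Env} {s : ℝ} (ht : GN G s t) (hs : |s| < m1 (mu G)) {k N : ℤ} (hk : k ≤ N)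
    (j ks y c : ℤ) : NB (act (tr (0, c)) t) k N s j ks y ↔ NB t k N s j ks (y + c) := by
  unfold NB
  rw [← bl1_line ht hs hk y c, bl1_fvt_map]
  simp [Pth.map_p]
theorem Pr_top {s : ℝ} (hs : |s| < m1 (mu G)) {k N : ℤ} (hk : k ≤ N) (j y : ℤ) :
    Pr G {t | Top t k N s j y} = dens G k N s j := by
  refine bl1_Pr s (tr (0, y)) fun t ht => ?_
  simp only [Set.mem_ofPred_eq, Top, wpos_tr ht hs hk, zero_add, add_comm 1 y]
  omega
theorem Pr_not_nb {s : ℝ} (hs : |s| < m1 (mu G)) {k N : ℤ} (hk : k ≤ N) (j ks y : ℤ) :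
    Pr G {t | ¬ NB t k N s j ks y} = Pr G {t | ¬ NB t k N s j ks 0} := by
  refine bl1_Pr s (tr (0, y)) fun t ht => ?_
  simp only [Set.mem_ofPred_eq, nb_tr ht hs hk, zero_add]
/-- a non-backtracking line is, from its last visit to column `k'` on, a line of the narrower strip
with the same first-visit height -/
theorem wpos_of_nb {t : Env} {s : ℝ} (ht : GN G s t) (hs : |s| < m1 (mu G)) {k k' N j : ℤ}
    (hk : k ≤ k') (hj : k' < j) (hN : j ≤ N) {y : ℤ} (h : NB t k N s j k' y) :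
    ∃ (u : ℤ) (i : ℕ), i ≤ (line t k N s (k, y)).n ∧ (line t k N s (k, y)).p i = (k', u) ∧
      wpos t k' N s j u = wpos t k N s j y := by
  have hm : ((k, y) : V) ∈ strip k N := ⟨le_rfl, by show k ≤ N; omega⟩
  obtain ⟨l1, s1⟩ := line_spec ht.1 hs hm
  unfold NB at h
  unfold wpos
  generalize line t k N s (k, y) = γ at l1 s1 h
  obtain ⟨a1, a2, a3⟩ := fvt_spec (j := j) l1.1.1 (by rw [s1]; show k ≤ j; omega)
    (by rw [l1.2.1]; exact hN)
  obtain ⟨i, -, h2, h3, h4⟩ := exists_last_level (fun i => (γ.p i).1) (Nat.zero_le γ.n)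
    (fun i _ _ => l1.1.1.col_step i) k' (by simp only [s1]; exact hk)
    (by simp only [l1.2.1]; omega)
  have hi : i < fvt γ j := by
    by_contra hc
    have := h i (not_lt.1 hc) h2
    omega
  obtain ⟨l2, -⟩ := IsLine.suffix_restrict ht.1 hk hs l1 h2 (fun i' hi1 hi2 => by
    rcases hi1.lt_or_eq with h' | h'
    · exact (h4 i' h' hi2).le
    · rw [← h', h3])
  have e : γ.p i = (k', (γ.p i).2) := Prod.ext h3 rfl
  have l3 := IsLine.eq_line ht l2
  rw [Pth.sub_p_zero, e] at l3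
  refine ⟨(γ.p i).2, i, h2, e, ?_⟩
  rw [← l3]
  have f : fvt (γ.sub i γ.n) j = fvt γ j - i := by
    refine fvt_eq (by rw [Pth.sub_n]; omega) ?_ fun i' hi' => ?_
    · rw [Pth.sub_p _ _ _ (by omega), Nat.add_sub_cancel' hi.le, a2]
    · rw [Pth.sub_p _ _ _ (by omega)]
      exact (a3 _ (by omega)).ne
  rw [f, Pth.sub_p _ _ _ (by omega), Nat.add_sub_cancel' hi.le]
/-- a class bounded above has a top -/
theorem exists_top {t : Env} {s : ℝ} (ht : GN G s t) (hs : |s| < m1 (mu G)) {k N j : ℤ} (hk : k ≤ j)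
    (hj : j ≤ N) {y y' : ℤ} (h : wpos t k N s j y < wpos t k N s j y') :
    ∃ u, y ≤ u ∧ u < y' ∧ Top t k N s j u ∧ wpos t k N s j u = wpos t k N s j y := by
  have hy : y < y' := by
    by_contra hc
    exact absurd (wpos_mono ht hs hk hj (not_lt.1 hc)) (not_le.2 h)
  obtain ⟨u, ⟨h1, h2, h3⟩, h4⟩ := Int.exists_greatest_of_bdd
    (P := fun u => y ≤ u ∧ u < y' ∧ wpos t k N s j u = wpos t k N s j y)
    ⟨y', fun z hz => hz.2.1.le⟩ ⟨y, le_rfl, hy, rfl⟩
  refine ⟨u, h1, h2, ?_, h3⟩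
  refine lt_of_le_of_ne (wpos_mono ht hs hk hj (by omega)) fun he => ?_
  have h5 : u + 1 < y' := by
    refine lt_of_le_of_ne (by omega) fun h6 => ?_
    rw [h6, h3] at he
    exact h.ne he
  have := h4 (u + 1) ⟨by omega, h5, he.symm.trans h3⟩
  omega
theorem top_inj {t : Env} {s : ℝ} (ht : GN G s t) (hs : |s| < m1 (mu G)) {k N j : ℤ} (hk : k ≤ j)
    (hj : j ≤ N) {y y' : ℤ} (h : Top t k N s j y) (h' : Top t k N s j y')
    (he : wpos t k N s j y = wpos t k N s j y') : y = y' := by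
  unfold Top at h h'
  rcases lt_trichotomy y y' with hl | hl | hl
  · have := wpos_mono ht hs hk hj (show y + 1 ≤ y' by omega)
    omega
  · exact hl
  · have := wpos_mono ht hs hk hj (show y' + 1 ≤ y by omega)
    omega
theorem ae_wpos_unbounded {s : ℝ} (hs : |s| < m1 (mu G)) {k N j : ℤ} (hk : k ≤ j) (hj : j ≤ N) :
    ∀ᵐ t ∂(iidLaw G), ∀ w : ℤ, ∃ y, w < wpos t k N s j y := by
  refine ae_all_iff.2 fun w => ?_
  rw [ae_iff, ← Pr_eq_zero_iff]
  refine le_antisymm ?_ (Pr_nonneg G _)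
  have hlim := Pr_tendsto_zero G (A := fun m : ℕ => {t | wpos t k N s j 0 ≤ w - m})
    (fun m => measurableSet_le (measurable_wpos _ _ _ _ _) measurable_const)
    (Eventually.of_forall fun t => by
      refine eventually_atTop.2 ⟨(w - wpos t k N s j 0).toNat + 1, fun m hm => ?_⟩
      simp only [Set.mem_ofPred_eq]
      omega)
  refine ge_of_tendsto' hlim fun m => ?_
  have e : Pr G {t | wpos t k N s j m ≤ w} = Pr G {t | wpos t k N s j 0 ≤ w - m} := by
    refine bl1_Pr s (tr (0, (m : ℤ))) fun t ht => ?_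
    simp only [Set.mem_ofPred_eq, wpos_tr ht hs (hk.trans hj), zero_add]
    omega
  rw [← e]
  refine Pr_mono G fun t ht => ?_
  simp only [Set.mem_ofPred_eq, not_exists, not_lt] at ht ⊢
  exact ht m

end Crest.Agent.R151
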