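import Crest.Agent.R151.BLN1

/-! Row 151, part B: mass transport along a column and the density of first-visit heights. -/

set_option autoImplicit false

namespace Crest.Agent.R151

open MeasureTheory ProbabilityTheory Crest.ProbabilityR.FirstPassage Filter Topology
open scoped Classical

/-- mass transport for an equivariant integer-valued map -/
theorem mtp (G : Measure ℝ) [IsProbabilityMeasure G] (w : Env → ℤ → ℤ) (Q : Env → ℤ → Prop)
    (hw : ∀ y, Measurable (fun t => w t y)) (hQ : ∀ y, MeasurableSet {t | Q t y})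
    (ew : ∀ᵐ t ∂(iidLaw G), ∀ c y, w (act (tr (0, c)) t) y = w t (y + c) - c)
    (eQ : ∀ᵐ t ∂(iidLaw G), ∀ c y, Q (act (tr (0, c)) t) y ↔ Q t (y + c))
    (hinj : ∀ᵐ t ∂(iidLaw G), ∀ y y', Q t y → Q t y' → w t y = w t y' → y = y') :
    Pr G {t | ∃ y, Q t y ∧ w t y = 0} = Pr G {t | Q t 0} := by
  have e1 : {t | ∃ y, Q t y ∧ w t y = 0} = ⋃ y, {t | Q t y ∧ w t y = 0} := by
    ext t; simp
  have e2 : {t | Q t 0} = ⋃ y : ℤ, {t | Q t 0 ∧ w t 0 = -y} := by
    ext t
    simp only [Set.mem_ofPred_eq, Set.mem_iUnion]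
    exact ⟨fun h => ⟨-w t 0, h, by ring⟩, fun ⟨_, h, _⟩ => h⟩
  have m1 : ∀ y c, MeasurableSet {t | Q t y ∧ w t y = c} := fun y c =>
    (hQ y).inter (hw y (measurableSet_singleton c))
  have d1 : Pairwise (Function.onFun (AEDisjoint (iidLaw G)) fun y => {t | Q t y ∧ w t y = 0}) := by
    intro y y' hyy
    refine measure_mono_null (fun t ht => ?_) (ae_iff.1 hinj)
    intro hh
    exact hyy (hh y y' ht.1.1 ht.2.1 (ht.1.2.trans ht.2.2.symm))
  have d2 : Pairwise (Function.onFun (AEDisjoint (iidLaw G))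
      fun y : ℤ => {t | Q t 0 ∧ w t 0 = -y}) := by
    intro y y' hyy
    refine Disjoint.aedisjoint (Set.disjoint_left.2 fun t h1 h2 => hyy ?_)
    have := h1.2.symm.trans h2.2
    omega
  unfold Pr Measure.real
  rw [e1, e2, measure_iUnion₀ d1 fun y => (m1 y 0).nullMeasurableSet,
    measure_iUnion₀ d2 fun y => (m1 0 (-y)).nullMeasurableSet]
  congr 1
  refine tsum_congr fun y => ?_
  rw [← (measurePreserving_act G (tr (0, y))).measure_preimage (m1 0 (-y)).nullMeasurableSet]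
  refine measure_congr ?_
  filter_upwards [ew, eQ] with t h1 h2
  refine propext ?_
  show (Q t y ∧ w t y = 0) ↔ (Q (act (tr (0, y)) t) 0 ∧ w (act (tr (0, y)) t) 0 = -y)
  rw [h1, h2, zero_add]
  constructor
  · rintro ⟨a, b⟩; exact ⟨a, by omega⟩
  · rintro ⟨a, b⟩; exact ⟨a, by omega⟩

/-- a top of level `k'` whose height is not reached by a non-backtracking line of level `k` -/
def NewP (t : Env) (k k' N : ℤ) (s : ℝ) (j u : ℤ) : Prop :=
  Top t k' N s j u ∧ ¬ ∃ y, NB t k N s j k' y ∧ wpos t k N s j y = wpos t k' N s j u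

theorem measurableSet_newP (k k' N : ℤ) (s : ℝ) (j u : ℤ) :
    MeasurableSet {t | NewP t k k' N s j u} :=
  bf3_and (measurableSet_top k' N s j u) (bf3_exists fun y => bf3_and (measurableSet_nb k N s j k' y)
    (measurableSet_eq_fun (measurable_wpos k N s j y) (measurable_wpos k' N s j u))).compl

variable {G : Measure ℝ} [Law G]

theorem bln2_top_tr {t : Env} {s : ℝ} (ht : GN G s t) (hs : |s| < m1 (mu G)) {k N : ℤ} (hk : k ≤ N)
    (j y c : ℤ) : Top (act (tr (0, c)) t) k N s j y ↔ Top t k N s j (y + c) := by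
  unfold Top
  rw [wpos_tr ht hs hk, wpos_tr ht hs hk, add_right_comm y 1 c]
  omega

theorem bln2_newP_tr {t : Env} {s : ℝ} (ht : GN G s t) (hs : |s| < m1 (mu G)) {k k' N : ℤ}
    (hk : k ≤ k') (hN : k' ≤ N) (j u c : ℤ) :
    NewP (act (tr (0, c)) t) k k' N s j u ↔ NewP t k k' N s j (u + c) := by
  unfold NewP
  rw [bln2_top_tr ht hs hN]
  refine and_congr Iff.rfl (not_congr ?_)
  constructor
  · rintro ⟨y, h1, h2⟩
    rw [nb_tr ht hs (hk.trans hN)] at h1
    rw [wpos_tr ht hs (hk.trans hN), wpos_tr ht hs hN] at h2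
    exact ⟨y + c, h1, by omega⟩
  · rintro ⟨y, h1, h2⟩
    refine ⟨y - c, ?_, ?_⟩
    · rw [nb_tr ht hs (hk.trans hN), sub_add_cancel]; exact h1
    · rw [wpos_tr ht hs (hk.trans hN), wpos_tr ht hs hN, sub_add_cancel, h2]

theorem Pr_newP {s : ℝ} (hs : |s| < m1 (mu G)) {k k' N : ℤ} (hk : k ≤ k') (hN : k' ≤ N) (j u : ℤ) :
    Pr G {t | NewP t k k' N s j u} = Pr G {t | NewP t k k' N s j 0} := by
  rw [← Pr_act G (tr (0, u)) {t | NewP t k k' N s j 0}]
  have key : ∀ᵐ t ∂(iidLaw G), NewP t k k' N s j u ↔ NewP (act (tr (0, u)) t) k k' N s j 0 := by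
    filter_upwards [ae_gn G s] with t ht
    rw [bln2_newP_tr ht hs hk hN, zero_add]
  apply le_antisymm
  · exact Pr_mono_ae G (key.mono fun t ht h => ht.1 h)
  · exact Pr_mono_ae G (key.mono fun t ht h => ht.2 h)

theorem dens_step {s : ℝ} (hs : |s| < m1 (mu G)) {k k' N j : ℤ} (hk : k ≤ k') (hj : k' < j)
    (hN : j ≤ N) :
    dens G k N s j - Pr G {t | ¬ NB t k N s j k' 0} + Pr G {t | NewP t k k' N s j 0} ≤
      dens G k' N s j := by
  have hkN : k ≤ N := by omega
  have hk'N : k' ≤ N := by omega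
  have hA := mtp G (fun t y => wpos t k N s j y) (fun t y => Top t k N s j y ∧ NB t k N s j k' y)
    (measurable_wpos k N s j)
    (fun y => bf3_and (measurableSet_top k N s j y) (measurableSet_nb k N s j k' y))
    ((ae_gn G s).mono fun t ht c y => wpos_tr ht hs hkN j y c)
    ((ae_gn G s).mono fun t ht c y =>
      and_congr (bln2_top_tr ht hs hkN j y c) (nb_tr ht hs hkN j k' y c))
    ((ae_gn G s).mono fun t ht y y' h h' he => top_inj ht hs (by omega) hN h.1 h'.1 he)
  have hB := mtp G (fun t y => wpos t k' N s j y) (fun t y => NewP t k k' N s j y)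
    (measurable_wpos k' N s j) (measurableSet_newP k k' N s j)
    ((ae_gn G s).mono fun t ht c y => wpos_tr ht hs hk'N j y c)
    ((ae_gn G s).mono fun t ht c y => bln2_newP_tr ht hs hk hk'N j y c)
    ((ae_gn G s).mono fun t ht y y' h h' he => top_inj ht hs hj.le hN h.1 h'.1 he)
  have hC := mtp G (fun t y => wpos t k' N s j y) (fun t y => Top t k' N s j y)
    (measurable_wpos k' N s j) (measurableSet_top k' N s j)
    ((ae_gn G s).mono fun t ht c y => wpos_tr ht hs hk'N j y c)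
    ((ae_gn G s).mono fun t ht c y => bln2_top_tr ht hs hk'N j y c)
    ((ae_gn G s).mono fun t ht y y' h h' he => top_inj ht hs hj.le hN h h' he)
  set A := {t | ∃ y, (Top t k N s j y ∧ NB t k N s j k' y) ∧ wpos t k N s j y = 0} with hAd
  set B := {t | ∃ y, NewP t k k' N s j y ∧ wpos t k' N s j y = 0} with hBd
  have mB : MeasurableSet B := bf3_exists fun y => bf3_and (measurableSet_newP k k' N s j y)
    (measurable_wpos k' N s j y (measurableSet_singleton 0))
  have dAB : Disjoint A B := by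
    refine Set.disjoint_left.2 ?_
    rintro t ⟨y, ⟨_, h2⟩, h3⟩ ⟨u, h4, h5⟩
    exact h4.2 ⟨y, h2, h3.trans h5.symm⟩
  have hU : Pr G (A ∪ B) = Pr G A + Pr G B := measureReal_union dAB mB
  have hle : Pr G (A ∪ B) ≤ Pr G {t | ∃ y, Top t k' N s j y ∧ wpos t k' N s j y = 0} := by
    refine Pr_mono_ae G ?_
    filter_upwards [ae_gn G s, ae_wpos_unbounded hs hj.le hN] with t ht hu
    rintro (⟨y, ⟨_, h2⟩, h3⟩ | ⟨u, h4, h5⟩)
    · obtain ⟨u, i, _, _, he⟩ := wpos_of_nb ht hs hk hj hN h2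
      obtain ⟨y', hy'⟩ := hu (wpos t k' N s j u)
      obtain ⟨u', _, _, h6, h7⟩ := exists_top ht hs hj.le hN hy'
      exact ⟨u', h6, by rw [h7, he, h3]⟩
    · exact ⟨u, h4.1, h5⟩
  have h1 := Pr_sub_le_inter_compl G {t | Top t k N s j 0} {t | ¬ NB t k N s j k' 0}
  have e : {t | Top t k N s j 0} ∩ {t | ¬ NB t k N s j k' 0}ᶜ =
      {t | Top t k N s j 0 ∧ NB t k N s j k' 0} := by
    ext t; simp
  rw [e] at h1
  unfold dens
  linarith

end Crest.Agent.R151
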