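import Crest.Agent.R151.BLN2

/-! Row 151, part B: lowering the first steps of the lowest of three lines creates a new
first-visit height (deterministic core of the coalescence argument). -/

set_option autoImplicit false

namespace Crest.Agent.R151

open MeasureTheory ProbabilityTheory Crest.ProbabilityR.FirstPassage Filter Topology
open scoped Classical

variable {G : Measure ℝ} [Law G]

theorem BLN3_col {γ : Pth} (h : γ.Ok) (i : ℕ) : (γ.p i).1 ≤ (γ.p 0).1 + i := by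
  induction i with
  | zero => simp
  | succ i ih =>
    have := abs_le.1 (h.col_step i)
    push_cast
    omega

theorem BLN3_Gd_mono {t t' : Env} (ht' : Fld G t') (hle : ∀ e, t' e ≤ t e) {k N : ℤ} {s : ℝ}
    (hs : |s| < m1 (mu G)) {x : V} (hx : x ∈ strip k N) : Gd t' k N s x ≤ Gd t k N s x :=
  le_ciInf fun z => (Gd_le ht' hs hx z).trans
    (sub_le_sub_right (TD_mono_env ht'.nn (fun e _ => hle e) _ _) _)

/-- a `t'`-line that reads unchanged weights after a touch with a `t`-line follows that line -/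
theorem BLN3_follow {t t' : Env} {s : ℝ} (ht : GN G s t) (ht' : GN G s t') (hs : |s| < m1 (mu G))
    (hle : ∀ e, t' e ≤ t e) {k N j : ℤ} (hkj : k ≤ j) (hN : j ≤ N) {F g : Pth}
    (hF : IsLine t' k N s F) (hg : IsLine t k N s g) (F0 : (F.p 0).1 = k) (g0 : (g.p 0).1 = k)
    {i a : ℕ} (hi : i ≤ fvt F j) (ha : a ≤ fvt g j) (he : F.p i = g.p a)
    (hc : F.cost t' i F.n = F.cost t i F.n) : F.p (fvt F j) = g.p (fvt g j) := by
  obtain ⟨a1, a2, a3⟩ := fvt_spec hF.1.1 (j := j) (by omega) (by rw [hF.2.1]; exact hN)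
  obtain ⟨b1, b2, b3⟩ := fvt_spec hg.1.1 (j := j) (by omega) (by rw [hg.2.1]; exact hN)
  have hi' : i ≤ F.n := hi.trans a1
  have h1 := hF.suffix ht'.1 hs hi'
  have h2 : IsLine t k N s (F.sub i F.n) := by
    refine isLine_of_le ht.1 hs h1.1.1 h1.1.2.2.1 h1.1.2.1 h1.2.1 ?_
    have h3 := h1.2.2
    rw [F.sub_tot t' hi', hc, ← F.sub_tot t hi'] at h3
    rw [h3]
    exact BLN3_Gd_mono ht'.1 hle hs (h1.1.2.1 0 (Nat.zero_le _))
  have h3 := (h2.coalesce ht hs hg (Nat.zero_le _) (ha.trans b1) (by rw [F.sub_p_zero, he])).2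
  have h4 : ∀ r, i + r ≤ F.n → F.p (i + r) = g.p (a + r) := fun r hr => by
    rw [← h3 r, zero_add, F.sub_p i F.n (by omega)]
  rcases lt_trichotomy (fvt F j - i) (fvt g j - a) with h | h | h
  · have h5 := h4 (fvt F j - i) (by omega)
    have h6 := b3 (a + (fvt F j - i)) (by omega)
    rw [← h5, Nat.add_sub_cancel' hi] at h6
    omega
  · have h5 := h4 (fvt F j - i) (by omega)
    rwa [Nat.add_sub_cancel' hi, h, Nat.add_sub_cancel' ha] at h5
  · have h5 := h4 (fvt g j - a) (by omega)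
    have h6 := a3 (i + (fvt g j - a)) (by omega)
    rw [h5, Nat.add_sub_cancel' ha] at h6
    omega

theorem ln_core {t t' : Env} {s : ℝ} (ht : GN G s t) (ht' : GN G s t') (hs : |s| < m1 (mu G))
    {k N j : ℤ} {m0 k0 Λ B : ℕ} (hm : m0 < k0) (hk2 : 2 ≤ k0) (hj : k + k0 < j) (hN : j ≤ N)
    {y1 y2 y3 : ℤ} (hy1 : 0 ≤ y1) (h12 : y1 < y2) (h23 : y2 < y3) (hy3 : y3 ≤ Λ)
    (w12 : wpos t k N s j y1 < wpos t k N s j y2) (w23 : wpos t k N s j y2 < wpos t k N s j y3)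
    {Z0 : ℝ} (hZ : ∀ y y' : ℤ, 0 ≤ y → y ≤ Λ → 0 ≤ y' → y' ≤ Λ →
      TD (strip k (k + 2)) t (k, y) (k, y') ≤ Z0)
    (hgain : 2 * Z0 < (h1 G - h0 G) * m0 / 2) (hkes : t ∉ KesBad G (k, y1) m0)
    (nb2 : NB t k N s j (k + k0) y2) (nb3 : NB t k N s j (k + k0) y3)
    (hbox : ∀ y : ℤ, 0 ≤ y → y ≤ Λ → ∀ i ≤ (line t k N s (k, y)).n,
      ((line t k N s (k, y)).p i).1 ≤ k + k0 → |((line t k N s (k, y)).p i).2| ≤ B)
    (hoff : ∀ e, (e ∉ (Finset.range m0).image (line t k N s (k, y1)).edge ∨ t e ∉ hi G) → t' e = t e)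
    (hon : ∀ e ∈ (Finset.range m0).image (line t k N s (k, y1)).edge, t e ∈ hi G → t' e ∈ lo G) :
    ∃ u : ℤ, |u| ≤ B ∧ NewP t' k (k + k0) N s j u := by
  have hkN : k ≤ N := by omega
  have hkj : k ≤ j := by omega
  have mem : ∀ y : ℤ, ((k, y) : V) ∈ strip k N := fun y => ⟨le_rfl, hkN⟩
  obtain ⟨L1, s1⟩ := line_spec ht.1 hs (mem y1)
  obtain ⟨L3, s3⟩ := line_spec ht.1 hs (mem y3)
  have e1 : wpos t k N s j y1 = ((line t k N s (k, y1)).p (fvt (line t k N s (k, y1)) j)).2 := rfl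
  have e3 : wpos t k N s j y3 = ((line t k N s (k, y3)).p (fvt (line t k N s (k, y3)) j)).2 := rfl
  obtain ⟨u2, i2, p1, p2, p3⟩ := wpos_of_nb ht hs (by omega) hj hN nb2
  obtain ⟨u3, i3, q1, q2, q3⟩ := wpos_of_nb ht hs (by omega) hj hN nb3
  have p4 := hbox y2 (by omega) (by omega) i2 p1 (by rw [p2])
  have q4 := hbox y3 (by omega) hy3 i3 q1 (by rw [q2])
  rw [p2] at p4
  rw [q2] at q4
  obtain ⟨u, r1, r2, r3, r4⟩ := exists_top ht hs hj.le hN (y := u2) (y' := u3) (by omega)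
  generalize line t k N s (k, y1) = g1 at L1 s1 e1 hoff hon
  generalize line t k N s (k, y3) = g3 at L3 s3 e3
  have c1 : (g1.p 0).1 = k := by rw [s1]
  have c3 : (g3.p 0).1 = k := by rw [s3]
  obtain ⟨a1, a2, a3⟩ := fvt_spec L1.1.1 (j := j) (by omega) (by rw [L1.2.1]; exact hN)
  obtain ⟨b1, b2, b3⟩ := fvt_spec L3.1.1 (j := j) (by omega) (by rw [L3.2.1]; exact hN)
  have col := BLN3_col L1.1.1
  have hm1 : m0 ≤ fvt g1 j := by
    have := col (fvt g1 j)
    omega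
  have hlow : Low G ((Finset.range m0).image g1.edge) t t' := fun e => by
    by_cases h : e ∈ (Finset.range m0).image g1.edge ∧ t e ∈ hi G
    · exact Or.inr ⟨h.1, h.2, hon e h.1 h.2⟩
    · exact Or.inl (hoff e (not_and_or.1 h))
  have hle := hlow.le (h0_lt_h1 G)
  have hw : ∀ v, wpos t' (k + k0) N s j v = wpos t (k + k0) N s j v := fun v =>
    depF_wpos _ _ _ _ _ t' t fun e he => hoff e (Or.inl fun hE => by
      obtain ⟨a, ha, rfl⟩ := Finset.mem_image.1 hE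
      have h1 := (mem_ED.1 (LE_subset_ED _ he)).1.1
      have h2 := col a
      have h3 := Finset.mem_range.1 ha
      omega)
  refine ⟨u, ?_, by rw [Top, hw, hw]; exact r3, ?_⟩
  · simp only [abs_le] at p4 q4 ⊢
    omega
  rintro ⟨y, nb, hy⟩
  rw [hw, r4, p3] at hy
  obtain ⟨LF, sF⟩ := line_spec ht'.1 hs (mem y)
  have eF : wpos t' k N s j y = ((line t' k N s (k, y)).p (fvt (line t' k N s (k, y)) j)).2 := rfl
  unfold NB at nb
  generalize line t' k N s (k, y) = F at LF sF eF nb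
  have cF : (F.p 0).1 = k := by rw [sF]
  obtain ⟨f1, f2, f3⟩ := fvt_spec LF.1.1 (j := j) (by omega) (by rw [LF.2.1]; exact hN)
  have K1 : ∀ i, (∀ l, i < l → l ≤ fvt F j → ∀ a, a ≤ fvt g1 j → F.p l ≠ g1.p a) →
      F.cost t' i F.n = F.cost t i F.n := fun i h =>
    F.cost_congr fun l hl hl' => hoff _ (Or.inl fun hE => by
      obtain ⟨a, ha, he⟩ := Finset.mem_image.1 hE
      have h3 := Finset.mem_range.1 ha
      obtain ⟨a', h4, h5⟩ : ∃ a', a' ≤ m0 ∧ F.p (l + 1) = g1.p a' := by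
        rcases Sym2.eq_iff.1 he with h4 | h4
        · exact ⟨a + 1, h3, h4.2.symm⟩
        · exact ⟨a, h3.le, h4.1.symm⟩
      rcases le_or_gt (l + 1) (fvt F j) with h6 | h6
      · exact h _ (by omega) h6 a' (h4.trans hm1) h5
      · have h7 := nb (l + 1) h6.le hl'
        have h8 := col a'
        rw [h5] at h7
        omega)
  have pre : ∀ {t₀ : Env} {γ : Pth}, IsLine t₀ k N s γ → fvt γ j ≤ γ.n → (γ.p (fvt γ j)).1 = j →
      (∀ i < fvt γ j, (γ.p i).1 < j) → ∀ i, 0 ≤ i → i ≤ fvt γ j → γ.p i ∈ strip k j :=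
    fun h h1 h2 h3 i _ hi => ⟨(h.1.2.1 i (hi.trans h1)).1, by
      rcases hi.eq_or_lt with rfl | hi
      · exact h2.le
      · exact (h3 i hi).le⟩
  have touch : ∃ l, l ≤ fvt F j ∧ ((∃ a, a ≤ fvt g1 j ∧ F.p l = g1.p a) ∨
      ∃ a, a ≤ fvt g3 j ∧ F.p l = g3.p a) := by
    rcases le_or_gt y y1 with h1 | h1
    · obtain ⟨l, a, -, h2, -, h3, h4⟩ := cross_lemma' LF.1.1 L1.1.1 (Nat.zero_le _) f1
        (Nat.zero_le _) a1 (pre LF f1 f2 f3) (pre L1 a1 a2 a3) cF f2 c1 a2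
        (by rw [sF, s1]; exact h1) (by omega)
      exact ⟨l, h2, Or.inl ⟨a, h3, h4⟩⟩
    rcases le_or_gt y3 y with h3 | h3
    · obtain ⟨a, l, -, h2, -, h3, h4⟩ := cross_lemma' L3.1.1 LF.1.1 (Nat.zero_le _) b1
        (Nat.zero_le _) f1 (pre L3 b1 b2 b3) (pre LF f1 f2 f3) c3 b2 cF f2
        (by rw [sF, s3]; exact h3) (by omega)
      exact ⟨l, h3, Or.inr ⟨a, h2, h4.symm⟩⟩
    by_contra hno
    have g1' : F.tot t' = F.tot t := K1 0 fun l _ hl a ha he => hno ⟨l, hl, Or.inl ⟨a, ha, he⟩⟩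
    have hZ' : ∀ z z' : ℤ, 0 ≤ z → z ≤ Λ → 0 ≤ z' → z' ≤ Λ →
        TD (strip k N) t (k, z) (k, z') ≤ Z0 := fun z z' h4 h5 h6 h7 =>
      (TD_anti (D := strip k (k + 2)) (D' := strip k N) ht.1.nn
        (fun x hx => ⟨hx.1, hx.2.trans (by omega)⟩)
        (conn_strip ⟨le_rfl, by omega⟩ ⟨le_rfl, by omega⟩)).trans (hZ z z' h4 h5 h6 h7)
    have g2 := Gd_le_add ht'.1 hs (mem y) (mem y1)
    have g3' := (TD_mono_env (D := strip k N) ht'.1.nn (fun e _ => hle e) (k, y) (k, y1)).trans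
      (hZ' y y1 (by omega) (by omega) hy1 (by omega))
    have g4 := Gd_le_tot ht'.1 hs L1.1.1 L1.1.2.1 L1.2.1
    have g5 := Gd_le_add ht.1 hs (mem y1) (mem y)
    have g6 := hZ' y1 y hy1 (by omega) (by omega) (by omega)
    have g7 := Gd_le_tot ht.1 hs LF.1.1 LF.1.2.1 LF.2.1
    have g8 := L1.2.2
    have g9 := LF.2.2
    have g10 := hlow.tot_le (h0_lt_h1 G) L1.1.1 L1.1.2.2.1
      (H := ((Finset.Ico 0 m0).image g1.edge).filter fun e => t e ∈ hi G)
      (fun e he => by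
        obtain ⟨a, ha, rfl⟩ := Finset.mem_image.1 (Finset.mem_filter.1 he).1
        exact Pth.mem_edges.2 ⟨a, by have := Finset.mem_Ico.1 ha; omega, rfl⟩)
      (fun e he => (Finset.mem_filter.1 he).2)
    rw [Finset.filter_true_of_mem fun e he => hon e
      (by rw [Finset.range_eq_Ico]; exact (Finset.mem_filter.1 he).1) (Finset.mem_filter.1 he).2,
      card_hi_edges G L1.1.1 L1.1.2.2.1 (hm1.trans a1)] at g10
    have g11 := nhi_ge_of_not_kesBad G L1.1.1 L1.1.2.2.1 (a := 0) (k := m0) (by omega)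
      (by rw [s1]; exact hkes)
    rw [zero_add] at g11
    have g12 : (m0 : ℝ) ≤ 2 * g1.nhi G t 0 m0 := by exact_mod_cast g11
    have g13 := mul_le_mul_of_nonneg_left g12 (sub_pos.2 (h0_lt_h1 G)).le
    rw [s1] at g4 g8
    rw [sF] at g7 g9
    linarith
  obtain ⟨l0, hl0⟩ := touch
  obtain ⟨i, hi, hmax⟩ := Finset.exists_max_image ((Finset.range (fvt F j + 1)).filter fun l =>
    (∃ a, a ≤ fvt g1 j ∧ F.p l = g1.p a) ∨ ∃ a, a ≤ fvt g3 j ∧ F.p l = g3.p a) id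
    ⟨l0, Finset.mem_filter.2 ⟨Finset.mem_range.2 (by omega), hl0.2⟩⟩
  obtain ⟨hi1, hi2⟩ := Finset.mem_filter.1 hi
  have hi3 : i ≤ fvt F j := by have := Finset.mem_range.1 hi1; omega
  have hc := K1 i fun l h1 h2 a ha he => by
    have := hmax l (Finset.mem_filter.2 ⟨Finset.mem_range.2 (by omega), Or.inl ⟨a, ha, he⟩⟩)
    simp only [id] at this
    omega
  rcases hi2 with ⟨a, ha, he⟩ | ⟨a, ha, he⟩
  · have := BLN3_follow ht ht' hs hle hkj hN LF L1 cF c1 hi3 ha he hc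
    rw [this] at eF
    omega
  · have := BLN3_follow ht ht' hs hle hkj hN LF L3 cF c3 hi3 ha he hc
    rw [this] at eF
    omega

end Crest.Agent.R151
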