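import Crest.Agent.R151.BLN3

/-! Row 151, part B: probability of a new first-visit height. -/

set_option autoImplicit false

namespace Crest.Agent.R151

open MeasureTheory ProbabilityTheory Crest.ProbabilityR.FirstPassage Filter Topology
open scoped Classical

variable {G : Measure ℝ} [Law G]

theorem Pr_three {s : ℝ} (hs : |s| < m1 (mu G)) {k N j : ℤ} (hk : k ≤ j) (hj : j ≤ N) {Λ : ℕ}
    (hΛ : 1 ≤ Λ) :
    dens G k N s j - 1 / Λ ≤ Pr G {t | ∃ y1 y2 y3 : ℤ, 0 ≤ y1 ∧ y1 < y2 ∧ y2 < y3 ∧ y3 ≤ Λ ∧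
      wpos t k N s j y1 < wpos t k N s j y2 ∧ wpos t k N s j y2 < wpos t k N s j y3} := by
  set E : Set Env := {t | ∃ y1 y2 y3 : ℤ, 0 ≤ y1 ∧ y1 < y2 ∧ y2 < y3 ∧ y3 ≤ Λ ∧
      wpos t k N s j y1 < wpos t k N s j y2 ∧ wpos t k N s j y2 < wpos t k N s j y3} with hE
  have hEm : MeasurableSet E := by
    refine bf3_exists fun y1 => bf3_exists fun y2 => bf3_exists fun y3 =>
      bf3_and (MeasurableSet.const _) (bf3_and (MeasurableSet.const _)
        (bf3_and (MeasurableSet.const _) (bf3_and (MeasurableSet.const _) (bf3_and ?_ ?_))))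
    · exact measurableSet_lt (measurable_wpos _ _ _ _ _) (measurable_wpos _ _ _ _ _)
    · exact measurableSet_lt (measurable_wpos _ _ _ _ _) (measurable_wpos _ _ _ _ _)
  have hI : Integrable (fun t => E.indicator (fun _ => (1 : ℝ)) t) (iidLaw G) :=
    (integrable_const (1 : ℝ)).indicator hEm
  have key := sum_Pr_le_integral (G := G) (Finset.Ico (0 : ℤ) Λ)
    (A := fun y => {t | Top t k N s j y}) (fun y => measurableSet_top k N s j y)
    (F := fun t => 1 + Λ * E.indicator (fun _ => (1 : ℝ)) t)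
    ((integrable_const (1 : ℝ)).add (hI.const_mul _))
    ((ae_gn G s).mono fun t ht => by
      by_cases hm : t ∈ E
      · rw [Set.indicator_of_mem hm, mul_one]
        have h1 := Finset.card_filter_le (Finset.Ico (0 : ℤ) Λ)
          (fun y => t ∈ {t | Top t k N s j y})
        rw [Int.card_Ico] at h1
        have h2 : ((Λ : ℤ) - 0).toNat = Λ := by omega
        rw [h2] at h1
        have h3 : (((Finset.Ico (0 : ℤ) Λ).filter
          (fun y => t ∈ {t | Top t k N s j y})).card : ℝ) ≤ Λ := by exact_mod_cast h1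
        linarith
      · rw [Set.indicator_of_notMem hm, mul_zero, add_zero]
        have aux : ∀ y y' : ℤ, 0 ≤ y → y' < Λ → Top t k N s j y → Top t k N s j y' → ¬ y < y' := by
          intro y y' h0 h1 hy hy' hlt
          apply hm
          refine ⟨y, y', y' + 1, h0, hlt, by omega, by omega, ?_, hy'⟩
          exact lt_of_lt_of_le hy (wpos_mono ht hs hk hj (by omega))
        have h1 : ((Finset.Ico (0 : ℤ) Λ).filter
            (fun y => t ∈ {t | Top t k N s j y})).card ≤ 1 := by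
          rw [Finset.card_le_one]
          intro a ha b hb
          simp only [Finset.mem_filter, Finset.mem_Ico, Set.mem_setOf_eq] at ha hb
          have := aux a b ha.1.1 hb.1.2 ha.2 hb.2
          have := aux b a hb.1.1 ha.1.2 hb.2 ha.2
          omega
        exact_mod_cast h1)
  rw [integral_add (integrable_const _) (hI.const_mul _), integral_const_mul,
    integral_indicator_Pr G hEm] at key
  simp only [Pr_top hs (hk.trans hj), Finset.sum_const, Int.card_Ico, nsmul_eq_mul,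
    integral_const, probReal_univ, smul_eq_mul, mul_one] at key
  have h2 : ((Λ : ℤ) - 0).toNat = Λ := by omega
  rw [h2] at key
  have hL : (0 : ℝ) < Λ := by exact_mod_cast hΛ
  rw [sub_le_iff_le_add, ← mul_le_mul_iff_right₀ hL, mul_add, mul_one_div_cancel hL.ne']
  linarith

theorem bln4_Z {ζ : ℝ} (hζ : 0 < ζ) (Λ : ℕ) : ∃ Z0 : ℝ, 0 < Z0 ∧ ∀ k : ℤ,
    Pr G {t | ∃ y y' : ℤ, 0 ≤ y ∧ y ≤ Λ ∧ 0 ≤ y' ∧ y' ≤ Λ ∧
      Z0 < TD (strip k (k + 2)) t (k, y) (k, y')} ≤ ζ := by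
  obtain ⟨C, hC, h⟩ := strip_moment (G := G)
  have hL : (0 : ℝ) < (Λ : ℝ) + 1 := by positivity
  refine ⟨C * (Λ + 1) ^ 3 / ζ, by positivity, fun k => ?_⟩
  set Z0 : ℝ := C * (Λ + 1) ^ 3 / ζ with hZ0
  have hZ : 0 < Z0 := by positivity
  have key := Pr_le_card_mul (G := G) (Finset.Icc (0 : ℤ) Λ ×ˢ Finset.Icc (0 : ℤ) Λ)
    (A := {t | ∃ y y' : ℤ, 0 ≤ y ∧ y ≤ Λ ∧ 0 ≤ y' ∧ y' ≤ Λ ∧
      Z0 < TD (strip k (k + 2)) t (k, y) (k, y')})
    (fun p => {t | Z0 ≤ TD (strip k (k + 2)) t (k, p.1) (k, p.2)}) (p := C * (Λ + 1) / Z0)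
    (Filter.Eventually.of_forall fun t ht => by
      obtain ⟨y, y', h1, h2, h3, h4, h5⟩ := ht
      exact ⟨(y, y'), by simp [h1, h2, h3, h4], h5.le⟩)
    (fun p hp => by
      simp only [Finset.mem_product, Finset.mem_Icc] at hp
      obtain ⟨hi, hm⟩ := h k (k + 2) le_rfl (k, p.1) (k, p.2) ⟨le_rfl, by simp⟩ ⟨le_rfl, by simp⟩
        (strip k (k + 2)) Set.inter_subset_left
      have hm' := hm Set.univ MeasurableSet.univ
      rw [Measure.restrict_univ, Pr_univ, Real.one_rpow, mul_one] at hm'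
      have hn : nrm ((k, p.2) - (k, p.1) : V) ≤ Λ + 1 := by
        rw [nrm_le_iff]
        simp only [Prod.fst_sub, Prod.snd_sub, sub_self, abs_zero]
        refine ⟨by positivity, ?_⟩
        rw [abs_le]
        push_cast
        constructor <;> omega
      have hn' : (nrm ((k, p.2) - (k, p.1) : V) : ℝ) ≤ Λ + 1 := by exact_mod_cast hn
      refine (Pr_markov G hi ((ae_nn G).mono fun t ht => TD_nonneg ht _ _ _) hZ).trans ?_
      exact div_le_div_of_nonneg_right (hm'.trans (mul_le_mul_of_nonneg_left hn' hC.le)) hZ.le)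
  refine key.trans (le_of_eq ?_)
  rw [Finset.card_product, Int.card_Icc]
  have : ((Λ : ℤ) + 1 - 0).toNat = Λ + 1 := by omega
  rw [this, hZ0]
  push_cast
  field_simp

theorem bln4_kes (k : ℤ) (Λ m0 : ℕ) :
    Pr G {t | ∃ y : ℤ, 0 ≤ y ∧ y ≤ Λ ∧ t ∈ KesBad G (k, y) m0} ≤ (Λ + 1) * (1 / 2) ^ m0 := by
  have key := Pr_le_card_mul (G := G) (Finset.Icc (0 : ℤ) Λ)
    (A := {t | ∃ y : ℤ, 0 ≤ y ∧ y ≤ Λ ∧ t ∈ KesBad G (k, y) m0})
    (fun y => KesBad G (k, y) m0) (p := (1 / 2) ^ m0)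
    (Filter.Eventually.of_forall fun t ht => by
      obtain ⟨y, h1, h2, h3⟩ := ht
      exact ⟨y, by simp [h1, h2], h3⟩)
    (fun y _ => Pr_kesBad G _ _)
  refine key.trans (le_of_eq ?_)
  rw [Int.card_Icc]
  have : ((Λ : ℤ) + 1 - 0).toNat = Λ + 1 := by omega
  rw [this]
  push_cast
  ring

theorem bln4_nb {s : ℝ} (hs : |s| < m1 (mu G)) {k N : ℤ} (hk : k ≤ N) (j ks : ℤ) (Λ : ℕ) :
    Pr G {t | ∃ y : ℤ, 0 ≤ y ∧ y ≤ Λ ∧ ¬ NB t k N s j ks y} ≤
      (Λ + 1) * Pr G {t | ¬ NB t k N s j ks 0} := by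
  have key := Pr_le_card_mul (G := G) (Finset.Icc (0 : ℤ) Λ)
    (A := {t | ∃ y : ℤ, 0 ≤ y ∧ y ≤ Λ ∧ ¬ NB t k N s j ks y})
    (fun y => {t | ¬ NB t k N s j ks y}) (p := Pr G {t | ¬ NB t k N s j ks 0})
    (Filter.Eventually.of_forall fun t ht => by
      obtain ⟨y, h1, h2, h3⟩ := ht
      exact ⟨y, by simp [h1, h2], h3⟩)
    (fun y _ => (Pr_not_nb hs hk j ks y).le)
  refine key.trans (le_of_eq ?_)
  rw [Int.card_Icc]
  have : ((Λ : ℤ) + 1 - 0).toNat = Λ + 1 := by omega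
  rw [this]
  push_cast
  ring

theorem bln4_new {s : ℝ} (hs : |s| < m1 (mu G)) {k k' N : ℤ} (hk : k ≤ k') (hN : k' ≤ N) (j : ℤ)
    (B : ℕ) : Pr G {t | ∃ u : ℤ, |u| ≤ B ∧ NewP t k k' N s j u} ≤
      (2 * B + 1) * Pr G {t | NewP t k k' N s j 0} := by
  have key := Pr_le_card_mul (G := G) (Finset.Icc (-(B : ℤ)) B)
    (A := {t | ∃ u : ℤ, |u| ≤ B ∧ NewP t k k' N s j u})
    (fun u => {t | NewP t k k' N s j u}) (p := Pr G {t | NewP t k k' N s j 0})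
    (Filter.Eventually.of_forall fun t ht => by
      obtain ⟨y, h1, h2⟩ := ht
      exact ⟨y, by simpa [abs_le] using h1, h2⟩)
    (fun y _ => (Pr_newP hs hk hN j y).le)
  refine key.trans (le_of_eq ?_)
  rw [Int.card_Icc]
  have : ((B : ℤ) + 1 - -(B : ℤ)).toNat = 2 * B + 1 := by omega
  rw [this]
  push_cast
  ring

/-- one class of the good event -/
def BLN4_cls (G : Measure ℝ) (s Z0 : ℝ) (k N j : ℤ) (m0 k0 Λ B : ℕ) (y1 : ℤ)
    (U : Finset (Sym2 V)) : Set Env :=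
  {t | GN G s t ∧ (∃ y2 y3 : ℤ, (y1 < y2 ∧ y2 < y3 ∧ y3 ≤ Λ) ∧
      wpos t k N s j y1 < wpos t k N s j y2 ∧ wpos t k N s j y2 < wpos t k N s j y3 ∧
      NB t k N s j (k + k0) y2 ∧ NB t k N s j (k + k0) y3) ∧
    (∀ y y' : ℤ, 0 ≤ y → y ≤ Λ → 0 ≤ y' → y' ≤ Λ → TD (strip k (k + 2)) t (k, y) (k, y') ≤ Z0) ∧
    t ∉ KesBad G (k, y1) m0 ∧
    (∀ y : ℤ, 0 ≤ y → y ≤ Λ → ∀ i ≤ (line t k N s (k, y)).n,
      ((line t k N s (k, y)).p i).1 ≤ k + k0 → |((line t k N s (k, y)).p i).2| ≤ B) ∧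
    (Finset.range m0).image (line t k N s (k, y1)).edge = U}

omit [Law G] in
theorem bln4_meas (s Z0 : ℝ) (k N j : ℤ) (m0 k0 Λ B : ℕ) (y1 : ℤ) (U : Finset (Sym2 V)) :
    MeasurableSet (BLN4_cls G s Z0 k N j m0 k0 Λ B y1 U) := by
  unfold BLN4_cls
  refine bf3_and (measurableSet_gn G s) (bf3_and ?_ (bf3_and ?_ (bf3_and ?_ (bf3_and ?_ ?_))))
  · refine bf3_exists fun y2 => bf3_exists fun y3 => bf3_and (MeasurableSet.const _)
      (bf3_and ?_ (bf3_and ?_ (bf3_and (measurableSet_nb _ _ _ _ _ _) (measurableSet_nb _ _ _ _ _ _))))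
    · exact measurableSet_lt (measurable_wpos _ _ _ _ _) (measurable_wpos _ _ _ _ _)
    · exact measurableSet_lt (measurable_wpos _ _ _ _ _) (measurable_wpos _ _ _ _ _)
  · refine bf3_forall fun y => bf3_forall fun y' => bf3_forall fun _ => bf3_forall fun _ =>
      bf3_forall fun _ => bf3_forall fun _ => ?_
    exact measurableSet_le (measurable_TD _ _ _) measurable_const
  · exact (measurableSet_kesBad G _ _).compl
  · refine bf3_forall fun y => bf3_forall fun _ => bf3_forall fun _ => ?_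
    exact (measP_line k N s (k, y)).measurableSet
      (q := fun _ γ => ∀ i ≤ γ.n, (γ.p i).1 ≤ k + k0 → |(γ.p i).2| ≤ B)
      (fun γ => MeasurableSet.const _)
  · exact (measP_line k N s (k, y1)).measurableSet
      (q := fun _ γ => (Finset.range m0).image γ.edge = U) (fun γ => MeasurableSet.const _)

theorem bln4_cls_le {s : ℝ} (hs : |s| < m1 (mu G)) {k N j : ℤ} {m0 k0 Λ B : ℕ} (hm : m0 < k0)
    (hk2 : 2 ≤ k0) (hj : k + k0 < j) (hN : j ≤ N) {Z0 : ℝ}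
    (hgain : 2 * Z0 < (h1 G - h0 G) * m0 / 2) {y1 : ℤ} (hy1 : 0 ≤ y1) {U : Finset (Sym2 V)}
    (hU : U.card ≤ m0) :
    (G.real (lo G) / 2) ^ m0 * Pr G (BLN4_cls G s Z0 k N j m0 k0 Λ B y1 U) ≤
      Pr G {t | ∃ u : ℤ, |u| ≤ B ∧ NewP t k (k + k0) N s j u} := by
  have key := resample_hi (G := G) U (A := BLN4_cls G s Z0 k N j m0 k0 Λ B y1 U)
    (B := {t | ∃ u : ℤ, |u| ≤ B ∧ NewP t k (k + k0) N s j u}) (Ω0 := {t | GN G s t})
    (bln4_meas _ _ _ _ _ _ _ _ _ _ _)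
    (bf3_exists fun u => bf3_and (MeasurableSet.const _) (measurableSet_newP _ _ _ _ _ _))
    (measurableSet_gn G s) (ae_gn G s) (fun t ht t' ht' hoff hon => by
      obtain ⟨hg, ⟨y2, y3, ⟨h12, h23, hy3⟩, w12, w23, nb2, nb3⟩, hZ, hkes, hbox, rfl⟩ := ht
      exact ln_core hg ht' hs hm hk2 hj hN hy1 h12 h23 hy3 w12 w23 hZ hgain hkes nb2 nb3 hbox
        hoff hon)
  refine le_trans (mul_le_mul_of_nonneg_right ?_ (Pr_nonneg G _)) key
  have h0 : 0 ≤ G.real (lo G) := measureReal_nonneg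
  have h1 : G.real (lo G) ≤ 1 := measureReal_le_one
  exact pow_le_pow_of_le_one (by positivity) (by linarith) hU

theorem bln4_good {s : ℝ} (hs : |s| < m1 (mu G)) {k N j : ℤ} {m0 k0 Λ B : ℕ} (hm : m0 < k0)
    (hk2 : 2 ≤ k0) (hj : k + k0 < j) (hN : j ≤ N) {Z0 : ℝ}
    (hgain : 2 * Z0 < (h1 G - h0 G) * m0 / 2) :
    (G.real (lo G) / 2) ^ m0 * Pr G {t | ∃ y1 : ℤ, 0 ≤ y1 ∧ y1 ≤ Λ ∧
      ∃ U, t ∈ BLN4_cls G s Z0 k N j m0 k0 Λ B y1 U} ≤
      ((Λ + 1) * 4 ^ m0) * Pr G {t | ∃ u : ℤ, |u| ≤ B ∧ NewP t k (k + k0) N s j u} := by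
  choose S hS hS' using fun y : ℤ => Pth.exists_finset_paths ((k, y) : V) m0
  have hc : 0 < (G.real (lo G) / 2) ^ m0 := pow_pos (by have := lo_pos (G := G); positivity) _
  set P := Pr G {t | ∃ u : ℤ, |u| ≤ B ∧ NewP t k (k + k0) N s j u} with hP
  have hP0 : 0 ≤ P := Pr_nonneg G _
  have key := Pr_le_card_mul (G := G)
    ((Finset.Icc (0 : ℤ) Λ).biUnion (fun y => (S y).image (fun δ => (y, δ.edges))))
    (A := {t | ∃ y1 : ℤ, 0 ≤ y1 ∧ y1 ≤ Λ ∧ ∃ U, t ∈ BLN4_cls G s Z0 k N j m0 k0 Λ B y1 U})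
    (fun p => BLN4_cls G s Z0 k N j m0 k0 Λ B p.1 p.2) (p := P / (G.real (lo G) / 2) ^ m0)
    (Filter.Eventually.of_forall fun t ht => by
      obtain ⟨y1, h1, h2, U, hU⟩ := ht
      refine ⟨(y1, U), ?_, hU⟩
      have hg : GN G s t := hU.1
      have hUe : (Finset.range m0).image (line t k N s (k, y1)).edge = U := hU.2.2.2.2.2
      have hx : ((k, y1) : V) ∈ strip k N := ⟨le_rfl, by show k ≤ N; omega⟩
      obtain ⟨hl, hl0⟩ := line_spec hg.1 hs hx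
      set γ := line t k N s (k, y1) with hγ
      have hlen : m0 ≤ γ.n := by
        have h3 := hl.1.1.nrm_sub_le (Nat.zero_le γ.n)
        have h4 := abs_fst_le_nrm (γ.p γ.n - γ.p 0)
        rw [Prod.fst_sub, hl.2.1, hl0] at h4
        have h5 : N - k ≤ |N - k| := le_abs_self _
        rw [hl0] at h3
        simp only at h4
        omega
      simp only [Finset.mem_biUnion, Finset.mem_Icc, Finset.mem_image]
      refine ⟨y1, ⟨h1, h2⟩, γ.sub 0 m0, ?_, ?_⟩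
      · rw [hS']
        exact ⟨hl.1.1.sub 0 hlen, by rw [Pth.sub_p_zero, hl0], by simp⟩
      · rw [← hUe]
        congr 1
        unfold Pth.edges
        rw [Pth.sub_n, Nat.sub_zero]
        refine Finset.image_congr fun i hi => ?_
        have hi' : i < m0 - 0 := by simpa using hi
        rw [Pth.sub_edge _ _ _ hi', zero_add])
    (fun p hp => by
      simp only [Finset.mem_biUnion, Finset.mem_Icc, Finset.mem_image] at hp
      obtain ⟨y, ⟨hy, _⟩, δ, hδ, rfl⟩ := hp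
      rw [le_div_iff₀ hc, mul_comm]
      refine bln4_cls_le hs hm hk2 hj hN hgain hy ?_
      have := δ.card_edges_le
      rw [((hS' y δ).1 hδ).2.2] at this
      exact this)
  have hcard : (((Finset.Icc (0 : ℤ) Λ).biUnion
      (fun y => (S y).image (fun δ => (y, δ.edges)))).card : ℝ) ≤ (Λ + 1) * 4 ^ m0 := by
    have h1 := Finset.card_biUnion_le_card_mul (Finset.Icc (0 : ℤ) Λ)
      (fun y => (S y).image (fun δ => (y, δ.edges))) (4 ^ m0)
      (fun y _ => Finset.card_image_le.trans (hS y))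
    rw [Int.card_Icc] at h1
    have : ((Λ : ℤ) + 1 - 0).toNat = Λ + 1 := by omega
    rw [this] at h1
    exact_mod_cast h1
  calc _ ≤ (G.real (lo G) / 2) ^ m0 * (((Λ + 1) * 4 ^ m0) * (P / (G.real (lo G) / 2) ^ m0)) := by
        refine mul_le_mul_of_nonneg_left (key.trans ?_) hc.le
        exact mul_le_mul_of_nonneg_right hcard (by positivity)
    _ = _ := by field_simp

theorem ln_step (hd : DN (mu G)) {ζ : ℝ} (hζ : 0 < ζ) (A : ℕ) : ∃ Λ m0 : ℕ, 1 ≤ m0 ∧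
    ∀ k0 : ℕ, m0 < k0 → ∃ c1 : ℝ, 0 < c1 ∧ ∀ s : ℝ, |s| ≤ Sk (mu G) 4 → ∀ k j N : ℤ, k + k0 < j →
      j ≤ N → ζ / 2 ≤ dens G k N s j →
      c1 * (ζ / 8 - Pr G (LCt (mu G) A Λ k0 k N)ᶜ -
        (Λ + 1) * Pr G {t | ¬ NB t k N s j (k + k0) 0}) ≤
          Pr G {t | NewP t k (k + k0) N s j 0} := by
  obtain ⟨Λ0, hΛ0⟩ := exists_nat_ge (4 / ζ)
  set Λ : ℕ := Λ0 + 1 with hΛdef
  have hΛ1 : 1 ≤ Λ := by omega
  have hΛζ : 1 / (Λ : ℝ) ≤ ζ / 4 := by
    have h1 : 4 / ζ ≤ (Λ : ℝ) := by rw [hΛdef]; push_cast; linarith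
    have h2 : (0 : ℝ) < Λ := by exact_mod_cast hΛ1
    rw [div_le_iff₀ hζ] at h1
    rw [div_le_div_iff₀ h2 (by norm_num)]
    linarith
  obtain ⟨Z0, hZ0, hZ⟩ := bln4_Z (G := G) (ζ := ζ / 16) (by positivity) Λ
  have hh : 0 < h1 G - h0 G := sub_pos.2 (h0_lt_h1 G)
  obtain ⟨m0, hm1, hgain, hkes⟩ : ∃ m0 : ℕ, 1 ≤ m0 ∧ 2 * Z0 < (h1 G - h0 G) * m0 / 2 ∧
      ((Λ : ℝ) + 1) * (1 / 2) ^ m0 ≤ ζ / 16 := by
    have e1 : ∀ᶠ m : ℕ in atTop, 4 * Z0 / (h1 G - h0 G) < (m : ℝ) :=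
      tendsto_natCast_atTop_atTop.eventually_gt_atTop _
    have e2 : ∀ᶠ m : ℕ in atTop, ((Λ : ℝ) + 1) * (1 / 2) ^ m ≤ ζ / 16 := by
      have := (tendsto_pow_atTop_nhds_zero_of_lt_one (r := (1 / 2 : ℝ)) (by norm_num)
        (by norm_num)).const_mul ((Λ : ℝ) + 1)
      rw [mul_zero] at this
      exact this.eventually_le_const (by positivity)
    obtain ⟨m, h1, h2, h3⟩ := ((eventually_ge_atTop 1).and (e1.and e2)).exists
    refine ⟨m, h1, ?_, h3⟩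
    rw [div_lt_iff₀ hh] at h2
    linarith
  refine ⟨Λ, m0, hm1, fun k0 hk0 => ?_⟩
  have hc : 0 < (G.real (lo G) / 2) ^ m0 := pow_pos (by have := lo_pos (G := G); positivity) _
  refine ⟨(G.real (lo G) / 2) ^ m0 / ((((Λ : ℝ) + 1) * 4 ^ m0) * (2 * ((A * k0 : ℕ) : ℝ) + 1)),
    by positivity, fun s hs k j N hj hN hdens => ?_⟩
  have hs' : |s| < m1 (mu G) := hs.trans_lt (hd.Sk_lt (by norm_num))
  have hkN : k ≤ N := by omega
  have h3 := Pr_three (G := G) hs' (k := k) (N := N) (j := j) (by omega) hN hΛ1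
  have hgood := bln4_good (G := G) hs' (Λ := Λ) (B := A * k0) hk0 (by omega) hj hN hgain
  have hnew := bln4_new (G := G) hs' (k := k) (k' := k + k0) (N := N) (by omega) (by omega) j
    (A * k0)
  have hnb := bln4_nb (G := G) hs' hkN j (k + k0) Λ
  have hk := (bln4_kes (G := G) k Λ m0).trans hkes
  have hz := hZ k
  set E1 : Set Env := {t | ∃ y1 : ℤ, 0 ≤ y1 ∧ y1 ≤ Λ ∧
      ∃ U, t ∈ BLN4_cls G s Z0 k N j m0 k0 Λ (A * k0) y1 U} with hE1
  set E2 : Set Env := {t | ∃ y y' : ℤ, 0 ≤ y ∧ y ≤ Λ ∧ 0 ≤ y' ∧ y' ≤ Λ ∧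
      Z0 < TD (strip k (k + 2)) t (k, y) (k, y')} with hE2
  set E3 : Set Env := {t | ∃ y : ℤ, 0 ≤ y ∧ y ≤ Λ ∧ t ∈ KesBad G (k, y) m0} with hE3
  set E4 : Set Env := {t | ∃ y : ℤ, 0 ≤ y ∧ y ≤ Λ ∧ ¬ NB t k N s j (k + k0) y} with hE4
  set E5 : Set Env := (LCt (mu G) A Λ k0 k N)ᶜ with hE5
  have hsub : Pr G {t | ∃ y1 y2 y3 : ℤ, 0 ≤ y1 ∧ y1 < y2 ∧ y2 < y3 ∧ y3 ≤ Λ ∧
      wpos t k N s j y1 < wpos t k N s j y2 ∧ wpos t k N s j y2 < wpos t k N s j y3} ≤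
      Pr G (E1 ∪ (E2 ∪ (E3 ∪ (E4 ∪ E5)))) := by
    refine Pr_mono_ae G ((ae_gn G s).mono fun t ht hm => ?_)
    obtain ⟨y1, y2, y3, h0, h12, h23, h3, w12, w23⟩ := hm
    by_contra hcon
    simp only [Set.mem_union, not_or] at hcon
    obtain ⟨n1, n2, n3, n4, n5⟩ := hcon
    apply n1
    refine ⟨y1, h0, by omega, _, ht, ⟨y2, y3, ⟨h12, h23, h3⟩, w12, w23, ?_, ?_⟩, ?_, ?_, ?_, rfl⟩
    · by_contra h
      exact n4 ⟨y2, by omega, by omega, h⟩
    · by_contra h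
      exact n4 ⟨y3, by omega, by omega, h⟩
    · intro y y' a1 a2 a3 a4
      by_contra h
      exact n2 ⟨y, y', a1, a2, a3, a4, not_le.1 h⟩
    · intro h
      exact n3 ⟨y1, h0, by omega, h⟩
    · intro y a1 a2 i hi hcol
      have hL : t ∈ LCt (mu G) A Λ k0 k N := by
        by_contra h
        exact n5 h
      have hx : ((k, y) : V) ∈ strip k N := ⟨le_rfl, hkN⟩
      obtain ⟨hl, hl0⟩ := line_spec ht.1 hs' hx
      have hb := hL s hs _ hl (by rw [hl0]) (by rw [hl0, abs_le]; constructor <;> simp only <;> omega)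
        i hi hcol i le_rfl
      have := ((nrm_le_iff _ _).1 hb).2
      simpa using this
  have hu : Pr G (E1 ∪ (E2 ∪ (E3 ∪ (E4 ∪ E5)))) ≤
      Pr G E1 + (Pr G E2 + (Pr G E3 + (Pr G E4 + Pr G E5))) := by
    have a1 := Pr_union_le (G := G) E1 (E2 ∪ (E3 ∪ (E4 ∪ E5)))
    have a2 := Pr_union_le (G := G) E2 (E3 ∪ (E4 ∪ E5))
    have a3 := Pr_union_le (G := G) E3 (E4 ∪ E5)
    have a4 := Pr_union_le (G := G) E4 E5
    linarith
  have hlow : ζ / 8 - Pr G E5 - (Λ + 1) * Pr G {t | ¬ NB t k N s j (k + k0) 0} ≤ Pr G E1 := by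
    linarith
  have hD : (0 : ℝ) < (((Λ : ℝ) + 1) * 4 ^ m0) * (2 * ((A * k0 : ℕ) : ℝ) + 1) := by positivity
  rw [div_mul_eq_mul_div, div_le_iff₀ hD]
  calc _ ≤ (G.real (lo G) / 2) ^ m0 * Pr G E1 := mul_le_mul_of_nonneg_left hlow hc.le
    _ ≤ _ := hgood
    _ ≤ (((Λ : ℝ) + 1) * 4 ^ m0) * ((2 * ((A * k0 : ℕ) : ℝ) + 1) *
        Pr G {t | NewP t k (k + k0) N s j 0}) := mul_le_mul_of_nonneg_left hnew (by positivity)
    _ = _ := by ring

end Crest.Agent.R151
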