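import Crest.Agent.R151.BLN4
import Crest.Agent.R151.BConf2

/-! Row 151, part B: coalescence of lines, uniformly in the slope. -/

set_option autoImplicit false

namespace Crest.Agent.R151

open MeasureTheory ProbabilityTheory Crest.ProbabilityR.FirstPassage Filter Topology
open scoped Classical

variable {G : Measure ℝ} [Law G]

theorem small_not_nb (hd : DN (mu G)) {p : ℝ} (hp : 0 < p) (K : ℕ) : ∃ j0 : ℕ, ∀ j : ℤ,
    (j0 : ℤ) ≤ j → ∀ s : ℝ, |s| ≤ Sk (mu G) 4 → ∀ k ks : ℤ, 0 ≤ k → k ≤ K → ks ≤ K →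
      Small (fun N => Pr G {t | ¬ NB t k N s j ks 0}) p := by
  obtain ⟨A, -, hA⟩ := small_not_lct hd
  obtain ⟨n0, hn0⟩ := hA 0 p hp
  refine ⟨K + A * max n0 K + 1, fun j hj s hs k ks hk0 hk hks => ?_⟩
  have hs' : |s| < m1 (mu G) := hs.trans_lt (hd.Sk_lt (by norm_num))
  refine (hn0 (max n0 K) (le_max_left _ _) k).of_le ?_
  filter_upwards [eventually_ge_atTop j] with N hN
  refine Pr_mono_ae G ?_
  filter_upwards [ae_fld G] with t ht hnb hL
  have hK : (K : ℤ) ≤ (max n0 K : ℕ) := by exact_mod_cast le_max_right _ _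
  generalize max n0 K = n at hj hL hK
  have hj' : (K : ℤ) + (A * n : ℕ) + 1 ≤ j := by exact_mod_cast hj
  obtain ⟨h1, h2⟩ := line_spec ht (k := k) (N := N) hs' (x := (k, 0)) ⟨le_rfl, by simp only; omega⟩
  obtain ⟨f1, f2, -⟩ := fvt_spec h1.1.1 (j := j) (by rw [h2]; simp only; omega) (by rw [h1.2.1]; exact hN)
  refine hnb fun i hi hin => ?_
  by_contra hc
  have h3 := hL s hs _ h1 (by rw [h2]) (by rw [h2]; simp) i hin (by omega) _ hi
  rw [box_eq_rect] at h3
  have h4 := h3.2.1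
  simp only at h4
  omega

theorem bln5_seq (d nb ea : ℕ → ℝ) {R : ℕ} {z c L : ℝ} (hz : 0 < z) (hc : 0 < c) (hL : 0 ≤ L)
    (hR : 16 ≤ c * R * z) (hd1 : ∀ r, d r ≤ 1) (hnb : ∀ r, 0 ≤ nb r) (hea : ∀ r, 0 ≤ ea r)
    (st1 : ∀ r < R, d r - nb r ≤ d (r + 1))
    (st2 : ∀ r < R, z / 2 ≤ d r → d r - nb r + c * (z / 8 - ea r - L * nb r) ≤ d (r + 1)) :
    d 0 ≤ z + ((2 / z + 1 + c * L) * ∑ r ∈ Finset.range R, nb r +
      16 / (R * z) * ∑ r ∈ Finset.range R, ea r) := by
  have hS : 0 ≤ ∑ r ∈ Finset.range R, nb r := Finset.sum_nonneg fun r _ => hnb r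
  have hE : 0 ≤ ∑ r ∈ Finset.range R, ea r := Finset.sum_nonneg fun r _ => hea r
  have hR0 : (0 : ℝ) < R := by
    rcases Nat.eq_zero_or_pos R with rfl | h
    · norm_num at hR
    · exact_mod_cast h
  have hcL : 0 ≤ c * L := mul_nonneg hc.le hL
  have e1 : 0 ≤ 2 / z * ∑ r ∈ Finset.range R, nb r := by positivity
  have e2 : 0 ≤ (1 + c * L) * ∑ r ∈ Finset.range R, nb r := by positivity
  have e3 : 0 ≤ 16 / (R * z) * ∑ r ∈ Finset.range R, ea r := by positivity
  rcases le_or_gt (d 0) z with h0 | h0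
  · linarith
  rcases le_or_gt (z / 2) (∑ r ∈ Finset.range R, nb r) with h1 | h1
  · have : 1 ≤ 2 / z * ∑ r ∈ Finset.range R, nb r := by
      rw [div_mul_eq_mul_div, le_div_iff₀ hz]
      linarith
    linarith [hd1 0]
  have h2 : ∀ r ≤ R, d 0 - ∑ i ∈ Finset.range r, nb i ≤ d r := by
    intro r hr
    induction r with
    | zero => simp
    | succ r ih =>
      rw [Finset.sum_range_succ]
      linarith [ih (by omega), st1 r hr]
  have h3 : ∀ r ≤ R, d 0 - ∑ i ∈ Finset.range r, nb i + c * (r * (z / 8) -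
      ∑ i ∈ Finset.range r, ea i - L * ∑ i ∈ Finset.range r, nb i) ≤ d r := by
    intro r hr
    induction r with
    | zero => simp
    | succ r ih =>
      have h4 : ∑ i ∈ Finset.range r, nb i ≤ ∑ i ∈ Finset.range R, nb i :=
        Finset.sum_le_sum_of_subset_of_nonneg (Finset.range_mono (by omega)) fun i _ _ => hnb i
      have h5 := st2 r hr (by linarith [h2 r (by omega)])
      rw [Finset.sum_range_succ, Finset.sum_range_succ]
      push_cast
      linarith [ih (by omega)]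
  have h4 := h3 R le_rfl
  have h5 := hd1 R
  generalize ∑ r ∈ Finset.range R, nb r = S at *
  generalize ∑ r ∈ Finset.range R, ea r = E at *
  have h6 : 1 ≤ (1 + c * L) * S + 16 / (R * z) * E := by
    have hX : 0 < c * R * z := by positivity
    refine le_of_mul_le_mul_left ?_ hX
    have e4 : c * R * z * (16 / (R * z) * E) = 16 * (c * E) := by field_simp
    have e5 : 16 * ((1 + c * L) * S) ≤ c * R * z * ((1 + c * L) * S) :=
      mul_le_mul_of_nonneg_right hR e2
    rw [mul_add, e4]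
    linarith
  linarith [hd1 0]

theorem small_dens (hd : DN (mu G)) {ζ : ℝ} (hζ : 0 < ζ) : ∃ j0 : ℕ, ∀ j : ℤ, (j0 : ℤ) ≤ j →
    ∀ s : ℝ, |s| ≤ Sk (mu G) 4 → Small (fun N => dens G 1 N s j) ζ := by
  obtain ⟨A, -, hA⟩ := small_not_lct hd
  have hz : 0 < ζ / 2 := half_pos hζ
  obtain ⟨Λ, m0, -, hstep⟩ := ln_step hd hz A
  obtain ⟨n0, hn0⟩ := hA Λ (ζ / 2 * ζ / 64) (by positivity)
  obtain ⟨c, hc, hstep⟩ := hstep (max n0 (m0 + 1)) (lt_of_lt_of_le (Nat.lt_succ_self _) (le_max_right _ _))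
  have hn1 := hn0 _ (le_max_left n0 (m0 + 1))
  generalize max n0 (m0 + 1) = k0 at hstep hn1
  obtain ⟨R, hR⟩ := exists_nat_ge (16 / (c * (ζ / 2)))
  have hR' : 16 ≤ c * R * (ζ / 2) := by
    rw [div_le_iff₀ (by positivity)] at hR
    linarith
  have hR0 : (0 : ℝ) < R := lt_of_lt_of_le (by positivity) hR
  have hC : 0 < 2 / (ζ / 2) + 1 + c * (Λ + 1) := by positivity
  obtain ⟨j0, hj0⟩ := small_not_nb hd
    (p := ζ / (4 * (2 / (ζ / 2) + 1 + c * (Λ + 1)) * R)) (by positivity) (1 + R * k0)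
  refine ⟨max j0 (1 + R * k0 + 1), fun j hj s hs => ?_⟩
  have hs' : |s| < m1 (mu G) := hs.trans_lt (hd.Sk_lt (by norm_num))
  have hj1 : (j0 : ℤ) ≤ j := le_trans (by exact_mod_cast le_max_left _ _) hj
  have hj2 : 1 + (R : ℤ) * k0 + 1 ≤ j := le_trans (by exact_mod_cast le_max_right _ _) hj
  have hr : ∀ r < R, 1 + (r : ℤ) * k0 + k0 ≤ 1 + (R : ℤ) * k0 := fun r hr => by
    have h1 : (r : ℤ) + 1 ≤ R := by exact_mod_cast hr
    nlinarith [Int.natCast_nonneg k0]
  have S1 := (Small.sum (Finset.range R)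
    (f := fun r N => Pr G {t | ¬ NB t (1 + r * k0) N s j (1 + r * k0 + k0) 0})
    (fun r hr' => hj0 j hj1 s hs (1 + r * k0) (1 + r * k0 + k0) (by positivity)
      (by have := hr r (Finset.mem_range.1 hr'); push_cast; omega)
      (by have := hr r (Finset.mem_range.1 hr'); push_cast; omega))).const_mul hC.le
  have S2 := (Small.sum (Finset.range R)
    (f := fun r N => Pr G (LCt (mu G) A Λ k0 (1 + r * k0) N)ᶜ) (fun r _ => hn1 (1 + r * k0))).const_mul
    (c := 16 / (R * (ζ / 2))) (by positivity)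
  refine (((small_const (ζ / 2)).add (S1.add S2)).of_le ?_).mono_right (le_of_eq ?_)
  · filter_upwards [eventually_ge_atTop j] with N hN
    have key := bln5_seq (fun r => dens G (1 + r * k0) N s j)
      (fun r => Pr G {t | ¬ NB t (1 + r * k0) N s j (1 + r * k0 + k0) 0})
      (fun r => Pr G (LCt (mu G) A Λ k0 (1 + r * k0) N)ᶜ) (L := Λ + 1) hz hc (by positivity) hR'
      (fun r => Pr_le_one G _) (fun r => Pr_nonneg G _) (fun r => Pr_nonneg G _) ?_ ?_
    · simpa only [Nat.cast_zero, zero_mul, add_zero] using key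
    · intro r hr'
      have h1 := hr r hr'
      have h2 := dens_step hs' (k := 1 + r * k0) (k' := 1 + r * k0 + k0) (N := N) (j := j) (by omega)
        (by omega) hN
      have e : (1 : ℤ) + ((r + 1 : ℕ) : ℤ) * k0 = 1 + r * k0 + k0 := by push_cast; ring
      have h3 := Pr_nonneg G {t | NewP t (1 + r * k0) (1 + r * k0 + k0) N s j 0}
      simp only [e]
      linarith
    · intro r hr' hdr
      have h1 := hr r hr'
      have h2 := dens_step hs' (k := 1 + r * k0) (k' := 1 + r * k0 + k0) (N := N) (j := j) (by omega)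
        (by omega) hN
      have e : (1 : ℤ) + ((r + 1 : ℕ) : ℤ) * k0 = 1 + r * k0 + k0 := by push_cast; ring
      have h3 := hstep s hs (1 + r * k0) j N (by omega) hN hdr
      simp only [e]
      linarith
  · simp only [Finset.sum_const, Finset.card_range, nsmul_eq_mul]
    field_simp
    ring

theorem small_not_meet (hd : DN (mu G)) (h : ℕ) {ζ : ℝ} (hζ : 0 < ζ) : ∃ r : ℕ, h ≤ r ∧
    ∀ s : ℝ, |s| ≤ Sk (mu G) 4 → Small (fun N => Pr G (Meet N s h r)ᶜ) ζ := by
  obtain ⟨A, -, hA⟩ := small_not_lct hd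
  obtain ⟨n0, hn0⟩ := hA h (ζ / 2) (half_pos hζ)
  obtain ⟨j0, hj0⟩ := small_dens hd (ζ := ζ / (4 * h + 4)) (by positivity)
  have hn1 := hn0 _ (le_max_left n0 j0) 1
  have hj1 := hj0 (1 + (max n0 j0 : ℕ)) (by have := le_max_right n0 j0; omega)
  generalize max n0 j0 = n at hn1 hj1
  refine ⟨max h (1 + A * n), le_max_left _ _, fun s hs => ?_⟩
  have hs' : |s| < m1 (mu G) := hs.trans_lt (hd.Sk_lt (by norm_num))
  refine ((((hj1 s hs).const_mul (c := 2 * h) (by positivity)).add hn1).of_le ?_).mono_right ?_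
  · filter_upwards [eventually_ge_atTop (1 + (n : ℤ))] with N hN
    refine (Pr_le_add_of_ae G (B := {t | ∃ u ∈ Finset.Ico (-(h : ℤ)) h, Top t 1 N s (1 + n) u})
      (C := (LCt (mu G) A h n 1 N)ᶜ) ?_).trans (add_le_add ?_ le_rfl)
    · filter_upwards [ae_gn G s] with t ht hm
      by_contra hc
      obtain ⟨hc1, hL⟩ := not_or.1 hc
      replace hL : t ∈ LCt (mu G) A h n 1 N := not_not.1 hL
      have hw : ∀ y y' : ℤ, |y| ≤ h → |y'| ≤ h → wpos t 1 N s (1 + n) y' ≤ wpos t 1 N s (1 + n) y := by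
        intro y y' hy hy'
        by_contra hlt
        obtain ⟨u, h1, h2, h3, -⟩ := exists_top ht hs' (by omega) hN (not_le.1 hlt)
        rw [abs_le] at hy hy'
        exact hc1 ⟨u, Finset.mem_Ico.2 ⟨by omega, by omega⟩, h3⟩
      have hl : ∀ y : ℤ, |y| ≤ h → fvt (line t 1 N s (1, y)) (1 + n) ≤ (line t 1 N s (1, y)).n ∧
          ((line t 1 N s (1, y)).p (fvt (line t 1 N s (1, y)) (1 + n))).1 = 1 + n ∧
          ∀ i ≤ fvt (line t 1 N s (1, y)) (1 + n),
            (line t 1 N s (1, y)).p i ∈ box 0 (max h (1 + A * n)) := by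
        intro y hy
        obtain ⟨h1, h2⟩ := line_spec ht.1 (k := 1) (N := N) hs' (x := (1, y))
          ⟨le_rfl, by simp only; omega⟩
        obtain ⟨f1, f2, -⟩ := fvt_spec h1.1.1 (j := 1 + n) (by rw [h2]; simp only; omega)
          (by rw [h1.2.1]; exact hN)
        refine ⟨f1, f2, fun i hi => ?_⟩
        refine box_subset_box ?_ (hL s hs _ h1 (by rw [h2]) (by rw [h2]; exact hy) _ f1 f2.le i hi)
        exact le_trans (le_of_eq (by simp [nrm])) (le_max_right _ _)
      refine hm fun y y' hy hy' => ?_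
      obtain ⟨a1, a2, a3⟩ := hl y hy
      obtain ⟨b1, b2, b3⟩ := hl y' hy'
      exact ⟨_, _, a1, b1, Prod.ext (a2.trans b2.symm) (le_antisymm (hw y' y hy' hy) (hw y y' hy hy')),
        a3, b3⟩
    · refine (Pr_le_card_mul G (Finset.Ico (-(h : ℤ)) h) (fun u => {t | Top t 1 N s (1 + n) u})
        (Eventually.of_forall fun t ht => ht)
        fun u _ => (Pr_top hs' (by omega) _ u).le).trans (le_of_eq ?_)
      congr 1
      have : (Finset.Ico (-(h : ℤ)) h).card = 2 * h := by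
        rw [Int.card_Ico]
        omega
      rw [this]
      push_cast
      ring
  · have h1 : 2 * (h : ℝ) * (ζ / (4 * h + 4)) ≤ ζ / 2 := by
      rw [← mul_div_assoc, div_le_div_iff₀ (by positivity) (by norm_num)]
      nlinarith
    linarith

end Crest.Agent.R151
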