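import Crest.Agent.R151.BFld1

/-! Row 151, part B: a coalescing family of paths has few merge vertices. -/

set_option autoImplicit false

namespace Crest.Agent.R151

open MeasureTheory ProbabilityTheory Crest.ProbabilityR.FirstPassage Filter Topology
open scoped Classical

theorem BMerge_step {ι : Type} (s : Finset ι) (a : ι) (F : ι → Pth)
    (h : ∀ a' ∈ insert a s, ∀ b ∈ insert a s, ∀ i ≤ (F a').n, ∀ j ≤ (F b).n,
      (F a').p i = (F b).p j →
      (F a').n - i = (F b).n - j ∧ ∀ r, (F a').p (i + r) = (F b).p (j + r))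
    {b : ι} (hb : b ∈ insert a s) {i j : ℕ} (hi : i < (F a).n) (hj : j < (F b).n)
    (he : (F a).p (i + 1) = (F b).p (j + 1)) (hne : (F a).p i ≠ (F b).p j) :
    (F a).p (i + 1) ∈ MergeV s F ∨ (F a).p (i + 1) =
      (F a).p (sInf {k | k ≤ (F a).n ∧ ∃ b ∈ s, ∃ j ≤ (F b).n, (F a).p k = (F b).p j}) := by
  have ha : a ∈ insert a s := Finset.mem_insert_self a s
  rcases Finset.mem_insert.1 hb with rfl | hbs
  · have h1 := (h b ha b ha (i + 1) hi (j + 1) hj he).1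
    have h2 : i = j := by omega
    exact absurd (by rw [h2]) hne
  · set S := {k | k ≤ (F a).n ∧ ∃ b ∈ s, ∃ j ≤ (F b).n, (F a).p k = (F b).p j} with hS
    have h1 : i + 1 ∈ S := ⟨hi, b, hbs, j + 1, hj, he⟩
    have h2 : sInf S ≤ i + 1 := Nat.sInf_le h1
    obtain ⟨h3, b', hb', j', hj', h4⟩ : sInf S ∈ S := Nat.sInf_mem ⟨_, h1⟩
    rcases h2.eq_or_lt with h5 | h5
    · exact Or.inr (by rw [h5])
    · obtain ⟨h6, h7⟩ := h a ha b' (Finset.mem_insert_of_mem hb') _ h3 j' hj' h4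
      obtain ⟨r, hr⟩ : ∃ r, i = sInf S + r := ⟨i - sInf S, by omega⟩
      refine Or.inl ⟨b', hb', b, hbs, j' + r, j, by omega, hj, ?_, he.symm, ?_⟩
      · rw [add_assoc, ← h7 (r + 1), ← add_assoc, ← hr]
      · rw [← h7 r, ← hr]
        exact hne

theorem merge_count {ι : Type} (s : Finset ι) (F : ι → Pth)
    (h : ∀ a ∈ s, ∀ b ∈ s, ∀ i ≤ (F a).n, ∀ j ≤ (F b).n, (F a).p i = (F b).p j →
      (F a).n - i = (F b).n - j ∧ ∀ r, (F a).p (i + r) = (F b).p (j + r)) :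
    ∃ M : Finset V, M.card ≤ s.card ∧ ∀ c ∈ MergeV s F, c ∈ M := by
  induction s using Finset.induction_on with
  | empty =>
    refine ⟨∅, le_rfl, ?_⟩
    rintro c ⟨a, ha, -⟩
    exact absurd ha (Finset.notMem_empty a)
  | insert a s has ih =>
    obtain ⟨M, hM, hM'⟩ := ih fun a' ha' b hb =>
      h a' (Finset.mem_insert_of_mem ha') b (Finset.mem_insert_of_mem hb)
    refine ⟨insert ((F a).p
      (sInf {k | k ≤ (F a).n ∧ ∃ b ∈ s, ∃ j ≤ (F b).n, (F a).p k = (F b).p j})) M, ?_, ?_⟩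
    · rw [Finset.card_insert_of_notMem has]
      exact (Finset.card_insert_le _ _).trans (Nat.succ_le_succ hM)
    · rintro c ⟨a', ha', b, hb, i, j, hi, hj, h1, h2, h3⟩
      rw [Finset.mem_insert]
      rcases Finset.mem_insert.1 ha' with rfl | ha's
      · rcases BMerge_step s a' F h hb hi hj (h1.trans h2.symm) h3 with h4 | h4
        · exact Or.inr (hM' _ (h1 ▸ h4))
        · exact Or.inl (h1 ▸ h4)
      · rcases Finset.mem_insert.1 hb with rfl | hbs
        · rcases BMerge_step s b F h ha' hj hi (h2.trans h1.symm) h3.symm with h4 | h4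
          · exact Or.inr (hM' _ (h2 ▸ h4))
          · exact Or.inl (h2 ▸ h4)
        · exact Or.inr (hM' _ ⟨a', ha's, b, hbs, i, j, hi, hj, h1, h2, h3⟩)

theorem merge_count_lines {G : Measure ℝ} [Law G] {t : Env} {s : ℝ} (ht : GN G s t)
    (hs : |s| < m1 (mu G)) {N : ℤ} (hN : 1 ≤ N) (W : ℕ) :
    ∃ M : Finset V, M.card ≤ 2 * W + 1 ∧
      ∀ c ∈ MergeV (Finset.Icc (-(W : ℤ)) W) (fun w => line t 1 N s (1, w)), c ∈ M := by
  have hl : ∀ w : ℤ, IsLine t 1 N s (line t 1 N s (1, w)) := fun w =>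
    (line_spec ht.1 hs (x := (1, w)) ⟨le_rfl, hN⟩).1
  obtain ⟨M, hM, hM'⟩ := merge_count (Finset.Icc (-(W : ℤ)) W) (fun w => line t 1 N s (1, w))
    fun a _ b _ i hi j hj he => IsLine.coalesce ht hs (hl a) (hl b) hi hj he
  refine ⟨M, hM.trans (le_of_eq ?_), hM'⟩
  rw [Int.card_Icc]
  omega

/-- each vertex is within `r` of at most `(2r+1)²` positions -/
theorem card_positions_le (P : Finset V) (M : Finset V) (r : ℕ)
    (h : ∀ x ∈ P, ∃ c ∈ M, c ∈ box x r) : P.card ≤ M.card * (2 * r + 1) ^ 2 := by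
  have h1 : P ⊆ M.biUnion fun c => boxF c r := by
    intro x hx
    obtain ⟨c, hc, h2⟩ := h x hx
    refine Finset.mem_biUnion.2 ⟨c, hc, mem_boxF.2 ?_⟩
    have h3 : nrm (c - x) ≤ r := h2
    show nrm (x - c) ≤ r
    rwa [nrm_sub_comm]
  exact (Finset.card_le_card h1).trans
    (Finset.card_biUnion_le_card_mul _ _ _ fun c _ => (card_boxF c r).le)

theorem BMerge_fibre (S : Finset ℤ) (m : ℕ) (h : ∀ y ∈ S, ∀ y' ∈ S, |y' - y| ≤ 2 * m) :
    S.card ≤ 2 * m + 1 := by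
  rcases S.eq_empty_or_nonempty with rfl | hS
  · simp
  · have h1 : S ⊆ Finset.Icc (S.min' hS) (S.min' hS + 2 * m) := by
      intro y hy
      have h2 := h _ (S.min'_mem hS) y hy
      have h3 := S.min'_le y hy
      rw [abs_le] at h2
      exact Finset.mem_Icc.2 ⟨h3, by linarith [h2.2]⟩
    refine (Finset.card_le_card h1).trans (le_of_eq ?_)
    rw [Int.card_Icc]
    omega

/-- the deterministic count -/
theorem BMerge_count (I J : Finset ℤ) (H m : ℕ) (w : ℤ → ℤ → Prop) (A B : Finset ℤ)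
    (hA : ∀ y ∈ A, 0 ≤ y ∧ y < H ∧ ∃ i ∈ I, w i y)
    (hB : ∀ y ∈ A, (∃ i ∈ I, w i y ∧ ∃ y' : ℤ, (2 * m : ℤ) < |y' - y| ∧ |y' - y| ≤ H ∧ w i y') →
      y ∈ B)
    (hJ : ∀ i ∈ I, ∀ y : ℤ, 0 ≤ y → y < H → w i y → i ∈ J ∧ i ∈ I) (hJI : J ⊆ I) :
    A.card ≤ (2 * m + 1) * min J.card H + B.card := by
  have h0 : A.card ≤ (A \ B).card + B.card := Finset.card_le_card_sdiff_add_card
  refine h0.trans (Nat.add_le_add_right ?_ _)
  rw [mul_min]
  refine le_min ?_ ?_
  · have h1 : A \ B ⊆ J.biUnion fun i => (A \ B).filter (w i) := by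
      intro y hy
      obtain ⟨h2, h3, i, hi, h4⟩ := hA y (Finset.mem_sdiff.1 hy).1
      exact Finset.mem_biUnion.2 ⟨i, (hJ i hi y h2 h3 h4).1, Finset.mem_filter.2 ⟨hy, h4⟩⟩
    refine (Finset.card_le_card h1).trans ?_
    rw [mul_comm]
    refine Finset.card_biUnion_le_card_mul _ _ _ fun i hi => BMerge_fibre _ m ?_
    intro y hy y' hy'
    obtain ⟨h2, h3⟩ := Finset.mem_filter.1 hy
    obtain ⟨h4, h5⟩ := Finset.mem_filter.1 hy'
    obtain ⟨h6, h7⟩ := Finset.mem_sdiff.1 h2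
    obtain ⟨a1, a2, -⟩ := hA y h6
    obtain ⟨a3, a4, -⟩ := hA y' (Finset.mem_sdiff.1 h4).1
    by_contra hcon
    refine h7 (hB y h6 ⟨i, hJI hi, h3, y', not_le.1 hcon, ?_, h5⟩)
    rw [abs_le]
    constructor <;> linarith
  · have h1 : A \ B ⊆ Finset.Ico (0 : ℤ) H := by
      intro y hy
      obtain ⟨h2, h3, -⟩ := hA y (Finset.mem_sdiff.1 hy).1
      exact Finset.mem_Ico.2 ⟨h2, h3⟩
    have h2 := Finset.card_le_card h1
    rw [Int.card_Ico] at h2
    have h3 : ((H : ℤ) - 0).toNat = H := by omega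
    rw [h3] at h2
    exact h2.trans (Nat.le_mul_of_pos_left _ (by omega))

/-- counting heights by fine indices when pairs are excluded -/
theorem count_bound (G : Measure ℝ) [IsProbabilityMeasure G] (I : Finset ℤ) (H m : ℕ)
    (W : ℤ → ℤ → Set Env) (hW : ∀ i y, MeasurableSet (W i y)) (Good : Set Env)
    (hG : MeasurableSet Good) {p q : ℝ}
    (hp : ∀ y : ℤ, 0 ≤ y → y < H → p ≤ Pr G {t | ∃ i ∈ I, t ∈ W i y})
    (hq : ∀ y : ℤ, 0 ≤ y → y < H → Pr G {t | ∃ i ∈ I, t ∈ W i y ∧ ∃ y' : ℤ, (2 * m : ℤ) < |y' - y| ∧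
      |y' - y| ≤ H ∧ t ∈ W i y'} ≤ q) :
    H * p ≤ (2 * m + 1) * ∫ t, ((min ((I.filter (fun i => ∃ y : ℤ, 0 ≤ y ∧ y < H ∧
        t ∈ W i y ∩ Good)).card) H : ℕ) : ℝ) ∂(iidLaw G) + H * q + H * Pr G Goodᶜ := by
  obtain ⟨E, hE⟩ : ∃ E : ℤ → Set Env, E = fun y => {t | ∃ i ∈ I, t ∈ W i y} := ⟨_, rfl⟩
  obtain ⟨Q, hQ⟩ : ∃ Q : ℤ → Set Env, Q = fun y => {t | ∃ i ∈ I, t ∈ W i y ∧
      ∃ y' : ℤ, (2 * m : ℤ) < |y' - y| ∧ |y' - y| ≤ H ∧ t ∈ W i y'} := ⟨_, rfl⟩
  obtain ⟨K, hK⟩ : ∃ K : ℤ → Set Env,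
      K = fun i => {t | ∃ y : ℤ, 0 ≤ y ∧ y < H ∧ t ∈ W i y ∩ Good} := ⟨_, rfl⟩
  have mE : ∀ y, MeasurableSet (E y) := fun y => by
    have e : E y = ⋃ i, {_t | i ∈ I} ∩ W i y := by
      ext t
      simp only [hE, Set.mem_ofPred_eq, Set.mem_iUnion, Set.mem_inter_iff]
    rw [e]
    exact MeasurableSet.iUnion fun i => (MeasurableSet.const _).inter (hW i y)
  have mQ : ∀ y, MeasurableSet (Q y) := fun y => by
    have e : Q y = ⋃ i, {_t | i ∈ I} ∩ (W i y ∩ ⋃ y' : ℤ, {_t | (2 * m : ℤ) < |y' - y|} ∩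
        ({_t | |y' - y| ≤ H} ∩ W i y')) := by
      ext t
      simp only [hQ, Set.mem_ofPred_eq, Set.mem_iUnion, Set.mem_inter_iff]
    rw [e]
    exact MeasurableSet.iUnion fun i => (MeasurableSet.const _).inter ((hW i y).inter
      (MeasurableSet.iUnion fun y' => (MeasurableSet.const _).inter
        ((MeasurableSet.const _).inter (hW i y'))))
  have mK : ∀ i, MeasurableSet (K i) := fun i => by
    have e : K i = ⋃ y : ℤ, {_t | 0 ≤ y} ∩ ({_t | y < H} ∩ (W i y ∩ Good)) := by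
      ext t
      simp only [hK, Set.mem_ofPred_eq, Set.mem_iUnion, Set.mem_inter_iff]
    rw [e]
    exact MeasurableSet.iUnion fun y => (MeasurableSet.const _).inter
      ((MeasurableSet.const _).inter ((hW i y).inter hG))
  have hcard : ((Finset.Ico (0 : ℤ) H).card : ℝ) = H := by
    rw [Int.card_Ico]
    have h3 : ((H : ℤ) - 0).toNat = H := by omega
    rw [h3]
  set f : Env → ℝ := fun t => ((min ((I.filter (fun i => t ∈ K i)).card) H : ℕ) : ℝ) with hf
  have ef : ∫ t, ((min ((I.filter (fun i => ∃ y : ℤ, 0 ≤ y ∧ y < H ∧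
      t ∈ W i y ∩ Good)).card) H : ℕ) : ℝ) ∂(iidLaw G) = ∫ t, f t ∂(iidLaw G) := by
    refine integral_congr_ae (Eventually.of_forall fun t => ?_)
    simp only [hf, hK, Set.mem_ofPred_eq]
  have mf : Measurable f :=
    measurable_from_top.comp ((measurable_card_filter I mK).min measurable_const)
  have i1 : Integrable f (iidLaw G) := by
    refine (integrable_const (H : ℝ)).mono' mf.aestronglyMeasurable
      (Eventually.of_forall fun t => ?_)
    rw [Real.norm_of_nonneg (Nat.cast_nonneg _)]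
    exact Nat.cast_le.2 (min_le_right _ _)
  obtain ⟨i2, e2⟩ := integral_card_filter G (Finset.Ico (0 : ℤ) H) mQ
  have i3 : Integrable (Goodᶜ.indicator fun _ => (1 : ℝ)) (iidLaw G) :=
    (integrable_const 1).indicator hG.compl
  have i4 : Integrable (fun t => ((2 * m + 1) * f t +
      (((Finset.Ico (0 : ℤ) H).filter (fun y => t ∈ Q y)).card : ℝ))) (iidLaw G) :=
    (i1.const_mul ((2 * m + 1 : ℝ))).add i2
  have key := sum_Pr_le_integral G (Finset.Ico (0 : ℤ) H) mE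
    (F := fun t => ((2 * m + 1) * f t +
      (((Finset.Ico (0 : ℤ) H).filter (fun y => t ∈ Q y)).card : ℝ)) +
      H * Goodᶜ.indicator (fun _ => (1 : ℝ)) t)
    (i4.add (i3.const_mul (H : ℝ))) (Eventually.of_forall fun t => ?_)
  · rw [integral_add i4 (i3.const_mul _), integral_add (i1.const_mul _) i2,
      integral_const_mul, integral_const_mul, e2, integral_indicator_Pr G hG.compl] at key
    have a1 : (H : ℝ) * p ≤ ∑ y ∈ Finset.Ico (0 : ℤ) H, Pr G (E y) := by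
      rw [← hcard, ← nsmul_eq_mul]
      refine Finset.card_nsmul_le_sum _ _ _ fun y hy => ?_
      rw [hE]
      exact hp y (Finset.mem_Ico.1 hy).1 (Finset.mem_Ico.1 hy).2
    have a2 : ∑ y ∈ Finset.Ico (0 : ℤ) H, Pr G (Q y) ≤ (H : ℝ) * q := by
      rw [← hcard, ← nsmul_eq_mul]
      refine Finset.sum_le_card_nsmul _ _ _ fun y hy => ?_
      rw [hQ]
      exact hq y (Finset.mem_Ico.1 hy).1 (Finset.mem_Ico.1 hy).2
    rw [ef]
    linarith
  · by_cases ht : t ∈ Good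
    · have h1 := BMerge_count I (I.filter (fun i => t ∈ K i)) H m (fun i y => t ∈ W i y)
        ((Finset.Ico (0 : ℤ) H).filter (fun y => t ∈ E y))
        ((Finset.Ico (0 : ℤ) H).filter (fun y => t ∈ Q y))
        (fun y hy => ⟨(Finset.mem_Ico.1 (Finset.mem_filter.1 hy).1).1,
          (Finset.mem_Ico.1 (Finset.mem_filter.1 hy).1).2, by
            have h := (Finset.mem_filter.1 hy).2
            rw [hE] at h
            exact h⟩)
        (fun y hy h => Finset.mem_filter.2 ⟨(Finset.mem_filter.1 hy).1, by rw [hQ]; exact h⟩)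
        (fun i hi y h0 h1 h2 =>
          ⟨Finset.mem_filter.2 ⟨hi, by rw [hK]; exact ⟨y, h0, h1, h2, ht⟩⟩, hi⟩)
        (Finset.filter_subset _ _)
      have h2 : (0 : ℝ) ≤ H * Goodᶜ.indicator (fun _ => (1 : ℝ)) t :=
        mul_nonneg (Nat.cast_nonneg _) (Set.indicator_nonneg (fun _ _ => zero_le_one) t)
      refine le_trans ?_ (le_add_of_nonneg_right h2)
      simp only [hf]
      exact_mod_cast h1
    · have h1 : (((Finset.Ico (0 : ℤ) H).filter (fun y => t ∈ E y)).card : ℝ) ≤ H := by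
        rw [← hcard]
        exact Nat.cast_le.2 (Finset.card_filter_le _ _)
      rw [Set.indicator_of_mem (show t ∈ Goodᶜ from ht), mul_one]
      have h2 : (0 : ℝ) ≤ (2 * m + 1) * f t := mul_nonneg (by positivity) (Nat.cast_nonneg _)
      have h3 : (0 : ℝ) ≤ (((Finset.Ico (0 : ℤ) H).filter (fun y => t ∈ Q y)).card : ℝ) :=
        Nat.cast_nonneg _
      linarith

end Crest.Agent.R151
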