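import Crest.Agent.R151.BTL2
import Crest.Agent.R151.BLN5

/-! Row 151, part B: two `W`-paths with the same fine slope index at bounded distance are rare. -/

set_option autoImplicit false

namespace Crest.Agent.R151

open MeasureTheory ProbabilityTheory Crest.ProbabilityR.FirstPassage Filter Topology
open scoped Classical

variable {G : Measure ℝ} [Law G]

theorem bpair_box_mono (c : V) {r r' : ℕ} (h : r ≤ r') : box c r ⊆ box c r' :=
  fun _ hx => le_trans hx h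

theorem bpair_meet_mono (N : ℤ) (s : ℝ) (h : ℕ) {r r' : ℕ} (hr : r ≤ r') :
    Meet N s h r ⊆ Meet N s h r' := by
  intro t ht y y' hy hy'
  obtain ⟨i1, i2, h1, h2, h3, h4, h5⟩ := ht y y' hy hy'
  exact ⟨i1, i2, h1, h2, h3, fun i hi => bpair_box_mono 0 hr (h4 i hi),
    fun i hi => bpair_box_mono 0 hr (h5 i hi)⟩

theorem bpair_exp {C c p : ℝ} (hc : 0 < c) (hp : 0 < p) :
    ∃ n1 : ℕ, ∀ n : ℕ, n1 ≤ n → C * Real.exp (-(c * n)) ≤ p := by
  have h1 : Tendsto (fun n : ℕ => C * Real.exp (-(c * n))) atTop (𝓝 (C * 0)) := by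
    refine Tendsto.const_mul C (Real.tendsto_exp_atBot.comp ?_)
    exact tendsto_neg_atTop_atBot.comp (tendsto_natCast_atTop_atTop.const_mul_atTop hc)
  rw [mul_zero] at h1
  exact eventually_atTop.1 (h1.eventually (ge_mem_nhds hp))

/-- the slopes attached to an admissible index -/
theorem bpair_idx {μ : ℝ × ℝ → ℝ} (hd : DN μ) {ε : ℝ} (hε : 0 < ε) (hε' : ε ≤ g0 μ / 4) {i : ℤ}
    (hi : i ∈ Idx μ ε) : |alI ε i| ≤ Sk μ 4 ∧ |beI ε i| ≤ Sk μ 4 ∧ |alI ε i| < m1 μ ∧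
      |beI ε i| < m1 μ ∧ alI ε i < loI ε i ∧ loI ε i ≤ hiI ε i ∧ hiI ε i < beI ε i ∧
      -Sk μ 3 ≤ loI ε i ∧ hiI ε i ≤ Sk μ 3 := by
  obtain ⟨-, h1, h2, h3, h4, h5⟩ := Idx_bound hd hε hε' hi
  have a1 : Sk μ 2 ≤ Sk μ 3 := hd.Sk_mono (by norm_num)
  have a2 : Sk μ 3 ≤ Sk μ 4 := hd.Sk_mono (by norm_num)
  have a3 : Sk μ 4 < m1 μ := hd.Sk_lt (by norm_num)
  have b1 : |alI ε i| ≤ Sk μ 4 := abs_le.2 ⟨by linarith, by linarith⟩
  have b2 : |beI ε i| ≤ Sk μ 4 := abs_le.2 ⟨by linarith, by linarith⟩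
  exact ⟨b1, b2, by linarith, by linarith, h2, h3.le, h4, by linarith, by linarith⟩

theorem bpair_loc (hd : DN (mu G)) {ε : ℝ} (hε : 0 < ε) (hε' : ε ≤ g0 (mu G) / 4) (Y : ℕ) :
    Small (fun N => ∑ i ∈ Idx (mu G) ε,
      Pr G (Loc (mu G) 1 N (alI ε i) (beI ε i) (loI ε i) (hiI ε i) Y)ᶜ) 0 := by
  have := Small.sum (Idx (mu G) ε) (a := fun _ => 0)
    (f := fun i N => Pr G (Loc (mu G) 1 N (alI ε i) (beI ε i) (loI ε i) (hiI ε i) Y)ᶜ) fun i hi => by
      obtain ⟨-, -, h1, h2, h3, h4, h5, -, -⟩ := bpair_idx hd hε hε' hi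
      exact small_of_tendsto (Pr_not_loc hd (abs_lt.1 h1).1 h3 h4 h5 (abs_lt.1 h2).2 1 Y)
  simpa using this

theorem pairL_small (hd : DN (mu G)) (m H : ℕ) {η ζ : ℝ} (hη : 0 < η) (hζ : 0 < ζ) :
    ∃ ε0 : ℝ, 0 < ε0 ∧ ∀ ε : ℝ, 0 < ε → ε ≤ ε0 →
      Small2 (fun N1 N2 => Pr G {t | ∃ i ∈ Idx (mu G) ε,
        t ∈ Pair (mu G) m η (loI ε i) (hiI ε i) H (1 - N1) N2 0 ∧
        η ≤ Dinc (act rfl1 t) 1 N1 (-beI ε i) (-alI ε i) (-(H + m)) (H + m)}) ζ := by
  have hM : 0 < m1 (mu G) := hd.m1_pos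
  have hg : 0 < g0 (mu G) := hd.g0_pos
  set C1 : ℝ := 32 * m1 (mu G) * ((H : ℝ) + m + 1) / η with hC1
  have hC1p : 0 < C1 := by positivity
  set δ : ℝ := ζ / (10 * C1) with hδ
  have hδp : 0 < δ := by positivity
  have hp : 0 < ζ / 10 := by positivity
  obtain ⟨r0, hr0, hmeet⟩ := small_not_meet hd (H + m) hδp
  obtain ⟨A, -, hcf⟩ := small_not_cf hd
  obtain ⟨n0, hcf⟩ := hcf _ hp
  obtain ⟨ℓ1, hlip⟩ := small_not_lip hd hp
  obtain ⟨C, c, -, hc, hlow⟩ := Pr_not_lowL G hg 1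
  obtain ⟨n1, hn1⟩ := bpair_exp (C := C) hc hp
  set r : ℕ := max (max r0 n0) (max ℓ1 n1) with hr
  have hr1 : r0 ≤ r := le_trans (le_max_left _ _) (le_max_left _ _)
  have hr2 : n0 ≤ r := le_trans (le_max_right _ _) (le_max_left _ _)
  have hr3 : ℓ1 ≤ r := le_trans (le_max_left _ _) (le_max_right _ _)
  have hr4 : n1 ≤ r := le_trans (le_max_right _ _) (le_max_right _ _)
  obtain ⟨H', hH'⟩ := exists_nat_gt (((A : ℝ) + 3 * m1 (mu G)) * ((r + 2 : ℕ) : ℝ) / (2 * g0 (mu G)))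
  rw [div_lt_iff₀ (by positivity), mul_comm (H' : ℝ)] at hH'
  set D : ℝ := (2 * ((H + m : ℕ) : ℝ) + 1) * (4 * (2 * ((r + 2 : ℕ) : ℝ) + 1) ^ 2) with hD
  have hDp : 0 < D := by positivity
  obtain ⟨η', hη', homg⟩ := exists_omg_le G (div_pos hδp hDp)
  obtain ⟨ε1, hε1, htl⟩ := tl_small hd m H r hη hp
  refine ⟨min (min ε1 (g0 (mu G) / 4)) (δ * η' / (8 * ((H' : ℝ) + 1))), by positivity,
    fun ε hε hε0 => ?_⟩
  have e1 : ε ≤ ε1 := hε0.trans ((min_le_left _ _).trans (min_le_left _ _))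
  have e2 : ε ≤ g0 (mu G) / 4 := hε0.trans ((min_le_left _ _).trans (min_le_right _ _))
  have e3 : ε ≤ δ * η' / (8 * ((H' : ℝ) + 1)) := hε0.trans (min_le_right _ _)
  set c0 : ℝ := 8 * ε * ((H : ℝ) + m) / η with hc0
  have hc0p : 0 ≤ c0 := by positivity
  have hba : ∀ i, beI ε i - alI ε i = 4 * ε := fun i => by unfold alI beI; ring
  -- the majorant
  have S1 := htl ε hε e1
  have S2 := hcf (r + 2) (by omega)
  have S3 := (hlip ((r + 2 : ℕ) : ℝ) (by exact_mod_cast (by omega : ℓ1 ≤ r + 2)) 1 0).right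
  have S4 := small2_const (ζ / 10)
  have S5 := (bpair_loc hd hε e2 (max H' r)).right
  have S6 := (Small.sum (Idx (mu G) ε) (a := fun _ => c0 * (δ + 2 * δ))
    (f := fun i N => c0 * (Pr G (Meet N (alI ε i) (H + m) r0)ᶜ + 2 * δ)) fun i hi =>
      ((hmeet _ (bpair_idx hd hε e2 hi).1).add (small_const _)).const_mul hc0p).right
  refine Small2.mono_right (Small2.of_le (S1.add (S2.add (S3.add (S4.add (S5.add S6))))) ?_) ?_
  · refine ⟨r + 4, fun N1 N2 h1 h2 => ?_⟩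
    set E : ℤ → Set Env := fun i =>
      {t | η ≤ Dinc (act rfl1 t) 1 N1 (-beI ε i) (-alI ε i) (-(H + m)) (H + m)} with hE
    set X : ℤ → Set Env := fun i => (Meet N2 (alI ε i) (H + m) r0)ᶜ ∪
      (NTs N2 (alI ε i) η' (H + m) (r + 2) ∪
        {t | η' ≤ Dinc t 1 N2 (alI ε i) (beI ε i) (-(H' : ℤ)) H'}) with hX
    have hEX : ∀ i ∈ Idx (mu G) ε, Pr G (E i ∩ X i) ≤
        c0 * (Pr G (Meet N2 (alI ε i) (H + m) r0)ᶜ + 2 * δ) := by
      intro i hi
      obtain ⟨-, -, b1, b2, b3, b4, b5, -, -⟩ := bpair_idx hd hε e2 hi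
      have mE : MeasurableSet (E i) :=
        measurableSet_le measurable_const ((measurable_Dinc _ _ _ _ _ _).comp (measurable_act rfl1))
      have mX : MeasurableSet (X i) := (measurableSet_meet _ _ _ _).compl.union
        ((measurableSet_nts _ _ _ _ _).union
          (measurableSet_le measurable_const (measurable_Dinc _ _ _ _ _ _)))
      have dE : Dep (LE (strip (1 - N1) 0)) (E i) :=
        (depF_Dinc_left N1 (-beI ε i) (-alI ε i) (-(H + m)) (H + m)).preimage (Set.Ici η)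
      have dX : Dep (LE (strip 1 N2)) (X i) := (dep_meet _ _ _ _).compl.union
        ((dep_nts _ _ _ _ _).union
          ((depF_Dinc 1 N2 (alI ε i) (beI ε i) (-(H' : ℤ)) H').preimage (Set.Ici η')))
      rw [Pr_inter_of_dep G (disjoint_LE_strip _ _) mE mX dE dX]
      have pE : Pr G (E i) ≤ c0 := by
        refine (Pr_Dinc_left_ge (by omega) (by rwa [abs_neg]) (by rwa [abs_neg]) (by linarith)
          (by omega) hη).trans (le_of_eq ?_)
        rw [hc0, show -alI ε i - -beI ε i = 4 * ε by rw [← hba i]; ring]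
        push_cast
        ring
      have p1 : Pr G (NTs N2 (alI ε i) η' (H + m) (r + 2)) ≤ δ := by
        refine (Pr_nts b1 N2 η' (H + m) (r + 2)).trans ?_
        calc _ ≤ D * (δ / D) := mul_le_mul_of_nonneg_left homg hDp.le
          _ = δ := by field_simp
      have p2 : Pr G {t | η' ≤ Dinc t 1 N2 (alI ε i) (beI ε i) (-(H' : ℤ)) H'} ≤ δ := by
        refine (Pr_Dinc_ge (by omega) b1 b2 (by linarith) (by omega) hη').trans ?_
        rw [hba i, div_le_iff₀ hη']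
        rw [le_div_iff₀ (by positivity)] at e3
        push_cast
        nlinarith
      have pX : Pr G (X i) ≤ Pr G (Meet N2 (alI ε i) (H + m) r0)ᶜ + 2 * δ := by
        refine (Pr_union_le G _ _).trans ?_
        have := Pr_union_le G (NTs N2 (alI ε i) η' (H + m) (r + 2))
          {t | η' ≤ Dinc t 1 N2 (alI ε i) (beI ε i) (-(H' : ℤ)) H'}
        linarith
      exact mul_le_mul pE pX (Pr_nonneg G _) hc0p
    have hsub : Pr G {t | ∃ i ∈ Idx (mu G) ε,
        t ∈ Pair (mu G) m η (loI ε i) (hiI ε i) H (1 - N1) N2 0 ∧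
        η ≤ Dinc (act rfl1 t) 1 N1 (-beI ε i) (-alI ε i) (-(H + m)) (H + m)} ≤
        Pr G ({t | ∃ i ∈ Idx (mu G) ε,
          t ∈ TL (mu G) m η (loI ε i) (hiI ε i) H r (1 - N1) N2 0 0} ∪
          ((CF (mu G) A (r + 2) (1 - N1) N2)ᶜ ∪ ((Lip (mu G) 1 N2 0 ((r + 2 : ℕ) : ℝ))ᶜ ∪
            ((LowL G (g0 (mu G)) 1 (1, 0) (r + 2))ᶜ ∪
              ((⋃ i ∈ Idx (mu G) ε,
                (Loc (mu G) 1 N2 (alI ε i) (beI ε i) (loI ε i) (hiI ε i) (max H' r))ᶜ) ∪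
                ⋃ i ∈ Idx (mu G) ε, E i ∩ X i))))) := by
      refine Pr_mono_ae G ?_
      filter_upwards [ae_all_iff.2 fun i : ℤ => ae_gn G (alI ε i)] with t ht
      rintro ⟨i, hi, hpair, hD⟩
      by_contra hcon
      simp only [Set.mem_union, Set.mem_compl_iff, Set.mem_iUnion, not_or, not_not, not_exists,
        Set.mem_inter_iff, not_and, Set.mem_ofPred_eq] at hcon
      obtain ⟨c1, c2, c3, c4, c5, c6⟩ := hcon
      obtain ⟨a1, a2, -, -, b3, b4, b5, a3, a4⟩ := bpair_idx hd hε e2 hi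
      have c7 := c6 i hi hD
      simp only [hX, Set.mem_union, Set.mem_compl_iff, not_or, not_not, Set.mem_ofPred_eq,
        not_le] at c7
      exact c1 i hi (tl_of_pair hd (ht i) a1 a2 (by linarith) a3 a4 (hr0.trans hr1) h2 hH'
        (le_max_left _ _) (le_max_right _ _) (c5 i hi) c2 c3 c4 c7.2.2 c7.2.1
        (bpair_meet_mono _ _ _ hr1 c7.1) hpair)
    refine hsub.trans ?_
    refine (Pr_union_le G _ _).trans (add_le_add le_rfl ?_)
    refine (Pr_union_le G _ _).trans (add_le_add le_rfl ?_)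
    refine (Pr_union_le G _ _).trans (add_le_add le_rfl ?_)
    refine (Pr_union_le G _ _).trans (add_le_add ((hlow _ _).trans (hn1 _ (by omega))) ?_)
    refine (Pr_union_le G _ _).trans (add_le_add (Pr_biUnion_le G _ _) ?_)
    exact (Pr_biUnion_le G _ _).trans (Finset.sum_le_sum hEX)
  · rw [Finset.sum_const, nsmul_eq_mul]
    have h1 := card_Idx_le hd hε e2
    have h2 : ((Idx (mu G) ε).card : ℝ) * c0 ≤ C1 := by
      calc ((Idx (mu G) ε).card : ℝ) * c0 ≤ 4 * m1 (mu G) / ε * c0 :=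
            mul_le_mul_of_nonneg_right h1 hc0p
        _ = 32 * m1 (mu G) * ((H : ℝ) + m) / η := by rw [hc0]; field_simp; ring
        _ ≤ C1 := by
            rw [hC1]
            exact div_le_div_of_nonneg_right
              (mul_le_mul_of_nonneg_left (by linarith) (by positivity)) hη.le
    have h3 : C1 * δ = ζ / 10 := by rw [hδ]; field_simp
    have h4 := mul_le_mul_of_nonneg_right h2 hδp.le
    nlinarith

theorem pair_small (hd : DN (mu G)) (m H : ℕ) {η ζ : ℝ} (hη : 0 < η) (hζ : 0 < ζ) :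
    ∃ ε0 : ℝ, 0 < ε0 ∧ ∀ ε : ℝ, 0 < ε → ε ≤ ε0 →
      Small2 (fun N1 N2 => Pr G {t | ∃ i ∈ Idx (mu G) ε,
        t ∈ Pair (mu G) m η (loI ε i) (hiI ε i) H (1 - N1) N2 0}) ζ := by
  have hg : 0 < g0 (mu G) := hd.g0_pos
  obtain ⟨ε1, hε1, hL⟩ := pairL_small hd m H hη (half_pos hζ)
  refine ⟨min ε1 (g0 (mu G) / 4), by positivity, fun ε hε hε0 => ?_⟩
  have e1 : ε ≤ ε1 := hε0.trans (min_le_left _ _)
  have e2 : ε ≤ g0 (mu G) / 4 := hε0.trans (min_le_right _ _)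
  have S1 := hL ε hε e1
  have S2 := S1.swap
  have S3 := (bpair_loc hd hε e2 (H + m)).right
  have S4 := (bpair_loc hd hε e2 (H + m)).left
  have n1 : ∀ i, loI ε (-i) = -hiI ε i := fun i => by unfold loI hiI; push_cast; ring
  have n2 : ∀ i, hiI ε (-i) = -loI ε i := fun i => by unfold loI hiI; push_cast; ring
  have n3 : ∀ i, alI ε (-i) = -beI ε i := fun i => by unfold alI beI; push_cast; ring
  have n4 : ∀ i, beI ε (-i) = -alI ε i := fun i => by unfold alI beI; push_cast; ring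
  refine Small2.mono_right (Small2.of_le (S1.add (S2.add (S3.add S4))) ⟨0, fun N1 N2 _ _ => ?_⟩)
    (by linarith)
  have hsub : Pr G {t | ∃ i ∈ Idx (mu G) ε,
      t ∈ Pair (mu G) m η (loI ε i) (hiI ε i) H (1 - N1) N2 0} ≤
      Pr G ({t | ∃ i ∈ Idx (mu G) ε,
        t ∈ Pair (mu G) m η (loI ε i) (hiI ε i) H (1 - N1) N2 0 ∧
        η ≤ Dinc (act rfl1 t) 1 N1 (-beI ε i) (-alI ε i) (-(H + m)) (H + m)} ∪
        (act rfl1 ⁻¹' {t | ∃ i ∈ Idx (mu G) ε,
          t ∈ Pair (mu G) m η (loI ε i) (hiI ε i) H (1 - N2) N1 0 ∧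
          η ≤ Dinc (act rfl1 t) 1 N2 (-beI ε i) (-alI ε i) (-(H + m)) (H + m)} ∪
        ((⋃ i ∈ Idx (mu G) ε,
          (Loc (mu G) 1 N2 (alI ε i) (beI ε i) (loI ε i) (hiI ε i) (H + m))ᶜ) ∪
        ⋃ i ∈ Idx (mu G) ε, act rfl1 ⁻¹'
          (Loc (mu G) 1 N1 (alI ε i) (beI ε i) (loI ε i) (hiI ε i) (H + m))ᶜ))) := by
    refine Pr_mono_ae G ?_
    filter_upwards [ae_fld G] with t ht
    rintro ⟨i, hi, hpair⟩
    by_contra hcon
    simp only [Set.mem_union, Set.mem_compl_iff, Set.mem_iUnion, not_or, not_not, not_exists,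
      not_and, Set.mem_ofPred_eq, Set.mem_preimage, not_le] at hcon
    obtain ⟨c1, c2, c3, c4⟩ := hcon
    obtain ⟨-, -, b1, b2, b3, b4, b5, -, -⟩ := bpair_idx hd hε e2 hi
    have d1 := c1 i hi hpair
    have d4 := c4 (-i) (neg_mem_Idx hi)
    rw [n1, n2, n3, n4] at d4
    have d2 := c2 (-i) (neg_mem_Idx hi) (by
      rw [n1, n2]
      have := (pair_refl (mu G) m η (loI ε i) (hiI ε i) H (1 - N1) N2 0 t).2 hpair
      rwa [sub_sub_cancel] at this)
    rw [n3, n4, neg_neg, neg_neg, act_rfl1_rfl1] at d2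
    have d5 := pair_Dinc ht b1 b2 (by linarith) le_rfl (c3 i hi) (by rwa [sub_sub_cancel]) hpair
    rw [sub_sub_cancel] at d5
    linarith
  refine hsub.trans ?_
  refine (Pr_union_le G _ _).trans (add_le_add le_rfl ?_)
  refine (Pr_union_le G _ _).trans (add_le_add (Pr_act G _ _).le ?_)
  refine (Pr_union_le G _ _).trans (add_le_add (Pr_biUnion_le G _ _) ?_)
  exact (Pr_biUnion_le G _ _).trans (Finset.sum_le_sum fun i _ => (Pr_act G _ _).le)

end Crest.Agent.R151
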