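import Crest.Agent.R151.BFld4

/-! Row 151, part B: shape theorem for passage times restricted to a strip. -/

set_option autoImplicit false

namespace Crest.Agent.R151

open MeasureTheory ProbabilityTheory Crest.ProbabilityR.FirstPassage Filter Topology
open scoped Classical

theorem BShape1_ev (K B : ℝ) (hB : 0 ≤ B) {ε : ℝ} (hε : 0 < ε) :
    ∀ᶠ n : ℕ in atTop, K * (B * n) ^ ((3 : ℝ) / 4) ≤ ε * n := by
  have h1 : Tendsto (fun n : ℕ => K * B ^ ((3 : ℝ) / 4) * (n : ℝ) ^ (-((1 : ℝ) / 4))) atTop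
      (𝓝 (K * B ^ ((3 : ℝ) / 4) * 0)) :=
    ((tendsto_rpow_neg_atTop (by norm_num)).comp tendsto_natCast_atTop_atTop).const_mul _
  rw [mul_zero] at h1
  filter_upwards [h1.eventually (eventually_le_nhds hε), eventually_ge_atTop 1] with n hn hn1
  have hn0 : (0 : ℝ) < n := by exact_mod_cast hn1
  have e : (n : ℝ) ^ ((3 : ℝ) / 4) = (n : ℝ) ^ (-((1 : ℝ) / 4)) * n := by
    rw [← Real.rpow_add_one hn0.ne']; norm_num
  rw [Real.mul_rpow hB hn0.le, e, ← mul_assoc, ← mul_assoc]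
  exact mul_le_mul_of_nonneg_right hn hn0.le

theorem BShape1_neg {μ : ℝ × ℝ → ℝ} (h : NormOK μ) (x z : V) :
    μ (rv (x - z)) = μ (rv (z - x)) := by
  have e : rv (x - z) = (-(rv (z - x)).1, -(rv (z - x)).2) := by simp [rv]
  rw [e, h.refl1, h.refl2]

theorem BShape1_nrm {d : V} {B n : ℝ} (h1 : |(d.1 : ℝ)| ≤ B * n) (h2 : |(d.2 : ℝ)| ≤ B * n) :
    (nrm d : ℝ) ≤ B * n := by
  rw [← norm_rv, Prod.norm_def]
  exact max_le h1 h2

theorem BShape1_round {μ : ℝ × ℝ → ℝ} (h : DN μ) (θ : ℝ) {a : ℝ} (ha : 0 < a) :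
    ∃ w : ℤ, |(w : ℝ) - θ * a| ≤ 1 ∧ |slp μ ((w : ℝ) / a)| ≤ |slp μ θ| := by
  rcases le_total 0 θ with h0 | h0
  · refine ⟨⌊θ * a⌋, ?_, ?_⟩
    · rw [abs_le]
      constructor <;> linarith [Int.floor_le (θ * a), Int.lt_floor_add_one (θ * a)]
    · have h1 : (0 : ℝ) ≤ (⌊θ * a⌋ : ℝ) / a :=
        div_nonneg (by exact_mod_cast Int.floor_nonneg.2 (by positivity)) ha.le
      have h2 : (⌊θ * a⌋ : ℝ) / a ≤ θ := (div_le_iff₀ ha).2 (Int.floor_le _)
      have h3 := h.slp_mono h1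
      rw [h.slp_zero] at h3
      rw [abs_of_nonneg h3]
      exact (h.slp_mono h2).trans (le_abs_self _)
  · refine ⟨⌈θ * a⌉, ?_, ?_⟩
    · rw [abs_le]
      constructor <;> linarith [Int.le_ceil (θ * a), Int.ceil_lt_add_one (θ * a)]
    · have h1 : (⌈θ * a⌉ : ℝ) / a ≤ 0 :=
        div_nonpos_of_nonpos_of_nonneg (by
          exact_mod_cast Int.ceil_nonpos.2 (mul_nonpos_of_nonpos_of_nonneg h0 ha.le)) ha.le
      have h2 : θ ≤ (⌈θ * a⌉ : ℝ) / a := (le_div_iff₀ ha).2 (Int.le_ceil _)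
      have h3 := h.slp_mono h1
      rw [h.slp_zero] at h3
      rw [abs_of_nonpos h3]
      exact (neg_le_neg (h.slp_mono h2)).trans (neg_le_abs _)

variable {G : Measure ℝ} [Law G]

/-- geodesics between points `κ n` inside the strip stay in the strip with high probability -/
theorem Pr_geo_leaves_strip (hd : DN (mu G)) {S κ ζ : ℝ} (hS : S < m1 (mu G)) (hκ : 0 < κ)
    (hζ : 0 < ζ) : ∃ n0 : ℕ, ∀ n : ℕ, n0 ≤ n → ∀ x z : V, κ * n ≤ x.1 → x.1 < z.1 →
      (z.1 : ℝ) ≤ n - κ * n → |slp (mu G) (((z.2 - x.2 : ℤ) : ℝ) / ((z.1 - x.1 : ℤ) : ℝ))| ≤ S →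
      Pr G {t | ¬ (geo t x z).In (strip 0 n)} ≤ ζ := by
  have hm : 0 < m1 (mu G) := hd.m1_pos
  set m := m1 (mu G) with hm'
  set B : ℝ := max 1 (thp (mu G) S) with hB
  have hB1 : 1 ≤ B := le_max_left _ _
  set g : ℝ := 2 * (m - S) * κ with hg
  have hg0 : 0 < g := by have : 0 < m - S := by linarith
                         positivity
  set ζ' : ℝ := min (m / 2) (g / (2 * (2 * B + 3))) with hζ'
  have hζ0 : 0 < ζ' := lt_min (by positivity) (by positivity)
  have hζ1 : ζ' ≤ m / 2 := min_le_left _ _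
  have hζ2 : ζ' * (2 * (2 * B + 3)) ≤ g := (le_div_iff₀ (by positivity)).1 (min_le_right _ _)
  obtain ⟨C, c, hC, hc, H⟩ := Pr_shortfall G hζ0
  obtain ⟨C3, hC3, H3⟩ := Pr_T_gt_mu G
  have h1 : Tendsto (fun n : ℕ => C * Real.exp (-(c * (ζ' * n)))) atTop (𝓝 (C * 0)) :=
    (Real.tendsto_exp_neg_atTop_nhds_zero.comp
      ((tendsto_natCast_atTop_atTop.const_mul_atTop hζ0).const_mul_atTop hc)).const_mul C
  rw [mul_zero] at h1
  obtain ⟨n0, hn0⟩ := eventually_atTop.1 ((h1.eventually (eventually_le_nhds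
    (show 0 < ζ / 3 by positivity))).and ((BShape1_ev C3 B (by linarith)
      (show 0 < ζ / 3 * ζ' by positivity)).and (eventually_ge_atTop 1)))
  refine ⟨n0, fun n hn x z hx hxz hz hs => ?_⟩
  obtain ⟨e1, e2, hn1⟩ := hn0 n hn
  have hn0' : (0 : ℝ) < n := by exact_mod_cast hn1
  have hκn : 0 < κ * n := by positivity
  set a : ℝ := ((z.1 - x.1 : ℤ) : ℝ) with ha
  set θ : ℝ := ((z.2 - x.2 : ℤ) : ℝ) / a with hθ
  have ha0 : 0 < a := by rw [ha]; exact_mod_cast sub_pos.2 hxz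
  have han : a ≤ n := by rw [ha]; push_cast; linarith
  have hθB : |θ| ≤ B := (hd.abs_le_thp hS hs).trans (le_max_right _ _)
  have erv : rv (z - x) = (a, θ * a) := by
    rw [hθ, div_mul_cancel₀ _ ha0.ne', ha]; rfl
  have hs' : |slp (mu G) θ| < m := hs.trans_lt hS
  have hdot : dot (rho (mu G) (slp (mu G) θ)) (rv (z - x)) = mu G (rv (z - x)) := by
    rw [erv]; exact hd.dot_rho_eq hs' rfl ha0.le
  have hθa : |θ * a| ≤ B * n := by
    rw [abs_mul, abs_of_pos ha0]; gcongr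
  have haB : |a| ≤ B * n := by
    rw [abs_of_pos ha0]; nlinarith
  have hnr : (nrm (z - x) : ℝ) ≤ B * n :=
    BShape1_nrm (d := z - x) haB (by
      have := congrArg Prod.snd erv
      simp only [rv] at this
      rwa [this])
  have hmu : mu G (rv (z - x)) ≤ m * (2 * B * n) := by
    refine (hd.le_m1_norm _).trans (mul_le_mul_of_nonneg_left ?_ hm.le)
    rw [erv]; linarith
  have p3 : Pr G {t | mu G (rv (z - x)) + ζ' * n ≤ T t x z} ≤ ζ / 3 := by
    refine (H3 x z _ (by positivity)).trans ((div_le_iff₀ (by positivity)).2 ?_)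
    refine le_trans ?_ (e2.trans (le_of_eq (by ring)))
    gcongr
  have p1 := (H x (ζ' * n) (by positivity)).trans e1
  have p2 := (H z (ζ' * n) (by positivity)).trans e1
  refine (Pr_le_add_of_ae G (B := _ ∪ _) ?_).trans
    ((add_le_add ((Pr_union_le G _ _).trans (add_le_add p1 p2)) p3).trans (le_of_eq (by ring)))
  filter_upwards [ae_reg G] with t ht hbad
  by_contra hcon
  simp only [Set.mem_union, Set.mem_ofPred_eq, not_or, not_exists, not_le] at hcon
  obtain ⟨⟨g1, g2⟩, g3⟩ := hcon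
  obtain ⟨hgeo, k0, k1⟩ := geo_spec G ht x z
  have hnn : NN t := ht.1.nn
  refine hbad fun i hi => ?_
  set p := (geo t x z).p i with hp
  have e3 : T t x p + T t p z = T t x z := by
    have c1 := hgeo.cost_eq hnn (Nat.zero_le i) hi
    have c2 := hgeo.cost_eq hnn hi le_rfl
    have c3 := hgeo.cost_eq hnn (Nat.zero_le _) le_rfl
    have c4 := (geo t x z).cost_add t (Nat.zero_le i) hi
    rw [c1, c2, c3, k0, k1] at c4
    exact c4
  have g1' := g1 p
  have g2' := g2 p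
  rw [T_symm t z p, BShape1_neg hd.ok p z, nrm_sub_comm p z] at g2'
  have n1 := hd.m1_norm_le (rv (p - x))
  have n2 := hd.m1_norm_le (rv (z - p))
  rw [norm_rv] at n1 n2
  have b1 := hd.ex_back hs' (rv (p - x))
  have b2 := hd.ex_back hs' (rv (z - p))
  have esum : dot (rho (mu G) (slp (mu G) θ)) (rv (p - x)) +
      dot (rho (mu G) (slp (mu G) θ)) (rv (z - p)) = mu G (rv (z - x)) := by
    rw [← dot_add, ← rv_add, ← hdot]
    congr 2
    abel
  by_contra hout
  have hmax : κ * n ≤ max (-(rv (p - x)).1) 0 + max (-(rv (z - p)).1) 0 := by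
    have q1 := le_max_left (-(rv (p - x)).1) 0
    have q2 := le_max_left (-(rv (z - p)).1) 0
    have q3 := le_max_right (-(rv (p - x)).1) 0
    have q4 := le_max_right (-(rv (z - p)).1) 0
    have r1 : (rv (p - x)).1 = (p.1 : ℝ) - x.1 := by simp [rv]
    have r2 : (rv (z - p)).1 = (z.1 : ℝ) - p.1 := by simp [rv]
    simp only [strip, Set.mem_ofPred_eq, not_and_or, not_le] at hout
    rcases hout with h | h
    · have : (p.1 : ℝ) < 0 := by exact_mod_cast h
      linarith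
    · have : (n : ℝ) < p.1 := by exact_mod_cast h
      linarith
  have hex : mu G (rv (z - x)) + g * n ≤ mu G (rv (p - x)) + mu G (rv (z - p)) := by
    have q1 : 2 * (m - S) * (κ * n) ≤ 2 * (m - |slp (mu G) θ|) *
        (max (-(rv (p - x)).1) 0 + max (-(rv (z - p)).1) 0) :=
      mul_le_mul (by linarith) hmax hκn.le (by linarith)
    rw [hg]
    linarith
  have f1 : m * (mu G (rv (p - x)) + mu G (rv (z - p))) <
      m * (mu G (rv (z - x)) + 3 * ζ' * n) + ζ' * (mu G (rv (p - x)) + mu G (rv (z - p))) := by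
    have q1 : mu G (rv (p - x)) + mu G (rv (z - p)) <
        mu G (rv (z - x)) + 3 * ζ' * n + ζ' * (nrm (p - x) + nrm (z - p)) := by linarith
    have q2 := mul_lt_mul_of_pos_left q1 hm
    have q3 := mul_le_mul_of_nonneg_left (add_le_add n1 n2) hζ0.le
    linarith
  have f2 := mul_le_mul_of_nonneg_left hex (show 0 ≤ m - ζ' by linarith)
  have f3 := mul_le_mul_of_nonneg_left hmu hζ0.le
  have f4 := mul_le_mul_of_nonneg_right hζ1 (show 0 ≤ g * n by positivity)
  have f5 := mul_le_mul_of_nonneg_right hζ2 (show 0 ≤ m * n by positivity)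
  linarith

theorem BShape1_base (hd : DN (mu G)) {S ζ : ℝ} (hS : S < m1 (mu G)) (hζ : 0 < ζ) :
    ∃ n0 : ℕ, ∀ n : ℕ, n0 ≤ n → ∀ w : ℤ, |slp (mu G) ((w : ℝ) / n)| ≤ S →
      Integrable (fun t => TD (strip 0 n) t (0, 0) (n, w)) (iidLaw G) ∧
      ∫ t, |TD (strip 0 n) t (0, 0) (n, w) - mu G ((n : ℝ), (w : ℝ))| ∂(iidLaw G) ≤ ζ * n := by
  have hm : 0 < m1 (mu G) := hd.m1_pos
  set m := m1 (mu G) with hm'
  set B : ℝ := max 1 (thp (mu G) S) with hB
  have hB1 : 1 ≤ B := le_max_left _ _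
  obtain ⟨C, hC, H⟩ := strip_moment G
  obtain ⟨C4, hC4, H4⟩ := integral_abs_T_sub_mu G
  set κ : ℝ := min (1 / 8) (ζ / (6 * ((4 * C + 5 * m) * B))) with hκ
  have hκ0 : 0 < κ := lt_min (by norm_num) (by positivity)
  have hκ1 : κ ≤ 1 / 8 := min_le_left _ _
  have hκ2 : κ * (6 * ((4 * C + 5 * m) * B)) ≤ ζ :=
    (le_div_iff₀ (by positivity)).1 (min_le_right _ _)
  obtain ⟨n1, H1⟩ := Pr_geo_leaves_strip hd hS hκ0
    (show 0 < (ζ / (6 * C * B)) ^ 5 by positivity)
  obtain ⟨n0, hn0⟩ := eventually_atTop.1 ((BShape1_ev (3 * C4) (2 * B) (by linarith)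
    (show 0 < ζ / 3 by positivity)).and ((eventually_ge_atTop n1).and ((eventually_ge_atTop 4).and
      ((tendsto_natCast_atTop_atTop.const_mul_atTop hκ0).eventually_ge_atTop 1))))
  refine ⟨n0, fun n hn w hs => ?_⟩
  obtain ⟨e1, hn1, hn4, hκn⟩ := hn0 n hn
  have hn4' : (4 : ℝ) ≤ n := by exact_mod_cast hn4
  have hn0' : (0 : ℝ) < n := by linarith
  set θ : ℝ := (w : ℝ) / n with hθ
  have hθB : |θ| ≤ B := (hd.abs_le_thp hS hs).trans (le_max_right _ _)
  have hw : (w : ℝ) = θ * n := by rw [hθ, div_mul_cancel₀ _ hn0'.ne']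
  set j : ℤ := ⌈κ * n⌉ with hj
  have hj1 : κ * n ≤ j := Int.le_ceil _
  have hj2 : (j : ℝ) ≤ κ * n + 1 := (Int.ceil_lt_add_one _).le
  have hj3 : (1 : ℝ) ≤ j := hκn.trans hj1
  have hj4 : 2 * (j : ℝ) < n := by nlinarith
  have hj3' : 1 ≤ j := by exact_mod_cast hj3
  have hj4' : 2 * j < n := by exact_mod_cast hj4
  obtain ⟨w', hw1, hw2⟩ := BShape1_round hd θ (show (0 : ℝ) < n - 2 * j by linarith)
  have hθj : |θ * (2 * j)| ≤ B * (2 * j) := by
    rw [abs_mul, abs_of_pos (show (0 : ℝ) < 2 * j by linarith)]; gcongr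
  have hθn : |(w : ℝ)| ≤ B * n := by
    rw [hw, abs_mul, abs_of_pos hn0']; gcongr
  have hBj : (j : ℝ) ≤ B * j := le_mul_of_one_le_left (by linarith) hB1
  have hBn : (n : ℝ) ≤ B * n := le_mul_of_one_le_left (by linarith) hB1
  have hww : |(w : ℝ) - w'| ≤ 3 * B * j := by
    rw [abs_le] at hw1 hθj ⊢
    constructor <;> linarith
  have hw' : |(w' : ℝ)| ≤ 2 * B * n := by
    have q : |θ * (n - 2 * j)| ≤ B * n := by
      rw [abs_mul, abs_of_pos (show (0 : ℝ) < n - 2 * j by linarith)]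
      exact mul_le_mul hθB (by linarith) (by linarith) (by linarith)
    rw [abs_le] at hw1 q ⊢
    constructor <;> linarith
  set x : V := (j, 0) with hx
  set z : V := (n - j, w') with hz
  have m0 : ((0, 0) : V) ∈ strip 0 n := ⟨le_rfl, by simp⟩
  have mx : x ∈ strip 0 n := ⟨by simp only [hx]; omega, by simp only [hx]; omega⟩
  have mz : z ∈ strip 0 n := ⟨by simp only [hz]; omega, by simp only [hz]; omega⟩
  have me : ((n, w) : V) ∈ strip 0 n := ⟨by simp, le_rfl⟩
  have h2 : (0 : ℤ) + 2 ≤ n := by omega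
  obtain ⟨i0, -⟩ := H 0 n h2 _ _ m0 me _ Set.inter_subset_left
  obtain ⟨i1, I1⟩ := H 0 n h2 _ _ m0 mx _ Set.inter_subset_left
  obtain ⟨i2, I2⟩ := H 0 n h2 _ _ mx mz _ Set.inter_subset_left
  obtain ⟨i3, I3⟩ := H 0 n h2 _ _ mz me _ Set.inter_subset_left
  refine ⟨i0, ?_⟩
  have hBad : MeasurableSet {t | ¬ (geo t x z).In (strip 0 n)} :=
    (measP_geo x z).measurableSet (q := fun _ γ => ¬ γ.In (strip 0 n)) fun γ =>
      MeasurableSet.const _
  have pB := H1 n hn1 x z hj1 (by simp only [hx, hz]; omega)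
    (by simp only [hz]; push_cast; linarith) (by
      have q1 : ((z.2 - x.2 : ℤ) : ℝ) = w' := by simp [hx, hz]
      have q2 : ((z.1 - x.1 : ℤ) : ℝ) = n - 2 * j := by simp only [hx, hz]; push_cast; ring
      rw [q1, q2]
      exact hw2.trans hs)
  have r1 : (nrm (x - (0, 0)) : ℝ) ≤ B * j := BShape1_nrm
    (by simp only [hx, Prod.fst_sub, sub_zero]; rw [abs_of_pos (by linarith)]; exact hBj)
    (by simp only [hx, Prod.snd_sub, sub_zero, Int.cast_zero, abs_zero]; positivity)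
  have r2 : (nrm (z - x) : ℝ) ≤ 2 * B * n := BShape1_nrm
    (by simp only [hx, hz, Prod.fst_sub]; push_cast; rw [abs_of_pos (by linarith)]; linarith)
    (by simp only [hx, hz, Prod.snd_sub, sub_zero]; exact hw')
  have r3 : (nrm (((n, w) : V) - z) : ℝ) ≤ 3 * B * j := BShape1_nrm
    (by simp only [hz, Prod.fst_sub]; push_cast; rw [abs_of_pos (by linarith)]; linarith)
    (by simp only [hz, Prod.snd_sub]; push_cast; exact hww)
  have r4 : (nrm (((n, w) : V) - (0, 0)) : ℝ) ≤ 2 * B * n := BShape1_nrm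
    (by simp only [Prod.fst_sub]; push_cast; rw [abs_of_pos (by linarith)]; linarith)
    (by simp only [Prod.snd_sub, sub_zero]; linarith)
  have erv : rv (((n, w) : V) - (0, 0)) = ((n : ℝ), (w : ℝ)) := by simp [rv]
  have J1 := I1 Set.univ MeasurableSet.univ
  have J3 := I3 Set.univ MeasurableSet.univ
  rw [Pr_univ, Real.one_rpow, mul_one, Measure.restrict_univ] at J1 J3
  have J2 : ∫ t in {t | ¬ (geo t x z).In (strip 0 n)}, TD (strip 0 n) t x z ∂(iidLaw G) ≤
      ζ / 3 * n := by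
    refine (I2 _ hBad).trans ?_
    have q : Pr G {t | ¬ (geo t x z).In (strip 0 n)} ^ ((1 : ℝ) / 5) ≤ ζ / (6 * C * B) := by
      refine (Real.rpow_le_rpow (Pr_nonneg G _) pB (by norm_num)).trans (le_of_eq ?_)
      rw [← Real.rpow_natCast, ← Real.rpow_mul (by positivity)]
      norm_num
    have q0 := Real.rpow_nonneg (Pr_nonneg G {t | ¬ (geo t x z).In (strip 0 n)}) ((1 : ℝ) / 5)
    calc _ ≤ C * (2 * B * n) * (ζ / (6 * C * B)) := by gcongr
      _ = _ := by field_simp; norm_num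
  have J4 : ∫ t, |T t x z - mu G (rv (z - x))| ∂(iidLaw G) ≤ C4 * (2 * B * n) ^ ((3 : ℝ) / 4) :=
    (H4 x z).trans (by gcongr)
  have J5 : ∫ t, |T t (0, 0) (n, w) - mu G ((n : ℝ), (w : ℝ))| ∂(iidLaw G) ≤
      C4 * (2 * B * n) ^ ((3 : ℝ) / 4) := by
    rw [← erv]
    exact (H4 _ _).trans (by gcongr)
  have hmu : mu G (rv (z - x)) - mu G ((n : ℝ), (w : ℝ)) ≤ m * (5 * B * j) := by
    refine (le_abs_self _).trans ((hd.abs_sub_le _ _).trans (mul_le_mul_of_nonneg_left ?_ hm.le))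
    have q1 : (rv (z - x)).1 - n = -(2 * j) := by simp only [rv, hx, hz, Prod.fst_sub]; push_cast; ring
    have q2 : (rv (z - x)).2 - w = -((w : ℝ) - w') := by simp [rv, hx, hz]
    simp only [q1, q2, abs_neg]
    rw [abs_of_pos (by linarith)]
    linarith
  have k2 := i2.indicator hBad
  have k4 := TTess_int G x z (mu G (rv (z - x)))
  have k5 := (TTess_int G (0, 0) (n, w) (mu G ((n : ℝ), (w : ℝ)))).const_mul 2
  have k6 : Integrable (fun _ : Env => m * (5 * B * j)) (iidLaw G) := integrable_const _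
  have main : ∫ t, |TD (strip 0 n) t (0, 0) (n, w) - mu G ((n : ℝ), (w : ℝ))| ∂(iidLaw G) ≤
      ∫ t, (TD (strip 0 n) t (0, 0) x +
        {t | ¬ (geo t x z).In (strip 0 n)}.indicator (fun t => TD (strip 0 n) t x z) t +
        TD (strip 0 n) t z (n, w) + |T t x z - mu G (rv (z - x))| +
        2 * |T t (0, 0) (n, w) - mu G ((n : ℝ), (w : ℝ))| + m * (5 * B * j)) ∂(iidLaw G) := by
    refine integral_mono_ae (i0.sub (integrable_const _)).abs
      (((((i1.add k2).add i3).add k4).add k5).add k6) ?_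
    filter_upwards [ae_reg G] with t ht
    have hnn : NN t := ht.1.nn
    have t1 := TD_triangle hnn (conn_strip m0 mx) (conn_strip mx me)
    have t2 := TD_triangle hnn (conn_strip mx mz) (conn_strip mz me)
    have t3 := T_le_TD hnn (conn_strip m0 me)
    have t4 : TD (strip 0 n) t x z ≤ T t x z +
        {t | ¬ (geo t x z).In (strip 0 n)}.indicator (fun t => TD (strip 0 n) t x z) t := by
      by_cases hb : (geo t x z).In (strip 0 n)
      · obtain ⟨hgeo, k0, k1⟩ := geo_spec G ht x z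
        have q1 := (hgeo.restrict hnn (Set.subset_univ _) hb).2.2.2
        have q2 := hgeo.2.2.2
        rw [k0, k1] at q1 q2
        rw [Set.indicator_of_notMem (by simpa using hb), ← q1, q2, add_zero]
        exact le_rfl
      · rw [Set.indicator_of_mem (by simpa using hb)]
        linarith [T_nonneg hnn x z]
    have t5 := le_abs_self (T t x z - mu G (rv (z - x)))
    have t6 := neg_le_abs (T t (0, 0) (n, w) - mu G ((n : ℝ), (w : ℝ)))
    have t7 := abs_nonneg (T t (0, 0) (n, w) - mu G ((n : ℝ), (w : ℝ)))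
    exact abs_le.2 ⟨by linarith, by linarith⟩
  have s5 := integral_add ((((i1.add k2).add i3).add k4).add k5) k6
  have s4 := integral_add (((i1.add k2).add i3).add k4) k5
  have s3 := integral_add ((i1.add k2).add i3) k4
  have s2 := integral_add (i1.add k2) i3
  have s1 := integral_add i1 k2
  simp only [Pi.add_apply] at s5 s4 s3 s2 s1
  rw [s5, s4, s3, s2, s1, integral_indicator hBad, integral_const_mul,
    integral_const, probReal_univ, one_smul] at main
  have f1 := mul_le_mul_of_nonneg_left r1 hC.le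
  have f3 := mul_le_mul_of_nonneg_left r3 hC.le
  have f4 : (4 * C + 5 * m) * B * j ≤ (4 * C + 5 * m) * B * (2 * (κ * n)) := by
    have : (j : ℝ) ≤ 2 * (κ * n) := by linarith
    gcongr
  have f5 := mul_le_mul_of_nonneg_right hκ2 hn0'.le
  linarith

theorem strip_shape (hd : DN (mu G)) {S ζ : ℝ} (hS : S < m1 (mu G)) (hζ : 0 < ζ) :
    ∃ n0 : ℕ, ∀ n : ℕ, n0 ≤ n → ∀ (k y w : ℤ), |slp (mu G) ((w : ℝ) / n)| ≤ S →
      Integrable (fun t => TD (strip k (k + n)) t (k, y) (k + n, y + w)) (iidLaw G) ∧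
      ∫ t, |TD (strip k (k + n)) t (k, y) (k + n, y + w) - mu G ((n : ℝ), (w : ℝ))| ∂(iidLaw G) ≤
        ζ * n := by
  obtain ⟨n0, H⟩ := BShape1_base hd hS hζ
  refine ⟨n0, fun n hn k y w hs => ?_⟩
  obtain ⟨h1, h2⟩ := H n hn w hs
  have e : ∀ t, TD (strip k (k + n)) t (k, y) (k + n, y + w) =
      TD (strip 0 n) (act (tr (k, y)) t) (0, 0) (n, w) := fun t => by
    have := TD_act (isAut_tr (k, y)) (strip k (k + n)) t (0, 0) (n, w)
    rw [preimage_tr_strip] at this
    simp only [sub_self, add_sub_cancel_left, tr_apply, Prod.mk_add_mk, zero_add] at this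
    rw [this, add_comm (n : ℤ) k, add_comm w y]
  simp only [e]
  refine ⟨(integrable_act G (tr (k, y)) _).2 h1, ?_⟩
  rw [integral_act G (tr (k, y))
    (fun t => |TD (strip 0 n) t (0, 0) (n, w) - mu G ((n : ℝ), (w : ℝ))|)]
  exact h2

end Crest.Agent.R151
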