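import Crest.Agent.R151.BW1
import Crest.Agent.R151.BFld2

/-! Row 151, part B: lowering weights in a tube does not help distant competitors (deterministic). -/

set_option autoImplicit false

namespace Crest.Agent.R151

open MeasureTheory ProbabilityTheory Crest.ProbabilityR.FirstPassage Filter Topology
open scoped Classical

/-- the points of the tube of half-width `w` on the columns `[m+2, n]` -/
noncomputable def tubeV (θ w : ℝ) (m n : ℕ) : Finset V :=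
  ((Finset.Icc ((m : ℤ) + 2) n) ×ˢ (Finset.Icc (-⌈|θ| * n + w⌉) ⌈|θ| * n + w⌉)).filter
    (fun x => |(x.2 : ℝ) - θ * x.1| ≤ w)

theorem mem_tubeV {θ w : ℝ} {m n : ℕ} {x : V} :
    x ∈ tubeV θ w m n ↔ (m : ℤ) + 2 ≤ x.1 ∧ x.1 ≤ n ∧ |(x.2 : ℝ) - θ * x.1| ≤ w := by
  simp only [tubeV, Finset.mem_filter, Finset.mem_product, Finset.mem_Icc]
  constructor
  · rintro ⟨⟨⟨h1, h2⟩, -⟩, h3⟩
    exact ⟨h1, h2, h3⟩
  · rintro ⟨h1, h2, h3⟩
    refine ⟨⟨⟨h1, h2⟩, ?_⟩, h3⟩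
    have h4 : (0 : ℝ) ≤ x.1 := by exact_mod_cast (by omega : (0 : ℤ) ≤ x.1)
    have h5 : (x.1 : ℝ) ≤ n := by exact_mod_cast h2
    have h6 : |θ * x.1| ≤ |θ| * n := by
      rw [abs_mul, abs_of_nonneg h4]
      exact mul_le_mul_of_nonneg_left h5 (abs_nonneg _)
    have h7 := Int.le_ceil (|θ| * n + w)
    rw [abs_le] at h3 h6
    have h8 : |(x.2 : ℝ)| ≤ (⌈|θ| * n + w⌉ : ℤ) := abs_le.2 ⟨by linarith, by linarith⟩
    exact abs_le.1 (by exact_mod_cast h8)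

theorem card_tubeV_le (θ : ℝ) {w : ℝ} (hw : 0 ≤ w) (m n : ℕ) :
    ((tubeV θ w m n).card : ℝ) ≤ n * (2 * w + 1) := by
  have h1 : ∀ c : ℤ, (((tubeV θ w m n).filter (fun x => x.1 = c)).card : ℝ) ≤ 2 * w + 1 := by
    intro c
    have h2 : ((tubeV θ w m n).filter (fun x => x.1 = c)).card ≤
        (Finset.Icc ⌈θ * c - w⌉ ⌊θ * c + w⌋).card := by
      refine Finset.card_le_card_of_injOn Prod.snd (fun x hx => ?_) (fun x hx z hz h => ?_)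
      · simp only [Finset.coe_filter, Set.mem_ofPred_eq, mem_tubeV] at hx
        obtain ⟨⟨-, -, h3⟩, rfl⟩ := hx
        rw [abs_le] at h3
        simp only [Finset.coe_Icc, Set.mem_Icc, Int.ceil_le, Int.le_floor]
        constructor <;> linarith
      · simp only [Finset.coe_filter, Set.mem_ofPred_eq] at hx hz
        exact Prod.ext (hx.2.trans hz.2.symm) h
    refine (Nat.cast_le.2 h2).trans ?_
    rw [Int.card_Icc]
    have h3 := Int.le_ceil (θ * c - w)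
    have h4 := Int.floor_le (θ * c + w)
    rcases le_total 0 (⌊θ * c + w⌋ + 1 - ⌈θ * c - w⌉) with h | h
    · have : (((⌊θ * c + w⌋ + 1 - ⌈θ * c - w⌉).toNat : ℤ) : ℝ) = ⌊θ * c + w⌋ + 1 - ⌈θ * c - w⌉ := by
        rw [Int.toNat_of_nonneg h]
        push_cast
        ring
      rw [Int.cast_natCast] at this
      linarith
    · rw [Int.toNat_eq_zero.2 h]
      simp only [Nat.cast_zero]
      linarith
  rw [Finset.card_eq_sum_card_fiberwise (f := Prod.fst) (t := Finset.Icc ((m : ℤ) + 2) n)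
    (fun x hx => by
      have := mem_tubeV.1 (Finset.mem_coe.1 hx)
      simp only [Finset.coe_Icc, Set.mem_Icc]
      exact ⟨this.1, this.2.1⟩)]
  push_cast
  refine (Finset.sum_le_card_nsmul _ _ _ fun c _ => h1 c).trans ?_
  rw [nsmul_eq_mul, Int.card_Icc]
  refine mul_le_mul_of_nonneg_right ?_ (by linarith)
  exact_mod_cast (by omega : ((n : ℤ) + 1 - ((m : ℤ) + 2)).toNat ≤ n)

/-- the events in the original environment that are used to bound the slack -/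
def SlackGood (G : Measure ℝ) (C s0 e θ κ ζ : ℝ) (A0 n : ℕ) (L R : ℤ) : Set Env :=
  {t | act rfl1 t ∈ PL (mu G) 1 (1 - L) (-(s0 + 2 * e)) (-(s0 - 2 * e)) (-(s0 + e)) (-(s0 - e)) ζ
      (4 * ((A0 * n : ℕ) : ℝ)) (A0 * n) ∧
    t ∈ PL (mu G) (2 * n) R (s0 - 2 * e) (s0 + 2 * e) (s0 - e) (s0 + e) ζ
      (4 * ((A0 * n : ℕ) : ℝ)) (A0 * n) ∧
    ∀ u : ℤ, |u| ≤ ((⌈1 / κ⌉₊ + 1 : ℕ) : ℤ) →
      t ∈ UpTo G C 0 (A0 * n) (2 * n, u * (⌈κ * n⌉₊ : ℤ) + ⌊θ * (2 * n)⌋)}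

variable {G : Measure ℝ} [Law G]

theorem BSlack_arith {PL PL' PR PR' tot c1 c2 c3 c4 μ0 μ1 μ2 ρ1 s0 x1 x2 yf yf' w0 w' n a a' e ζ δ
    m w D An m1 Cc : ℝ} (he : 0 < e) (hζ : 0 < ζ) (hζe : ζ ≤ e) (ha : 0 ≤ a) (ha' : 0 ≤ a')
    (hn : n ≤ An)
    (A1 : s0 * (yf' - yf) - 2 * e * a - ζ * (a + 4 * An) ≤ PL' - PL)
    (A2 : -(s0 * (w' - w0)) - 2 * e * a' - ζ * (a' + 4 * An) ≤ PR' - PR)
    (B1 : ρ1 * x1 + s0 * (x2 - yf') + 102 * e * (a - δ * n - m - w - δ * x1) ≤ μ1)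
    (B2 : ρ1 * (2 * n - x1) + s0 * (w' - x2) +
      102 * e * (a' - δ * n - D - w - δ * (2 * n - x1)) ≤ μ2)
    (B0 : μ0 ≤ ρ1 * (2 * n) + s0 * (w0 - yf) + 2 * m1 * (D + m))
    (U : tot ≤ PL + (μ0 + Cc) + PR) (L1 : PL' ≤ c1) (L2 : μ1 - ζ * (a + 3 * An + n) ≤ c2)
    (L3 : μ2 - ζ * (a' + 3 * An + n) ≤ c3) (L4 : PR' ≤ c4) :
    tot + 98 * e * a - (102 * e * (2 * w + 4 * δ * n + D + m) + 2 * m1 * (D + m) + 16 * ζ * An + Cc) ≤
      c1 + c2 + c3 + c4 := by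
  have h1 := mul_nonneg (sub_nonneg.2 hζe) ha
  have h2 := mul_nonneg (sub_nonneg.2 hζe) ha'
  have h3 := mul_nonneg he.le ha'
  have h4 := mul_nonneg hζ.le (sub_nonneg.2 hn)
  linarith

theorem BSlack_max (s e : ℝ) (p q : ℤ) :
    -(s + 2 * e) * max ((p - q : ℤ) : ℝ) 0 + (s - 2 * e) * max ((q - p : ℤ) : ℝ) 0 =
      -(s * ((p : ℝ) - q)) - 2 * e * |((p - q : ℤ) : ℝ)| := by
  push_cast
  rcases le_total 0 ((p : ℝ) - q) with h | h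
  · rw [max_eq_left h, max_eq_right (by linarith), abs_of_nonneg h]
    ring
  · rw [max_eq_right h, max_eq_left (by linarith), abs_of_nonpos h]
    ring

theorem BSlack_nrm (v : V) : (nrm v : ℝ) ≤ |(v.1 : ℝ)| + |(v.2 : ℝ)| := by
  rw [← norm_rv, rv, Prod.norm_def]
  exact max_le (le_add_of_nonneg_right (abs_nonneg _)) (le_add_of_nonneg_left (abs_nonneg _))

theorem BSlack_neg {μ : ℝ × ℝ → ℝ} (h : NormOK μ) (a b : ℝ) : μ (-a, -b) = μ (a, b) := by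
  rw [h.refl1, h.refl2]

omit [Law G] in
theorem BSlack_cost {t t' : Env} {θ w : ℝ} {m n : ℕ} (hlow : Low G (edgesIn (tubeV θ w m n)) t t')
    (γ : Pth) {a b : ℕ} (h : ∀ i, a ≤ i → i < b → γ.p i ∉ tubeV θ w m n) :
    γ.cost t' a b = γ.cost t a b := by
  refine γ.cost_congr fun i h1 h2 => hlow.eq_of_notMem fun he => h i h1 h2 ?_
  obtain ⟨x, z, hx, hz, -, he⟩ := mem_edgesIn.1 he
  rcases Sym2.eq_iff.1 he with ⟨h3, -⟩ | ⟨h3, -⟩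
  · rwa [h3]
  · rwa [h3]

theorem BSlack_core (hd : DN (mu G)) {s0 e θ δ ζ C w D η lo hi : ℝ} {A0 m n : ℕ}
    {L R y w0 y' yf' yl' : ℤ} {t t' : Env} {Γ δ1 δ2 δ3 : Pth} {f g l i : ℕ} (he : 0 < e)
    (hs : |s0| + 102 * e ≤ Sk (mu G) 3) (hθ : slp (mu G) θ = s0)
    (hδ : thp (mu G) (s0 + 102 * e) - thm (mu G) (s0 - 102 * e) ≤ δ) (hζ : 0 < ζ) (hζe : ζ ≤ e)
    (hn : 1 ≤ n) (hA : 2 ≤ A0) (hw : |θ| * n + w ≤ A0 * n) (hm : δ * n + m ≤ A0 * n)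
    (hw0 : |w0| ≤ (A0 * n : ℕ)) (hD : |(w0 : ℝ) - y - θ * (2 * n)| ≤ D)
    (hL : L ≤ -(2 * A0 * n : ℤ)) (hR : (2 * A0 * n : ℤ) ≤ R) (ht : NN t) (ht' : NN t')
    (hlow : Low G (edgesIn (tubeV θ w m n)) t t')
    (hPL : act rfl1 t ∈ PL (mu G) 1 (1 - L) (-(s0 + 2 * e)) (-(s0 - 2 * e)) (-(s0 + e)) (-(s0 - e)) ζ
      (4 * ((A0 * n : ℕ) : ℝ)) (A0 * n))
    (hPR : t ∈ PL (mu G) (2 * n) R (s0 - 2 * e) (s0 + 2 * e) (s0 - e) (s0 + e) ζ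
      (4 * ((A0 * n : ℕ) : ℝ)) (A0 * n))
    (hU : t ∈ UpTo G C 0 (A0 * n) (2 * n, w0)) (hLow : t' ∈ LowL G ζ A0 0 n)
    (hlo : s0 - e ≤ lo) (hhi : hi ≤ s0 + e) (hy : |(y : ℝ)| ≤ δ * n)
    (h : WPath (mu G) t m η lo hi L R 0 y Γ f g l)
    (h1 : δ1.Joins (strip L 0) (L, (Γ.p 0).2) (0, yf'))
    (h2 : δ2.Joins (midR 0 y' m) (0, yf') (1, yl'))
    (h3 : δ3.Joins (strip 1 R) (1, yl') (R, (Γ.p Γ.n).2)) (hi3 : i ≤ δ3.n)
    (hx : δ3.p i ∈ tubeV θ w m n) :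
    Γ.tot t + 98 * e * |((yf' - (Γ.p f).2 : ℤ) : ℝ)| -
      (102 * e * (2 * w + 4 * δ * n + D + m) + 2 * m1 (mu G) * (D + m) +
        16 * ζ * ((A0 * n : ℕ) : ℝ) + C * ((A0 * n : ℕ) : ℝ) ^ ((3 : ℝ) / 4)) ≤
      δ1.tot t' + δ2.tot t' + δ3.tot t' := by
  have hS := hd.Sk_lt (k := 3) (by norm_num)
  have hm1 := hd.m1_pos
  have hs0 : |s0| < m1 (mu G) := by linarith
  have hsp : |s0 + 102 * e| < m1 (mu G) :=
    lt_of_le_of_lt ((abs_add_le _ _).trans (by rw [abs_of_pos (by linarith : 0 < 102 * e)])) (by linarith)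
  have hsm : |s0 - 102 * e| < m1 (mu G) :=
    lt_of_le_of_lt ((abs_sub _ _).trans (by rw [abs_of_pos (by linarith : 0 < 102 * e)])) (by linarith)
  have hex := hd.ex_dev (s := s0) (σ := 102 * e) (θ := θ) (by linarith) (by linarith)
    ((hd.thm_le_iff hsm θ).2 (by linarith)) ((hd.le_thp_iff hsp θ).2 (by linarith)) hδ
  have hn' : (1 : ℝ) ≤ n := by exact_mod_cast hn
  have hA' : (2 : ℝ) ≤ A0 := by exact_mod_cast hA
  have hAn : ((A0 * n : ℕ) : ℝ) = A0 * n := by push_cast; ring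
  have hAn2 : 2 * (n : ℝ) ≤ A0 * n := by nlinarith
  have hAnZ : 2 * (n : ℤ) ≤ A0 * n := by exact_mod_cast hAn2
  have hR2 : 2 * (n : ℤ) ≤ R := by linarith
  have hm0 : (0 : ℝ) ≤ m := Nat.cast_nonneg m
  obtain ⟨hx1, hx2, hx3⟩ := mem_tubeV.1 hx
  obtain ⟨k, hik, hk, hkc, hlast⟩ := exists_last_level (fun k => (δ3.p k).1) hi3
    (fun k _ _ => h3.1.col_step k) (2 * n : ℤ) (by omega) (by rw [h3.2.2.2]; exact hR2)
  obtain ⟨⟨x1, x2⟩, hxx⟩ : ∃ x, δ3.p i = x := ⟨_, rfl⟩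
  obtain ⟨⟨k1, w'⟩, hkk⟩ : ∃ x, δ3.p k = x := ⟨_, rfl⟩
  obtain ⟨⟨f1, yf⟩, hff⟩ : ∃ x, Γ.p f = x := ⟨_, rfl⟩
  have hf1 := h.fcol
  have hyf := h.heights.1
  have hleft := h.left_cost ht
  rw [hff] at hf1 hyf hleft ⊢
  rw [hkk] at hkc
  rw [hxx] at hx1 hx2 hx3
  simp only at hf1 hkc hx1 hx2 hx3 hyf hleft ⊢
  subst hf1 hkc
  have hx1' : (0 : ℝ) ≤ x1 := by exact_mod_cast (by omega : (0 : ℤ) ≤ x1)
  have hx2' : (x1 : ℝ) ≤ n := by exact_mod_cast hx2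
  have hyf' : |(yf : ℝ) - y| ≤ m := by exact_mod_cast hyf
  have hw0' : |(w0 : ℝ)| ≤ A0 * n := by exact_mod_cast hw0
  have hθx : |θ * x1| ≤ |θ| * n := by
    rw [abs_mul, abs_of_nonneg hx1']
    exact mul_le_mul_of_nonneg_left hx2' (abs_nonneg _)
  have hx2A : |(x2 : ℝ)| ≤ A0 * n := by
    rw [abs_le] at hx3 hθx ⊢
    constructor <;> linarith
  have hyfA : |(yf : ℝ)| ≤ A0 * n := by
    rw [abs_le] at hyf' hy ⊢
    constructor <;> linarith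
  have hyA : |y| ≤ (A0 * n : ℕ) := by
    have : |(y : ℝ)| ≤ A0 * n := by linarith
    exact_mod_cast this
  have hyfZ : |yf| ≤ (A0 * n : ℕ) := by exact_mod_cast hyfA
  have h0A : |(0 : ℤ)| ≤ (A0 * n : ℕ) := by simp only [abs_zero]; positivity
  have A1 := hPL yf (-0) y _ hyfZ (by rw [neg_zero]; exact h0A) hyA
    (h.sL.mono (by linarith) (by linarith)) yf'
  have A2 := hPR w0 0 y _ hw0 h0A hyA (h.sR.mono hlo hhi) w'
  have e1 := BSlack_max (-s0) e yf' yf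
  rw [show -(-s0 + 2 * e) = -(-(s0 - 2 * e)) * 1 - 0 - 0 by ring,
    show -s0 - 2 * e = -(s0 + 2 * e) by ring] at e1
  simp only [mul_one, sub_zero] at e1
  rw [e1] at A1
  rw [BSlack_max] at A2
  have hfn : f ≤ Γ.n := by have := h.fg; have := h.gl; have := h.ln; omega
  have hbox : ∀ a b : ℤ, |a| ≤ (A0 * n : ℕ) → |b| ≤ (A0 * n : ℕ) → ((a, b) : V) ∈ box 0 (A0 * n) :=
    fun a b ha hb => by
      show nrm ((a, b) - 0) ≤ A0 * n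
      rw [sub_zero]
      exact (nrm_le_iff _ _).2 ⟨ha, hb⟩
  obtain ⟨i', hi', hT⟩ := UpTo.exists_earlier G hU h.geo.1 hfn (by rw [hff]; exact hbox _ _ h0A hyfZ) (by
    have h4 : (1 : ℝ) ≤ ((A0 * n : ℕ) : ℝ) := by rw [hAn]; linarith
    have h5 : ((A0 * n : ℕ) : ℝ) ^ ((1 : ℝ) / 10) ≤ ((A0 * n : ℕ) : ℝ) := by
      simpa using Real.rpow_le_rpow_of_exponent_le h4 (show (1 : ℝ) / 10 ≤ 1 by norm_num)
    refine h5.trans ?_
    have h6 := abs_fst_le_nrm (Γ.p 0 - Γ.p f)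
    rw [Prod.fst_sub, h.start, h.fcol, abs_le] at h6
    have h7 : ((A0 * n : ℕ) : ℤ) ≤ nrm (Γ.p 0 - Γ.p f) := by push_cast; linarith
    exact_mod_cast h7)
  have hB : Γ.p Γ.n = (R, (Γ.p Γ.n).2) := Prod.ext h.stop rfl
  have U : Γ.tot t ≤ Phi (act rfl1 t) 1 (1 - L) (Γ.p 0).2 yf +
      (mu G (2 * (n : ℝ), (w0 : ℝ) - yf) + C * ((A0 * n : ℕ) : ℝ) ^ ((3 : ℝ) / 4)) +
      Phi t (2 * n) R (Γ.p Γ.n).2 w0 := by
    have u1 := Γ.cost_add t (Nat.zero_le f) hfn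
    have u2 := Γ.cost_mono ht hi' (le_refl Γ.n)
    have u3 := h.geo.cost_eq ht (hi'.trans hfn) le_rfl
    have u4 := T_triangle ht (Γ.p i') (2 * n, w0) (Γ.p Γ.n)
    have u5 : T t (2 * n, w0) (R, (Γ.p Γ.n).2) ≤ Phi t (2 * n) R (Γ.p Γ.n).2 w0 :=
      T_le_TD ht (conn_strip ⟨le_rfl, hR2⟩ ⟨hR2, le_rfl⟩)
    rw [← hB] at u5
    rw [TD_left, sub_zero] at hleft
    have u6 : rv (((2 * n : ℤ), w0) - Γ.p f) = (2 * (n : ℝ), (w0 : ℝ) - yf) := by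
      rw [hff]
      simp [rv]
    rw [u6] at hT
    unfold T at u4 u5 hT
    unfold Pth.tot
    linarith
  have L1 : Phi (act rfl1 t) 1 (1 - L) (Γ.p 0).2 yf' ≤ δ1.tot t' := by
    have u1 := TD_le ht h1
    rw [TD_left, sub_zero] at u1
    refine u1.trans (BSlack_cost hlow δ1 fun j _ hj hmem => ?_).ge
    have u2 := (h1.2.1 j hj.le).2
    have u3 := (mem_tubeV.1 hmem).1
    omega
  have L4 : Phi t (2 * n) R (Γ.p Γ.n).2 w' ≤ δ3.cost t' k δ3.n := by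
    have u0 : ∀ j, k ≤ j → j ≤ δ3.n → (2 * n : ℤ) ≤ (δ3.p j).1 := fun j hj hj' => by
      rcases hj.eq_or_lt with rfl | hj
      · rw [hkk]
      · exact (hlast j hj hj').le
    have u1 := TD_le_cost ht (D := strip (2 * n) R) h3.1 hk le_rfl fun j hj hj' =>
      ⟨u0 j hj hj', (h3.2.1 j hj').2⟩
    rw [hkk, h3.2.2.2] at u1
    refine u1.trans (BSlack_cost hlow δ3 fun j hj hj' hmem => ?_).ge
    have u2 := u0 j hj hj'.le
    have u3 := (mem_tubeV.1 hmem).2.1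
    omega
  have hxb : ((x1, x2) : V) ∈ box 0 (A0 * n) := hbox _ _
    (by rw [abs_of_nonneg (by omega)]; push_cast; linarith) (by exact_mod_cast hx2A)
  have L2 : mu G ((x1 : ℝ), (x2 : ℝ) - yf') -
      ζ * (|((yf' - yf : ℤ) : ℝ)| + 3 * ((A0 * n : ℕ) : ℝ) + n) ≤ δ2.tot t' + δ3.cost t' 0 i := by
    have u1 := hLow _ hxb (0, yf')
    have u2 : rv (((0 : ℤ), yf') - (x1, x2)) = (-(x1 : ℝ), -((x2 : ℝ) - yf')) := by simp [rv]
    rw [u2, BSlack_neg hd.ok, T_symm] at u1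
    have u3 := T_triangle ht' (0, yf') (1, yl') (x1, x2)
    have u4 : T t' (0, yf') (1, yl') ≤ δ2.tot t' := TD_le ht' (h2.mono (Set.subset_univ _))
    have u5 := T_le_cost ht' h3.1 (Nat.zero_le i) hi3
    rw [h3.2.2.1, hxx] at u5
    have u6 := BSlack_nrm (((0 : ℤ), yf') - (x1, x2))
    simp only [Prod.fst_sub, Prod.snd_sub, zero_sub, Int.cast_neg, abs_neg, abs_of_nonneg hx1'] at u6
    have u7 : |((yf' - x2 : ℤ) : ℝ)| ≤ |((yf' - yf : ℤ) : ℝ)| + 2 * (A0 * n) := by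
      push_cast
      rw [abs_le] at hx2A hyfA ⊢
      have := le_abs_self ((yf' : ℝ) - yf)
      have := neg_abs_le ((yf' : ℝ) - yf)
      constructor <;> linarith
    have u8 := mul_le_mul_of_nonneg_left (show (nrm (((0 : ℤ), yf') - (x1, x2)) : ℝ) + n ≤
      |((yf' - yf : ℤ) : ℝ)| + 3 * ((A0 * n : ℕ) : ℝ) + n by rw [hAn]; linarith) hζ.le
    linarith
  have L3 : mu G (2 * (n : ℝ) - x1, (w' : ℝ) - x2) -
      ζ * (|((w' - w0 : ℤ) : ℝ)| + 3 * ((A0 * n : ℕ) : ℝ) + n) ≤ δ3.cost t' i k := by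
    have u1 := hLow _ hxb (2 * n, w')
    have u2 : rv (((2 * n : ℤ), w') - (x1, x2)) = (2 * (n : ℝ) - x1, (w' : ℝ) - x2) := by simp [rv]
    rw [u2] at u1
    have u5 := T_le_cost ht' h3.1 hik hk
    rw [hkk, hxx] at u5
    have u6 := BSlack_nrm (((2 * n : ℤ), w') - (x1, x2))
    have u9 : |((2 * n - x1 : ℤ) : ℝ)| ≤ A0 * n := by
      push_cast
      rw [abs_le]
      constructor <;> linarith
    simp only [Prod.fst_sub, Prod.snd_sub] at u6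
    have u7 : |((w' - x2 : ℤ) : ℝ)| ≤ |((w' - w0 : ℤ) : ℝ)| + 2 * (A0 * n) := by
      push_cast
      rw [abs_le] at hx2A hw0' ⊢
      have := le_abs_self ((w' : ℝ) - w0)
      have := neg_abs_le ((w' : ℝ) - w0)
      constructor <;> linarith
    have u8 := mul_le_mul_of_nonneg_left (show (nrm (((2 * n : ℤ), w') - (x1, x2)) : ℝ) + n ≤
      |((w' - w0 : ℤ) : ℝ)| + 3 * ((A0 * n : ℕ) : ℝ) + n by rw [hAn]; linarith) hζ.le
    linarith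
  have B1 : rho1 (mu G) s0 * x1 + s0 * ((x2 : ℝ) - yf') +
      102 * e * (|((yf' - yf : ℤ) : ℝ)| - δ * n - m - w - δ * x1) ≤
      mu G ((x1 : ℝ), (x2 : ℝ) - yf') := by
    have u1 := hex ((x1 : ℝ), (x2 : ℝ) - yf')
    simp only [dot, rho, abs_of_nonneg hx1'] at u1
    have u2 : |((yf' - yf : ℤ) : ℝ)| - δ * n - m - w ≤ |(x2 : ℝ) - yf' - θ * x1| := by
      push_cast
      have := le_abs_self ((x2 : ℝ) - yf' - θ * x1)
      have := neg_abs_le ((x2 : ℝ) - yf' - θ * x1)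
      have : |(yf' : ℝ) - yf| ≤ |(x2 : ℝ) - yf' - θ * x1| + (δ * n + m + w) := by
        rw [abs_le] at hx3 hyf' hy ⊢
        constructor <;> linarith
      linarith
    have u3 := mul_le_mul_of_nonneg_left u2 (show 0 ≤ 102 * e by linarith)
    linarith
  have B2 : rho1 (mu G) s0 * (2 * n - x1) + s0 * ((w' : ℝ) - x2) +
      102 * e * (|((w' - w0 : ℤ) : ℝ)| - δ * n - D - w - δ * (2 * n - x1)) ≤
      mu G (2 * (n : ℝ) - x1, (w' : ℝ) - x2) := by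
    have u1 := hex (2 * (n : ℝ) - x1, (w' : ℝ) - x2)
    simp only [dot, rho, abs_of_nonneg (show (0 : ℝ) ≤ 2 * n - x1 by linarith)] at u1
    have u2 : |((w' - w0 : ℤ) : ℝ)| - δ * n - D - w ≤ |(w' : ℝ) - x2 - θ * (2 * n - x1)| := by
      push_cast
      have := le_abs_self ((w' : ℝ) - x2 - θ * (2 * n - x1))
      have := neg_abs_le ((w' : ℝ) - x2 - θ * (2 * n - x1))
      have : |(w' : ℝ) - w0| ≤ |(w' : ℝ) - x2 - θ * (2 * n - x1)| + (δ * n + D + w) := by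
        rw [abs_le] at hx3 hD hy ⊢
        constructor <;> linarith
      linarith
    have u3 := mul_le_mul_of_nonneg_left u2 (show 0 ≤ 102 * e by linarith)
    linarith
  have B0 : mu G (2 * (n : ℝ), (w0 : ℝ) - yf) ≤ rho1 (mu G) s0 * (2 * n) + s0 * ((w0 : ℝ) - yf) +
      2 * m1 (mu G) * (D + m) := by
    have u1 := hd.dot_rho_eq hs0 hθ (show (0 : ℝ) ≤ 2 * n by linarith)
    have u2 := (abs_le.1 (hd.abs_sub_le (2 * (n : ℝ), (w0 : ℝ) - yf) (2 * (n : ℝ), θ * (2 * n)))).2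
    simp only [dot, rho, sub_self, abs_zero, zero_add] at u1 u2
    have u3 : |(w0 : ℝ) - yf - θ * (2 * n)| ≤ D + m := by
      rw [abs_le] at hD hyf' ⊢
      constructor <;> linarith
    have u4 := mul_le_mul_of_nonneg_left u3 hm1.le
    have u5 : |s0 * ((w0 : ℝ) - yf - θ * (2 * n))| ≤ m1 (mu G) * (D + m) := by
      rw [abs_mul]
      exact mul_le_mul hs0.le u3 (abs_nonneg _) hm1.le
    have u6 := (abs_le.1 u5).1
    linarith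
  have key := BSlack_arith he hζ hζe (abs_nonneg ((yf' - yf : ℤ) : ℝ)) (abs_nonneg ((w' - w0 : ℤ) : ℝ))
    (show (n : ℝ) ≤ ((A0 * n : ℕ) : ℝ) by rw [hAn]; linarith) (by linarith) A2 B1 B2 B0 U L1 L2 L3 L4
  have c1 := δ3.cost_add t' (Nat.zero_le i) hik
  have c2 := δ3.cost_add t' (Nat.zero_le k) hk
  unfold Pth.tot at key ⊢
  linarith

theorem BSlack_fin {tot rhs e a a1 δ n m κ m1 ζ A0 Cc : ℝ} (he : 0 < e) (hδ : 0 < δ) (hn : 0 ≤ n)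
    (hm : 0 ≤ m) (ha1 : 0 ≤ a1) (hm1 : 0 < m1) (hκδ : κ ≤ δ) (hκm : m1 * κ ≤ e * δ) (hζA : ζ * A0 = e * δ)
    (hC : Cc ≤ e * δ * n) (hn3 : 196 * e * m + (204 * e + 4 * m1) * (m + 2) ≤ n * (e * δ))
    (h4 : (4 * a1 + 20) * δ * n - 2 * m ≤ a)
    (key : tot + 98 * e * a - (102 * e * (2 * (a1 * δ * n) + 4 * δ * n + (κ * n + 2) + m) +
      2 * m1 * ((κ * n + 2) + m) + 16 * ζ * (A0 * n) + Cc) ≤ rhs) : tot ≤ rhs := by
  have h5 := mul_le_mul_of_nonneg_left h4 (show 0 ≤ 98 * e by linarith)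
  have h6 := mul_le_mul_of_nonneg_right hκm hn
  have h7 := mul_le_mul_of_nonneg_left (mul_le_mul_of_nonneg_right hκδ hn) he.le
  have h8 : ζ * (A0 * n) = e * δ * n := by rw [← hζA]; ring
  have h9 : 0 ≤ e * δ * n := by positivity
  have h10 : 0 ≤ a1 * (e * δ * n) := by positivity
  have h11 : 0 ≤ e * m := by positivity
  have h12 : 0 ≤ m1 * m := by positivity
  linarith

theorem BSlack_ev (K B : ℝ) (hB : 0 ≤ B) {ε : ℝ} (hε : 0 < ε) :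
    ∀ᶠ n : ℕ in atTop, K * (B * n) ^ ((3 : ℝ) / 4) ≤ ε * n := by
  have h1 : Tendsto (fun n : ℕ => K * B ^ ((3 : ℝ) / 4) * (n : ℝ) ^ (-((1 : ℝ) / 4))) atTop
      (𝓝 (K * B ^ ((3 : ℝ) / 4) * 0)) :=
    ((tendsto_rpow_neg_atTop (by norm_num)).comp tendsto_natCast_atTop_atTop).const_mul _
  rw [mul_zero] at h1
  filter_upwards [h1.eventually (Iio_mem_nhds hε), eventually_ge_atTop 1] with n h2 hn
  have hn' : (0 : ℝ) < n := by exact_mod_cast hn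
  have h3 : (n : ℝ) ^ ((3 : ℝ) / 4) = (n : ℝ) ^ (-((1 : ℝ) / 4)) * n := by
    rw [← Real.rpow_add_one hn'.ne']
    norm_num
  rw [Real.mul_rpow hB hn'.le, h3, ← mul_assoc, ← mul_assoc]
  exact mul_le_mul_of_nonneg_right (le_of_lt h2) hn'.le


theorem slack_nonneg (hd : DN (mu G)) : ∃ A0 : ℕ, 1 ≤ A0 ∧ ∀ A1 : ℕ, ∃ M2 : ℕ, 1 ≤ M2 ∧
    ∀ s0 e θ δ : ℝ, 0 < e → |s0| + 102 * e ≤ Sk (mu G) 3 → slp (mu G) θ = s0 →
    thp (mu G) (s0 + 102 * e) - thm (mu G) (s0 - 102 * e) ≤ δ → 0 < δ → A1 * δ ≤ 1 → δ ≤ 1 →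
    ∃ κ ζ : ℝ, 0 < κ ∧ κ ≤ 1 ∧ 0 < ζ ∧ ∀ (C : ℝ) (m : ℕ), ∃ n0 : ℕ, ∀ n : ℕ, n0 ≤ n →
      (∀ u : ℤ, |u| ≤ ((⌈1 / κ⌉₊ + 1 : ℕ) : ℤ) →
        (((2 * n : ℤ), u * (⌈κ * n⌉₊ : ℤ) + ⌊θ * (2 * n)⌋) : V) ∈ box 0 (A0 * n)) ∧
      ∀ L R : ℤ, L ≤ -(2 * A0 * n : ℤ) → (2 * A0 * n : ℤ) ≤ R → ∀ t t' : Env, NN t → NN t' →
        Low G (edgesIn (tubeV θ (A1 * δ * n) m n)) t t' → t ∈ SlackGood G C s0 e θ κ ζ A0 n L R →
        t' ∈ LowL G ζ A0 0 n → ∀ (η lo hi : ℝ) (y : ℤ) (Γ : Pth) (f g l : ℕ), s0 - e ≤ lo →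
        hi ≤ s0 + e → |(y : ℝ)| ≤ δ * n → WPath (mu G) t m η lo hi L R 0 y Γ f g l →
        ∀ y' yf' yl' : ℤ, M2 * δ * n < |((y' - y : ℤ) : ℝ)| → |yf' - y'| ≤ m → |yl' - y'| ≤ m →
          Γ.tot t ≤ Rte t' m L R (Γ.p 0).2 (Γ.p Γ.n).2 y' yf' yl' := by
  have hS := hd.Sk_lt (k := 3) (by norm_num)
  have hm1 := hd.m1_pos
  obtain ⟨A0, hA0⟩ : ∃ A0 : ℕ, A0 = ⌈2 * thp (mu G) (Sk (mu G) 3)⌉₊ + 5 := ⟨_, rfl⟩
  refine ⟨A0, by omega, fun A1 => ⟨4 * A1 + 20, by omega, ?_⟩⟩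
  intro s0 e θ δ he hs hθ hδ hδ0 hA1 hδ1
  have hθA : 2 * |θ| + 5 ≤ A0 := by
    have h1 := hd.abs_le_thp hS (θ := θ) (by rw [hθ]; linarith)
    have h2 := Nat.le_ceil (2 * thp (mu G) (Sk (mu G) 3))
    rw [hA0]
    push_cast
    linarith
  have hθ0 := abs_nonneg θ
  have hA5 : (5 : ℝ) ≤ A0 := by linarith
  obtain ⟨κ, hκ⟩ : ∃ κ : ℝ, κ = e * δ / (m1 (mu G) + e) := ⟨_, rfl⟩
  obtain ⟨ζ, hζ⟩ : ∃ ζ : ℝ, ζ = e * δ / A0 := ⟨_, rfl⟩
  have hκ0 : 0 < κ := by rw [hκ]; positivity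
  have hκe : κ * (m1 (mu G) + e) = e * δ := by rw [hκ]; field_simp
  have hκδ : κ ≤ δ := by
    rw [hκ, div_le_iff₀ (by positivity)]
    nlinarith [mul_pos hδ0 hm1]
  have hκm : m1 (mu G) * κ ≤ e * δ := by nlinarith [mul_pos hκ0 he]
  have hζ0 : 0 < ζ := by rw [hζ]; positivity
  have hζA : ζ * A0 = e * δ := by rw [hζ]; field_simp
  have hζe : ζ ≤ e := by
    rw [hζ, div_le_iff₀ (by positivity)]
    nlinarith
  refine ⟨κ, ζ, hκ0, hκδ.trans hδ1, hζ0, fun C m => ?_⟩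
  have hed := mul_pos he hδ0
  obtain ⟨n0, hn0⟩ := eventually_atTop.1 ((BSlack_ev C A0 (by linarith) hed).and
    ((tendsto_natCast_atTop_atTop (R := ℝ)).eventually_ge_atTop
      (max (max (1 / κ + 2) m) ((196 * e * m + (204 * e + 4 * m1 (mu G)) * (m + 2)) / (e * δ)))))
  refine ⟨n0, fun n hn => ?_⟩
  obtain ⟨hC, hn1⟩ := hn0 n hn
  simp only [max_le_iff] at hn1
  obtain ⟨⟨hn1, hn2⟩, hn3⟩ := hn1
  rw [div_le_iff₀ hed] at hn3
  clear hn0 hκ hζ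
  have hκi : 0 < 1 / κ := by positivity
  have hn4 : (1 : ℝ) ≤ n := by linarith
  have hn5 : 1 ≤ n := by exact_mod_cast hn4
  have hq1 : κ * n ≤ (⌈κ * n⌉₊ : ℝ) := Nat.le_ceil _
  have hq2 : (⌈κ * n⌉₊ : ℝ) ≤ κ * n + 1 := (Nat.ceil_lt_add_one (by positivity)).le
  have hf1 := Int.floor_le (θ * (2 * n))
  have hf2 := Int.lt_floor_add_one (θ * (2 * n))
  have hgrid : ∀ u : ℤ, |u| ≤ ((⌈1 / κ⌉₊ + 1 : ℕ) : ℤ) →
      |u * (⌈κ * n⌉₊ : ℤ) + ⌊θ * (2 * n)⌋| ≤ (A0 * n : ℕ) := by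
    intro u hu
    have h1 : |(u : ℝ)| ≤ 1 / κ + 2 := by
      have h2 : |(u : ℝ)| ≤ (⌈1 / κ⌉₊ : ℝ) + 1 := by exact_mod_cast hu
      have h3 := (Nat.ceil_lt_add_one hκi.le).le
      linarith
    have h2 : |(u : ℝ) * (⌈κ * n⌉₊ : ℝ)| ≤ (1 / κ + 2) * (κ * n + 1) := by
      rw [abs_mul, Nat.abs_cast]
      exact mul_le_mul h1 hq2 (Nat.cast_nonneg _) (by linarith)
    have h3 : (1 / κ + 2) * (κ * n + 1) = n + 2 * (κ * n) + (1 / κ + 2) := by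
      have : 1 / κ * κ = 1 := one_div_mul_cancel hκ0.ne'
      linear_combination (n : ℝ) * this
    have h4 := mul_le_mul_of_nonneg_right (hκδ.trans hδ1) (Nat.cast_nonneg (α := ℝ) n)
    have h5 : |θ * (2 * n)| = 2 * |θ| * n := by
      rw [abs_mul, abs_of_nonneg (by linarith : (0 : ℝ) ≤ 2 * n)]
      ring
    have h6 := le_abs_self (θ * (2 * n))
    have h7 := neg_abs_le (θ * (2 * n))
    have h8 := mul_le_mul_of_nonneg_right hθA (show (0 : ℝ) ≤ n by linarith)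
    have h9 : |(u : ℝ) * (⌈κ * n⌉₊ : ℝ) + (⌊θ * (2 * n)⌋ : ℝ)| ≤ A0 * n := by
      rw [abs_le] at h2 ⊢
      constructor <;> linarith
    exact_mod_cast h9
  have hAn2 : 2 * (n : ℝ) ≤ A0 * n :=
    mul_le_mul_of_nonneg_right (by linarith) (Nat.cast_nonneg n)
  have hAnZ : 2 * (n : ℤ) ≤ A0 * n := by exact_mod_cast hAn2
  refine ⟨fun u hu => ?_, ?_⟩
  · show nrm (_ - 0) ≤ A0 * n
    rw [sub_zero]
    refine (nrm_le_iff _ _).2 ⟨?_, hgrid u hu⟩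
    rw [abs_of_nonneg (by simp)]
    push_cast
    exact hAnZ
  intro L R hL hR t t' ht ht' hlow hgood hLow η lo hi y Γ f g l hlo hhi hy h y' yf' yl' hy' hyf' hyl'
  obtain ⟨hm, hL0, hR1⟩ := h.one_le
  refine le_of_forall_pos_le_add fun ε hε => ?_
  obtain ⟨δ1, δ2, δ3, h1, h2, h3, hlt⟩ := exists_route ht' hm hL0 (show (1 : ℤ) ≤ R by omega) (Γ.p 0).2 (Γ.p Γ.n).2
    hyf' hyl' hε
  refine le_trans ?_ hlt.le
  by_cases hx : ∃ i ≤ δ3.n, δ3.p i ∈ tubeV θ (A1 * δ * n) m n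
  · obtain ⟨i, hi3, hx⟩ := hx
    have hq0 : (0 : ℤ) < (⌈κ * n⌉₊ : ℤ) := by exact_mod_cast Nat.ceil_pos.2 (by positivity)
    obtain ⟨u, hu1, hu2⟩ : ∃ u : ℤ, u * (⌈κ * n⌉₊ : ℤ) ≤ y ∧ y < (u + 1) * (⌈κ * n⌉₊ : ℤ) :=
      ⟨y / _, Int.ediv_mul_le y hq0.ne', Int.lt_ediv_add_one_mul_self y hq0⟩
    have hu1' : (u : ℝ) * (⌈κ * n⌉₊ : ℝ) ≤ y := by exact_mod_cast hu1
    have hu2' : (y : ℝ) < (u + 1) * (⌈κ * n⌉₊ : ℝ) := by exact_mod_cast hu2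
    have hu : |u| ≤ ((⌈1 / κ⌉₊ + 1 : ℕ) : ℤ) := by
      have h4 := Nat.le_ceil (1 / κ)
      have h5 : (0 : ℝ) < (⌈κ * n⌉₊ : ℝ) := by exact_mod_cast hq0
      have h6 : (n : ℝ) ≤ 1 / κ * (⌈κ * n⌉₊ : ℝ) := by
        rw [div_mul_eq_mul_div, le_div_iff₀ hκ0]
        linarith
      have h7 := mul_le_mul_of_nonneg_right hδ1 (Nat.cast_nonneg (α := ℝ) n)
      rw [abs_le] at hy
      have h8 : (u : ℝ) ≤ 1 / κ := le_of_mul_le_mul_right (by linarith) h5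
      have h9 : -(1 / κ) ≤ (u : ℝ) + 1 := le_of_mul_le_mul_right (by linarith) h5
      have h10 : |(u : ℝ)| ≤ (⌈1 / κ⌉₊ : ℝ) + 1 := abs_le.2 ⟨by linarith, by linarith⟩
      exact_mod_cast h10
    have hn0' : (0 : ℝ) ≤ n := Nat.cast_nonneg n
    have hw : (A1 : ℝ) * δ * n ≤ n := by
      have := mul_le_mul_of_nonneg_right hA1 hn0'
      linarith
    have hδn : δ * n ≤ n := by
      have := mul_le_mul_of_nonneg_right hδ1 hn0'
      linarith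
    have hθn := mul_le_mul_of_nonneg_right hθA hn0'
    have hθn0 := mul_nonneg hθ0 hn0'
    have s1 : |θ| * n + A1 * δ * n ≤ A0 * n := by linarith
    have s2 : δ * n + m ≤ A0 * n := by linarith
    have s3 : |((u * (⌈κ * n⌉₊ : ℤ) + ⌊θ * (2 * n)⌋ : ℤ) : ℝ) - y - θ * (2 * n)| ≤ κ * n + 2 := by
      push_cast
      rw [abs_le]
      constructor <;> linarith
    have s4 : 2 ≤ A0 := by omega
    have key := BSlack_core hd he hs hθ hδ hζ0 hζe hn5 s4 s1 s2 (hgrid u hu) s3 hL hR ht ht' hlow hgood.1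
      hgood.2.1 (hgood.2.2 u hu) hLow hlo hhi hy h h1 h2 h3 hi3 hx
    have h4 : (4 * (A1 : ℝ) + 20) * δ * n - 2 * m ≤ |((yf' - (Γ.p f).2 : ℤ) : ℝ)| := by
      have h5 : |y' - y| ≤ |yf' - (Γ.p f).2| + 2 * m := by
        have h6 := h.heights.1
        have := le_abs_self (yf' - (Γ.p f).2)
        have := neg_abs_le (yf' - (Γ.p f).2)
        rw [abs_le] at hyf' h6 ⊢
        constructor <;> omega
      have h6 : |((y' - y : ℤ) : ℝ)| ≤ |((yf' - (Γ.p f).2 : ℤ) : ℝ)| + 2 * m := by exact_mod_cast h5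
      have h7 : ((4 * A1 + 20 : ℕ) : ℝ) = 4 * (A1 : ℝ) + 20 := by push_cast; ring
      rw [h7] at hy'
      linarith
    rw [Nat.cast_mul] at key
    exact BSlack_fin he hδ0 hn0' (Nat.cast_nonneg m) (Nat.cast_nonneg A1) hm1 hκδ hκm hζA hC hn3 h4 key
  · push Not at hx
    have c1 : δ1.tot t' = δ1.tot t := BSlack_cost hlow δ1 fun j _ hj hmem => by
      have u2 := (h1.2.1 j hj.le).2
      have u3 := (mem_tubeV.1 hmem).1
      omega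
    have c2 : δ2.tot t' = δ2.tot t := BSlack_cost hlow δ2 fun j _ hj hmem => by
      have u2 := (h2.2.1 j hj.le).2.1
      have u3 := (mem_tubeV.1 hmem).1
      omega
    have c3 : δ3.tot t' = δ3.tot t := BSlack_cost hlow δ3 fun j _ hj => hx j hj.le
    have hB : Γ.p Γ.n = (R, (Γ.p Γ.n).2) := Prod.ext h.stop rfl
    have hA : Γ.p 0 = (L, (Γ.p 0).2) := Prod.ext h.start rfl
    have u1 := T_triangle ht (L, (Γ.p 0).2) (0, yf') (R, (Γ.p Γ.n).2)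
    have u2 := T_triangle ht (0, yf') (1, yl') (R, (Γ.p Γ.n).2)
    have u3 : T t _ _ ≤ δ1.tot t := TD_le ht (h1.mono (Set.subset_univ _))
    have u4 : T t _ _ ≤ δ2.tot t := TD_le ht (h2.mono (Set.subset_univ _))
    have u5 : T t _ _ ≤ δ3.tot t := TD_le ht (h3.mono (Set.subset_univ _))
    have u6 : Γ.tot t = T t (L, (Γ.p 0).2) (R, (Γ.p Γ.n).2) := by
      rw [← hA, ← hB]
      exact h.geo.2.2.2
    linarith

/-- flips on the path create a gap -/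
theorem gap_of_flips {μ : ℝ × ℝ → ℝ} {t t' : Env} (ht' : NN t') {U H : Finset (Sym2 V)}
    (hlow : Low G U t t') {m : ℕ} {η lo hi K : ℝ} {L R y : ℤ} {Γ : Pth} {f g l : ℕ}
    (h : WPath μ t m η lo hi L R 0 y Γ f g l) (hH : H ⊆ Γ.edges) (hhi : ∀ e ∈ H, t e ∈ R151.hi G)
    (hK : K ≤ ((H.filter (fun e => t' e ∈ R151.lo G)).card : ℝ) * (h1 G - h0 G)) {Rr : ℕ} (Y : ℕ)
    (hs : ∀ y' yf' yl' : ℤ, (Rr : ℤ) < |y' - y| → |yf' - y'| ≤ m → |yl' - y'| ≤ m →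
      Γ.tot t ≤ Rte t' m L R (Γ.p 0).2 (Γ.p Γ.n).2 y' yf' yl') :
    t' ∈ Gap μ m K lo hi Rr Y L R y := by
  refine ⟨(Γ.p 0).2, (Γ.p Γ.n).2, (Γ.p f).2, (Γ.p (l + 1)).2, h.sR, by simpa using h.sL, h.heights.1,
    h.heights.2, fun y' yf' yl' h1 _ h2 h3 => ?_⟩
  have u1 := h.rte_le ht'
  have u2 := hlow.tot_le (h0_lt_h1 G) h.geo.1 h.geo.2.2.1 hH hhi
  have u3 := hs y' yf' yl' h1 h2 h3
  linarith

/-- a `W`-path in the tube has many high edges there -/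
theorem exists_hi_edges {μ : ℝ × ℝ → ℝ} {t : Env} {m n : ℕ} {η lo hi lo0 hi0 θ w w' : ℝ} {L R y : ℤ}
    {Γ : Pth} {f g l : ℕ} (h : WPath μ t m η lo hi L R 0 y Γ f g l) (hη : 0 ≤ η) (h1 : lo0 ≤ lo)
    (h2 : hi ≤ hi0) (hy : |y| ≤ n) (hw : w + |(y : ℝ)| ≤ w') (hn : 2 * m + 10 ≤ n) (hR : (n : ℤ) ≤ R)
    (htube : t ∈ Tube μ m lo0 hi0 θ w n L R)
    (hkes : ∀ x ∈ tubeV θ w' m n, t ∉ KesBad G x (n / 2)) :
    ∃ H : Finset (Sym2 V), H ⊆ Γ.edges ∧ H ⊆ edgesIn (tubeV θ w' m n) ∧ n / 5 ≤ H.card ∧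
      ∀ e ∈ H, t e ∈ R151.hi G := by
  have hstep : ∀ a b k : ℕ, a ≤ k → k < b → |(Γ.p (k + 1)).1 - (Γ.p k).1| ≤ 1 :=
    fun _ _ k _ _ => h.geo.1.col_step k
  have hl := h.lcol
  obtain ⟨b, hb1, hb2, hb3, hb4⟩ := exists_first_level (fun k => (Γ.p k).1)
    (show l + 1 ≤ Γ.n from h.ln) (hstep _ _) (n : ℤ) (by simp only [hl]; omega)
    (by simp only [h.stop]; exact hR)
  obtain ⟨a, ha1, ha2, ha3, ha4⟩ := exists_last_level (fun k => (Γ.p k).1) hb1 (hstep _ _)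
    ((m : ℤ) + 2) (by simp only [hl]; omega) (by simp only [hb3]; omega)
  have hmem : ∀ i, a ≤ i → i ≤ b → Γ.p i ∈ tubeV θ w' m n := by
    intro i hi1 hi2
    have u1 : (m : ℤ) + 2 ≤ (Γ.p i).1 := by
      rcases hi1.eq_or_lt with rfl | hi1
      · exact ha3.ge
      · exact (ha4 i hi1 hi2).le
    have u2 : (Γ.p i).1 ≤ n := by
      rcases hi2.eq_or_lt with rfl | hi2
      · exact hb3.le
      · exact (hb4 i (by omega) hi2).le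
    have u3 := htube y Γ f g l hy (h.mono hη h1 h2) i (by omega) (by omega) u2
    refine mem_tubeV.2 ⟨u1, u2, ?_⟩
    have := le_abs_self (y : ℝ)
    have := neg_abs_le (y : ℝ)
    rw [abs_le] at u3 ⊢
    constructor <;> linarith
  have hab : a + n / 2 ≤ b := by
    have u1 := h.geo.1.nrm_sub_le ha2
    have u2 := abs_fst_le_nrm (Γ.p b - Γ.p a)
    rw [Prod.fst_sub, ha3, hb3, abs_le] at u2
    omega
  set γ := Γ.sub a (a + n / 2) with hγ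
  have hγn : γ.n = n / 2 := by rw [hγ, Pth.sub_n]; omega
  have hok : γ.Ok := h.geo.1.sub a (by omega)
  have hsa : γ.SA := h.geo.2.2.1.sub (by omega) (by omega)
  have hcnt : n / 2 ≤ 2 * γ.nhi G t 0 (n / 2) := by
    by_contra hc
    exact hkes _ (hmem a le_rfl ha2) ⟨γ, hok, hsa, Γ.sub_p_zero _ _, hγn, by omega⟩
  refine ⟨((Finset.Ico 0 (n / 2)).filter (fun i => t (γ.edge i) ∈ R151.hi G)).image γ.edge,
    fun e he => ?_, fun e he => ?_, ?_, fun e he => ?_⟩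
  · obtain ⟨i, hi, rfl⟩ := Finset.mem_image.1 he
    simp only [Finset.mem_filter, Finset.mem_Ico] at hi
    exact Pth.sub_edges_subset a (show a + n / 2 ≤ Γ.n by omega)
      (Pth.mem_edges.2 ⟨i, lt_of_lt_of_eq hi.1.2 hγn.symm, rfl⟩)
  · obtain ⟨i, hi, rfl⟩ := Finset.mem_image.1 he
    simp only [Finset.mem_filter, Finset.mem_Ico] at hi
    rw [hγ, Γ.sub_edge _ _ (by omega)]
    exact mem_edgesIn.2 ⟨_, _, hmem (a + i) (by omega) (by omega),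
      hmem (a + i + 1) (by omega) (by omega), h.geo.1 _ (by omega), rfl⟩
  · rw [Finset.card_image_of_injOn fun i hi j hj hij => by
      simp only [Finset.coe_filter, Finset.mem_Ico, Set.mem_ofPred_eq] at hi hj
      exact Pth.edge_inj hok hsa (by omega) (by omega) hij]
    unfold Pth.nhi at hcnt
    omega
  · obtain ⟨i, hi, rfl⟩ := Finset.mem_image.1 he
    exact (Finset.mem_filter.1 hi).2

end Crest.Agent.R151
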