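import Crest.Agent.R151.BFld3

/-! Row 151, part B: elementary properties of `W`-paths. -/

set_option autoImplicit false

namespace Crest.Agent.R151

open MeasureTheory ProbabilityTheory Crest.ProbabilityR.FirstPassage Filter Topology
open scoped Classical

/-- geodesic with a gap at the step `g` -/
def BW1GG (t : Env) (η : ℝ) (Γ : Pth) (g : ℕ) : Prop :=
  IsGeo Set.univ t Γ ∧ ∀ δ : Pth, δ.Joins Set.univ (Γ.p 0) (Γ.p Γ.n) → Γ.edge g ∉ δ.edges →
    Γ.tot t + η ≤ δ.tot t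

theorem BW1_gg_act {σ : V ≃ V} (hσ : IsAut σ) {t : Env} {η : ℝ} {Γ : Pth} {g : ℕ}
    (h : BW1GG t η (Γ.map σ) g) : BW1GG (act σ t) η Γ g := by
  refine ⟨(isGeo_act hσ Set.univ t Γ).2 h.1, fun δ h1 h2 => ?_⟩
  rw [← Pth.map_tot, ← Pth.map_tot]
  refine h.2 _ ?_ ?_
  · rw [Pth.map_p, Pth.map_p, Pth.map_n]
    exact (Pth.map_joins hσ δ Set.univ _ _).2 h1
  · rw [Pth.map_edges, Pth.map_edge]
    intro h3
    obtain ⟨e, he, h4⟩ := Finset.mem_image.1 h3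
    exact h2 (Sym2.map.injective σ.injective h4 ▸ he)

theorem BW1_gg_rev {t : Env} {η : ℝ} {Γ : Pth} {g : ℕ} (hg : g < Γ.n) (h : BW1GG t η Γ g) :
    BW1GG t η Γ.rev (Γ.n - (g + 1)) := by
  refine ⟨h.1.rev, fun δ h1 h2 => ?_⟩
  rw [Pth.rev_n, Pth.rev_p _ (Nat.zero_le _), Pth.rev_p _ le_rfl, Nat.sub_zero, Nat.sub_self] at h1
  rw [Pth.rev_edge _ (by omega), show Γ.n - 1 - (Γ.n - (g + 1)) = g by omega] at h2
  rw [Pth.rev_tot, ← Pth.rev_tot δ]
  exact h.2 _ h1.rev (by rwa [Pth.rev_edges])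

theorem BW1_slope {μ : ℝ × ℝ → ℝ} {lo hi : ℝ} {N b xc yc N' b' xc' yc' : ℤ}
    (h : SlopeIn μ lo hi N b xc yc) (h1 : b' - yc' = b - yc) (h2 : N' - xc' = N - xc) :
    SlopeIn μ lo hi N' b' xc' yc' := by
  unfold SlopeIn at h ⊢
  rwa [h1, h2]

theorem BW1_back (v : V) (t : Env) : act (tr (-v)) (act (tr v) t) = t := by
  have : tr 0 = Equiv.refl V := by
    ext x : 1
    simp
  rw [act_tr_tr, neg_add_cancel, this, act_refl]

theorem BW1_tr {μ : ℝ × ℝ → ℝ} {t : Env} {m : ℕ} {η lo hi : ℝ} {L R j y : ℤ} {Γ : Pth}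
    {f g l : ℕ} (h : WPath μ t m η lo hi L R j y Γ f g l) (v : V) :
    WPath μ (act (tr v) t) m η lo hi (L - v.1) (R - v.1) (j - v.1) (y - v.2) (Γ.map (tr (-v)))
      f g l := by
  have h1 : ∀ i, ((Γ.map (tr (-v))).p i).1 = (Γ.p i).1 - v.1 := fun i => by
    rw [Pth.map_p, tr_apply, Prod.fst_add, Prod.fst_neg, sub_eq_add_neg]
  have h2 : ∀ i, ((Γ.map (tr (-v))).p i).2 = (Γ.p i).2 - v.2 := fun i => by
    rw [Pth.map_p, tr_apply, Prod.snd_add, Prod.snd_neg, sub_eq_add_neg]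
  have hn : (Γ.map (tr (-v))).n = Γ.n := rfl
  have h3 : (Γ.map (tr (-v))).map (tr v) = Γ := by
    refine Pth.ext' rfl fun i _ => ?_
    rw [Pth.map_p, Pth.map_p, tr_apply, tr_apply, neg_add_cancel_right]
  have h4 : BW1GG (act (tr v) t) η (Γ.map (tr (-v))) g :=
    BW1_gg_act (isAut_tr v) (by rw [h3]; exact ⟨h.geo, h.gap⟩)
  refine ⟨h4.1, fun i hi' => ?_, ?_, ?_, h.fg, h.gl, h.ln, fun i hi' => ?_, ?_, ?_,
    fun i a b => ?_, ?_, ?_, fun i a b => ?_, ?_, ?_, ?_, h4.2⟩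
  · have := h.ins i hi'
    simp only [strip, Set.mem_ofPred_eq, h1] at this ⊢
    omega
  · rw [h1, h.start]
  · rw [h1, hn, h.stop]
  · rw [h1]
    have := h.left i hi'
    omega
  · rw [h1, h.fcol]
  · rw [h1, h.lcol]
    omega
  · rw [h1]
    have := h.right i a b
    omega
  · rw [h1, h.lcol']
  · rw [h1, h.fcol']
    omega
  · have := h.mid i a b
    simp only [midR, rect, Set.mem_ofPred_eq, h1, h2] at this ⊢
    omega
  · rw [h1, h1]
    have := h.gcol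
    omega
  · exact BW1_slope h.sR (by rw [h2, hn]; omega) (by omega)
  · exact BW1_slope h.sL (by rw [h2]; omega) (by omega)

theorem BW1_tl {μ : ℝ × ℝ → ℝ} {m : ℕ} {η lo hi : ℝ} {H r : ℕ} {L R j y : ℤ} {t : Env}
    (h : t ∈ TL μ m η lo hi H r L R j y) (v : V) :
    act (tr v) t ∈ TL μ m η lo hi H r (L - v.1) (R - v.1) (j - v.1) (y - v.2) := by
  obtain ⟨y', Γ1, f1, g1, l1, Γ2, f2, g2, l2, i1, i2, a1, a2, a3, a4, a5, a6, a7, a8, a9, b1, b2⟩ := h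
  have e : y' - v.2 - (y - v.2) = y' - y := by ring
  have hb : ∀ x : V, x ∈ box (j, y) r → tr (-v) x ∈ box (j - v.1, y - v.2) r := by
    intro x hx
    have : tr (-v) x - (j - v.1, y - v.2) = x - (j, y) := by
      ext
      · simp only [tr_apply, Prod.fst_sub, Prod.fst_add, Prod.fst_neg]
        ring
      · simp only [tr_apply, Prod.snd_sub, Prod.snd_add, Prod.snd_neg]
        ring
    simp only [box, Set.mem_ofPred_eq] at hx ⊢
    rwa [this]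
  refine ⟨y' - v.2, _, f1, g1, l1, _, f2, g2, l2, i1, i2, by rwa [e], by rwa [e], BW1_tr a3 v,
    BW1_tr a4 v, a5, a6, a7, a8, ?_, fun i c1 c2 => ?_, fun i c1 c2 => ?_⟩
  · rw [Pth.map_p, Pth.map_p, a9]
  · rw [Pth.map_p]
    exact hb _ (b1 i c1 c2)
  · rw [Pth.map_p]
    exact hb _ (b2 i c1 c2)

theorem BW1_rte (t : Env) (m : ℕ) (L R a b y yf yl c : ℤ) :
    Rte (act (tr (0, c)) t) m L R a b y yf yl =
      Rte t m L R (a + c) (b + c) (y + c) (yf + c) (yl + c) := by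
  have h1 : ∀ u w : ℤ, strip u w = tr (0, c) ⁻¹' strip u w := fun u w => by
    rw [preimage_tr_strip, sub_zero, sub_zero]
  have h2 : midR 0 y m = tr (0, c) ⁻¹' midR 0 (y + c) m := by
    unfold midR
    rw [preimage_tr_rect]
    congr 1 <;> ring
  have h3 : ∀ (D : Set V) (u w u' w' : ℤ), TD (tr (0, c) ⁻¹' D) (act (tr (0, c)) t) (u, w) (u', w') =
      TD D t (u, w + c) (u', w' + c) := fun D u w u' w' => by
    rw [TD_act (isAut_tr _), tr_apply, tr_apply, Prod.mk_add_mk, Prod.mk_add_mk, add_zero, add_zero]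
  unfold Rte
  rw [← h3, ← h3, ← h3, ← h1, ← h1, ← h2]

theorem BW1_gap {μ : ℝ × ℝ → ℝ} {m : ℕ} {K lo hi : ℝ} {Rr Y : ℕ} {L R y c : ℤ} {t : Env}
    (h : act (tr (0, c)) t ∈ Gap μ m K lo hi Rr Y L R y) :
    t ∈ Gap μ m K lo hi Rr Y L R (y + c) := by
  obtain ⟨a, b, yf, yl, a1, a2, a3, a4, a5⟩ := h
  refine ⟨a + c, b + c, yf + c, yl + c, BW1_slope a1 (by ring) rfl, BW1_slope a2 (by ring) rfl,
    by rwa [add_sub_add_right_eq_sub], by rwa [add_sub_add_right_eq_sub],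
    fun y' yf' yl' b1 b2 b3 b4 => ?_⟩
  have := a5 (y' - c) (yf' - c) (yl' - c) (by rwa [sub_sub, add_comm c]) (by rwa [sub_sub, add_comm c])
    (by rwa [sub_sub_sub_cancel_right]) (by rwa [sub_sub_sub_cancel_right])
  rwa [BW1_rte, BW1_rte, sub_add_cancel, sub_add_cancel, sub_add_cancel] at this

theorem BW1_meas_rte (m : ℕ) (L R a b y yf yl : ℤ) :
    Measurable fun t => Rte t m L R a b y yf yl :=
  ((measurable_TD _ _ _).add (measurable_TD _ _ _)).add (measurable_TD _ _ _)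

theorem BW1_not_mem {δ : Pth} {D : Set V} (h : δ.In D) {x z : V} (hx : ¬ (x ∈ D ∧ z ∈ D)) :
    s(x, z) ∉ δ.edges := by
  intro h1
  obtain ⟨i, hi, h2⟩ := Pth.mem_edges.1 h1
  exact hx (mem_ED.1 (h2 ▸ h.edge_mem hi))

section
variable {μ : ℝ × ℝ → ℝ} {t : Env} {m : ℕ} {η lo hi : ℝ} {L R j y : ℤ} {Γ : Pth} {f g l : ℕ}

theorem SlopeIn.mono {lo' hi' : ℝ} {N b xc yc : ℤ} (h : SlopeIn μ lo hi N b xc yc) (h1 : lo' ≤ lo)
    (h2 : hi ≤ hi') : SlopeIn μ lo' hi' N b xc yc :=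
  ⟨h1.trans h.1, h.2.trans h2⟩
theorem WPath.mono (h : WPath μ t m η lo hi L R j y Γ f g l) {η' lo' hi' : ℝ} (h0 : η' ≤ η)
    (h1 : lo' ≤ lo) (h2 : hi ≤ hi') : WPath μ t m η' lo' hi' L R j y Γ f g l :=
  { h with
    sR := h.sR.mono h1 h2
    sL := h.sL.mono (neg_le_neg h2) (neg_le_neg h1)
    gap := fun δ a b => le_trans (by linarith) (h.gap δ a b) }
theorem Wev_mono {η' lo' hi' : ℝ} (h0 : η' ≤ η) (h1 : lo' ≤ lo) (h2 : hi ≤ hi') :
    Wev μ m η lo hi L R j y ⊆ Wev μ m η' lo' hi' L R j y :=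
  fun _ ⟨Γ, f, g, l, h⟩ => ⟨Γ, f, g, l, h.mono h0 h1 h2⟩
theorem WPath.one_le (h : WPath μ t m η lo hi L R j y Γ f g l) : 1 ≤ m ∧ L ≤ j ∧ j + 1 ≤ R := by
  have h0 := h.fg
  have h0' := h.gl
  have h0'' := h.ln
  have h1 := h.mid f le_rfl (by omega)
  have h2 := h.ins f (by omega)
  have h3 := h.ins (l + 1) (by omega)
  have h4 := h.fcol
  have h5 := h.lcol
  simp only [midR, rect, strip, Set.mem_ofPred_eq] at h1 h2 h3
  omega
theorem WPath.heights (h : WPath μ t m η lo hi L R j y Γ f g l) :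
    |(Γ.p f).2 - y| ≤ m ∧ |(Γ.p (l + 1)).2 - y| ≤ m := by
  have h0 := h.fg
  have h0' := h.gl
  have h1 := h.mid f le_rfl (by omega)
  have h2 := h.mid (l + 1) (by omega) le_rfl
  simp only [midR, rect, Set.mem_ofPred_eq] at h1 h2
  constructor <;> rw [abs_le] <;> omega
theorem WPath.tr (h : WPath μ t m η lo hi L R j y Γ f g l) (v : V) :
    WPath μ (act (tr v) t) m η lo hi (L - v.1) (R - v.1) (j - v.1) (y - v.2) (Γ.map (tr (-v)))
      f g l :=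
  BW1_tr h v
theorem WPath.refl (h : WPath μ t m η lo hi L R j y Γ f g l) :
    WPath μ (act rfl1 t) m η (-hi) (-lo) (1 - R) (1 - L) (-j) y (Γ.rev.map rfl1)
      (Γ.n - (l + 1)) (Γ.n - (g + 1)) (Γ.n - (f + 1)) := by
  have h0 := h.fg
  have h0' := h.gl
  have h0'' := h.ln
  have h1 : ∀ i, i ≤ Γ.n → ∀ k, k = Γ.n - i → ((Γ.rev.map rfl1).p i).1 = 1 - (Γ.p k).1 := by
    rintro i hi' k rfl
    rw [Pth.map_p, Pth.rev_p _ hi', rfl1_apply]
    ring
  have h2 : ∀ i, i ≤ Γ.n → ∀ k, k = Γ.n - i → ((Γ.rev.map rfl1).p i).2 = (Γ.p k).2 := by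
    rintro i hi' k rfl
    rw [Pth.map_p, Pth.rev_p _ hi', rfl1_apply, add_zero]
  have hn : (Γ.rev.map rfl1).n = Γ.n := rfl
  have h3 : (Γ.rev.map rfl1).map rfl1 = Γ.rev := by
    refine Pth.ext' rfl fun i _ => ?_
    rw [Pth.map_p, Pth.map_p, rfl1_rfl1]
  have h4 : BW1GG (act rfl1 t) η (Γ.rev.map rfl1) (Γ.n - (g + 1)) :=
    BW1_gg_act isAut_rfl1 (by rw [h3]; exact BW1_gg_rev (by omega) ⟨h.geo, h.gap⟩)
  refine ⟨h4.1, fun i hi' => ?_, ?_, ?_, by omega, by omega, by rw [hn]; omega, fun i hi' => ?_,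
    ?_, ?_, fun i a b => ?_, ?_, ?_, fun i a b => ?_, ?_, ?_, ?_, h4.2⟩
  · have := h.ins (Γ.n - i) (by omega)
    simp only [strip, Set.mem_ofPred_eq, h1 i hi' _ rfl] at this ⊢
    omega
  · rw [h1 0 (by omega) Γ.n (by omega), h.stop]
  · rw [hn, h1 _ le_rfl 0 (by omega), h.start]
  · rw [h1 i (by omega) _ rfl]
    have := h.right (Γ.n - i) (by omega) (by omega)
    omega
  · rw [h1 _ (by omega) (l + 1) (by omega), h.lcol]
    omega
  · rw [h1 _ (by omega) f (by omega), h.fcol]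
    omega
  · rw [hn] at b
    rw [h1 i b _ rfl]
    have := h.left (Γ.n - i) (by omega)
    omega
  · rw [h1 _ (by omega) (f + 1) (by omega), h.fcol']
    omega
  · rw [h1 _ (by omega) l (by omega), h.lcol']
    omega
  · have := h.mid (Γ.n - i) (by omega) (by omega)
    simp only [midR, rect, Set.mem_ofPred_eq, h1 i (by omega) _ rfl, h2 i (by omega) _ rfl]
      at this ⊢
    omega
  · rw [h1 _ (by omega) (g + 1) (by omega), h1 _ (by omega) g (by omega)]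
    have := h.gcol
    omega
  · rw [hn, h2 _ le_rfl 0 (by omega)]
    exact h.sL
  · rw [h2 0 (by omega) Γ.n (by omega), neg_neg, neg_neg]
    exact BW1_slope h.sR rfl (by ring)
theorem WPath.lg (h : WPath μ t m η lo hi L R j y Γ f g l) {Y : ℕ} (hj : |j| ≤ Y) (hy : |y| ≤ Y)
    (h1 : -Sk μ 3 ≤ lo) (h2 : hi ≤ Sk μ 3) : LG μ t L R Y Γ :=
  ⟨h.geo, h.ins, h.start, h.stop, j, y, hj, hy, h.sR.mono h1 h2⟩
theorem WPath.left_cost (h : WPath μ t m η lo hi L R j y Γ f g l) (ht : NN t) :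
    Γ.cost t 0 f = TD (strip L j) t (L, (Γ.p 0).2) (j, (Γ.p f).2) := by
  have h0 := h.fg
  have h0' := h.gl
  have h0'' := h.ln
  have h1 := (h.geo.sub ht (Nat.zero_le f) (by omega)).restrict ht (Set.subset_univ (strip L j))
    (Pth.sub_in (Nat.zero_le f) fun i _ hi' => ⟨(h.ins i (by omega)).1, h.left i hi'⟩)
  have h2 := h1.2.2.2
  rw [Pth.sub_tot _ _ (Nat.zero_le f), Pth.sub_p_zero, Pth.sub_p_last _ (Nat.zero_le f)] at h2
  rw [h2, ← h.start, ← h.fcol]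
theorem WPath.right_geo (h : WPath μ t m η lo hi L R j y Γ f g l) (ht : NN t) :
    IsGeo (strip (j + 1) R) t (Γ.sub (l + 1) Γ.n) :=
  (h.geo.sub ht h.ln le_rfl).restrict ht (Set.subset_univ _)
    (Pth.sub_in h.ln fun i a b => ⟨h.right i a b, (h.ins i b).2⟩)
/-- steps across the cut happen only in the middle box -/
theorem WPath.cross_mem (h : WPath μ t m η lo hi L R j y Γ f g l) {i : ℕ} (hi' : i < Γ.n)
    (hc : (Γ.p i).1 + (Γ.p (i + 1)).1 = 2 * j + 1) :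
    f ≤ i ∧ i ≤ l ∧ Γ.p i ∈ midR j y m ∧ Γ.p (i + 1) ∈ midR j y m := by
  have h1 : f ≤ i := by
    by_contra h1
    have := h.left i (by omega)
    have := h.left (i + 1) (by omega)
    omega
  have h2 : i ≤ l := by
    by_contra h2
    have := h.right i (by omega) (by omega)
    have := h.right (i + 1) (by omega) (by omega)
    omega
  exact ⟨h1, h2, h.mid i h1 (by omega), h.mid (i + 1) (by omega) (by omega)⟩
end

theorem wev_tr (μ : ℝ × ℝ → ℝ) (m : ℕ) (η lo hi : ℝ) (L R j y : ℤ) (v : V) (t : Env) :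
    act (tr v) t ∈ Wev μ m η lo hi (L - v.1) (R - v.1) (j - v.1) (y - v.2) ↔
      t ∈ Wev μ m η lo hi L R j y := by
  refine ⟨fun ⟨Γ, f, g, l, h⟩ => ⟨Γ.map (tr (- -v)), f, g, l, ?_⟩,
    fun ⟨Γ, f, g, l, h⟩ => ⟨_, f, g, l, BW1_tr h v⟩⟩
  have := BW1_tr h (-v)
  simpa only [BW1_back, Prod.fst_neg, Prod.snd_neg, sub_neg_eq_add, sub_add_cancel] using this
theorem wev_refl (μ : ℝ × ℝ → ℝ) (m : ℕ) (η lo hi : ℝ) (L R j y : ℤ) (t : Env) :
    act rfl1 t ∈ Wev μ m η (-hi) (-lo) (1 - R) (1 - L) (-j) y ↔ t ∈ Wev μ m η lo hi L R j y := by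
  refine ⟨fun ⟨Γ, f, g, l, h⟩ => ?_, fun ⟨Γ, f, g, l, h⟩ => ⟨_, _, _, _, h.refl⟩⟩
  have := h.refl
  simp only [act_rfl1_rfl1, neg_neg, sub_sub_cancel] at this
  exact ⟨_, _, _, _, this⟩
theorem pair_tr (μ : ℝ × ℝ → ℝ) (m : ℕ) (η lo hi : ℝ) (H : ℕ) (L R y : ℤ) (t : Env) :
    act (tr (0, y)) t ∈ Pair μ m η lo hi H L R 0 ↔ t ∈ Pair μ m η lo hi H L R y := by
  have key : ∀ y', act (tr (0, y)) t ∈ Wev μ m η lo hi L R 0 (y' - y) ↔
      t ∈ Wev μ m η lo hi L R 0 y' := fun y' => by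
    simpa only [sub_zero] using wev_tr μ m η lo hi L R 0 y' (0, y) t
  have h0 := key y
  rw [sub_self] at h0
  constructor
  · rintro ⟨h1, y', h2, h3, h4⟩
    rw [sub_zero] at h2 h3
    exact ⟨h0.1 h1, y' + y, by rwa [add_sub_cancel_right], by rwa [add_sub_cancel_right],
      (key _).1 (by rwa [add_sub_cancel_right])⟩
  · rintro ⟨h1, y', h2, h3, h4⟩
    exact ⟨h0.2 h1, y' - y, by rwa [sub_zero], by rwa [sub_zero], (key _).2 h4⟩
theorem pair_refl (μ : ℝ × ℝ → ℝ) (m : ℕ) (η lo hi : ℝ) (H : ℕ) (L R y : ℤ) (t : Env) :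
    act rfl1 t ∈ Pair μ m η (-hi) (-lo) H (1 - R) (1 - L) y ↔ t ∈ Pair μ m η lo hi H L R y := by
  have key : ∀ y', act rfl1 t ∈ Wev μ m η (-hi) (-lo) (1 - R) (1 - L) 0 y' ↔
      t ∈ Wev μ m η lo hi L R 0 y' := fun y' => by
    simpa only [neg_zero] using wev_refl μ m η lo hi L R 0 y' t
  simp only [Pair, Set.mem_ofPred_eq, key]
theorem tl_tr (μ : ℝ × ℝ → ℝ) (m : ℕ) (η lo hi : ℝ) (H r : ℕ) (L R j y : ℤ) (t : Env) :
    act (tr (j, y)) t ∈ TL μ m η lo hi H r (L - j) (R - j) 0 0 ↔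
      t ∈ TL μ m η lo hi H r L R j y := by
  constructor
  · intro h
    have := BW1_tl h (-(j, y))
    simpa only [BW1_back, Prod.fst_neg, Prod.snd_neg, sub_neg_eq_add, sub_add_cancel, zero_add]
      using this
  · intro h
    simpa only [sub_self] using BW1_tl h (j, y)
theorem gap_tr (μ : ℝ × ℝ → ℝ) (m : ℕ) (K lo hi : ℝ) (Rr Y : ℕ) (L R y c : ℤ) (t : Env) :
    act (tr (0, c)) t ∈ Gap μ m K lo hi Rr Y L R y ↔ t ∈ Gap μ m K lo hi Rr Y L R (y + c) := by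
  refine ⟨BW1_gap, fun h => ?_⟩
  have h1 : act (tr (0, -c)) (act (tr (0, c)) t) = t := by
    simpa only [Prod.neg_mk, neg_zero] using BW1_back (0, c) t
  rw [← h1] at h
  simpa only [add_neg_cancel_right] using BW1_gap h
theorem tl_subset_wev (μ : ℝ × ℝ → ℝ) (m : ℕ) (η lo hi : ℝ) (H r : ℕ) (L R j y : ℤ) :
    TL μ m η lo hi H r L R j y ⊆ Wev μ m η lo hi L R j y :=
  fun _ ⟨_, Γ1, f1, g1, l1, _, _, _, _, _, _, _, _, h, _⟩ => ⟨Γ1, f1, g1, l1, h⟩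

theorem measurableSet_wpath (μ : ℝ × ℝ → ℝ) (m : ℕ) (η lo hi : ℝ) (L R j y : ℤ) (Γ : Pth)
    (f g l : ℕ) : MeasurableSet {t | WPath μ t m η lo hi L R j y Γ f g l} := by
  rcases Set.eq_empty_or_nonempty {t | WPath μ t m η lo hi L R j y Γ f g l} with h | ⟨t0, h0⟩
  · rw [h]
    exact MeasurableSet.empty
  have h0' : WPath μ t0 m η lo hi L R j y Γ f g l := h0
  have : {t | WPath μ t m η lo hi L R j y Γ f g l} = {t | BW1GG t η Γ g} :=
    Set.ext fun t => ⟨fun h => ⟨h.geo, h.gap⟩, fun h => { h0' with geo := h.1, gap := h.2 }⟩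
  rw [this]
  exact bf3_and (measurableSet_isGeo _ _) (bf3_forall fun δ => bf3_imp (MeasurableSet.const _)
    (bf3_imp (MeasurableSet.const _)
      (measurableSet_le ((measurable_tot Γ).add_const η) (measurable_tot δ))))
theorem measurableSet_wev (μ : ℝ × ℝ → ℝ) (m : ℕ) (η lo hi : ℝ) (L R j y : ℤ) :
    MeasurableSet (Wev μ m η lo hi L R j y) :=
  bf3_exists fun Γ => bf3_exists fun f => bf3_exists fun g => bf3_exists fun l =>
    measurableSet_wpath μ m η lo hi L R j y Γ f g l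
theorem measurableSet_wall (μ : ℝ × ℝ → ℝ) (m : ℕ) (η ε : ℝ) (L R j y : ℤ) :
    MeasurableSet (Wall μ m η ε L R j y) :=
  bf3_exists fun _ => bf3_and (MeasurableSet.const _) (measurableSet_wev _ _ _ _ _ _ _ _ _)
theorem measurableSet_pair (μ : ℝ × ℝ → ℝ) (m : ℕ) (η lo hi : ℝ) (H : ℕ) (L R y : ℤ) :
    MeasurableSet (Pair μ m η lo hi H L R y) :=
  bf3_and (measurableSet_wev _ _ _ _ _ _ _ _ _) (bf3_exists fun _ => bf3_and (MeasurableSet.const _)
    (bf3_and (MeasurableSet.const _) (measurableSet_wev _ _ _ _ _ _ _ _ _)))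
theorem measurableSet_tl (μ : ℝ × ℝ → ℝ) (m : ℕ) (η lo hi : ℝ) (H r : ℕ) (L R j y : ℤ) :
    MeasurableSet (TL μ m η lo hi H r L R j y) := by
  refine bf3_exists fun _ => bf3_exists fun _ => bf3_exists fun _ => bf3_exists fun _ =>
    bf3_exists fun _ => bf3_exists fun _ => bf3_exists fun _ => bf3_exists fun _ =>
    bf3_exists fun _ => bf3_exists fun _ => bf3_exists fun _ => ?_
  exact bf3_and (MeasurableSet.const _) (bf3_and (MeasurableSet.const _)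
    (bf3_and (measurableSet_wpath _ _ _ _ _ _ _ _ _ _ _ _ _)
      (bf3_and (measurableSet_wpath _ _ _ _ _ _ _ _ _ _ _ _ _) (MeasurableSet.const _))))
theorem measurableSet_gap (μ : ℝ × ℝ → ℝ) (m : ℕ) (K lo hi : ℝ) (Rr Y : ℕ) (L R y : ℤ) :
    MeasurableSet (Gap μ m K lo hi Rr Y L R y) := by
  refine bf3_exists fun _ => bf3_exists fun _ => bf3_exists fun _ => bf3_exists fun _ => ?_
  refine bf3_and (MeasurableSet.const _) (bf3_and (MeasurableSet.const _)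
    (bf3_and (MeasurableSet.const _) (bf3_and (MeasurableSet.const _) ?_)))
  refine bf3_forall fun _ => bf3_forall fun _ => bf3_forall fun _ => ?_
  refine bf3_imp (MeasurableSet.const _) (bf3_imp (MeasurableSet.const _)
    (bf3_imp (MeasurableSet.const _) (bf3_imp (MeasurableSet.const _) ?_)))
  exact measurableSet_le ((BW1_meas_rte _ _ _ _ _ _ _ _).add_const K) (BW1_meas_rte _ _ _ _ _ _ _ _)
theorem measurableSet_tube (μ : ℝ × ℝ → ℝ) (m : ℕ) (lo hi θ w : ℝ) (n : ℕ) (L R : ℤ) :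
    MeasurableSet (Tube μ m lo hi θ w n L R) := by
  refine bf3_forall fun _ => bf3_forall fun _ => bf3_forall fun _ => bf3_forall fun _ =>
    bf3_forall fun _ => ?_
  exact bf3_imp (MeasurableSet.const _) (bf3_imp (measurableSet_wpath _ _ _ _ _ _ _ _ _ _ _ _ _)
    (MeasurableSet.const _))

/-- near-optimal paths for the three pieces of a route -/
theorem exists_route {t : Env} (ht : NN t) {m : ℕ} (hm : 1 ≤ m) {L R : ℤ} (hL : L ≤ 0) (hR : 1 ≤ R)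
    (a b : ℤ) {y yf yl : ℤ} (hf : |yf - y| ≤ m) (hl : |yl - y| ≤ m) {ζ : ℝ} (hζ : 0 < ζ) :
    ∃ δ1 δ2 δ3 : Pth, δ1.Joins (strip L 0) (L, a) (0, yf) ∧ δ2.Joins (midR 0 y m) (0, yf) (1, yl) ∧
      δ3.Joins (strip 1 R) (1, yl) (R, b) ∧
      δ1.tot t + δ2.tot t + δ3.tot t < Rte t m L R a b y yf yl + ζ := by
  obtain ⟨f1, f2⟩ := abs_le.1 hf
  obtain ⟨l1, l2⟩ := abs_le.1 hl
  obtain ⟨δ1, a1, -, a2⟩ := exists_tot_lt ht (conn_strip (a := L) (b := 0) (x := (L, a))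
    (z := (0, yf)) ⟨le_rfl, hL⟩ ⟨hL, le_rfl⟩) (lt_add_of_pos_right _ (show 0 < ζ / 3 by positivity))
  obtain ⟨δ2, b1, -, b2⟩ := exists_tot_lt ht (D := midR 0 y m) (conn_rect (x := (0, yf))
    (z := (1, yl)) (by simp only [rect, Set.mem_ofPred_eq]; omega)
      (by simp only [rect, Set.mem_ofPred_eq]; omega))
    (lt_add_of_pos_right _ (show 0 < ζ / 3 by positivity))
  obtain ⟨δ3, c1, -, c2⟩ := exists_tot_lt ht (conn_strip (a := 1) (b := R) (x := (1, yl))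
    (z := (R, b)) ⟨le_rfl, hR⟩ ⟨hR, le_rfl⟩) (lt_add_of_pos_right _ (show 0 < ζ / 3 by positivity))
  refine ⟨δ1, δ2, δ3, a1, b1, c1, ?_⟩
  unfold Rte
  linarith

/-- the route of a `W`-path costs at most the path, in any nonnegative environment -/
theorem WPath.rte_le {μ : ℝ × ℝ → ℝ} {t : Env} {m : ℕ} {η lo hi : ℝ} {L R y : ℤ} {Γ : Pth}
    {f g l : ℕ} (h : WPath μ t m η lo hi L R 0 y Γ f g l) {t' : Env} (ht' : NN t') :
    Rte t' m L R (Γ.p 0).2 (Γ.p Γ.n).2 y (Γ.p f).2 (Γ.p (l + 1)).2 ≤ Γ.tot t' := by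
  have h0 := h.fg
  have h0' := h.gl
  have h0'' := h.ln
  have h1 := TD_le_cost ht' (D := strip L 0) h.geo.1 (Nat.zero_le f) (by omega)
    fun i _ hi' => ⟨(h.ins i (by omega)).1, h.left i hi'⟩
  have h2 := TD_le_cost ht' (D := midR 0 y m) h.geo.1 (show f ≤ l + 1 by omega) (by omega) h.mid
  have h3 := TD_le_cost ht' (D := strip 1 R) h.geo.1 (show l + 1 ≤ Γ.n by omega) le_rfl
    fun i a b => ⟨by simpa using h.right i a b, (h.ins i b).2⟩
  have e1 : ((L, (Γ.p 0).2) : V) = Γ.p 0 := by rw [← h.start]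
  have e2 : ((0, (Γ.p f).2) : V) = Γ.p f := by rw [← h.fcol]
  have e3 : ((1, (Γ.p (l + 1)).2) : V) = Γ.p (l + 1) :=
    Prod.ext (by rw [h.lcol, zero_add]) rfl
  have e4 : ((R, (Γ.p Γ.n).2) : V) = Γ.p Γ.n := by rw [← h.stop]
  have h4 := Γ.cost_add t' (Nat.zero_le f) (show f ≤ l + 1 by omega)
  have h5 := Γ.cost_add t' (Nat.zero_le (l + 1)) (show l + 1 ≤ Γ.n by omega)
  unfold Rte Pth.tot
  rw [e1, e2, e3, e4]
  linarith

theorem wev_subset_gap {μ : ℝ × ℝ → ℝ} {t : Env} (ht : NN t) {m : ℕ} {η lo hi : ℝ} {L R y : ℤ}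
    (h : t ∈ Wev μ m η lo hi L R 0 y) (Y : ℕ) : t ∈ Gap μ m η lo hi (2 * m) Y L R y := by
  obtain ⟨Γ, f, g, l, h⟩ := h
  obtain ⟨hm, hL, hR⟩ := h.one_le
  refine ⟨(Γ.p 0).2, (Γ.p Γ.n).2, (Γ.p f).2, (Γ.p (l + 1)).2, h.sR, by simpa using h.sL,
    h.heights.1, h.heights.2, fun y' yf' yl' a1 _ a3 a4 => ?_⟩
  refine le_of_forall_pos_le_add fun ζ hζ => ?_
  obtain ⟨δ1, δ2, δ3, b1, b2, b3, b4⟩ :=
    exists_route ht hm hL (by simpa using hR) (Γ.p 0).2 (Γ.p Γ.n).2 a3 a4 hζ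
  have c1 := (b1.mono (Set.subset_univ _)).app (b2.mono (Set.subset_univ _))
  have c2 := c1.app (b3.mono (Set.subset_univ _))
  have e1 : ((L, (Γ.p 0).2) : V) = Γ.p 0 := by rw [← h.start]
  have e4 : ((R, (Γ.p Γ.n).2) : V) = Γ.p Γ.n := by rw [← h.stop]
  rw [e1, e4] at c2
  have d1 : δ1.p δ1.n = δ2.p 0 := b1.2.2.2.trans b2.2.2.1.symm
  have d2 : (δ1.app δ2).p (δ1.app δ2).n = δ3.p 0 := c1.2.2.2.trans b3.2.2.1.symm
  have h1 := h.gcol
  have h2 := h.mid g h.fg (h.gl.trans (Nat.le_succ _))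
  have h3 := h.gap _ c2 (by
    rw [Pth.app_edges d2, Pth.app_edges d1, Finset.mem_union, Finset.mem_union]
    rintro ((h4 | h4) | h4)
    · refine BW1_not_mem b1.2.1 ?_ h4
      simp only [strip, Set.mem_ofPred_eq]
      omega
    · refine BW1_not_mem b2.2.1 ?_ h4
      simp only [midR, rect, Set.mem_ofPred_eq] at h2 ⊢
      push_cast at a1
      rcases lt_abs.1 a1 with a1 | a1 <;> omega
    · refine BW1_not_mem b3.2.1 ?_ h4
      simp only [strip, Set.mem_ofPred_eq]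
      omega)
  rw [Pth.app_tot d2, Pth.app_tot d1] at h3
  have h4 := h.rte_le ht
  linarith

end Crest.Agent.R151
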