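import Crest.Agent.R151.BFol
import Crest.Agent.R151.BW1

/-! Row 151, part B: merging pairs seen from a cut further to the left (deterministic). -/

set_option autoImplicit false

namespace Crest.Agent.R151

open MeasureTheory ProbabilityTheory Crest.ProbabilityR.FirstPassage Filter Topology
open scoped Classical

variable {G : Measure ℝ} [Law G]

/-- heights of the visits to the columns `0` and `1` -/
theorem tl_heights {μ : ℝ × ℝ → ℝ} {t : Env} {m : ℕ} {η lo hi lo0 hi0 θ w h : ℝ} {H n W : ℕ}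
    {L R j y y' : ℤ} (hj : (n : ℤ) ≤ j) (hj2 : j < 2 * n) (hn : 1 ≤ n) (hη : 0 ≤ η) (h1 : lo0 ≤ lo)
    (h2 : hi ≤ hi0) (hy : |(y : ℝ) - θ * j| ≤ h) (hy' : |y' - y| ≤ H) (hH : H ≤ 2 * n)
    (hW : w + h + H + |θ| ≤ W)
    (htube : act rfl1 (act (tr (j, y)) t) ∈
      Tube μ m (-hi0) (-lo0) (-θ) w (2 * n) (1 - (R - j)) (1 - (L - j)))
    {Γ : Pth} {f g l : ℕ} (hΓ : WPath μ t m η lo hi L R j y' Γ f g l) {i : ℕ} (hi' : i ≤ Γ.n)
    (hc : (Γ.p i).1 = 0 ∨ (Γ.p i).1 = 1) : |(Γ.p i).2| ≤ W := by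
  have h3 := ((hΓ.mono hη h1 h2).tr (j, y)).refl
  simp only [sub_self, neg_zero] at h3
  have e : (((Γ.map (tr (-(j, y)))).rev.map rfl1).p (Γ.n - i)) =
      (-((Γ.p i).1 - j) + 1, (Γ.p i).2 - y) := by
    rw [Pth.map_p, Pth.rev_p _ (by simp), Pth.map_p, Pth.map_n, Nat.sub_sub_self hi']
    simp [sub_eq_add_neg]
  have h4 := htube (y' - y) _ _ _ _ (hy'.trans (by exact_mod_cast hH)) h3 (Γ.n - i) (by simp)
    (by rw [e]; simp only; omega) (by rw [e]; simp only; push_cast; omega)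
  rw [e] at h4
  push_cast at h4
  have h5 : |(y' : ℝ) - y| ≤ H := by exact_mod_cast hy'
  have h6 : |((Γ.p i).2 : ℝ)| ≤ W := by
    have a1 := abs_le.1 h4
    have a2 := abs_le.1 h5
    have a3 := abs_le.1 hy
    have a4 := le_abs_self θ
    have a5 := neg_abs_le θ
    have a6 := abs_nonneg θ
    rw [abs_le]
    rcases hc with hc | hc <;> rw [hc] at a1 <;> push_cast at a1 <;> constructor <;>
      linarith [a1.1, a1.2, a2.1, a2.2, a3.1, a3.2]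
  exact_mod_cast h6

theorem btl0_mid {j y y' : ℤ} {m : ℕ} {x : V} (h1 : x ∈ midR j y m) (h2 : x ∈ midR j y' m) :
    |y' - y| ≤ 2 * m := by
  obtain ⟨-, -, a, b⟩ := h1
  obtain ⟨-, -, c, d⟩ := h2
  rw [abs_le]
  constructor <;> linarith

theorem btl0_first {μ : ℝ × ℝ → ℝ} {t : Env} (ht : NN t) {m : ℕ} {η lo hi : ℝ} {L R j y : ℤ}
    {Γ : Pth} {f g l : ℕ} (h : WPath μ t m η lo hi L R j y Γ f g l) (hL : L ≤ 0) (hj : 0 ≤ j) :
    ∃ a, a ≤ l ∧ (Γ.p a).1 = 0 ∧ Γ.cost t 0 a = TD (strip L 0) t (Γ.p 0) (Γ.p a) := by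
  obtain ⟨a, -, h1, h2, h3⟩ := exists_first_level (fun i => (Γ.p i).1) (Nat.zero_le l)
    (fun k _ _ => h.geo.1.col_step k) 0 (h.start.trans_le hL) (hj.trans_eq h.lcol'.symm)
  have han : a ≤ Γ.n := h1.trans h.ln.le
  refine ⟨a, h1, h2, ?_⟩
  have h4 := ((h.geo.sub ht (Nat.zero_le a) han).restrict ht (D := strip L 0) (Set.subset_univ _)
    (Pth.sub_in (Nat.zero_le a) fun i _ hi' => ⟨(h.ins i (hi'.trans han)).1, by
      rcases hi'.eq_or_lt with rfl | hi''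
      · exact h2.le
      · exact (h3 i (Nat.zero_le i) hi'').le⟩)).2.2.2
  rwa [Pth.sub_tot _ _ (Nat.zero_le a), Pth.sub_p_zero, Pth.sub_p_last _ (Nat.zero_le a)] at h4

theorem btl0_route {μ : ℝ × ℝ → ℝ} {t : Env} {m : ℕ} {η lo hi : ℝ} {L R j y y' : ℤ}
    {Γ Δ : Pth} {f g l f' g' l' : ℕ} (h : WPath μ t m η lo hi L R j y Γ f g l)
    (h' : WPath μ t m η lo hi L R j y' Δ f' g' l') (hL : L ≤ 0) (hj : 0 ≤ j)
    (hy : (2 * m : ℤ) < |y' - y|) {i i' a : ℕ} (h1 : l < i) (h2 : i ≤ Γ.n) (h3 : a ≤ i')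
    (h4 : i' ≤ Δ.n) (he : Γ.p i = Δ.p i') (ha : (Δ.p a).1 = 0) :
    Γ.cost t 0 i + η ≤ TD (strip L 0) t (Γ.p 0) (Δ.p a) + Δ.cost t a i' := by
  rw [← sub_le_iff_le_add]
  refine le_TD (conn_strip ⟨h.start.ge, h.start.trans_le hL⟩ ⟨hL.trans_eq ha.symm, ha.le⟩)
    fun γ hγ => ?_
  have j1 := Pth.sub_joins h'.geo.1 (D := Set.univ) h3 h4 fun _ _ _ => trivial
  have j2 := Pth.sub_joins h.geo.1 (D := Set.univ) h2 le_rfl fun _ _ _ => trivial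
  rw [he] at j2
  have j3 := j1.app j2
  have e1 : (Δ.sub a i').p (Δ.sub a i').n = (Γ.sub i Γ.n).p 0 := j1.2.2.2.trans j2.2.2.1.symm
  have e2 : γ.p γ.n = ((Δ.sub a i').app (Γ.sub i Γ.n)).p 0 := hγ.2.2.2.trans j3.2.2.1.symm
  have hg : g < Γ.n := h.gl.trans_lt h.ln
  have key := h.gap _ ((hγ.mono (Set.subset_univ _)).app j3) (by
    rw [Pth.app_edges e2, Pth.app_edges e1, Finset.mem_union, Finset.mem_union]
    rintro (hh | hh | hh)
    · obtain ⟨k, hk, e⟩ := Pth.mem_edges.1 hh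
      have h5 := hγ.2.1.edge_mem hk
      rw [e, Pth.edge, mem_ED] at h5
      have := h.gcol
      have := h5.1.2
      have := h5.2.2
      omega
    · obtain ⟨k, hk, e⟩ := Pth.mem_edges.1 (Pth.sub_edges_subset a h4 hh)
      have m1 := h.mid g h.fg (h.gl.trans (Nat.le_succ _))
      have m2 := h.mid (g + 1) (h.fg.trans (Nat.le_succ _)) (Nat.succ_le_succ h.gl)
      have hc := h.gcol
      rcases Sym2.eq_iff.1 e with ⟨e1, e2⟩ | ⟨e1, e2⟩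
      · have h5 := (h'.cross_mem hk (by rw [e1, e2]; exact hc)).2.2.1
        rw [e1] at h5
        exact absurd (btl0_mid m1 h5) (not_le.2 hy)
      · have h5 := (h'.cross_mem hk (by rw [e1, e2]; omega)).2.2.1
        rw [e1] at h5
        exact absurd (btl0_mid m2 h5) (not_le.2 hy)
    · obtain ⟨k, hk, e⟩ := Pth.mem_edges.1 hh
      rw [Pth.sub_n] at hk
      rw [Pth.sub_edge _ _ _ hk] at e
      have := Pth.edge_inj h.geo.1 h.geo.2.2.1 (by omega) hg e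
      have := h.gl
      omega)
  rw [Pth.app_tot e2, Pth.app_tot e1, Pth.sub_tot _ _ h3, Pth.sub_tot _ _ h2, Pth.tot,
    ← Γ.cost_add t (Nat.zero_le i) h2] at key
  linarith

theorem tl_Dinc {t : Env} (ht : Fld G t) {α β lo hi η : ℝ} (hα : |α| < m1 (mu G))
    (hβ : |β| < m1 (mu G)) (hαβ : α ≤ β) {m H r W Y : ℕ} {L R j y : ℤ} (hL : L ≤ 0) (hj : 1 ≤ j)
    (hjY : j ≤ Y) (hyY : |y| + H ≤ Y) (hWY : W ≤ Y)
    (locL : act rfl1 t ∈ Loc (mu G) 1 (1 - L) (-β) (-α) (-hi) (-lo) Y)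
    (hW : ∀ (y' : ℤ) (Γ : Pth) (f g l : ℕ), |y' - y| ≤ H →
      WPath (mu G) t m η lo hi L R j y' Γ f g l → ∀ i ≤ Γ.n, (Γ.p i).1 = 0 → |(Γ.p i).2| ≤ W)
    (h : t ∈ TL (mu G) m η lo hi H r L R j y) :
    2 * η ≤ Dinc (act rfl1 t) 1 (1 - L) (-β) (-α) (-(W : ℤ)) W := by
  obtain ⟨y', Γ1, f1, g1, l1, Γ2, f2, g2, l2, i1, i2, hm, hH, w1, w2, a1, a2, a3, a4, he, -⟩ := h
  have hj0 : 0 ≤ j := by omega
  obtain ⟨b1, c1, d1, e1⟩ := btl0_first ht.nn w1 hL hj0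
  obtain ⟨b2, c2, d2, e2⟩ := btl0_first ht.nn w2 hL hj0
  have r1 := btl0_route w1 w2 hL hj0 hm a1 a2 (c2.trans a3.le) a4 he d2
  have r2 := btl0_route w2 w1 hL hj0 (by rwa [abs_sub_comm]) a3 a4 (c1.trans a1.le) a2 he.symm d1
  rw [← Γ1.cost_add t (Nat.zero_le b1) (c1.trans a1.le), e1] at r1
  rw [← Γ2.cost_add t (Nat.zero_le b2) (c2.trans a3.le), e2] at r2
  have T : ∀ x z : V, x.1 = L → z.1 = 0 →
      TD (strip L 0) t x z = Phi (act rfl1 t) 1 (1 - L) x.2 z.2 := by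
    rintro ⟨x1, x2⟩ ⟨z1, z2⟩ rfl rfl
    simpa using TD_left t x1 0 x2 z2
  rw [T _ _ w1.start d1, T _ _ w1.start d2] at r1
  rw [T _ _ w2.start d1, T _ _ w2.start d2] at r2
  have u1 := hW y Γ1 f1 g1 l1 (by simp) w1 b1 (c1.trans w1.ln.le) d1
  have u2 := hW y' Γ2 f2 g2 l2 hH w2 b2 (c2.trans w2.ln.le) d2
  have hWY' : (W : ℤ) ≤ Y := by exact_mod_cast hWY
  have ht' := (fld_rfl1 t).2 ht
  have hα' : |-α| < m1 (mu G) := by rwa [abs_neg]
  have hβ' : |-β| < m1 (mu G) := by rwa [abs_neg]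
  have hjY' : |-j| ≤ Y := by rwa [abs_neg, abs_of_nonneg hj0]
  have y1 : |y| ≤ Y := by omega
  have y2 : |y'| ≤ Y := by
    have := abs_sub_abs_le_abs_sub y' y
    omega
  rcases le_total (Γ1.p b1).2 (Γ2.p b2).2 with hw | hw
  · have k1 := Phi_incr_sub_le ht' (by omega) hβ' hα' locL hw (u1.trans hWY') (u2.trans hWY') hjY' y1
      hjY' y2 w1.sL w2.sL
    have k2 := Dinc_mono ht' (k := 1) (N := 1 - L) (by omega) hβ' hα' (neg_le_neg hαβ)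
      (abs_le.1 u1).1 (abs_le.1 u2).2
    linarith [(abs_le.1 k1).2]
  · have k1 := Phi_incr_sub_le ht' (by omega) hβ' hα' locL hw (u2.trans hWY') (u1.trans hWY') hjY' y1
      hjY' y2 w1.sL w2.sL
    have k2 := Dinc_mono ht' (k := 1) (N := 1 - L) (by omega) hβ' hα' (neg_le_neg hαβ)
      (abs_le.1 u2).1 (abs_le.1 u1).2
    linarith [(abs_le.1 k1).1]

theorem btl0_follow (hd : DN (mu G)) {t : Env} {α β lo hi η η' : ℝ} (ht : GN G α t)
    (hα : |α| ≤ Sk (mu G) 4) (hβ : |β| ≤ Sk (mu G) 4) (hαβ : α ≤ β) (hlo : -Sk (mu G) 3 ≤ lo)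
    (hhi : hi ≤ Sk (mu G) 3) {m h r Y A H' : ℕ} {L R j y : ℤ} (hr : 1 ≤ r) (hh : h ≤ r)
    (hH' : ((A : ℝ) + 3 * m1 (mu G)) * (r : ℝ) < 2 * g0 (mu G) * H') (hHY : H' ≤ Y) (hhY : h ≤ Y)
    (hjY : |j| ≤ Y) (hyY : |y| ≤ Y) (hjr : |j| ≤ r) (hyr : |y| ≤ r)
    (locR : t ∈ Loc (mu G) 1 R α β lo hi Y) (cf : t ∈ CF (mu G) A r L R)
    (hlip : t ∈ Lip (mu G) 1 R 0 (r : ℝ)) (hlow : t ∈ LowL G (g0 (mu G)) 1 (1, 0) r)
    (hD : Dinc t 1 R α β (-(H' : ℤ)) H' < η') (hnt : t ∉ NTs R α η' h r) {Γ : Pth} {f g l : ℕ}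
    (hΓ : WPath (mu G) t m η lo hi L R j y Γ f g l) {a : ℕ} (ha : a ≤ Γ.n) (h1 : (Γ.p a).1 = 1)
    (h2 : |(Γ.p a).2| ≤ h) (h3 : ∀ i, a ≤ i → i ≤ Γ.n → 1 ≤ (Γ.p i).1) {i : ℕ} (hi' : a + i ≤ Γ.n)
    (hb : ∀ i' ≤ i, Γ.p (a + i') ∈ box (1, 0) r) :
    i ≤ (line t 1 R α (1, (Γ.p a).2)).n ∧
      ∀ i' ≤ i, Γ.p (a + i') = (line t 1 R α (1, (Γ.p a).2)).p i' := by
  have hn := ht.1.nn
  have hh' : (h : ℤ) ≤ r := by exact_mod_cast hh
  have hr' : (1 : ℤ) ≤ r := by exact_mod_cast hr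
  have hg := (hΓ.geo.sub hn ha le_rfl).restrict hn (D := strip 1 R) (Set.subset_univ _)
    (Pth.sub_in ha fun i a1 a2 => ⟨h3 i a1 a2, (hΓ.ins i a2).2⟩)
  have key := follow hd ht hα hβ hαβ hg (y1 := (Γ.p a).2) (b := (Γ.p Γ.n).2)
    (by rw [Pth.sub_p_zero, ← h1]) (by rw [Pth.sub_p_last _ ha, ← hΓ.stop]) h2 hh
    (Nat.cast_nonneg A) hH'
    (locR H' j y _ (by rw [Nat.abs_cast]; exact_mod_cast hHY) hjY hyY hΓ.sR).1
    (locR _ j y _ (h2.trans (by exact_mod_cast hhY)) hjY hyY hΓ.sR).2 hD hnt hlip hlow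
    (fun k hk hkb => by
      rw [Pth.sub_n] at hk
      rw [Pth.sub_p _ _ _ hk] at hkb
      rw [Pth.sub_cost _ _ _ _ hk]
      refine (cf Γ (hΓ.lg (by push_cast; omega) (by push_cast; omega) hlo hhi) a (a + k)
        (Nat.le_add_right _ _) (by omega) ?_ ?_).1
      · refine (nrm_le_iff _ _).2 ?_
        rw [sub_zero, h1]
        exact ⟨hr', h2.trans hh'⟩
      · have := (abs_le.1 ((nrm_le_iff _ _).1 hkb).1).2
        simp only [Prod.fst_sub] at this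
        omega) i (by rw [Pth.sub_n]; omega)
    (fun i' hi'' => by rw [Pth.sub_p _ _ _ (by omega)]; exact hb i' hi'')
  refine ⟨key.1, fun i' hi'' => ?_⟩
  rw [← key.2 i' hi'', Pth.sub_p _ _ _ (by omega)]

theorem tl_merge (hd : DN (mu G)) {t : Env} {α β lo hi η η' : ℝ} (ht : GN G α t)
    (hα : |α| ≤ Sk (mu G) 4) (hβ : |β| ≤ Sk (mu G) 4) (hαβ : α ≤ β) (hlo : -Sk (mu G) 3 ≤ lo)
    (hhi : hi ≤ Sk (mu G) 3) {m H r W Y A n1 H' : ℕ} {L R j y : ℤ} (hL : L ≤ 0) (hj : 1 ≤ j)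
    (hA : 1 ≤ A) (hn1 : 1 ≤ n1) (hW1 : W ≤ n1) (hjr : j + r ≤ n1) (hyH : |y| + H ≤ n1)
    (hH' : ((A : ℝ) + 3 * m1 (mu G)) * ((A * n1 + 1 : ℕ) : ℝ) < 2 * g0 (mu G) * H') (hHY : H' ≤ Y)
    (hnY : n1 ≤ Y) (locR : t ∈ Loc (mu G) 1 R α β lo hi Y) (cf1 : t ∈ CF (mu G) A n1 L R)
    (cf2 : t ∈ CF (mu G) A (A * n1 + 1) L R) (hlip : t ∈ Lip (mu G) 1 R 0 ((A * n1 + 1 : ℕ) : ℝ))
    (hlow : t ∈ LowL G (g0 (mu G)) 1 (1, 0) (A * n1 + 1))
    (hD : Dinc t 1 R α β (-(H' : ℤ)) H' < η') (hnt : t ∉ NTs R α η' W (A * n1 + 1))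
    (hW : ∀ (y' : ℤ) (Γ : Pth) (f g l : ℕ), |y' - y| ≤ H →
      WPath (mu G) t m η lo hi L R j y' Γ f g l → ∀ i ≤ Γ.n, (Γ.p i).1 = 1 → |(Γ.p i).2| ≤ W)
    (h : t ∈ TL (mu G) m η lo hi H r L R j y) :
    ∃ c ∈ MergeV (Finset.Icc (-(W : ℤ)) W) (fun w => line t 1 R α (1, w)), c ∈ box (j, y) r := by
  obtain ⟨y', Γ1, f1, g1, l1, Γ2, f2, g2, l2, i1, i2, hm, hH, w1, w2, a1, a2, a3, a4, he, b1, b2⟩ := h
  have hAn : n1 ≤ A * n1 := Nat.le_mul_of_pos_left _ hA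
  have hAn' : (n1 : ℤ) ≤ ((A * n1 + 1 : ℕ) : ℤ) := by exact_mod_cast hAn.trans (Nat.le_succ _)
  have hnY' : (n1 : ℤ) ≤ Y := by exact_mod_cast hnY
  have hW1' : (W : ℤ) ≤ n1 := by exact_mod_cast hW1
  have pre : ∀ (y' : ℤ) (Γ : Pth) (f g l i : ℕ), |y' - y| ≤ H →
      WPath (mu G) t m η lo hi L R j y' Γ f g l → l < i → i ≤ Γ.n → Γ.p i ∈ box (j, y) r →
      ∃ (a : ℕ) (w : ℤ), a ≤ l ∧ |w| ≤ W ∧ i - a ≤ (line t 1 R α (1, w)).n ∧
        ∀ i', a ≤ i' → i' ≤ i → (line t 1 R α (1, w)).p (i' - a) = Γ.p i' := by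
    intro y' Γ f g l i hy' w hl hi' hb
    obtain ⟨k, -, k1, k2, k3⟩ := exists_last_level (fun i => (Γ.p i).1) (Nat.zero_le l)
      (fun k _ _ => w.geo.1.col_step k) 0 (w.start.trans_le hL) (by have := w.lcol'; omega)
    have k4 : k < l := lt_of_le_of_ne k1 fun e => by
      have := w.lcol'
      rw [e] at k2
      omega
    have k5 : (Γ.p (k + 1)).1 = 1 := by
      have c1 := k3 (k + 1) (Nat.lt_succ_self k) k4
      have c2 := abs_le.1 (w.geo.1.col_step k)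
      omega
    have k6 : k + 1 ≤ Γ.n := by have := w.ln; omega
    have k7 := hW y' Γ f g l hy' w (k + 1) k6 k5
    have jn : |j| ≤ n1 := by rw [abs_of_nonneg (by omega)]; omega
    have yn : |y'| ≤ n1 := by
      have := abs_sub_abs_le_abs_sub y' y
      omega
    have c1 := (cf1 Γ (w.lg (by push_cast; omega) (by push_cast; omega) hlo hhi) (k + 1) i
      (by omega) hi' (by
        refine (nrm_le_iff _ _).2 ?_
        rw [sub_zero, k5]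
        exact ⟨by exact_mod_cast hn1, k7.trans hW1'⟩) (by
        have := (abs_le.1 ((nrm_le_iff _ _).1 hb).1).2
        simp only [Prod.fst_sub] at this
        omega)).2
    have c2 := btl0_follow hd ht hα hβ hαβ hlo hhi (by omega) (by omega) hH' hHY (hW1.trans hnY)
      (jn.trans hnY') (yn.trans hnY') (jn.trans hAn') (yn.trans hAn') locR cf2 hlip hlow hD hnt w k6
      k5 k7 (fun i' c2 c3 => by
        rcases le_or_gt i' l with c4 | c4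
        · exact k3 i' c2 c4
        · have := w.right i' c4 c3
          omega) (i := i - (k + 1)) (by omega) (fun i' c2 =>
        box_subset_box (by simp [nrm, add_comm]) (c1 _ (Nat.le_add_right _ _) (by omega)))
    refine ⟨k + 1, _, k4, k7, c2.1, fun i' c3 c4 => ?_⟩
    rw [← c2.2 _ (by omega), Nat.add_sub_cancel' c3]
  obtain ⟨c1, u1, d1, e1, p1, q1⟩ := pre y Γ1 f1 g1 l1 i1 (by simp) w1 a1 a2 (b1 i1 a1 le_rfl)
  obtain ⟨c2, u2, d2, e2, p2, q2⟩ := pre y' Γ2 f2 g2 l2 i2 hH w2 a3 a4 (b2 i2 a3 le_rfl)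
  have ex : ∃ u, l1 ≤ u ∧ u < i1 ∧ ∃ v, l2 ≤ v ∧ v < i2 ∧ Γ1.p (u + 1) = Γ2.p (v + 1) :=
    ⟨i1 - 1, by omega, by omega, i2 - 1, by omega, by omega, by
      rwa [Nat.sub_add_cancel (by omega), Nat.sub_add_cancel (by omega)]⟩
  obtain ⟨s1, s2, v, s3, s4, s5⟩ := Nat.find_spec ex
  have hmin := fun u => Nat.find_min ex (m := u)
  generalize Nat.find ex = u at s1 s2 s5 hmin
  refine ⟨Γ1.p (u + 1), ⟨u1, Finset.mem_Icc.2 (abs_le.1 e1), u2, Finset.mem_Icc.2 (abs_le.1 e2),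
    u - c1, v - c2, by simp only; omega, by simp only; omega, ?_, ?_, ?_⟩,
    b1 _ (by omega) (by omega)⟩
  · rw [← q1 (u + 1) (by omega) (by omega), Nat.sub_add_comm (by omega)]
  · rw [s5, ← q2 (v + 1) (by omega) (by omega), Nat.sub_add_comm (by omega)]
  · simp only
    rw [q1 u (by omega) (by omega), q2 v (by omega) (by omega)]
    intro e
    rcases s1.eq_or_lt with rfl | s1' <;> rcases s3.eq_or_lt with rfl | s3'
    · have m1 := w1.mid l1 (w1.fg.trans w1.gl) (Nat.le_succ _)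
      have m2 := w2.mid l2 (w2.fg.trans w2.gl) (Nat.le_succ _)
      rw [← e] at m2
      exact absurd (btl0_mid m1 m2) (not_le.2 hm)
    · have := w2.right v s3' (by omega)
      rw [← e, w1.lcol'] at this
      omega
    · have := w1.right u s1' (by omega)
      rw [e, w2.lcol'] at this
      omega
    · refine hmin (u - 1) (by omega) ⟨by omega, by omega, v - 1, by omega, by omega, ?_⟩
      rwa [Nat.sub_add_cancel (by omega), Nat.sub_add_cancel (by omega)]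

/-- first stage: a pair whose right fields do not jump merges on the right -/
theorem tl_of_pair (hd : DN (mu G)) {t : Env} {α β lo hi η η' : ℝ} (ht : GN G α t)
    (hα : |α| ≤ Sk (mu G) 4) (hβ : |β| ≤ Sk (mu G) 4) (hαβ : α ≤ β) (hlo : -Sk (mu G) 3 ≤ lo)
    (hhi : hi ≤ Sk (mu G) 3) {m H r Y A H' : ℕ} {L R : ℤ} (hr : H + m ≤ r) (hR : (r : ℤ) + 4 ≤ R)
    (hH' : ((A : ℝ) + 3 * m1 (mu G)) * ((r + 2 : ℕ) : ℝ) < 2 * g0 (mu G) * H') (hHY : H' ≤ Y)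
    (hrY : r ≤ Y) (locR : t ∈ Loc (mu G) 1 R α β lo hi Y) (cf : t ∈ CF (mu G) A (r + 2) L R)
    (hlip : t ∈ Lip (mu G) 1 R 0 ((r + 2 : ℕ) : ℝ))
    (hlow : t ∈ LowL G (g0 (mu G)) 1 (1, 0) (r + 2))
    (hD : Dinc t 1 R α β (-(H' : ℤ)) H' < η') (hnt : t ∉ NTs R α η' (H + m) (r + 2))
    (hmeet : t ∈ Meet R α (H + m) r) (h : t ∈ Pair (mu G) m η lo hi H L R 0) :
    t ∈ TL (mu G) m η lo hi H r L R 0 0 := by
  obtain ⟨⟨Γ1, f1, g1, l1, w1⟩, y', hm, hH, Γ2, f2, g2, l2, w2⟩ := h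
  have hr' : (H : ℤ) + m ≤ r := by exact_mod_cast hr
  have hrY' : (r : ℤ) ≤ Y := by exact_mod_cast hrY
  have pre : ∀ (y' : ℤ) (Γ : Pth) (f g l : ℕ), |y'| ≤ H →
      WPath (mu G) t m η lo hi L R 0 y' Γ f g l → |(Γ.p (l + 1)).2| ≤ ((H + m : ℕ) : ℤ) ∧
      ∀ i, (∀ i' ≤ i, (line t 1 R α (1, (Γ.p (l + 1)).2)).p i' ∈ box 0 r) → l + 1 + i ≤ Γ.n ∧
        ∀ i' ≤ i, Γ.p (l + 1 + i') = (line t 1 R α (1, (Γ.p (l + 1)).2)).p i' := by
    intro y' Γ f g l hy' w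
    have k1 : |(Γ.p (l + 1)).2| ≤ ((H + m : ℕ) : ℤ) := by
      have := abs_sub_abs_le_abs_sub (Γ.p (l + 1)).2 y'
      have := w.heights.2
      push_cast
      omega
    have k2 : (Γ.p (l + 1)).1 = 1 := by simpa using w.lcol
    have F := fun i => btl0_follow hd ht hα hβ hαβ hlo hhi (by omega) (by omega) hH' hHY
      (hr.trans hrY) (by simp) (by omega) (by simp only [abs_zero]; positivity)
      (by push_cast; omega) locR cf hlip hlow hD hnt w (a := l + 1) w.ln k2 k1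
      (fun i a b => by simpa using w.right i a b) (i := i)
    refine ⟨k1, fun i => ?_⟩
    induction i with
    | zero =>
      refine fun _ => ⟨w.ln, (F 0 w.ln fun i' hi' => ?_).2⟩
      rw [Nat.le_zero.1 hi']
      refine (nrm_le_iff _ _).2 ?_
      simp only [add_zero, Prod.fst_sub, Prod.snd_sub, k2, sub_self, abs_zero, sub_zero]
      push_cast at k1 ⊢
      omega
    | succ i ih =>
      intro hb
      obtain ⟨c1, c2⟩ := ih fun i' hi' => hb i' (hi'.trans (Nat.le_succ _))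
      have c3 : ∀ i' ≤ i, Γ.p (l + 1 + i') ∈ box 0 r := fun i' hi' => by
        rw [c2 i' hi']
        exact hb i' (hi'.trans (Nat.le_succ _))
      have c4 := (nrm_le_iff _ _).1 (c3 i le_rfl)
      rw [sub_zero] at c4
      have c5 : l + 1 + i < Γ.n := lt_of_le_of_ne c1 fun e => by
        rw [e, w.stop] at c4
        have := (abs_le.1 c4.1).2
        omega
      refine ⟨c5, (F (i + 1) c5 fun i' hi' => ?_).2⟩
      rcases hi'.eq_or_lt with rfl | hi''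
      · have s1 := abs_le.1 (w.geo.1.col_step (l + 1 + i))
        have s2 := abs_le.1 (w.geo.1.row_step (l + 1 + i))
        have s3 := abs_le.1 c4.1
        have s4 := abs_le.1 c4.2
        refine (nrm_le_iff _ _).2 ?_
        simp only [Prod.fst_sub, Prod.snd_sub, abs_le, ← add_assoc]
        push_cast
        omega
      · exact box_subset_box (by simp [nrm]; omega) (c3 i' (by omega))
  obtain ⟨u1, v1⟩ := pre 0 Γ1 f1 g1 l1 (by simp) w1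
  obtain ⟨u2, v2⟩ := pre y' Γ2 f2 g2 l2 (by simpa using hH) w2
  obtain ⟨i1, i2, -, -, e, b1, b2⟩ := hmeet _ _ u1 u2
  obtain ⟨c1, d1⟩ := v1 i1 b1
  obtain ⟨c2, d2⟩ := v2 i2 b2
  refine ⟨y', Γ1, f1, g1, l1, Γ2, f2, g2, l2, l1 + 1 + i1, l2 + 1 + i2, hm, hH, w1, w2, by omega, c1,
    by omega, c2, by rw [d1 i1 le_rfl, d2 i2 le_rfl, e], fun i a b => ?_, fun i a b => ?_⟩
  · obtain ⟨k, rfl⟩ := Nat.exists_eq_add_of_le (Nat.succ_le_of_lt a)
    rw [d1 k (by omega)]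
    exact b1 k (by omega)
  · obtain ⟨k, rfl⟩ := Nat.exists_eq_add_of_le (Nat.succ_le_of_lt a)
    rw [d2 k (by omega)]
    exact b2 k (by omega)

end Crest.Agent.R151
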