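import Crest.Agent.R151.BTube1

/-! Row 151, part B: directedness of `W`-paths with high averaged probability. -/

set_option autoImplicit false

namespace Crest.Agent.R151

open MeasureTheory ProbabilityTheory Crest.ProbabilityR.FirstPassage Filter Topology
open scoped Classical

variable {G : Measure ℝ} [Law G]

omit [Law G] in
theorem btube2_up_mono {C C' : ℝ} (h : C ≤ C') (o : V) (L : ℕ) : Up G C o L ⊆ Up G C' o L := by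
  rintro t ⟨r, h1, h2⟩
  refine ⟨r, h1, fun c hc c' hc' x z hx hz => (h2 c hc c' hc' x z hx hz).trans ?_⟩
  have : (0 : ℝ) ≤ (L : ℝ) ^ ((3 : ℝ) / 4) := by positivity
  nlinarith

omit [Law G] in
theorem btube2_upTo_mono {C C' : ℝ} (h : C ≤ C') (o : V) (L : ℕ) (z : V) :
    UpTo G C o L z ⊆ UpTo G C' o L z := by
  rintro t ⟨r, h1, h2⟩
  refine ⟨r, h1, fun c hc x hx => (h2 c hc x hx).trans ?_⟩
  have : (0 : ℝ) ≤ (L : ℝ) ^ ((3 : ℝ) / 4) := by positivity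
  nlinarith

theorem small_not_tube (hd : DN (mu G)) : ∃ A : ℕ, 1 ≤ A ∧ ∀ lo hi σ θ δ : ℝ, 0 < σ →
    lo ≤ hi → hi - lo ≤ σ → -Sk (mu G) 3 ≤ lo - σ → hi + σ ≤ Sk (mu G) 3 →
    thm (mu G) (lo - σ) ≤ θ → θ ≤ thp (mu G) (hi + σ) →
    thp (mu G) (hi + σ) - thm (mu G) (lo - σ) ≤ δ → 0 < δ → δ ≤ 1 → ∀ (m : ℕ) (p : ℝ), 0 < p →
    ∃ n0 : ℕ, ∀ n : ℕ, n0 ≤ n →
      Small2 (fun N1 N2 => Pr G (Tube (mu G) m lo hi θ (A * δ * n) n (1 - N1) N2)ᶜ) p := by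
  obtain ⟨A, A0, hA, hA0, H⟩ := tube_of_good hd
  refine ⟨A, hA, fun lo hi σ θ δ hσ h1 h2 h3 h4 h5 h6 h7 hδ hδ1 m p hp => ?_⟩
  obtain ⟨κ, ζ, hκ, hκ1, hζ, H⟩ := H lo hi σ θ δ hσ h1 h2 h3 h4 h5 h6 h7 hδ hδ1
  obtain ⟨C1, hC1, hup⟩ := Pr_not_up G
  obtain ⟨C2, hC2, hupto⟩ := Pr_not_upTo G
  obtain ⟨C3, c3, hC3, hc3, hlow⟩ := Pr_not_lowL G hζ A0
  obtain ⟨n1, H⟩ := H (max C1 C2) m
  set a : ℕ := ⌈1 / δ⌉₊ + 1 with ha
  set b : ℕ := ⌈1 / κ⌉₊ + 1 with hb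
  have ha0 : (0 : ℝ) < a := by rw [ha]; positivity
  have hS3 := DN.Sk_lt hd (k := 3) (by norm_num)
  obtain ⟨Y0, hpl⟩ := small_not_pl hd (α := lo - σ / 2) (β := hi + σ / 2) (lo := lo) (hi := hi)
    (by linarith) (by linarith) h1 (by linarith) (by linarith) hζ
    (show 0 < p / 4 / a by positivity)
  have tA : Tendsto (fun n : ℕ => ((A0 * n : ℕ) : ℝ)) atTop atTop :=
    tendsto_natCast_atTop_atTop.comp
      (tendsto_atTop_mono (fun n => Nat.le_mul_of_pos_left n hA0) tendsto_id)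
  have e1 : ∀ᶠ n : ℕ in atTop, C1 / ((A0 * n : ℕ) : ℝ) ^ 100 ≤ p / 4 :=
    (((tendsto_pow_atTop (by norm_num)).comp tA).const_div_atTop C1).eventually
      (ge_mem_nhds (by positivity))
  have e2 : ∀ᶠ n : ℕ in atTop,
      C2 / ((A0 * n : ℕ) : ℝ) ^ ((1 : ℝ) / 4) ≤ p / 4 / (a * (2 * b + 1)) :=
    (((tendsto_rpow_atTop (by norm_num)).comp tA).const_div_atTop C2).eventually
      (ge_mem_nhds (by positivity))
  have e3 : ∀ᶠ n : ℕ in atTop, C3 * Real.exp (-(c3 * n)) ≤ p / 4 := by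
    have t1 : Tendsto (fun n : ℕ => C3 * Real.exp (-(c3 * n))) atTop (𝓝 (C3 * 0)) :=
      (Real.tendsto_exp_neg_atTop_nhds_zero.comp
        (tendsto_natCast_atTop_atTop.const_mul_atTop hc3)).const_mul C3
    rw [mul_zero] at t1
    exact t1.eventually (ge_mem_nhds (by positivity))
  obtain ⟨n0, hn0⟩ := eventually_atTop.1 (e1.and (e2.and (e3.and ((eventually_ge_atTop n1).and
    ((eventually_ge_atTop Y0).and (eventually_ge_atTop 1))))))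
  refine ⟨n0, fun n hn => ?_⟩
  obtain ⟨f1, f2, f3, f4, f5, f6⟩ := hn0 n hn
  obtain ⟨Hbox, Htube⟩ := H n f4
  have hL : 1 ≤ A0 * n := Nat.mul_pos hA0 f6
  have hY : Y0 ≤ A0 * n := f5.trans (Nat.le_mul_of_pos_left n hA0)
  set PLr : ℕ → ℤ → Set Env := fun r N => PL (mu G) ((r * ⌈δ * n⌉₊ : ℕ) : ℤ) N (lo - σ / 2)
    (hi + σ / 2) lo hi ζ (4 * ((A0 * n : ℕ) : ℝ)) (A0 * n) with hPLr
  set Z : ℕ × ℤ → V := fun q => (((q.1 * ⌈δ * n⌉₊ : ℕ) : ℤ),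
    q.2 * (⌈κ * n⌉₊ : ℤ) + ⌊θ * ((q.1 * ⌈δ * n⌉₊ : ℕ) : ℝ)⌋) with hZ
  have hsm : Small2 (fun _ N2 => 3 * (p / 4) + ∑ r ∈ Finset.Icc 1 a, Pr G (PLr r N2)ᶜ)
      (3 * (p / 4) + ∑ _r ∈ Finset.Icc 1 a, p / 4 / a) :=
    (small2_const _).add
      (Small.sum (Finset.Icc 1 a) (f := fun r N => Pr G (PLr r N)ᶜ) fun r _ => hpl _ hY _).right
  have hsum : 3 * (p / 4) + ∑ _r ∈ Finset.Icc 1 a, p / 4 / a = p := by
    rw [Finset.sum_const, Nat.card_Icc, nsmul_eq_mul]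
    simp only [add_tsub_cancel_right]
    field_simp
    ring
  rw [hsum] at hsm
  refine hsm.of_le ⟨2 * A0 * n + 1, fun N1 N2 hN1 hN2 => ?_⟩
  have p1 : Pr G (Up G (max C1 C2) 0 (A0 * n))ᶜ ≤ p / 4 :=
    (Pr_mono G (Set.compl_subset_compl.2 (btube2_up_mono (le_max_left _ _) _ _))).trans
      ((hup 0 _ hL).trans f1)
  have p2 : Pr G (LowL G ζ A0 0 n)ᶜ ≤ p / 4 := (hlow 0 n).trans f3
  have p3 : Pr G (⋃ q ∈ Finset.Icc 1 a ×ˢ Finset.Icc (-(b : ℤ)) b,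
      (UpTo G (max C1 C2) 0 (A0 * n) (Z q))ᶜ) ≤ p / 4 := by
    refine (Pr_biUnion_le G _ _).trans ((Finset.sum_le_card_nsmul _ _
      (p / 4 / (a * (2 * b + 1))) fun q hq => ?_).trans (le_of_eq ?_))
    · rw [Finset.mem_product, Finset.mem_Icc, Finset.mem_Icc] at hq
      exact (Pr_mono G (Set.compl_subset_compl.2
        (btube2_upTo_mono (le_max_right _ _) _ _ _))).trans
        ((hupto 0 _ hL _ (Hbox q.1 hq.1.2 q.2 (abs_le.2 hq.2))).trans f2)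
    · rw [Finset.card_product, Nat.card_Icc, Int.card_Icc, nsmul_eq_mul]
      have : ((b : ℤ) + 1 - -(b : ℤ)).toNat = 2 * b + 1 := by omega
      rw [this]
      simp only [add_tsub_cancel_right]
      push_cast
      field_simp
  have p4 := Pr_biUnion_le G (Finset.Icc 1 a) (fun r => (PLr r N2)ᶜ)
  have key : Pr G (Tube (mu G) m lo hi θ (A * δ * n) n (1 - N1) N2)ᶜ ≤
      Pr G (((Up G (max C1 C2) 0 (A0 * n))ᶜ ∪ (LowL G ζ A0 0 n)ᶜ) ∪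
        ((⋃ q ∈ Finset.Icc 1 a ×ˢ Finset.Icc (-(b : ℤ)) b,
          (UpTo G (max C1 C2) 0 (A0 * n) (Z q))ᶜ) ∪ ⋃ r ∈ Finset.Icc 1 a, (PLr r N2)ᶜ)) := by
    refine Pr_mono_ae G ?_
    filter_upwards [ae_nn G] with t ht hT
    by_contra hc
    simp only [Set.mem_union, Set.mem_compl_iff, Set.mem_iUnion, not_or, not_not, not_exists,
      Finset.mem_product, Finset.mem_Icc] at hc
    obtain ⟨⟨g1, g2⟩, g3, g4⟩ := hc
    refine hT (Htube _ _ (by linarith) (by linarith) t ht ⟨g1, g2, fun r hr1 hr2 =>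
      ⟨g4 r ⟨hr1, hr2⟩, fun u hu => g3 (r, u) ⟨⟨hr1, hr2⟩, abs_le.1 hu⟩⟩⟩)
  have q1 := Pr_union_le G ((Up G (max C1 C2) 0 (A0 * n))ᶜ ∪ (LowL G ζ A0 0 n)ᶜ)
    ((⋃ q ∈ Finset.Icc 1 a ×ˢ Finset.Icc (-(b : ℤ)) b,
      (UpTo G (max C1 C2) 0 (A0 * n) (Z q))ᶜ) ∪ ⋃ r ∈ Finset.Icc 1 a, (PLr r N2)ᶜ)
  have q2 := Pr_union_le G (Up G (max C1 C2) 0 (A0 * n))ᶜ (LowL G ζ A0 0 n)ᶜ
  have q3 := Pr_union_le G (⋃ q ∈ Finset.Icc 1 a ×ˢ Finset.Icc (-(b : ℤ)) b,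
      (UpTo G (max C1 C2) 0 (A0 * n) (Z q))ᶜ) (⋃ r ∈ Finset.Icc 1 a, (PLr r N2)ᶜ)
  linarith

end Crest.Agent.R151
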