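import Crest.Agent.R151.BTL0
import Crest.Agent.R151.BMerge
import Crest.Agent.R151.BTube2
import Crest.Agent.R151.BConf1

/-! Row 151, part B: merging pairs with slopes in one good interval are rare. -/

set_option autoImplicit false

namespace Crest.Agent.R151

open MeasureTheory ProbabilityTheory Crest.ProbabilityR.FirstPassage Filter Topology
open scoped Classical

variable {G : Measure ℝ} [Law G]

/-- deterministic count of the positions of merging pairs of one fine index -/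
theorem tl_count (hd : DN (mu G)) {t : Env} {α β lo hi lo0 hi0 η η' θ w h : ℝ} (ht : GN G α t)
    (hα : |α| ≤ Sk (mu G) 4) (hβ : |β| ≤ Sk (mu G) 4) (hαβ : α ≤ β) (hlo : -Sk (mu G) 3 ≤ lo)
    (hhi : hi ≤ Sk (mu G) 3) (hη : 0 ≤ η) (h1 : lo0 ≤ lo) (h2 : hi ≤ hi0)
    {m H r W Y A n n1 H' : ℕ} {L R : ℤ} (hL : L ≤ 0) (hR : 1 ≤ R) (hn : 1 ≤ n) (hH : H ≤ 2 * n)
    (hW : w + h + H + |θ| ≤ W) (hA : 1 ≤ A) (hW1 : W ≤ n1) (hnr : 2 * n + r ≤ n1)
    (hθn : 2 * n * |θ| + h + H ≤ n1)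
    (hH' : ((A : ℝ) + 3 * m1 (mu G)) * ((A * n1 + 1 : ℕ) : ℝ) < 2 * g0 (mu G) * H') (hHY : H' ≤ Y)
    (hnY : n1 ≤ Y) (locR : t ∈ Loc (mu G) 1 R α β lo hi Y)
    (locL : act rfl1 t ∈ Loc (mu G) 1 (1 - L) (-β) (-α) (-hi) (-lo) Y)
    (cf1 : t ∈ CF (mu G) A n1 L R) (cf2 : t ∈ CF (mu G) A (A * n1 + 1) L R)
    (hlip : t ∈ Lip (mu G) 1 R 0 ((A * n1 + 1 : ℕ) : ℝ))
    (hlow : t ∈ LowL G (g0 (mu G)) 1 (1, 0) (A * n1 + 1)) (P : Finset V)
    (hP : ∀ x ∈ P, (n : ℤ) ≤ x.1 ∧ x.1 < 2 * n ∧ |(x.2 : ℝ) - θ * x.1| ≤ h ∧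
      t ∈ TL (mu G) m η lo hi H r L R x.1 x.2 ∧
      act rfl1 (act (tr x) t) ∈
        Tube (mu G) m (-hi0) (-lo0) (-θ) w (2 * n) (1 - (R - x.1)) (1 - (L - x.1)))
    (hne : P.Nonempty) :
    2 * η ≤ Dinc (act rfl1 t) 1 (1 - L) (-β) (-α) (-(W : ℤ)) W ∧
      (Dinc t 1 R α β (-(H' : ℤ)) H' < η' → t ∉ NTs R α η' W (A * n1 + 1) →
        P.card ≤ (2 * W + 1) * (2 * r + 1) ^ 2) := by
  have hm := hd.Sk_lt (show 4 < 8 by norm_num)
  have key : ∀ x ∈ P, (1 : ℤ) ≤ x.1 ∧ x.1 + r ≤ n1 ∧ |x.2| + H ≤ n1 ∧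
      ∀ (y' : ℤ) (Γ : Pth) (f g l : ℕ), |y' - x.2| ≤ H →
        WPath (mu G) t m η lo hi L R x.1 y' Γ f g l → ∀ i ≤ Γ.n,
          (Γ.p i).1 = 0 ∨ (Γ.p i).1 = 1 → |(Γ.p i).2| ≤ W := by
    intro x hx
    obtain ⟨a, b, c, -, e⟩ := hP x hx
    refine ⟨by omega, by omega, ?_, fun y' Γ f g l hy' hΓ i hi' hc =>
      tl_heights a b hn hη h1 h2 c hy' hH hW e hΓ hi' hc⟩
    have b1 : |(x.1 : ℝ)| ≤ 2 * n := by
      have : |x.1| ≤ 2 * (n : ℤ) := abs_le.2 ⟨by omega, b.le⟩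
      exact_mod_cast this
    have b2 : |θ * x.1| ≤ 2 * n * |θ| := by
      rw [abs_mul, mul_comm]
      gcongr
    have b3 : |(x.2 : ℝ)| + H ≤ n1 := by
      linarith [abs_sub_abs_le_abs_sub (x.2 : ℝ) (θ * x.1)]
    exact_mod_cast b3
  obtain ⟨x, hx⟩ := hne
  obtain ⟨k1, k2, k3, k4⟩ := key x hx
  refine ⟨tl_Dinc ht.1 (hα.trans_lt hm) (hβ.trans_lt hm) hαβ hL k1 (by omega) (by omega)
    (hW1.trans hnY) locL (fun y' Γ f g l a b i c d => k4 y' Γ f g l a b i c (.inl d))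
    (hP x hx).2.2.2.1, fun hD hnt => ?_⟩
  obtain ⟨M, hM, hM'⟩ := merge_count_lines ht (hα.trans_lt hm) hR W
  refine (card_positions_le P M r fun x hx => ?_).trans (Nat.mul_le_mul_right _ hM)
  obtain ⟨k1, k2, k3, k4⟩ := key x hx
  obtain ⟨c, hc, hc'⟩ := tl_merge hd ht hα hβ hαβ hlo hhi hL k1 hA (by omega) hW1 k2 k3 hH' hHY hnY
    locR cf1 cf2 hlip hlow hD hnt (fun y' Γ f g l a b i c d => k4 y' Γ f g l a b i c (.inr d))
    (hP x hx).2.2.2.1
  exact ⟨c, hM' c hc, hc'⟩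

theorem tl1_abs {ι κ : Type} (s : Finset ι) (I : Finset κ) {A : κ → ι → Set Env}
    (hA : ∀ i x, MeasurableSet (A i x)) (T : ι → Set Env) (B0 : Set Env) (B : κ → Set Env)
    {E : κ → Set Env} (hE : ∀ i, MeasurableSet (E i)) {K : ℝ} (hK : 0 ≤ K)
    (h : ∀ i ∈ I, ∀ᵐ t ∂(iidLaw G), t ∉ B0 → t ∉ B i → ∀ P : Finset ι, P.Nonempty →
      (∀ x ∈ P, x ∈ s ∧ t ∈ A i x ∧ t ∉ T x) → t ∈ E i ∧ (P.card : ℝ) ≤ K) :
    ∑ x ∈ s, Pr G {t | ∃ i ∈ I, t ∈ A i x} ≤ ∑ x ∈ s, Pr G (T x) + s.card * Pr G B0 +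
      ∑ i ∈ I, (s.card * Pr G (B i) + K * Pr G (E i)) := by
  let c : Set Env → Set Env := toMeasurable (iidLaw G)
  have hc : ∀ S, Pr G (c S) = Pr G S := fun S => by
    simp only [Pr, c, measureReal_def, measure_toMeasurable]
  let M : κ → ι → Set Env := fun i x => A i x \ (c (T x) ∪ c B0 ∪ c (B i))
  have h1 : ∀ x, Pr G {t | ∃ i ∈ I, t ∈ A i x} ≤
      Pr G (T x) + Pr G B0 + ∑ i ∈ I, (Pr G (B i) + Pr G (M i x)) := fun x => by
    refine (Pr_mono G (B := c (T x) ∪ c B0 ∪ ⋃ i ∈ I, (c (B i) ∪ M i x)) ?_).trans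
      ((Pr_union_le G _ _).trans (add_le_add ((Pr_union_le G _ _).trans_eq (by rw [hc, hc]))
        ((Pr_biUnion_le G _ _).trans (Finset.sum_le_sum fun i _ =>
          (Pr_union_le G _ _).trans_eq (by rw [hc])))))
    rintro t ⟨i, hi, ht⟩
    by_cases g : t ∈ c (T x) ∪ c B0
    · exact .inl g
    · refine .inr (Set.mem_biUnion hi ?_)
      by_cases g' : t ∈ c (B i)
      · exact .inl g'
      · exact .inr ⟨ht, fun g'' => g''.elim g g'⟩
  have h2 : ∀ i ∈ I, ∑ x ∈ s, Pr G (M i x) ≤ K * Pr G (E i) := fun i hi => by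
    rw [← integral_indicator_Pr G (hE i), ← integral_const_mul]
    refine sum_Pr_le_integral G s (A := M i) (fun x => (hA i x).diff (((measurableSet_toMeasurable _ _).union
      (measurableSet_toMeasurable _ _)).union (measurableSet_toMeasurable _ _)))
      (((integrable_const _).indicator (hE i)).const_mul K) ?_
    filter_upwards [h i hi] with t ht
    have key : ∀ P : Finset ι, (∀ x ∈ P, x ∈ s ∧ t ∈ M i x) →
        (P.card : ℝ) ≤ K * (E i).indicator (fun _ => 1) t := fun P hP => by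
      rcases P.eq_empty_or_nonempty with rfl | g
      · rw [Finset.card_empty, Nat.cast_zero]
        exact mul_nonneg hK (Set.indicator_nonneg (fun _ _ => zero_le_one) _)
      · obtain ⟨x, hx⟩ := id g
        have hx' := (hP x hx).2.2
        obtain ⟨g1, g2⟩ := ht (fun a => hx' (.inl (.inr (subset_toMeasurable _ _ a))))
          (fun a => hx' (.inr (subset_toMeasurable _ _ a))) _ g fun y hy =>
            ⟨(hP y hy).1, (hP y hy).2.1, fun a =>
              (hP y hy).2.2 (.inl (.inl (subset_toMeasurable _ _ a)))⟩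
        rwa [Set.indicator_of_mem g1, mul_one]
    exact key _ fun x hx => by simpa only [Finset.mem_filter] using hx
  refine (Finset.sum_le_sum fun x _ => h1 x).trans ?_
  rw [Finset.sum_add_distrib, Finset.sum_add_distrib, Finset.sum_const, nsmul_eq_mul,
    Finset.sum_comm]
  refine add_le_add le_rfl (Finset.sum_le_sum fun i hi => ?_)
  rw [Finset.sum_add_distrib, Finset.sum_const, nsmul_eq_mul]
  exact add_le_add le_rfl (h2 i hi)

theorem tl1_pos (θ : ℝ) (n : ℕ) {D : ℕ} (hD : 0 < D) : ∃ s : Finset V, s.card = n * D ∧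
    ∀ x ∈ s, (n : ℤ) ≤ x.1 ∧ x.1 < 2 * n ∧ |(x.2 : ℝ) - θ * x.1| ≤ D := by
  refine ⟨(Finset.Ico (n : ℤ) (2 * n) ×ˢ Finset.Ico (0 : ℤ) D).image
    fun x => (x.1, ⌊θ * x.1⌋ + x.2), ?_, fun x hx => ?_⟩
  · rw [Finset.card_image_of_injective, Finset.card_product, Int.card_Ico, Int.card_Ico]
    · rw [show (2 * n - n : ℤ) = n by ring, sub_zero, Int.toNat_natCast, Int.toNat_natCast]
    · rintro ⟨a, b⟩ ⟨c, d⟩ h
      obtain ⟨rfl, h⟩ := Prod.mk.inj h
      exact Prod.ext rfl (add_left_cancel h)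
  · obtain ⟨⟨a, b⟩, h, rfl⟩ := Finset.mem_image.1 hx
    simp only [Finset.mem_product, Finset.mem_Ico] at h
    have h1 : (0 : ℝ) ≤ b := by exact_mod_cast h.2.1
    have h2 : (b : ℝ) < D := by exact_mod_cast h.2.2
    have h3 : (1 : ℝ) ≤ D := by exact_mod_cast hD
    refine ⟨h.1.1, h.1.2, ?_⟩
    push_cast
    rw [abs_le]
    constructor <;> linarith [Int.floor_le (θ * a), Int.lt_floor_add_one (θ * a)]

theorem tl_interval (hd : DN (mu G)) : ∃ C : ℝ, 0 < C ∧ ∀ (m H r : ℕ) (η e s0 δ ζ : ℝ), 0 < η →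
    0 < e → |s0| + 102 * e ≤ Sk (mu G) 3 →
    thp (mu G) (s0 + 102 * e) - thm (mu G) (s0 - 102 * e) ≤ δ → 0 < δ → δ ≤ 1 → 0 < ζ →
    ∃ ε0 : ℝ, 0 < ε0 ∧ ∀ ε : ℝ, 0 < ε → ε ≤ ε0 → ∀ I : Finset ℤ,
      (∀ i ∈ I, s0 - e ≤ loI ε i ∧ hiI ε i ≤ s0 + e) →
      Small2 (fun N1 N2 => Pr G {t | ∃ i ∈ I,
          t ∈ TL (mu G) m η (loI ε i) (hiI ε i) H r (1 - N1) N2 0 0})
        (C * ((r : ℝ) + 1) ^ 2 * e * δ / η + ζ) := by
  obtain ⟨At, hAt, htube⟩ := small_not_tube hd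
  obtain ⟨A, hA, hcf⟩ := small_not_cf hd
  obtain ⟨CL, cL, hCL, hcL, hlow⟩ := Pr_not_lowL G hd.g0_pos 1
  refine ⟨32 * (2 * At + 2) * (2 * (2 * At + 2) + 1), by positivity, ?_⟩
  intro m H r η e s0 δ ζ hη he hs hδr hδ hδ1 hζ
  have hm3 := hd.Sk_lt (show 3 < 8 by norm_num)
  have h34 := hd.Sk_mono (show 3 ≤ 4 by norm_num)
  have a1 := le_abs_self s0
  have a2 := neg_abs_le s0
  have b1 : |s0 + 102 * e| < m1 (mu G) := abs_lt.2 ⟨by linarith, by linarith⟩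
  have b2 : |-(s0 - 102 * e)| < m1 (mu G) := abs_lt.2 ⟨by linarith, by linarith⟩
  have b3 : |-(s0 + 102 * e)| < m1 (mu G) := by rwa [abs_neg]
  set θ := thp (mu G) (s0 + 102 * e)
  have e1 : thm (mu G) (-(s0 + e) - 101 * e) = -θ := by
    rw [← hd.thm_neg b1]; congr 1; ring
  have e2 : thp (mu G) (-(s0 - e) + 101 * e) = -thm (mu G) (s0 - 102 * e) := by
    have := hd.thm_neg b2
    rw [neg_neg] at this
    rw [this, neg_neg]; congr 1; ring
  have e3 : thm (mu G) (s0 - 102 * e) ≤ θ := by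
    rw [abs_neg] at b2
    exact (hd.thm_le_thp b2).trans (hd.thp_mono b2 b1 (by linarith))
  have hp : 0 < ζ / 7 := by positivity
  obtain ⟨nt, hnt⟩ := htube (-(s0 + e)) (-(s0 - e)) (101 * e) (-θ) δ (by positivity) (by linarith)
    (by linarith) (by linarith) (by linarith) e1.le (by rw [e2]; linarith) (by rw [e1, e2]; linarith)
    hδ hδ1 m _ hp
  obtain ⟨nc, hnc⟩ := hcf _ hp
  obtain ⟨nl, hnl⟩ := small_not_lip hd hp
  obtain ⟨nw, hnw⟩ : ∃ nw : ℕ, ∀ L : ℕ, nw ≤ L → CL * Real.exp (-(cL * L)) ≤ ζ / 7 := by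
    have := ((Real.tendsto_exp_neg_atTop_nhds_zero.comp (Tendsto.const_mul_atTop hcL
      tendsto_natCast_atTop_atTop)).const_mul CL).eventually
      (ge_mem_nhds (show CL * 0 < ζ / 7 by linarith))
    exact eventually_atTop.1 this
  obtain ⟨n, hn⟩ := exists_nat_ge ((H + |θ| + 2) / δ + nt + nc + nl + nw)
  have hn0 : (H : ℝ) + |θ| + 2 ≤ δ * n := by
    rw [← div_le_iff₀' hδ]
    linarith [Nat.cast_nonneg (α := ℝ) nt, Nat.cast_nonneg (α := ℝ) nc,
      Nat.cast_nonneg (α := ℝ) nl, Nat.cast_nonneg (α := ℝ) nw]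
  have hn1 : nt + nc + nl + nw ≤ n := by
    have : (0 : ℝ) ≤ (H + |θ| + 2) / δ := by positivity
    exact_mod_cast (show (nt : ℝ) + nc + nl + nw ≤ n by linarith)
  have hH0 : (0 : ℝ) ≤ H := Nat.cast_nonneg _
  have hθ0 := abs_nonneg θ
  have hδn : δ * n ≤ n := mul_le_of_le_one_left (Nat.cast_nonneg _) hδ1
  have hn2 : H + 2 ≤ n := by exact_mod_cast (show (H : ℝ) + 2 ≤ n by linarith)
  set D := ⌈δ * n⌉₊
  have hD1 : δ * n ≤ D := Nat.le_ceil _
  have hD2 : (D : ℝ) < δ * n + 1 := Nat.ceil_lt_add_one (by positivity)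
  set w : ℝ := At * δ * ((2 * n : ℕ) : ℝ) with hw
  set W := ⌈w + D + H + |θ|⌉₊
  have hW1 : w + D + H + |θ| ≤ W := Nat.le_ceil _
  have hW2 : (W : ℝ) ≤ (2 * At + 2) * (δ * n) := by
    have : (W : ℝ) < w + D + H + |θ| + 1 := Nat.ceil_lt_add_one (by positivity)
    rw [hw] at this
    push_cast at this
    linarith
  set n1 := W + (2 * n + r) + ⌈2 * n * |θ| + D + H⌉₊ with hn1'
  have hn3 : 2 * n * |θ| + D + H ≤ n1 :=
    (Nat.le_ceil _).trans (Nat.cast_le.2 (by omega))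
  have hn4 : n1 ≤ A * n1 + 1 := by nlinarith
  obtain ⟨H', hH'⟩ := exists_nat_gt
    (((A : ℝ) + 3 * m1 (mu G)) * ((A * n1 + 1 : ℕ) : ℝ) / (2 * g0 (mu G)))
  rw [div_lt_iff₀' (by linarith [hd.g0_pos])] at hH'
  obtain ⟨s, hsc, hs'⟩ := tl1_pos θ n (D := D) (Nat.cast_pos.1 (by linarith : (0 : ℝ) < D))
  have hsp : (0 : ℝ) < s.card := by
    rw [hsc]; push_cast
    have : (0 : ℝ) < n := by linarith
    have : (0 : ℝ) < D := by linarith
    positivity
  set Mx : ℝ := 8 * e * W / η with hMx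
  have hMx0 : 0 ≤ Mx := by positivity
  set q : ℝ := ζ / 7 / (Mx + 1) with hq
  have hq0 : 0 < q := by positivity
  set Kn : ℝ := (2 * W + 1) * (4 * (2 * ((A * n1 + 1 : ℕ) : ℝ) + 1) ^ 2)
  have hKn : 0 < Kn := by positivity
  obtain ⟨η', hη', hη'2⟩ := exists_omg_le G (div_pos hq0 hKn)
  rw [le_div_iff₀' hKn] at hη'2
  refine ⟨min e (q * η' / (8 * H' + 1)), lt_min he (by positivity), fun ε hε hε0 I hI => ?_⟩
  have hεe := hε0.trans (min_le_left _ _)
  have hε1 : 4 * ε * (2 * H') / η' ≤ q := by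
    have := (le_div_iff₀ (by positivity)).1 (hε0.trans (min_le_right _ _))
    rw [div_le_iff₀ hη']
    linarith
  have hsl : ∀ i ∈ I, -Sk (mu G) 3 ≤ alI ε i ∧ alI ε i < loI ε i ∧ loI ε i < hiI ε i ∧
      hiI ε i < beI ε i ∧ beI ε i ≤ Sk (mu G) 3 ∧ beI ε i - alI ε i = 4 * ε := fun i hi => by
    obtain ⟨c1, c2⟩ := hI i hi
    simp only [alI, loI, hiI, beI] at c1 c2 ⊢
    refine ⟨?_, ?_, ?_, ?_, ?_, ?_⟩ <;> linarith
  set K : ℝ := (2 * W + 1) * (2 * r + 1) ^ 2 with hK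
  have core : ∀ N1 N2 : ℤ, 3 ≤ N1 → 3 ≤ N2 →
      ∑ x ∈ s, Pr G {t | ∃ i ∈ I, t ∈ TL (mu G) m η (loI ε i) (hiI ε i) H r (1 - (N1 + x.1))
        (N2 + -x.1) 0 0} ≤
      ∑ x ∈ s, Pr G (Tube (mu G) m (-(s0 + e)) (-(s0 - e)) (-θ) w (2 * n) (1 - (N2 + -x.1))
        (N1 + x.1))ᶜ + s.card * (Pr G (CF (mu G) A n1 (1 - N1) N2)ᶜ +
          Pr G (CF (mu G) A (A * n1 + 1) (1 - N1) N2)ᶜ +
          Pr G (Lip (mu G) 1 N2 0 ((A * n1 + 1 : ℕ) : ℝ))ᶜ + ζ / 7 +
          ∑ i ∈ I, (Pr G (Loc (mu G) 1 N2 (alI ε i) (beI ε i) (loI ε i) (hiI ε i) (H' + n1))ᶜ +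
            Pr G (Loc (mu G) 1 N1 (-beI ε i) (-alI ε i) (-hiI ε i) (-loI ε i) (H' + n1))ᶜ)) +
        (s.card * (2 * q) + K) * Mx := by
    intro N1 N2 h1 h2
    let E : ℤ → Set Env := fun i =>
      {t | 2 * η ≤ Dinc (act rfl1 t) 1 N1 (-beI ε i) (-alI ε i) (-(W : ℤ)) W}
    let F : ℤ → Set Env := fun i => {t | η' ≤ Dinc t 1 N2 (alI ε i) (beI ε i) (-(H' : ℤ)) H'} ∪
      NTs N2 (alI ε i) η' W (A * n1 + 1)
    have mE : ∀ i, MeasurableSet (E i) := fun i =>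
      measurableSet_le measurable_const ((measurable_Dinc _ _ _ _ _ _).comp (measurable_act _))
    have pE : ∑ i ∈ I, Pr G (E i) ≤ Mx := by
      refine (Finset.sum_le_card_nsmul _ _ (4 * ε * W / η) fun i hi => ?_).trans ?_
      · obtain ⟨c1, c2, c3, c4, c5, c6⟩ := hsl i hi
        refine (Pr_Dinc_left_ge h1 (abs_lt.2 ⟨by linarith, by linarith⟩)
          (abs_lt.2 ⟨by linarith, by linarith⟩) (by linarith) (by omega) (by positivity)).trans_eq ?_
        rw [show -alI ε i - -beI ε i = 4 * ε by linarith]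
        push_cast
        field_simp
        ring
      · rw [nsmul_eq_mul]
        refine (mul_le_mul_of_nonneg_right (card_fine_le hε hεe I hI) (by positivity)).trans_eq ?_
        rw [hMx]
        field_simp
        ring
    have pF : ∀ i ∈ I, Pr G (E i ∩ F i) ≤ Pr G (E i) * (2 * q) := fun i hi => by
      obtain ⟨c1, c2, c3, c4, c5, c6⟩ := hsl i hi
      have d1 : |alI ε i| < m1 (mu G) := abs_lt.2 ⟨by linarith, by linarith⟩
      rw [Pr_inter_of_dep G (disjoint_LE_strip (1 - N1) N2) (mE i)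
        ((measurableSet_le measurable_const (measurable_Dinc _ _ _ _ _ _)).union
          (measurableSet_nts _ _ _ _ _)) ((depF_Dinc_left _ _ _ _ _).preimage (Set.Ici (2 * η)))
        (((depF_Dinc _ _ _ _ _ _).preimage (Set.Ici η')).union (dep_nts _ _ _ _ _))]
      refine mul_le_mul_of_nonneg_left ((Pr_union_le G _ _).trans ?_) (Pr_nonneg G _)
      have d2 := Pr_Dinc_ge (G := G) (k := 1) (N := N2) (by omega) d1
        (β := beI ε i) (abs_lt.2 ⟨by linarith, by linarith⟩) (by linarith)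
        (show -(H' : ℤ) ≤ H' by omega) hη'
      rw [c6, show (((H' : ℤ) - -(H' : ℤ) : ℤ) : ℝ) = 2 * H' by push_cast; ring] at d2
      linarith [Pr_nts d1 N2 η' W (A * n1 + 1)]
    have main := tl1_abs (G := G) s I
      (fun i x => measurableSet_tl (mu G) m η (loI ε i) (hiI ε i) H r (1 - N1) N2 x.1 x.2)
      (fun x => act (tr x) ⁻¹' (act rfl1 ⁻¹' (Tube (mu G) m (-(s0 + e)) (-(s0 - e)) (-θ) w (2 * n)
        (1 - (N2 + -x.1)) (N1 + x.1))ᶜ))
      ((CF (mu G) A n1 (1 - N1) N2)ᶜ ∪ (CF (mu G) A (A * n1 + 1) (1 - N1) N2)ᶜ ∪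
        (Lip (mu G) 1 N2 0 ((A * n1 + 1 : ℕ) : ℝ))ᶜ ∪ (LowL G (g0 (mu G)) 1 (1, 0) (A * n1 + 1))ᶜ)
      (fun i => (Loc (mu G) 1 N2 (alI ε i) (beI ε i) (loI ε i) (hiI ε i) (H' + n1))ᶜ ∪
        act rfl1 ⁻¹' (Loc (mu G) 1 N1 (-beI ε i) (-alI ε i) (-hiI ε i) (-loI ε i) (H' + n1))ᶜ ∪
        E i ∩ F i) mE (K := K) (by positivity) fun i hi => by
        obtain ⟨c1, c2, c3, c4, c5, c6⟩ := hsl i hi
        filter_upwards [ae_gn G (alI ε i)] with t ht g0 g1 P hP hP'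
        simp only [Set.mem_union, Set.mem_compl_iff, not_or, not_not, Set.mem_preimage] at g0 g1 hP'
        have := tl_count hd ht (β := beI ε i) (η' := η') (θ := θ) (w := w) (h := D)
          (abs_le.2 ⟨by linarith, by linarith⟩) (abs_le.2 ⟨by linarith, by linarith⟩) (by linarith)
          (by linarith) (by linarith) hη.le (hI i hi).1 (hI i hi).2 (L := 1 - N1) (n := n)
          (n1 := n1) (A := A) (r := r) (R := N2) (by omega)
          (by omega) (by omega) (by omega) hW1 (by omega) (by omega) (by omega) hn3 hH'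
          (Nat.le_add_right _ _) (Nat.le_add_left _ _) g1.1.1 (by rw [sub_sub_cancel]; exact g1.1.2)
          g0.1.1.1 g0.1.1.2 g0.1.2 g0.2 P (fun x hx => by
            obtain ⟨d1, d2, d3⟩ := hP' x hx
            obtain ⟨d4, d5, d6⟩ := hs' x d1
            refine ⟨d4, d5, d6, d2, ?_⟩
            rwa [show 1 - (1 - N1 - x.1) = N1 + x.1 by ring, sub_eq_add_neg N2]) hP
        rw [sub_sub_cancel] at this
        refine ⟨this.1, ?_⟩
        have g2 : t ∉ F i := fun h => g1.2 ⟨this.1, h⟩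
        simp only [F, Set.mem_union, Set.mem_ofPred_eq, not_or, not_le] at g2
        rw [hK]
        exact_mod_cast this.2 g2.1 g2.2
    refine le_trans (Finset.sum_le_sum fun x _ => le_of_eq ?_) (main.trans ?_)
    · rw [← Pr_act G (tr x)]
      congr 1
      ext t
      simp only [Set.mem_preimage, Set.mem_ofPred_eq, ← tl_tr (mu G) m η _ _ H r (1 - N1) N2 x.1 x.2,
        show 1 - N1 - x.1 = 1 - (N1 + x.1) by ring, sub_eq_add_neg N2]
    · simp only [Pr_act]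
      rw [add_assoc, add_assoc]
      refine add_le_add le_rfl ?_
      have f1 := (Pr_union_le G _ _).trans (add_le_add ((Pr_union_le G _ _).trans (add_le_add
        (Pr_union_le G (CF (mu G) A n1 (1 - N1) N2)ᶜ (CF (mu G) A (A * n1 + 1) (1 - N1) N2)ᶜ)
        (le_refl (Pr G (Lip (mu G) 1 N2 0 ((A * n1 + 1 : ℕ) : ℝ))ᶜ))))
        ((hlow (1, 0) (A * n1 + 1)).trans (hnw _ (by omega))))
      have f2 := Finset.sum_le_sum (s := I) fun i hi => add_le_add (mul_le_mul_of_nonneg_left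
        ((Pr_union_le G _ _).trans (add_le_add (Pr_union_le G
          (Loc (mu G) 1 N2 (alI ε i) (beI ε i) (loI ε i) (hiI ε i) (H' + n1))ᶜ
          (act rfl1 ⁻¹' (Loc (mu G) 1 N1 (-beI ε i) (-alI ε i) (-hiI ε i) (-loI ε i) (H' + n1))ᶜ))
          (pF i hi))) hsp.le) (le_refl (K * Pr G (E i)))
      refine (add_le_add (mul_le_mul_of_nonneg_left f1 hsp.le) f2).trans ?_
      simp only [Pr_act, Finset.sum_add_distrib, ← Finset.mul_sum, ← Finset.sum_mul]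
      have f3 := mul_le_mul_of_nonneg_left pE (show 0 ≤ s.card * (2 * q) + K by positivity)
      linarith
  have S1 := Small2.sum s fun x _ => ((hnt (2 * n) (by omega)).shift (B := 1) (fun _ _ => by
    rw [abs_of_nonneg (Pr_nonneg G _)]; exact Pr_le_one G _) (-x.1) x.1).swap
  have S2 := Small2.sum I fun i hi => by
    obtain ⟨c1, c2, c3, c4, c5, c6⟩ := hsl i hi
    exact (small_of_tendsto (Pr_not_loc hd (by linarith) c2 c3.le c4 (by linarith) 1
      (H' + n1))).right.add (small_of_tendsto (Pr_not_loc hd (by linarith) (neg_lt_neg c4)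
      (neg_le_neg c3.le) (neg_lt_neg c2) (by linarith) 1 (H' + n1))).left
  have S3 := (((((hnc n1 (by omega)).add (hnc (A * n1 + 1) (by omega))).add
    (hnl ((A * n1 + 1 : ℕ) : ℝ) (Nat.cast_le.2 (by omega)) 1 0).right).add
    (small2_const (ζ / 7))).add S2).const_mul hsp.le
  refine (Small2.of_sum_shift s (Finset.card_pos.1 (Nat.cast_pos.1 hsp)) (B := 1) (fun _ _ => by
    rw [abs_of_nonneg (Pr_nonneg G _)]; exact Pr_le_one G _) (fun x => x.1) (fun x => -x.1)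
    (((S1.add S3).add (small2_const _)).of_le ⟨3, core⟩)).mono_right ?_
  rw [div_le_iff₀ hsp]
  simp only [Finset.sum_const, nsmul_eq_mul, add_zero, mul_zero]
  have g1 : q * Mx ≤ ζ / 7 := by
    rw [hq, div_mul_eq_mul_div, div_le_iff₀ (by positivity)]
    nlinarith
  have g2 : K * Mx ≤ 32 * (2 * At + 2) * (2 * (2 * At + 2) + 1) * ((r : ℝ) + 1) ^ 2 * e * δ / η *
      s.card := by
    have g3 : (2 * W + 1 : ℝ) ≤ (2 * (2 * At + 2) + 1) * (δ * n) := by linarith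
    have g4 : (2 * r + 1 : ℝ) ≤ 2 * (r + 1) := by linarith
    calc K * Mx ≤ (2 * (2 * At + 2) + 1) * (δ * n) * (2 * (r + 1)) ^ 2 *
          (8 * e * ((2 * At + 2) * D) / η) := by
          rw [hK, hMx]
          gcongr
          exact hW2.trans (by gcongr)
      _ = _ := by rw [hsc]; push_cast; ring
  nlinarith [mul_le_mul_of_nonneg_left g1 hsp.le]

end Crest.Agent.R151
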