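import Crest.Agent.R151.BTL1
import Crest.Agent.R151.BBud2

/-! Row 151, part B: merging pairs are rare. -/

set_option autoImplicit false

namespace Crest.Agent.R151

open MeasureTheory ProbabilityTheory Crest.ProbabilityR.FirstPassage Filter Topology
open scoped Classical

variable {G : Measure ℝ} [Law G]

theorem tl_small (hd : DN (mu G)) (m H r : ℕ) {η ζ : ℝ} (hη : 0 < η) (hζ : 0 < ζ) :
    ∃ ε0 : ℝ, 0 < ε0 ∧ ∀ ε : ℝ, 0 < ε → ε ≤ ε0 →
      Small2 (fun N1 N2 => Pr G {t | ∃ i ∈ Idx (mu G) ε,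
        t ∈ TL (mu G) m η (loI ε i) (hiI ε i) H r (1 - N1) N2 0 0}) ζ := by
  obtain ⟨C, hC, h1⟩ := tl_interval hd
  obtain ⟨C', hC', h2⟩ := hd.card_bad_intervals
  have h3 : Sk (mu G) 3 < m1 (mu G) := hd.Sk_lt (by norm_num)
  have hm : 0 < m1 (mu G) := (hd.Sk_pos 3).trans h3
  have hg := hd.g0_pos
  obtain ⟨δ, hδ, hδ1, hδ2⟩ : ∃ δ : ℝ, 0 < δ ∧ δ ≤ 1 ∧
      δ ≤ ζ / 3 * η / (4 * m1 (mu G) * C * ((r : ℝ) + 1) ^ 2) :=
    ⟨min _ _, lt_min one_pos (by positivity), min_le_left _ _, min_le_right _ _⟩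
  obtain ⟨e, he, he1, he2⟩ : ∃ e : ℝ, 0 < e ∧ e ≤ g0 (mu G) / 200 ∧
      e ≤ ζ / 3 * η * δ / (100 * C' * ((m : ℝ) + 1)) :=
    ⟨min _ _, lt_min (by positivity) (by positivity), min_le_left _ _, min_le_right _ _⟩
  obtain ⟨K, hK, hK3, hcov⟩ := exists_coarse hd he he1
  have hζ' : 0 < ζ / 3 * e / (4 * m1 (mu G)) := by positivity
  set a : ℝ := C * ((r : ℝ) + 1) ^ 2 * e * δ / η + ζ / 3 * e / (4 * m1 (mu G)) with ha
  set b : ℝ := 50 * ((m : ℝ) + 1) * (2 * e) / η with hb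
  have ha0 : 0 ≤ a := by positivity
  have hb0 : 0 ≤ b := by positivity
  have key : ∀ k ∈ K, ∀ᶠ ε in 𝓝[>] (0 : ℝ), Small2 (fun N1 N2 => Pr G {t | ∃ i ∈ (Idx (mu G) ε).filter
      (fun i => k * e - e ≤ loI ε i ∧ hiI ε i ≤ k * e + e),
        t ∈ TL (mu G) m η (loI ε i) (hiI ε i) H r (1 - N1) N2 0 0})
      (a + if δ < thp (mu G) (k * e + 102 * e) - thm (mu G) (k * e - 102 * e) then b else 0) := by
    intro k hk
    split_ifs with hbad
    · have h4 := abs_le.1 (le_sub_iff_add_le.2 (hK3 k hk))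
      have h5 := small_wev hd (lo := k * e - e) (hi := k * e + e) (by linarith [h4.1])
        (by linarith) (by linarith [h4.2]) hη m
      rw [show (k : ℝ) * e + e - (k * e - e) = 2 * e by ring] at h5
      refine Eventually.of_forall fun ε => (h5.of_le ⟨0, fun N1 N2 _ _ => Pr_mono G ?_⟩).mono_right
        (le_add_of_nonneg_left ha0)
      rintro t ⟨i, hi, ht⟩
      obtain ⟨-, h6, h7⟩ := Finset.mem_filter.1 hi
      exact Wev_mono le_rfl h6 h7 (tl_subset_wev _ _ _ _ _ _ _ _ _ _ _ ht)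
    · obtain ⟨ε0, hε0, h4⟩ := h1 m H r η e (k * e) δ _ hη he (hK3 k hk) (not_lt.1 hbad) hδ hδ1 hζ'
      filter_upwards [Ioc_mem_nhdsGT hε0] with ε hε
      rw [add_zero]
      exact h4 ε hε.1 hε.2 _ fun i hi => (Finset.mem_filter.1 hi).2
  obtain ⟨ε0, hε0, h4⟩ := (nhdsGT_basis_Ioc (0 : ℝ)).eventually_iff.1
    (((Finset.eventually_all K).2 key).and (Ioc_mem_nhdsGT (half_pos he)))
  refine ⟨ε0, hε0, fun ε hε hε' => ?_⟩
  obtain ⟨h5, h6⟩ := h4 (x := ε) ⟨hε, hε'⟩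
  refine ((Small2.sum K h5).of_le ⟨0, fun N1 N2 _ _ =>
    Pr_le_sum_of_ae G K _ (Eventually.of_forall ?_)⟩).mono_right ?_
  · rintro t ⟨i, hi, ht⟩
    obtain ⟨k, hk, h7⟩ := hcov ε hε h6.2 i hi
    exact ⟨k, hk, i, Finset.mem_filter.2 ⟨hi, h7⟩, ht⟩
  · rw [Finset.sum_add_distrib, Finset.sum_const, nsmul_eq_mul, ← Finset.sum_filter,
      Finset.sum_const, nsmul_eq_mul]
    have h7 := mul_le_mul_of_nonneg_right hK ha0
    have h8 := mul_le_mul_of_nonneg_right (h2 e δ he hδ K hK3) hb0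
    have h9 : 4 * m1 (mu G) / e * a = δ * (4 * m1 (mu G) * C * ((r : ℝ) + 1) ^ 2) / η + ζ / 3 := by
      rw [ha]
      field_simp
    have h10 : C' / δ * b = e * (100 * C' * ((m : ℝ) + 1)) / (η * δ) := by
      rw [hb]
      field_simp
      ring
    rw [le_div_iff₀ (by positivity)] at hδ2 he2
    have h11 := (div_le_iff₀ hη).2 hδ2
    have h12 := (div_le_iff₀ (mul_pos hη hδ)).2 (he2.trans_eq (mul_assoc _ _ _))
    linarith

end Crest.Agent.R151
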