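import Crest.Agent.R151.BW1
import Crest.Agent.R151.BInc2

/-! Row 151, part B: directedness of `W`-paths (deterministic part). -/

set_option autoImplicit false

namespace Crest.Agent.R151

open MeasureTheory ProbabilityTheory Crest.ProbabilityR.FirstPassage Filter Topology
open scoped Classical

/-- the events that force every `W`-path into a tube -/
def TubeGood (G : Measure ℝ) (C lo hi σ θ δ κ ζ : ℝ) (A0 n : ℕ) (R : ℤ) : Set Env :=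
  {t | t ∈ Up G C 0 (A0 * n) ∧ t ∈ LowL G ζ A0 0 n ∧
    ∀ r : ℕ, 1 ≤ r → r ≤ ⌈1 / δ⌉₊ + 1 →
      t ∈ PL (mu G) ((r * ⌈δ * n⌉₊ : ℕ) : ℤ) R (lo - σ / 2) (hi + σ / 2) lo hi ζ
        (4 * ((A0 * n : ℕ) : ℝ)) (A0 * n) ∧
      ∀ u : ℤ, |u| ≤ ((⌈1 / κ⌉₊ + 1 : ℕ) : ℤ) →
        t ∈ UpTo G C 0 (A0 * n)
          (((r * ⌈δ * n⌉₊ : ℕ) : ℤ), u * (⌈κ * n⌉₊ : ℤ) + ⌊θ * ((r * ⌈δ * n⌉₊ : ℕ) : ℝ)⌋)}

variable {G : Measure ℝ} [Law G]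

/-- height of the last visit to one column -/
theorem dir_column (hd : DN (mu G)) {lo hi σ θ δ ζ U ℓ : ℝ} (hσ : 0 < σ) (h1 : lo ≤ hi)
    (h2 : hi - lo ≤ σ) (h3 : -Sk (mu G) 3 ≤ lo - σ) (h4 : hi + σ ≤ Sk (mu G) 3)
    (h5 : thm (mu G) (lo - σ) ≤ θ) (h6 : θ ≤ thp (mu G) (hi + σ))
    (h7 : thp (mu G) (hi + σ) - thm (mu G) (lo - σ) ≤ δ) (hζ : 0 ≤ ζ) (hζσ : ζ ≤ σ / 8)
    {o : V} {k w w0 : ℤ} (hk : o.1 ≤ k) {c n' : ℝ}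
    (hup : c ≤ mu G (rv ((k, w0) - o)) + U + (hi + σ / 2) * max ((w - w0 : ℤ) : ℝ) 0 -
      (lo - σ / 2) * max ((w0 - w : ℤ) : ℝ) 0 + ζ * (|((w - w0 : ℤ) : ℝ)| + ℓ))
    (hlow : mu G (rv ((k, w) - o)) - ζ * ((nrm ((k, w) - o) : ℝ) + n') ≤ c) :
    σ / 4 * |((w - w0 : ℤ) : ℝ)| ≤ 3 * σ * δ * ((k - o.1 : ℤ) : ℝ) +
      2 * m1 (mu G) * |((w0 - o.2 : ℤ) : ℝ) - θ * ((k - o.1 : ℤ) : ℝ)| + U +
      ζ * (ℓ + n' + (nrm ((k, w0) - o) : ℝ)) := by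
  have hS : Sk (mu G) 3 < m1 (mu G) := hd.Sk_lt (by norm_num)
  have ha : |lo - σ| < m1 (mu G) := abs_lt.2 ⟨by linarith, by linarith⟩
  have hb : |hi + σ| < m1 (mu G) := abs_lt.2 ⟨by linarith, by linarith⟩
  obtain ⟨x, hx⟩ : ∃ x : ℝ, x = ((k - o.1 : ℤ) : ℝ) := ⟨_, rfl⟩
  obtain ⟨a, ha'⟩ : ∃ a : ℝ, a = ((w0 - o.2 : ℤ) : ℝ) := ⟨_, rfl⟩
  obtain ⟨d, hd'⟩ : ∃ d : ℝ, d = ((w - w0 : ℤ) : ℝ) := ⟨_, rfl⟩
  have hx0 : 0 ≤ x := by rw [hx]; exact_mod_cast sub_nonneg.2 hk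
  have e0 : rv ((k, w0) - o) = (x, a) := by simp [rv, hx, ha']
  have e1 : rv ((k, w) - o) = (x, a + d) := by simp [rv, hx, ha', hd']
  have e2 : ((w0 - w : ℤ) : ℝ) = -d := by rw [hd']; push_cast; ring
  have hn : (nrm ((k, w) - o) : ℝ) ≤ nrm ((k, w0) - o) + |d| := by
    have b1 := nrm_triangle o (k, w0) (k, w)
    have b2 : ((nrm (((k, w) : V) - (k, w0)) : ℕ) : ℝ) = |d| := by
      rw [hd', ← norm_rv]
      simp [rv, Prod.norm_def]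
    rw [← b2]
    exact_mod_cast b1
  rw [e0, e2, ← hd'] at hup
  rw [e1] at hlow
  rw [← hx, ← ha', ← hd']
  have hlip := (abs_le.1 (hd.abs_sub_le (x, a) (x, θ * x))).2
  simp only [sub_self, abs_zero, zero_add] at hlip
  have hex : ∀ s, lo - σ ≤ s → s ≤ hi + σ → s * d - 3 * σ * δ * x - 2 * m1 (mu G) * |a - θ * x| ≤
      mu G (x, a + d) - mu G (x, a) := by
    intro s s1 s2
    have hs : |s| < m1 (mu G) := abs_lt.2 ⟨by linarith, by linarith⟩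
    have b1 := hd.ex_upper ha hb s1 s2 h5 h6 hx0
    have b2 := hd.dot_rho_le hs (x, a + d)
    have b3 : (hi + σ - (lo - σ)) * (thp (mu G) (hi + σ) - thm (mu G) (lo - σ)) ≤ 3 * σ * δ :=
      mul_le_mul (by linarith) h7 (by linarith) (by linarith)
    have b4 := mul_le_mul_of_nonneg_right b3 hx0
    have b5 : -(m1 (mu G) * |a - θ * x|) ≤ s * (a - θ * x) := by
      have := neg_abs_le (s * (a - θ * x))
      rw [abs_mul] at this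
      have := mul_le_mul_of_nonneg_right hs.le (abs_nonneg (a - θ * x))
      linarith
    simp only [dot, rho] at b1 b2
    linarith
  have hz := mul_le_mul_of_nonneg_left hn hζ
  have hz2 := mul_le_mul_of_nonneg_right hζσ (abs_nonneg d)
  rcases le_total 0 d with h | h
  · have := hex (hi + σ) (by linarith) le_rfl
    rw [max_eq_left h, max_eq_right (by linarith)] at hup
    rw [abs_of_nonneg h] at *
    linarith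
  · have := hex (lo - σ) le_rfl (by linarith)
    rw [max_eq_right h, max_eq_left (by linarith)] at hup
    rw [abs_of_nonpos h] at *
    linarith

theorem BTube1_rpow {x a : ℝ} (hx : 1 ≤ x) (ha : a ≤ 1) : x ^ a ≤ x := by
  simpa using Real.rpow_le_rpow_of_exponent_le hx ha

theorem BTube1_grid {δ : ℝ} (hδ : 0 < δ) (hδ1 : δ ≤ 1) {n : ℕ} (hn : 1 / δ + 2 ≤ n) {r : ℕ}
    (hr : r ≤ ⌈1 / δ⌉₊ + 1) : r * ⌈δ * n⌉₊ ≤ 4 * n := by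
  have h0 : (0 : ℝ) ≤ n := Nat.cast_nonneg n
  have h1 : (r : ℝ) ≤ 1 / δ + 2 := by
    have a1 : (r : ℝ) ≤ ⌈1 / δ⌉₊ + 1 := by exact_mod_cast hr
    have a2 := Nat.ceil_lt_add_one (show 0 ≤ 1 / δ by positivity)
    linarith
  have h2 : (⌈δ * n⌉₊ : ℝ) ≤ δ * n + 1 := (Nat.ceil_lt_add_one (by positivity)).le
  have h3 : (r : ℝ) * ⌈δ * n⌉₊ ≤ (1 / δ + 2) * (δ * n + 1) :=
    mul_le_mul h1 h2 (Nat.cast_nonneg _) (by positivity)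
  have h4 : 1 / δ * (δ * n) = n := by field_simp
  have h5 := mul_le_mul_of_nonneg_right hδ1 h0
  have h6 : (r : ℝ) * ⌈δ * n⌉₊ ≤ 4 * n := by nlinarith
  exact_mod_cast h6

theorem BTube1_cover {δ : ℝ} (hδ : 0 < δ) (n : ℕ) : n ≤ (⌈1 / δ⌉₊ + 1) * ⌈δ * n⌉₊ := by
  have h0 : (0 : ℝ) ≤ n := Nat.cast_nonneg n
  have h1 : 1 / δ ≤ (⌈1 / δ⌉₊ : ℝ) + 1 := by linarith [Nat.le_ceil (1 / δ)]
  have h2 := Nat.le_ceil (δ * n)
  have h3 : 1 / δ * (δ * n) ≤ ((⌈1 / δ⌉₊ : ℝ) + 1) * ⌈δ * n⌉₊ :=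
    mul_le_mul h1 h2 (by positivity) (by positivity)
  have h4 : 1 / δ * (δ * n) = n := by field_simp
  rw [h4] at h3
  exact_mod_cast h3

theorem BTube1_round {κ : ℝ} (hκ : 0 < κ) {n : ℕ} (hn : 1 ≤ n) {y : ℤ} (hy : |y| ≤ n) :
    ∃ u : ℤ, |u| ≤ ((⌈1 / κ⌉₊ + 1 : ℕ) : ℤ) ∧ |u * (⌈κ * n⌉₊ : ℤ) - y| ≤ (⌈κ * n⌉₊ : ℤ) := by
  have hn0 : (0 : ℝ) < n := by exact_mod_cast hn
  have hK : 0 < ⌈κ * n⌉₊ := Nat.ceil_pos.2 (by positivity)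
  have hc : n ≤ ⌈1 / κ⌉₊ * ⌈κ * n⌉₊ := by
    have h3 : 1 / κ * (κ * n) ≤ (⌈1 / κ⌉₊ : ℝ) * ⌈κ * n⌉₊ :=
      mul_le_mul (Nat.le_ceil _) (Nat.le_ceil _) (by positivity) (by positivity)
    have h4 : 1 / κ * (κ * n) = n := by field_simp
    rw [h4] at h3
    exact_mod_cast h3
  obtain ⟨K, hK'⟩ : ∃ K : ℤ, K = (⌈κ * n⌉₊ : ℤ) := ⟨_, rfl⟩
  obtain ⟨J, hJ⟩ : ∃ J : ℤ, J = (⌈1 / κ⌉₊ : ℤ) := ⟨_, rfl⟩
  have hK0 : 0 < K := by rw [hK']; exact_mod_cast hK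
  have hc' : (n : ℤ) ≤ J * K := by rw [hK', hJ]; exact_mod_cast hc
  have h1 := Int.emod_nonneg y hK0.ne'
  have h2 := Int.emod_lt_of_pos y hK0
  have h3 := Int.emod_add_mul_ediv y K
  rw [← hK']
  push_cast
  rw [← hJ]
  obtain ⟨y1, y2⟩ := abs_le.1 hy
  refine ⟨y / K, abs_le.2 ⟨?_, ?_⟩, abs_le.2 ⟨by nlinarith, by nlinarith⟩⟩
  · by_contra hcon
    have : y / K ≤ -(J + 1) - 1 := by omega
    nlinarith
  · by_contra hcon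
    have : J + 1 + 1 ≤ y / K := by omega
    nlinarith

theorem BTube1_box {x : V} {N : ℕ} (h1 : |(x.1 : ℝ)| ≤ N) (h2 : |(x.2 : ℝ)| ≤ N) :
    x ∈ box 0 N := by
  show nrm (x - 0) ≤ N
  rw [sub_zero, nrm_le_iff]
  exact ⟨by exact_mod_cast h1, by exact_mod_cast h2⟩

theorem BTube1_far {x z : V} {N : ℕ} (hN : 1 ≤ N) (hx : x ∈ box 0 N)
    (hz : z.1 ≤ -(2 * N : ℤ) ∨ (2 * N : ℤ) ≤ z.1) :
    (N : ℝ) ^ ((1 : ℝ) / 10) ≤ nrm (z - x) := by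
  refine (BTube1_rpow (by exact_mod_cast hN) (by norm_num)).trans ?_
  have h1 := abs_fst_le_nrm (z - x)
  have h2 := ((nrm_le_iff _ _).1 hx).1
  simp only [sub_zero] at h2
  rw [Prod.fst_sub, abs_le] at h1
  rw [abs_le] at h2
  exact_mod_cast (by omega : N ≤ nrm (z - x))

/-- the last visit to a column is close to the ray -/
theorem BTube1_anchor (hd : DN (mu G)) {lo hi σ θ δ ζ C B : ℝ} (hσ : 0 < σ) (h1 : lo ≤ hi)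
    (h2 : hi - lo ≤ σ) (h3 : -Sk (mu G) 3 ≤ lo - σ) (h4 : hi + σ ≤ Sk (mu G) 3)
    (h5 : thm (mu G) (lo - σ) ≤ θ) (h6 : θ ≤ thp (mu G) (hi + σ))
    (h7 : thp (mu G) (hi + σ) - thm (mu G) (lo - σ) ≤ δ) (hδ : 0 < δ) (hζ : 0 ≤ ζ)
    (hζσ : ζ ≤ σ / 8) (hB : |θ| ≤ B) {A0 n m K : ℕ} (hA0 : 2 ≤ A0) (hn : 1 ≤ n)
    (hζA : ζ * (7 * A0) ≤ σ * δ) (hK : 2 * m1 (mu G) * (K + m + 1 + B) ≤ 2 * σ * δ * n)
    (hK' : (K : ℝ) + 1 ≤ 3 * δ * n) (hm : m ≤ n)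
    (hU : C * ((A0 * n : ℕ) : ℝ) ^ ((3 : ℝ) / 4) ≤ σ * δ * n) {L R : ℤ}
    (hL : L ≤ -(2 * A0 * n : ℤ)) {t : Env} (ht : NN t) (hlow : t ∈ LowL G ζ A0 0 n)
    {y : ℤ} (hy : |y| ≤ n) {Γ : Pth} {f g l : ℕ} (hW : WPath (mu G) t m 0 lo hi L R 0 y Γ f g l)
    {k a : ℤ} (hk1 : 1 ≤ k) (hk2 : k ≤ 4 * n) (hkR : k ≤ R) (ha : |a - y| ≤ K)
    (hbox : ((k, a + ⌊θ * k⌋) : V) ∈ box 0 (A0 * n))
    (hPL : t ∈ PL (mu G) k R (lo - σ / 2) (hi + σ / 2) lo hi ζ (4 * ((A0 * n : ℕ) : ℝ)) (A0 * n))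
    (hUp : t ∈ UpTo G C 0 (A0 * n) (k, a + ⌊θ * k⌋)) :
    ∃ j, l + 1 ≤ j ∧ j ≤ Γ.n ∧ (Γ.p j).1 = k ∧ (∀ i, j < i → i ≤ Γ.n → k < (Γ.p i).1) ∧
      |((Γ.p j).2 : ℝ) - y - θ * k| ≤ 67 * δ * n := by
  have hl : l + 1 ≤ Γ.n := hW.ln
  have ho1 : (Γ.p (l + 1)).1 = 1 := by simpa using hW.lcol
  have hmid := hW.mid (l + 1) (by have := hW.fg; have := hW.gl; omega) le_rfl
  obtain ⟨-, -, m3, m4⟩ := hmid
  obtain ⟨y1, y2⟩ := abs_le.1 hy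
  have hAn : 2 * n ≤ A0 * n := Nat.mul_le_mul_right n hA0
  have hob : Γ.p (l + 1) ∈ box 0 (A0 * n) := by
    show nrm (_ - 0) ≤ _
    rw [sub_zero, nrm_le_iff, ho1, abs_le, abs_le]
    omega
  obtain ⟨j, j1, j2, j3, j4⟩ := exists_last_level (fun i => (Γ.p i).1) hl
    (fun i _ _ => hW.geo.1.col_step i) k (by simpa [ho1] using hk1) (by simpa [hW.stop] using hkR)
  refine ⟨j, j1, j2, j3, j4, ?_⟩
  obtain ⟨i', hi', hT⟩ := UpTo.exists_earlier G hUp hW.geo.1 hl hob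
    (BTube1_far (by omega) hob (Or.inl (by rw [hW.start]; push_cast; linarith)))
  have hb := (nrm_le_iff _ _).1 hbox
  simp only [sub_zero] at hb
  have hP := hPL (a + ⌊θ * k⌋) 0 y (Γ.p Γ.n).2 hb.2 (by simp; positivity)
    (hy.trans (by exact_mod_cast (by omega : n ≤ A0 * n))) hW.sR
  have hcost := cost_to_last ht hW.geo hW.ins hW.stop (i' := i') (i1 := j) (by omega) j2 j3
    (fun i a1 a2 => by
      rcases a1.eq_or_lt with h | h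
      · rw [← h]; exact j3.ge
      · exact (j4 i h a2).le) hP
  have hc1 : Γ.cost t (l + 1) j ≤ Γ.cost t i' j := Γ.cost_mono ht hi' le_rfl
  have hc2 := hlow _ hob (Γ.p j)
  have hc3 := T_le_cost ht hW.geo.1 j1 j2
  have e1 : Γ.p j = (k, (Γ.p j).2) := Prod.ext j3 rfl
  have key := dir_column hd (U := C * ((A0 * n : ℕ) : ℝ) ^ ((3 : ℝ) / 4))
    (ℓ := 4 * ((A0 * n : ℕ) : ℝ)) hσ h1 h2 h3 h4 h5 h6 h7 hζ hζσ (o := Γ.p (l + 1)) (k := k)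
    (w := (Γ.p j).2) (w0 := a + ⌊θ * k⌋) (by omega) (c := Γ.cost t (l + 1) j) (n' := n)
    (by linarith) (by rw [← e1]; linarith)
  rw [ho1] at key
  have hn0 : (0 : ℝ) ≤ n := Nat.cast_nonneg n
  have hm0 := hd.m1_pos
  have f1 := Int.floor_le (θ * k)
  have f2 := Int.lt_floor_add_one (θ * k)
  obtain ⟨a1, a2⟩ := abs_le.1 ha
  have a3 : -(K : ℝ) ≤ a - y := by exact_mod_cast a1
  have a4 : (a : ℝ) - y ≤ K := by exact_mod_cast a2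
  have m5 : (y : ℝ) - m ≤ (Γ.p (l + 1)).2 := by exact_mod_cast m3
  have m6 : ((Γ.p (l + 1)).2 : ℝ) ≤ y + m := by exact_mod_cast m4
  obtain ⟨θ1, θ2⟩ := abs_le.1 hB
  have b1 : |((a + ⌊θ * k⌋ - (Γ.p (l + 1)).2 : ℤ) : ℝ) - θ * ((k - 1 : ℤ) : ℝ)| ≤ K + m + 1 + B := by
    push_cast
    rw [abs_le]
    constructor <;> linarith
  have b2 := mul_le_mul_of_nonneg_left b1 (show 0 ≤ 2 * m1 (mu G) by positivity)
  have b3 : ((k - 1 : ℤ) : ℝ) ≤ 4 * n := by exact_mod_cast (by omega : k - 1 ≤ 4 * n)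
  have b4 := mul_le_mul_of_nonneg_left b3 (show 0 ≤ 3 * σ * δ by positivity)
  have b5 : (nrm (((k, a + ⌊θ * k⌋) : V) - Γ.p (l + 1)) : ℝ) ≤ 2 * (A0 * n) := by
    exact_mod_cast tup_nrm_box hob hbox
  have b6 : (n : ℝ) ≤ A0 * n := by exact_mod_cast (by omega : n ≤ A0 * n)
  have b7 : ζ * (4 * ((A0 * n : ℕ) : ℝ) + n + nrm (((k, a + ⌊θ * k⌋) : V) - Γ.p (l + 1))) ≤
      σ * δ * n := by
    refine le_trans ?_ (mul_le_mul_of_nonneg_right hζA hn0)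
    rw [mul_assoc ζ]
    refine mul_le_mul_of_nonneg_left ?_ hζ
    push_cast
    linarith
  have b8 : |(((Γ.p j).2 - (a + ⌊θ * k⌋) : ℤ) : ℝ)| ≤ 64 * δ * n := by
    refine le_of_mul_le_mul_left ?_ (show 0 < σ / 4 by positivity)
    linarith
  push_cast at b8
  obtain ⟨b9, b10⟩ := abs_le.1 b8
  rw [abs_le]
  constructor <;> linarith

/-- between two anchors the path stays close to the ray -/
theorem BTube1_between (hd : DN (mu G)) {θ δ ζ C B : ℝ} (hζ : 0 ≤ ζ) (hδ1 : δ ≤ 1)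
    (hζm : ζ ≤ m1 (mu G) * δ / 2) (hB : |θ| ≤ B) {A0 n : ℕ} (hA0 : 5 * B + 68 ≤ A0)
    (hn : 1 ≤ δ * n) (hU : C * ((A0 * n : ℕ) : ℝ) ^ ((3 : ℝ) / 4) ≤ m1 (mu G) * δ * n) {L R : ℤ}
    (hL : L ≤ -(2 * A0 * n : ℤ)) (hR : (2 * A0 * n : ℤ) ≤ R) {t : Env} (ht : NN t)
    (hup : t ∈ Up G C 0 (A0 * n)) (hlow : t ∈ LowL G ζ A0 0 n)
    {y : ℤ} (hy : |y| ≤ n) {Γ : Pth} (hΓ : IsGeo Set.univ t Γ) (h0 : (Γ.p 0).1 = L)
    (h1 : (Γ.p Γ.n).1 = R) {j j' : ℕ} (hj' : j' ≤ Γ.n)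
    (c1 : |((Γ.p j).1 : ℝ)| ≤ 5 * n) (c2 : |((Γ.p j').1 : ℝ)| ≤ 5 * n)
    (c3 : |((Γ.p j').1 : ℝ) - (Γ.p j).1| ≤ 3 * δ * n)
    (d1 : |((Γ.p j).2 : ℝ) - y - θ * (Γ.p j).1| ≤ 67 * δ * n)
    (d2 : |((Γ.p j').2 : ℝ) - y - θ * (Γ.p j').1| ≤ 67 * δ * n) {i : ℕ} (hi : j ≤ i)
    (hi' : i ≤ j') :
    |((Γ.p i).2 : ℝ) - y - θ * (Γ.p i).1| ≤ (67 + (1 + B) * (278 + 6 * B)) * δ * n := by
  have hn0 : (0 : ℝ) ≤ n := Nat.cast_nonneg n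
  have hB0 : 0 ≤ B := (abs_nonneg _).trans hB
  have hm0 := hd.m1_pos
  have hδn : δ * n ≤ n := by nlinarith
  have hn1 : 1 ≤ n := by exact_mod_cast (hn.trans hδn)
  have hA1 : 1 ≤ A0 := by exact_mod_cast (show (1 : ℝ) ≤ A0 by linarith)
  have hAn : 1 ≤ A0 * n := Nat.mul_pos hA1 hn1
  have hy' : |(y : ℝ)| ≤ n := by exact_mod_cast hy
  have hA := mul_le_mul_of_nonneg_right hA0 hn0
  have hBn : 0 ≤ B * n := by positivity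
  have hbox : ∀ x : V, |(x.1 : ℝ)| ≤ 5 * n → |(x.2 : ℝ) - y - θ * x.1| ≤ 67 * δ * n →
      x ∈ box 0 (A0 * n) := by
    intro x a1 a2
    have a3 : |θ * x.1| ≤ B * (5 * n) := by
      rw [abs_mul]
      exact mul_le_mul hB a1 (abs_nonneg _) hB0
    obtain ⟨a4, a5⟩ := abs_le.1 a3
    obtain ⟨a6, a7⟩ := abs_le.1 a2
    obtain ⟨a8, a9⟩ := abs_le.1 hy'
    refine BTube1_box ?_ ?_
    · push_cast
      linarith
    · push_cast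
      rw [abs_le]
      constructor <;> linarith
  have b1 := hbox _ c1 d1
  have b2 := hbox _ c2 d2
  have hc := Up.geo_cost G ht hup hΓ (hi.trans hi') hj' b1 b2
    (BTube1_far hAn b1 (Or.inl (by rw [h0]; push_cast; linarith)))
    (BTube1_far hAn b2 (Or.inr (by rw [h1]; push_cast; linarith)))
  have e1 := hd.le_m1_norm (rv (Γ.p j' - Γ.p j))
  simp only [rv, Prod.fst_sub, Prod.snd_sub, Int.cast_sub] at e1
  have e2 : |θ * (((Γ.p j').1 : ℝ) - (Γ.p j).1)| ≤ B * (3 * δ * n) := by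
    rw [abs_mul]
    exact mul_le_mul hB c3 (abs_nonneg _) hB0
  have e3 : |((Γ.p j').2 : ℝ) - (Γ.p j).2| ≤ (134 + 3 * B) * (δ * n) := by
    obtain ⟨a1, a2⟩ := abs_le.1 e2
    obtain ⟨a3, a4⟩ := abs_le.1 d1
    obtain ⟨a5, a6⟩ := abs_le.1 d2
    rw [abs_le]
    constructor <;> linarith
  have e4 : mu G (rv (Γ.p j' - Γ.p j)) ≤ m1 (mu G) * ((137 + 3 * B) * (δ * n)) := by
    refine le_trans ?_ (mul_le_mul_of_nonneg_left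
      (show |((Γ.p j').1 : ℝ) - (Γ.p j).1| + |((Γ.p j').2 : ℝ) - (Γ.p j).2| ≤ _ by linarith) hm0.le)
    simpa only [rv, Prod.fst_sub, Prod.snd_sub, Int.cast_sub] using e1
  have e5 := hlow _ b1 (Γ.p i)
  have e6 := T_le_cost ht hΓ.1 hi (hi'.trans hj')
  have e7 : Γ.cost t j i ≤ Γ.cost t j j' := Γ.cost_mono ht le_rfl hi'
  have e8 := hd.m1_norm_le (rv (Γ.p i - Γ.p j))
  rw [norm_rv] at e8
  obtain ⟨N, hN⟩ : ∃ N : ℝ, N = (nrm (Γ.p i - Γ.p j) : ℝ) := ⟨_, rfl⟩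
  rw [← hN] at e5 e8
  have hN0 : 0 ≤ N := by rw [hN]; positivity
  have e9 : ζ * N ≤ m1 (mu G) / 2 * N :=
    mul_le_mul_of_nonneg_right (hζm.trans (by nlinarith)) hN0
  have e10 := mul_le_mul_of_nonneg_right hζm hn0
  have e11 : 0 ≤ m1 (mu G) * (δ * n) := by positivity
  have e12 : N ≤ (278 + 6 * B) * (δ * n) := by
    refine le_of_mul_le_mul_left ?_ (show 0 < m1 (mu G) / 2 by positivity)
    linarith
  have g1 : |((Γ.p i).1 : ℝ) - (Γ.p j).1| ≤ N := by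
    rw [hN]
    exact_mod_cast abs_fst_le_nrm (Γ.p i - Γ.p j)
  have g2 : |((Γ.p i).2 : ℝ) - (Γ.p j).2| ≤ N := by
    rw [hN]
    exact_mod_cast abs_snd_le_nrm (Γ.p i - Γ.p j)
  have g3 : |θ * (((Γ.p i).1 : ℝ) - (Γ.p j).1)| ≤ B * N := by
    rw [abs_mul]
    exact mul_le_mul hB g1 (abs_nonneg _) hB0
  have g4 := mul_le_mul_of_nonneg_left e12 (show 0 ≤ 1 + B by linarith)
  obtain ⟨a1, a2⟩ := abs_le.1 g2
  obtain ⟨a3, a4⟩ := abs_le.1 g3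
  obtain ⟨a5, a6⟩ := abs_le.1 d1
  rw [abs_le]
  constructor <;> linarith

theorem tube_of_good (hd : DN (mu G)) : ∃ A A0 : ℕ, 1 ≤ A ∧ 1 ≤ A0 ∧ ∀ lo hi σ θ δ : ℝ, 0 < σ →
    lo ≤ hi → hi - lo ≤ σ → -Sk (mu G) 3 ≤ lo - σ → hi + σ ≤ Sk (mu G) 3 →
    thm (mu G) (lo - σ) ≤ θ → θ ≤ thp (mu G) (hi + σ) →
    thp (mu G) (hi + σ) - thm (mu G) (lo - σ) ≤ δ → 0 < δ → δ ≤ 1 →
    ∃ κ ζ : ℝ, 0 < κ ∧ κ ≤ 1 ∧ 0 < ζ ∧ ∀ (C : ℝ) (m : ℕ), ∃ n0 : ℕ, ∀ n : ℕ, n0 ≤ n →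
      (∀ r : ℕ, r ≤ ⌈1 / δ⌉₊ + 1 → ∀ u : ℤ, |u| ≤ ((⌈1 / κ⌉₊ + 1 : ℕ) : ℤ) →
        ((((r * ⌈δ * n⌉₊ : ℕ) : ℤ), u * (⌈κ * n⌉₊ : ℤ) + ⌊θ * ((r * ⌈δ * n⌉₊ : ℕ) : ℝ)⌋) : V) ∈
          box 0 (A0 * n)) ∧
      ∀ L R : ℤ, L ≤ -(2 * A0 * n : ℤ) → (2 * A0 * n : ℤ) ≤ R → ∀ t : Env, NN t →
        t ∈ TubeGood G C lo hi σ θ δ κ ζ A0 n R →
        t ∈ Tube (mu G) m lo hi θ (A * δ * n) n L R := by
  have hS : Sk (mu G) 3 < m1 (mu G) := hd.Sk_lt (by norm_num)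
  have hS0 := hd.Sk_pos 3
  have hS' : |Sk (mu G) 3| < m1 (mu G) := by rwa [abs_of_pos hS0]
  have hm0 := hd.m1_pos
  obtain ⟨B, hBdef⟩ : ∃ B : ℝ, B = |thp (mu G) (Sk (mu G) 3)| := ⟨_, rfl⟩
  have hB0 : 0 ≤ B := hBdef ▸ abs_nonneg _
  obtain ⟨A0, hA0⟩ : ∃ A0 : ℕ, 5 * B + 68 ≤ A0 := ⟨_, Nat.le_ceil _⟩
  obtain ⟨A, hA⟩ : ∃ A : ℕ, 67 + (1 + B) * (278 + 6 * B) ≤ A := ⟨_, Nat.le_ceil _⟩
  have hBB : 1 + B ≤ (1 + B) * (278 + 6 * B) := le_mul_of_one_le_right (by linarith) (by linarith)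
  have hA2 : 2 ≤ A0 := by exact_mod_cast (show (2 : ℝ) ≤ A0 by linarith)
  have hA0' : (0 : ℝ) < A0 := by linarith
  refine ⟨A, A0, by exact_mod_cast (show (1 : ℝ) ≤ A by linarith), by omega, ?_⟩
  intro lo hi σ θ δ hσ h1 h2 h3 h4 h5 h6 h7 hδ hδ1
  have ha : |lo - σ| < m1 (mu G) := abs_lt.2 ⟨by linarith, by linarith⟩
  have hb : |hi + σ| < m1 (mu G) := abs_lt.2 ⟨by linarith, by linarith⟩
  have hB : |θ| ≤ B := by
    have a1 := hd.thp_mono hb hS' h4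
    have a2 := hd.thm_mono (by rwa [abs_neg]) ha h3
    rw [hd.thm_neg hS'] at a2
    have a3 := le_abs_self (thp (mu G) (Sk (mu G) 3))
    rw [hBdef, abs_le]
    constructor <;> linarith
  obtain ⟨κ, hκ, hκ1, hκ2⟩ : ∃ κ : ℝ, 0 < κ ∧ κ ≤ δ ∧ 2 * m1 (mu G) * κ ≤ σ * δ := by
    refine ⟨min δ (σ * δ / (2 * m1 (mu G))), lt_min hδ (by positivity), min_le_left _ _, ?_⟩
    rw [mul_comm]
    exact (le_div_iff₀ (by positivity)).1 (min_le_right _ _)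
  obtain ⟨ζ, hζ, hζ1, hζ2, hζ3⟩ : ∃ ζ : ℝ, 0 < ζ ∧ ζ ≤ σ / 8 ∧ ζ * (7 * A0) ≤ σ * δ ∧
      ζ ≤ m1 (mu G) * δ / 2 := by
    refine ⟨min (σ / 8) (min (σ * δ / (7 * A0)) (m1 (mu G) * δ / 2)),
      lt_min (by positivity) (lt_min (by positivity) (by positivity)), min_le_left _ _, ?_,
      (min_le_right _ _).trans (min_le_right _ _)⟩
    exact (le_div_iff₀ (by positivity)).1 ((min_le_right _ _).trans (min_le_left _ _))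
  refine ⟨κ, ζ, hκ, hκ1.trans hδ1, hζ, fun C m => ?_⟩
  have ev : ∀ (a c : ℝ), 0 < c → ∀ᶠ n : ℕ in atTop, a ≤ c * n := fun a c hc =>
    (tendsto_natCast_atTop_atTop.const_mul_atTop hc).eventually_ge_atTop a
  obtain ⟨n0, hn0⟩ := eventually_atTop.1 ((ev (1 / δ + 2) 1 one_pos).and
    ((ev (1 / κ + 2) 1 one_pos).and ((ev (m + B + 2) δ hδ).and
    ((ev (2 * m1 (mu G) * (m + 2 + B)) (σ * δ) (by positivity)).and
    ((BShape1_ev C A0 hA0'.le (show 0 < σ * δ by positivity)).and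
    (BShape1_ev C A0 hA0'.le (show 0 < m1 (mu G) * δ by positivity)))))))
  refine ⟨n0, fun n hn => ?_⟩
  obtain ⟨e1, e2, e3, e4, e5, e6⟩ := hn0 n hn
  rw [one_mul] at e1 e2
  rw [← Nat.cast_mul] at e5 e6
  have hn0' : (0 : ℝ) ≤ n := Nat.cast_nonneg n
  have hm' : (0 : ℝ) ≤ m := Nat.cast_nonneg m
  have hδn : δ * n ≤ n := by nlinarith
  have hκn := mul_le_mul_of_nonneg_right hκ1 hn0'
  have hn1 : 1 ≤ n := by exact_mod_cast (show (1 : ℝ) ≤ n by linarith)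
  have hAn := mul_le_mul_of_nonneg_right hA0 hn0'
  have hBn : 0 ≤ B * n := by positivity
  have hD1 := Nat.le_ceil (δ * n)
  have hD2 := (Nat.ceil_lt_add_one (show 0 ≤ δ * n by positivity)).le
  have hK2 := (Nat.ceil_lt_add_one (show 0 ≤ κ * n by positivity)).le
  have hDp : 1 ≤ ⌈δ * n⌉₊ := by exact_mod_cast (show (1 : ℝ) ≤ ⌈δ * n⌉₊ by linarith)
  have hbox : ∀ r : ℕ, r ≤ ⌈1 / δ⌉₊ + 1 → ∀ u : ℤ, |u| ≤ ((⌈1 / κ⌉₊ + 1 : ℕ) : ℤ) →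
      ((((r * ⌈δ * n⌉₊ : ℕ) : ℤ), u * (⌈κ * n⌉₊ : ℤ) + ⌊θ * ((r * ⌈δ * n⌉₊ : ℕ) : ℝ)⌋) : V) ∈
        box 0 (A0 * n) := by
    intro r hr u hu
    have a1 : ((r * ⌈δ * n⌉₊ : ℕ) : ℝ) ≤ 4 * n := by exact_mod_cast BTube1_grid hδ hδ1 e1 hr
    have a2 := BTube1_grid hκ (hκ1.trans hδ1) e2 (r := u.natAbs)
      (by rw [← Int.natCast_natAbs] at hu; exact_mod_cast hu)
    have a3 : |((u * (⌈κ * n⌉₊ : ℤ) : ℤ) : ℝ)| ≤ 4 * n := by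
      have : |u * (⌈κ * n⌉₊ : ℤ)| ≤ 4 * n := by
        rw [abs_mul, Nat.abs_cast, ← Int.natCast_natAbs]
        exact_mod_cast a2
      exact_mod_cast this
    generalize r * ⌈δ * n⌉₊ = k at a1 ⊢
    generalize u * (⌈κ * n⌉₊ : ℤ) = a at a3 ⊢
    have a4 : |θ * k| ≤ B * (4 * n) := by
      rw [abs_mul, Nat.abs_cast]
      exact mul_le_mul hB a1 (Nat.cast_nonneg _) hB0
    have a5 := Int.floor_le (θ * k)
    have a6 := Int.lt_floor_add_one (θ * k)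
    obtain ⟨a7, a8⟩ := abs_le.1 a3
    obtain ⟨a9, a10⟩ := abs_le.1 a4
    refine BTube1_box ?_ ?_
    · push_cast
      rw [Nat.abs_cast]
      linarith
    · push_cast
      rw [abs_le]
      constructor <;> linarith
  refine ⟨hbox, fun L R hL hR t ht hgood y Γ f g l hy hW => ?_⟩
  obtain ⟨hup, hlow, hrest⟩ := hgood
  obtain ⟨u, hu1, hu2⟩ := BTube1_round hκ hn1 hy
  have hAδ := mul_le_mul_of_nonneg_right hA (show 0 ≤ δ * n by positivity)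
  have hBδ := mul_le_mul_of_nonneg_right hBB (show 0 ≤ δ * n by positivity)
  have hBδ0 : 0 ≤ B * (δ * n) := by positivity
  have hmid : ∀ i, f ≤ i → i ≤ l + 1 → |((Γ.p i).2 : ℝ) - y - θ * (Γ.p i).1| ≤
      m + B * |((Γ.p i).1 : ℝ)| ∧ |((Γ.p i).1 : ℝ)| ≤ m := by
    intro i a1 a2
    obtain ⟨b1, b2, b3, b4⟩ := hW.mid i a1 a2
    have b5 : (y : ℝ) - m ≤ (Γ.p i).2 := by exact_mod_cast b3
    have b6 : ((Γ.p i).2 : ℝ) ≤ y + m := by exact_mod_cast b4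
    have b7 : |θ * (Γ.p i).1| ≤ B * |((Γ.p i).1 : ℝ)| := by
      rw [abs_mul]
      exact mul_le_mul_of_nonneg_right hB (abs_nonneg _)
    obtain ⟨b8, b9⟩ := abs_le.1 b7
    refine ⟨abs_le.2 ⟨by linarith, by linarith⟩, ?_⟩
    have : |(Γ.p i).1| ≤ m := abs_le.2 ⟨by omega, by omega⟩
    exact_mod_cast this
  have hfl : f ≤ l + 1 := by have := hW.fg; have := hW.gl; omega
  have ho1 : (Γ.p (l + 1)).1 = 1 := by simpa using hW.lcol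
  have main : ∀ r : ℕ, r ≤ ⌈1 / δ⌉₊ + 1 → ∃ j, j ≤ Γ.n ∧ ((r * ⌈δ * n⌉₊ : ℕ) : ℤ) ≤ (Γ.p j).1 ∧
      (Γ.p j).1 ≤ ((r * ⌈δ * n⌉₊ : ℕ) : ℤ) + 1 ∧
      (∀ i, j < i → i ≤ Γ.n → ((r * ⌈δ * n⌉₊ : ℕ) : ℤ) < (Γ.p i).1) ∧
      |((Γ.p j).2 : ℝ) - y - θ * (Γ.p j).1| ≤ 67 * δ * n ∧
      ∀ i, l + 1 ≤ i → i ≤ j → |((Γ.p i).2 : ℝ) - y - θ * (Γ.p i).1| ≤ A * δ * n := by
    intro r
    induction r with
    | zero =>
      intro _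
      have a1 := (hmid (l + 1) hfl le_rfl).1
      have a2 : |((Γ.p (l + 1)).1 : ℝ)| = 1 := by rw [ho1]; simp
      rw [a2] at a1
      refine ⟨l + 1, hW.ln, by simp [ho1], by simp [ho1], fun i b1 b2 => ?_, by linarith,
        fun i b1 b2 => ?_⟩
      · have := hW.right i b1.le b2
        simp only [zero_mul, Nat.cast_zero]
        omega
      · rw [le_antisymm b2 b1]
        linarith
    | succ r ih =>
      intro hr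
      obtain ⟨j, j1, j2, j3, -, j5, j6⟩ := ih (by omega)
      obtain ⟨hPL, hUp⟩ := hrest (r + 1) (by omega) hr
      have g1 := BTube1_grid hδ hδ1 e1 hr
      have g2 : (r + 1) * ⌈δ * n⌉₊ = r * ⌈δ * n⌉₊ + ⌈δ * n⌉₊ := by ring
      have g3 : 2 * n ≤ A0 * n := Nat.mul_le_mul_right n hA2
      have g4 : (2 * A0 * n : ℤ) = 2 * ((A0 * n : ℕ) : ℤ) := by push_cast; ring
      obtain ⟨j', k1, k2, k3, k4, k5⟩ := BTube1_anchor hd (C := C) hσ h1 h2 h3 h4 h5 h6 h7 hδ hζ.le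
        hζ1 hB (m := m) (K := ⌈κ * n⌉₊) hA2 hn1 hζ2 (by
          have b1 := mul_le_mul_of_nonneg_left hK2 (show 0 ≤ 2 * m1 (mu G) by positivity)
          have b2 := mul_le_mul_of_nonneg_right hκ2 hn0'
          linarith) (by linarith) (by exact_mod_cast (show (m : ℝ) ≤ n by linarith)) e5 hL ht hlow
        hy hW (k := (((r + 1) * ⌈δ * n⌉₊ : ℕ) : ℤ)) (a := u * (⌈κ * n⌉₊ : ℤ)) (by omega)
        (by omega) (by omega) hu2 (by simpa using hbox (r + 1) hr u hu1) hPL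
        (by simpa using hUp u hu1)
      rw [← k3] at k5
      refine ⟨j', k2, k3.ge, by omega, k4, k5, fun i b1 b2 => ?_⟩
      rcases le_total i j with b3 | b3
      · exact j6 i b1 b3
      refine (BTube1_between hd (C := C) hζ.le hδ1 hζ3 hB hA0 (by linarith) e6 hL hR ht hup hlow hy
        hW.geo hW.start hW.stop k2 ?_ ?_ ?_ j5 k5 b3 b2).trans (by linarith)
      · have : |(Γ.p j).1| ≤ 5 * n := abs_le.2 ⟨by omega, by omega⟩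
        exact_mod_cast this
      · have : |(Γ.p j').1| ≤ 5 * n := abs_le.2 ⟨by omega, by omega⟩
        exact_mod_cast this
      · have b4 : |(Γ.p j').1 - (Γ.p j).1| ≤ (⌈δ * n⌉₊ : ℤ) := abs_le.2 ⟨by omega, by omega⟩
        have b5 : |((Γ.p j').1 : ℝ) - (Γ.p j).1| ≤ (⌈δ * n⌉₊ : ℝ) := by exact_mod_cast b4
        linarith
  intro i hi hpos hle
  rcases le_total i (l + 1) with hil | hil
  · have a1 : f ≤ i := by
      by_contra a2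
      have := hW.left i (by omega)
      omega
    obtain ⟨a2, a3⟩ := hmid i a1 hil
    have a4 := mul_le_mul_of_nonneg_left (a3.trans (show (m : ℝ) ≤ δ * n by linarith)) hB0
    linarith
  · obtain ⟨j, -, -, -, j4, -, j6⟩ := main _ le_rfl
    refine j6 i hil ?_
    by_contra a1
    have a2 := j4 i (by omega) hi
    have a3 := BTube1_cover hδ n
    omega

end Crest.Agent.R151
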