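import Crest.Agent.R151.BSlack
import Crest.Agent.R151.BPair

/-! Row 151, part B: the sparse resampling bound for one good slope interval. -/

set_option autoImplicit false

namespace Crest.Agent.R151

open MeasureTheory ProbabilityTheory Crest.ProbabilityR.FirstPassage Filter Topology
open scoped Classical

variable {G : Measure ℝ} [Law G]

theorem small_not_slackGood (hd : DN (mu G)) : ∃ C : ℝ, ∀ (s0 e θ κ ζ p : ℝ) (A0 : ℕ), 0 < e →
    |s0| + 102 * e ≤ Sk (mu G) 3 → 0 < κ → 0 < ζ → 0 < p → 1 ≤ A0 → ∃ n0 : ℕ, ∀ n : ℕ, n0 ≤ n →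
      (∀ u : ℤ, |u| ≤ ((⌈1 / κ⌉₊ + 1 : ℕ) : ℤ) →
        (((2 * n : ℤ), u * (⌈κ * n⌉₊ : ℤ) + ⌊θ * (2 * n)⌋) : V) ∈ box 0 (A0 * n)) →
      Small2 (fun N1 N2 => Pr G (SlackGood G C s0 e θ κ ζ A0 n (1 - N1) N2)ᶜ) p := by
  obtain ⟨C, hC, hup⟩ := Pr_not_upTo G
  refine ⟨C, fun s0 e θ κ ζ p A0 he hs hκ hζ hp hA0 => ?_⟩
  have h3 : Sk (mu G) 3 < m1 (mu G) := hd.Sk_lt (by norm_num)
  have hs1 := le_abs_self s0
  have hs2 := neg_abs_le s0
  have hp3 : 0 < p / 3 := by positivity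
  obtain ⟨Y1, hY1⟩ := small_not_pl hd (α := -(s0 + 2 * e)) (β := -(s0 - 2 * e)) (lo := -(s0 + e))
    (hi := -(s0 - e)) (by linarith) (by linarith) (by linarith) (by linarith) (by linarith) hζ hp3
  obtain ⟨Y2, hY2⟩ := small_not_pl hd (α := s0 - 2 * e) (β := s0 + 2 * e) (lo := s0 - e)
    (hi := s0 + e) (by linarith) (by linarith) (by linarith) (by linarith) (by linarith) hζ hp3
  set U : ℕ := ⌈1 / κ⌉₊ + 1 with hU
  set F : Finset ℤ := Finset.Icc (-(U : ℤ)) U with hF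
  have hlim : Tendsto (fun n : ℕ => (F.card : ℝ) * (C / (n : ℝ) ^ ((1 : ℝ) / 4))) atTop (𝓝 0) := by
    have h1 : Tendsto (fun n : ℕ => (n : ℝ) ^ ((1 : ℝ) / 4)) atTop atTop :=
      (tendsto_rpow_atTop (by norm_num)).comp tendsto_natCast_atTop_atTop
    simpa using (h1.const_div_atTop C).const_mul (F.card : ℝ)
  obtain ⟨n1, hn1⟩ := eventually_atTop.1 (hlim.eventually (ge_mem_nhds hp3))
  refine ⟨max (max Y1 Y2) (max n1 1), fun n hn hbox => ?_⟩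
  have hnA : n ≤ A0 * n := Nat.le_mul_of_pos_left n hA0
  have a1 := hY1 (A0 * n) (by omega) 1
  have a2 := hY2 (A0 * n) (by omega) (2 * n)
  have a3 := hn1 (A0 * n) (by omega)
  have key := (a1.left.add a2.right).add (small2_const (p / 3))
  refine (key.of_le ⟨0, fun N1 N2 _ _ => ?_⟩).mono_right (by linarith)
  have b3 : Pr G {t | ∃ u ∈ F, t ∈ (UpTo G C 0 (A0 * n)
      (2 * n, u * (⌈κ * n⌉₊ : ℤ) + ⌊θ * (2 * n)⌋))ᶜ} ≤ p / 3 := by
    refine (Pr_le_card_mul G F _ (Eventually.of_forall fun t ht => ht) fun u hu => ?_).trans a3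
    exact hup 0 (A0 * n) (by omega) _ (hbox u (abs_le.2 (Finset.mem_Icc.1 hu)))
  rw [← Pr_act G rfl1 (PL (mu G) 1 N1 _ _ _ _ ζ _ _)ᶜ]
  refine le_trans (Pr_mono G ?_) ((Pr_union_le G _ _).trans (add_le_add (Pr_union_le G _ _) b3))
  intro t ht
  by_contra hc
  simp only [Set.mem_union, Set.mem_preimage, Set.mem_compl_iff, Set.mem_ofPred_eq, not_or,
    not_not, not_exists, not_and] at hc
  refine ht ⟨?_, hc.1.2, fun u hu => hc.2 u (Finset.mem_Icc.2 (abs_le.1 hu))⟩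
  rw [sub_sub_cancel]
  exact hc.1.1

omit [Law G] in
theorem measurableSet_slackGood (C s0 e θ κ ζ : ℝ) (A0 n : ℕ) (L R : ℤ) :
    MeasurableSet (SlackGood G C s0 e θ κ ζ A0 n L R) := by
  unfold SlackGood
  simp only [Set.ofPred_and, Set.ofPred_forall]
  exact (measurable_act rfl1 (measurableSet_pl _ _ _ _ _ _ _ _ _ _)).inter
    ((measurableSet_pl _ _ _ _ _ _ _ _ _ _).inter
      (MeasurableSet.iInter fun u => MeasurableSet.iInter fun _ => measurableSet_upTo _ _ _ _ _))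

theorem BTubeB_card {I : Finset ℤ} {ε lo0 hi0 : ℝ} (hε : 0 < ε) (h0 : lo0 ≤ hi0)
    (hI : ∀ i ∈ I, lo0 ≤ loI ε i ∧ hiI ε i ≤ hi0) : (I.card : ℝ) * ε ≤ hi0 - lo0 := by
  rcases I.eq_empty_or_nonempty with rfl | hne
  · simpa using h0
  have h1 : I ⊆ Finset.Icc (I.min' hne) (I.max' hne) := fun i hi =>
    Finset.mem_Icc.2 ⟨I.min'_le i hi, I.le_max' i hi⟩
  have h2 := Finset.card_le_card h1
  rw [Int.card_Icc] at h2
  have h3 : I.min' hne ≤ I.max' hne := I.min'_le _ (I.max'_mem hne)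
  have h4 : (I.card : ℤ) ≤ I.max' hne + 1 - I.min' hne := by omega
  have h5 : (I.card : ℝ) ≤ (I.max' hne : ℝ) + 1 - (I.min' hne : ℝ) := by exact_mod_cast h4
  have h6 := (hI _ (I.min'_mem hne)).1
  have h7 := (hI _ (I.max'_mem hne)).2
  unfold loI at h6
  unfold hiI at h7
  nlinarith

omit [Law G] in
theorem BTubeB_nn {U : Finset (Sym2 V)} {t t' : Env} (ht : NN t) (h : Low G U t t') : NN t' := by
  intro e
  rcases h e with h | h
  · rw [h]; exact ht e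
  · exact h.2.2.1.le

theorem BTubeB_kes {ζ : ℝ} (hζ : 0 < ζ) :
    ∀ᶠ n : ℕ in atTop, (n : ℝ) * (2 * n + 1) * (1 / 2) ^ (n / 2) ≤ ζ := by
  have h1 : Tendsto (fun k : ℕ => 21 * ((k : ℝ) ^ 2 * (1 / 2) ^ k)) atTop (𝓝 0) := by
    simpa using (tendsto_pow_const_mul_const_pow_of_abs_lt_one 2
      (r := (1 / 2 : ℝ)) (by norm_num [abs_of_pos])).const_mul 21
  have h2 := h1.comp (Nat.tendsto_div_const_atTop (n := 2) (by norm_num))
  filter_upwards [h2.eventually (ge_mem_nhds hζ), eventually_ge_atTop 2] with n hn hn2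
  refine le_trans ?_ hn
  simp only [Function.comp]
  rw [← mul_assoc]
  refine mul_le_mul_of_nonneg_right ?_ (by positivity)
  have h3 : (n : ℝ) ≤ 2 * ((n / 2 : ℕ) : ℝ) + 1 := by
    have : n ≤ 2 * (n / 2) + 1 := by omega
    exact_mod_cast this
  have h4 : (1 : ℝ) ≤ ((n / 2 : ℕ) : ℝ) := by
    have : 1 ≤ n / 2 := by omega
    exact_mod_cast this
  have h5 : (0 : ℝ) ≤ n := Nat.cast_nonneg n
  nlinarith

theorem BTubeB_low {ζ1 ζ : ℝ} (hζ1 : 0 < ζ1) (hζ : 0 < ζ) (A0 : ℕ) (D : ℝ) :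
    ∀ᶠ n : ℕ in atTop, D * Pr G (LowL G ζ1 A0 0 n)ᶜ ^ ((3 : ℝ) / 4) ≤ ζ := by
  obtain ⟨C, c, hC, hc, h⟩ := Pr_not_lowL G hζ1 A0
  have h1 : Tendsto (fun n : ℕ => C * Real.exp (-(c * n))) atTop (𝓝 0) := by
    have := (Real.tendsto_exp_neg_atTop_nhds_zero.comp
      (tendsto_natCast_atTop_atTop.const_mul_atTop hc)).const_mul C
    simpa using this
  have h2 : Tendsto (fun n : ℕ => Pr G (LowL G ζ1 A0 0 n)ᶜ) atTop (𝓝 0) :=
    squeeze_zero (fun n => Pr_nonneg G _) (fun n => h 0 n) h1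
  have h3 := (h2.rpow_const (p := (3 : ℝ) / 4) (Or.inr (by norm_num))).const_mul D
  rw [Real.zero_rpow (by norm_num), mul_zero] at h3
  exact h3.eventually (ge_mem_nhds hζ)

/-- the resampling bound for fixed end columns -/
theorem BTubeB_point (G : Measure ℝ) [Law G] : ∃ c Cg : ℝ, 0 < c ∧ 0 < Cg ∧
    ∀ (μ : ℝ × ℝ → ℝ) (m n H Rr Y : ℕ) (η ε K θ w w' lo0 hi0 : ℝ) (L R : ℤ) (I : Finset ℤ)
      (SG Ω1 : Set Env), MeasurableSet SG → MeasurableSet Ω1 → 0 ≤ η →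
      (∀ i ∈ I, lo0 ≤ loI ε i ∧ hiI ε i ≤ hi0) → I ⊆ Idx μ ε → 1 ≤ H → H ≤ n → w + H ≤ w' →
      2 * m + 10 ≤ n → (n : ℤ) ≤ R →
      (1 ≤ (edgesIn (tubeV θ w' m n)).card →
        K ≤ (c * (n / 5 : ℕ) / √((edgesIn (tubeV θ w' m n)).card) - 1) * (h1 G - h0 G)) →
      (∀ t t' : Env, NN t → NN t' → Low G (edgesIn (tubeV θ w' m n)) t t' → t ∈ SG → t' ∈ Ω1 →
        ∀ i ∈ I, ∀ (y : ℤ) (Γ : Pth) (f g l : ℕ), 0 ≤ y → y < H →
          WPath μ t m η (loI ε i) (hiI ε i) L R 0 y Γ f g l →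
          ∀ y' yf' yl' : ℤ, (Rr : ℤ) < |y' - y| → |yf' - y'| ≤ m → |yl' - y'| ≤ m →
            Γ.tot t ≤ Rte t' m L R (Γ.p 0).2 (Γ.p Γ.n).2 y' yf' yl') →
      Pr G {t | ∃ i ∈ I, t ∈ Wi μ m η ε i L R 0 0} ≤
        (2 * m + 1) * Cg * (1 / (H : ℝ) * ∑ i ∈ I, Pr G {t | ∃ y : ℤ, 0 ≤ y ∧ y < H ∧
          t ∈ Gap μ m K (loI ε i) (hiI ε i) Rr Y L R y}) ^ ((3 : ℝ) / 4) +
        (2 * m + 1) * Cg * Pr G Ω1ᶜ ^ ((3 : ℝ) / 4) +
        Pr G {t | ∃ i ∈ Idx μ ε, t ∈ Pair μ m η (loI ε i) (hiI ε i) H L R 0} +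
        (Pr G (Tube μ m lo0 hi0 θ w n L R)ᶜ + Pr G SGᶜ +
          (tubeV θ w' m n).card * (1 / 2) ^ (n / 2)) := by
  obtain ⟨c, Cg, hc, hCg, hgap⟩ := gap_lemma G
  refine ⟨c, Cg, hc, hCg, ?_⟩
  intro μ m n H Rr Y η ε K θ w w' lo0 hi0 L R I SG Ω1 hSG hΩ hη hI hIdx hH1 hHn hw hn hR hK hslack
  set U := edgesIn (tubeV θ w' m n) with hU
  set Kes : Set Env := {t | ∃ x ∈ tubeV θ w' m n, t ∈ KesBad G x (n / 2)} with hKes
  have hKm : MeasurableSet Kes := by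
    simp only [hKes, Set.ofPred_exists, Set.ofPred_and]
    exact MeasurableSet.iUnion fun x => (MeasurableSet.const _).inter (measurableSet_kesBad G x _)
  set Good : Set Env := Tube μ m lo0 hi0 θ w n L R ∩ SG ∩ Kesᶜ ∩ {t | NN t} with hGood
  have hGm : MeasurableSet Good :=
    (((measurableSet_tube _ _ _ _ _ _ _ _ _).inter hSG).inter hKm.compl).inter measurableSet_nn
  have hGc : Pr G Goodᶜ ≤ Pr G (Tube μ m lo0 hi0 θ w n L R)ᶜ + Pr G SGᶜ +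
      (tubeV θ w' m n).card * (1 / 2) ^ (n / 2) := by
    have b : Pr G Kes ≤ (tubeV θ w' m n).card * (1 / 2) ^ (n / 2) :=
      Pr_le_card_mul G _ _ (Eventually.of_forall fun t ht => ht) fun x _ => Pr_kesBad G x _
    refine le_trans (Pr_mono_ae G ?_)
      ((Pr_union_le G _ _).trans (add_le_add (Pr_union_le G _ _) b))
    filter_upwards [ae_nn G] with t ht h
    by_contra hc
    simp only [Set.mem_union, Set.mem_compl_iff, not_or, not_not] at hc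
    exact h ⟨⟨⟨hc.1.1, hc.1.2⟩, hc.2⟩, ht⟩
  set B : ℤ → Set Env := fun i => {t | ∃ y : ℤ, 0 ≤ y ∧ y < H ∧
    t ∈ Gap μ m K (loI ε i) (hiI ε i) Rr Y L R y} with hB
  have hBm : ∀ i, MeasurableSet (B i) := fun i => by
    simp only [hB, Set.ofPred_exists, Set.ofPred_and]
    exact MeasurableSet.iUnion fun y => (MeasurableSet.const _).inter ((MeasurableSet.const _).inter
      (measurableSet_gap _ _ _ _ _ _ _ _ _ _))
  let W' : ℤ → ℤ × Pth × ℕ × ℕ × ℕ × Finset (Sym2 V) → Set Env := fun i j =>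
    {t | (0 ≤ j.1 ∧ j.1 < H ∧ j.2.2.2.2.2 ⊆ j.2.1.edges ∧ j.2.2.2.2.2 ⊆ U ∧
        n / 5 ≤ j.2.2.2.2.2.card) ∧
      WPath μ t m η (loI ε i) (hiI ε i) L R 0 j.1 j.2.1 j.2.2.1 j.2.2.2.1 j.2.2.2.2.1 ∧
      t ∈ Good ∧ ∀ e ∈ j.2.2.2.2.2, t e ∈ hi G}
  have hW'm : ∀ i j, MeasurableSet (W' i j) := fun i j => by
    refine (MeasurableSet.const _).inter ((measurableSet_wpath _ _ _ _ _ _ _ _ _ _ _ _ _).inter
      (hGm.inter ?_))
    show MeasurableSet {t : Env | ∀ e ∈ j.2.2.2.2.2, t e ∈ hi G}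
    simp only [Set.ofPred_forall]
    exact MeasurableSet.iInter fun e => MeasurableSet.iInter fun _ =>
      measurable_pi_apply e (measurableSet_hi G)
  have hd := sub_pos.2 (h0_lt_h1 G)
  have g1 := hgap U (n / 5) (c * (n / 5 : ℕ) / √(U.card) - 1) _ I W' (fun _ j => j.2.2.2.2.2) B Ω1 H
    (by omega) (by linarith) hW'm hBm hΩ (fun i j ⟨t, ht⟩ => ⟨ht.1.2.2.2.1, ht.1.2.2.2.2⟩)
    (fun i j t ht => ht.2.2.2) (by
      rintro i hi ⟨y, Γ, f, g, l, Hs⟩ t ⟨⟨hy0, hyH, hHΓ, hHU, hcard⟩, hWp, hG, hhi⟩ t' ht' hlow hJ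
      have hnn : NN t := hG.2
      have hnn' := BTubeB_nn hnn hlow
      have hU1 : 1 ≤ U.card := le_trans (by omega) (hcard.trans (Finset.card_le_card hHU))
      exact ⟨y, hy0, hyH, gap_of_flips hnn' hlow hWp hHΓ hhi
        ((hK hU1).trans (mul_le_mul_of_nonneg_right hJ hd.le)) Y
        (hslack t t' hnn hnn' hlow hG.1.1.2 ht' i hi y Γ f g l hy0 hyH hWp)⟩)
  have g2 := count_bound G I H m (fun i y => Wi μ m η ε i L R 0 y)
    (fun i y => measurableSet_wev _ _ _ _ _ _ _ _ _) Good hGm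
    (p := Pr G {t | ∃ i ∈ I, t ∈ Wi μ m η ε i L R 0 0})
    (q := Pr G {t | ∃ i ∈ Idx μ ε, t ∈ Pair μ m η (loI ε i) (hiI ε i) H L R 0})
    (fun y _ _ => by
      rw [← Pr_act G (tr (0, y))]
      refine Pr_mono G ?_
      rintro t ⟨i, hi, ht⟩
      refine ⟨i, hi, (wev_tr μ m η _ _ L R 0 y (0, y) t).1 ?_⟩
      simpa [Wi] using ht)
    (fun y _ _ => by
      rw [← Pr_act G (tr (0, y)) {t | ∃ i ∈ Idx μ ε, t ∈ Pair μ m η (loI ε i) (hiI ε i) H L R 0}]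
      refine Pr_mono G ?_
      rintro t ⟨i, hi, ht⟩
      exact ⟨i, hIdx hi, (pair_tr μ m η _ _ H L R y t).2 ht⟩)
  have e1 : ∀ t, (I.filter (fun i => ∃ y : ℤ, 0 ≤ y ∧ y < H ∧
      t ∈ Wi μ m η ε i L R 0 y ∩ Good)) = I.filter (fun i => ∃ j, t ∈ W' i j) := fun t => by
    refine Finset.filter_congr fun i hi => ⟨?_, ?_⟩
    · rintro ⟨y, hy0, hyH, ⟨Γ, f, g, l, hWp⟩, hG⟩
      have hy1 : |(y : ℝ)| ≤ H := by
        rw [abs_of_nonneg (by exact_mod_cast hy0)]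
        exact_mod_cast hyH.le
      obtain ⟨Hs, a1, a2, a3, a4⟩ := exists_hi_edges (G := G) (θ := θ) (w := w) (w' := w') hWp hη
        (hI i hi).1 (hI i hi).2 (by rw [abs_of_nonneg hy0]; omega) (by linarith) hn hR hG.1.1.1
        (fun x hx hk => hG.1.2 ⟨x, hx, hk⟩)
      exact ⟨(y, Γ, f, g, l, Hs), ⟨hy0, hyH, a1, a2, a3⟩, hWp, hG, a4⟩
    · rintro ⟨⟨y, Γ, f, g, l, Hs⟩, ⟨hy0, hyH, -⟩, hWp, hG, -⟩
      exact ⟨y, hy0, hyH, ⟨Γ, f, g, l, hWp⟩, hG⟩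
  simp only [e1] at g2
  have hH0 : (0 : ℝ) < H := by exact_mod_cast hH1
  have hS0 : 0 ≤ ∑ i ∈ I, Pr G (B i) := Finset.sum_nonneg fun i _ => Pr_nonneg G _
  have e2 : (H : ℝ) ^ ((1 : ℝ) / 4) * (∑ i ∈ I, Pr G (B i)) ^ ((3 : ℝ) / 4) =
      H * (1 / (H : ℝ) * ∑ i ∈ I, Pr G (B i)) ^ ((3 : ℝ) / 4) := by
    rw [Real.mul_rpow (by positivity) hS0, ← mul_assoc, one_div (H : ℝ), Real.inv_rpow hH0.le,
      ← div_eq_mul_inv, ← Real.rpow_one_sub' hH0.le (by norm_num)]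
    norm_num
  rw [mul_assoc Cg, e2] at g1
  refine le_of_mul_le_mul_left ?_ hH0
  have g3 := mul_le_mul_of_nonneg_left g1 (by positivity : (0 : ℝ) ≤ 2 * m + 1)
  have g4 := mul_le_mul_of_nonneg_left hGc hH0.le
  linarith

theorem BTubeB_K {c δ d u : ℝ} {A1 n : ℕ} (hc : 0 < c) (hδ : 0 < δ) (hd : 0 < d) (hn : 10 ≤ n)
    (hδ2 : √δ ≤ c / (20 * √(2 * A1 + 1)) / 2) (hδn : 1 ≤ δ * n) (hu1 : 1 ≤ u)
    (hu : u ≤ 4 * (n * (2 * (A1 * δ * n) + 1))) :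
    d * (c / (20 * √(2 * A1 + 1))) / (2 * √δ) ≤ (c * (n / 5 : ℕ) / √u - 1) * d := by
  have hn0 : (10 : ℝ) ≤ n := by exact_mod_cast hn
  have hs : 0 < √δ := Real.sqrt_pos.2 hδ
  have ha : 0 < √(2 * (A1 : ℝ) + 1) := Real.sqrt_pos.2 (by positivity)
  set c' := c / (20 * √(2 * A1 + 1)) with hc'
  have h5 : (n : ℝ) / 10 ≤ ((n / 5 : ℕ) : ℝ) := by
    have : n ≤ 10 * (n / 5) := by omega
    have : (n : ℝ) ≤ 10 * ((n / 5 : ℕ) : ℝ) := by exact_mod_cast this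
    linarith
  have h1 : √u ≤ 2 * √(2 * A1 + 1) * √δ * n := by
    refine Real.sqrt_le_iff.2 ⟨by positivity, hu.trans ?_⟩
    rw [mul_pow, mul_pow, mul_pow, Real.sq_sqrt (by positivity), Real.sq_sqrt hδ.le]
    have : (n : ℝ) * 1 ≤ n * (δ * n) := mul_le_mul_of_nonneg_left hδn (by positivity)
    nlinarith
  have hu0 : 0 < √u := Real.sqrt_pos.2 (by linarith)
  have h2 : c' / √δ ≤ c * (n / 5 : ℕ) / √u := by
    calc c' / √δ = c * (n / 10) / (2 * √(2 * A1 + 1) * √δ * n) := by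
          rw [hc']
          field_simp
          ring
      _ ≤ _ := by gcongr
  have h3 : 1 ≤ c' / (2 * √δ) := by
    rw [le_div_iff₀ (by positivity)]
    linarith
  have h4 : c' / √δ = 2 * (c' / (2 * √δ)) := by field_simp
  rw [mul_div_assoc, mul_comm d]
  exact mul_le_mul_of_nonneg_right (by linarith) hd.le

set_option maxHeartbeats 1600000 in
theorem tube_bound (hd : DN (mu G)) : ∃ C δ0 : ℝ, 0 < C ∧ 0 < δ0 ∧ ∀ (m : ℕ) (η e s0 δ ζ : ℝ),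
    0 < η → 0 < e → |s0| + 102 * e ≤ Sk (mu G) 3 →
    thp (mu G) (s0 + 102 * e) - thm (mu G) (s0 - 102 * e) ≤ δ → 0 < δ → δ ≤ δ0 → 0 < ζ →
    ∃ ε0 : ℝ, 0 < ε0 ∧ ∀ ε : ℝ, 0 < ε → ε ≤ ε0 → ∀ I : Finset ℤ, I ⊆ Idx (mu G) ε →
      (∀ i ∈ I, s0 - e ≤ loI ε i ∧ hiI ε i ≤ s0 + e) →
      Small2 (fun N1 N2 => Pr G {t | ∃ i ∈ I, t ∈ Wi (mu G) m η ε i (1 - N1) N2 0 0})
        (C * ((m : ℝ) + 1) * (e * √δ) ^ ((3 : ℝ) / 4) + ζ) := by
  obtain ⟨A, hA, htube⟩ := small_not_tube hd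
  obtain ⟨A0, hA0, hsl⟩ := slack_nonneg hd
  obtain ⟨M2, hM2, hslack⟩ := hsl (A + 1)
  obtain ⟨Cs, hCs⟩ := small_not_slackGood hd
  obtain ⟨c, Cg, hc, hCg, hpt⟩ := BTubeB_point G
  have hd0 : 0 < h1 G - h0 G := sub_pos.2 (h0_lt_h1 G)
  set d := h1 G - h0 G with hdd
  set c' : ℝ := c / (20 * √(2 * ((A + 1 : ℕ) : ℝ) + 1)) with hc'
  have hc'0 : 0 < c' := by positivity
  set C2 : ℝ := 768 * (M2 + 1) / (d * c') with hC2
  have hC20 : 0 < C2 := by positivity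
  refine ⟨2 * Cg * C2 ^ ((3 : ℝ) / 4), min (1 / ((A + 1 : ℕ) : ℝ)) ((c' / 2) ^ 2), by positivity,
    by positivity, fun m η e s0 δ ζ hη he hs hth hδ hδ0 hζ => ?_⟩
  have hA1 : (1 : ℝ) ≤ ((A + 1 : ℕ) : ℝ) := by exact_mod_cast Nat.le_add_left 1 A
  have hδA : ((A + 1 : ℕ) : ℝ) * δ ≤ 1 := by
    have := hδ0.trans (min_le_left _ _)
    rwa [le_div_iff₀' (by positivity)] at this
  have hδ1 : δ ≤ 1 := by nlinarith
  have hδc : √δ ≤ c' / 2 := Real.sqrt_le_iff.2 ⟨by positivity, hδ0.trans (min_le_right _ _)⟩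
  have hsδ : 0 < √δ := Real.sqrt_pos.2 hδ
  have h3 : Sk (mu G) 3 < m1 (mu G) := hd.Sk_lt (by norm_num)
  have hs1 := le_abs_self s0
  have hs2 := neg_abs_le s0
  have habs : ∀ x : ℝ, |x| ≤ 102 * e → |s0 + x| < m1 (mu G) := fun x hx =>
    (abs_add_le _ _).trans_lt (by linarith)
  have hs0 : |s0| < m1 (mu G) := by linarith
  set θ := thp (mu G) s0 with hθ
  have hslp : slp (mu G) θ = s0 := hd.slp_thp hs0
  have hζ5 : 0 < ζ / 5 := by positivity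
  have b1 : |s0 - e - 100 * e| < m1 (mu G) := abs_lt.2 ⟨by linarith, by linarith⟩
  have b2 : |s0 + e + 100 * e| < m1 (mu G) := abs_lt.2 ⟨by linarith, by linarith⟩
  have b3 : |s0 - 102 * e| < m1 (mu G) := abs_lt.2 ⟨by linarith, by linarith⟩
  have b4 : |s0 + 102 * e| < m1 (mu G) := abs_lt.2 ⟨by linarith, by linarith⟩
  obtain ⟨n1, hn1⟩ := htube (s0 - e) (s0 + e) (100 * e) θ δ (by positivity) (by linarith)
    (by linarith) (by linarith) (by linarith) ((hd.thm_le_iff b1 _).2 (by linarith))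
    ((hd.le_thp_iff b2 _).2 (by linarith))
    (by linarith [hd.thp_mono b2 b4 (by linarith), hd.thm_mono b3 b1 (by linarith)]) hδ hδ1 m
    (ζ / 5) hζ5
  obtain ⟨κ, ζ1, hκ, hκ1, hζ1, hsl2⟩ := hslack s0 e θ δ he hs hslp hth hδ hδA hδ1
  obtain ⟨n2, hn2⟩ := hsl2 Cs m
  obtain ⟨n3, hn3⟩ := hCs s0 e θ κ ζ1 (ζ / 5) A0 he hs hκ hζ1 hζ5 hA0
  have hδn : ∀ᶠ n : ℕ in atTop, 2 * ((m : ℝ) + 2) ≤ δ * n :=
    (tendsto_natCast_atTop_atTop.const_mul_atTop hδ).eventually_ge_atTop _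
  obtain ⟨n, ⟨⟨⟨⟨⟨⟨k1, k2⟩, k3⟩, k4⟩, k5⟩, k6⟩, k7⟩⟩ :=
    (((((((eventually_ge_atTop n1).and (eventually_ge_atTop n2)).and
      (eventually_ge_atTop n3)).and (eventually_ge_atTop (2 * m + 10))).and hδn).and
      (BTubeB_kes hζ5)).and (BTubeB_low (G := G) hζ1 hζ5 A0 ((2 * m + 1) * Cg))).exists
  have hm0 : (0 : ℝ) ≤ m := Nat.cast_nonneg m
  have hn0 : (0 : ℝ) ≤ n := Nat.cast_nonneg n
  set H : ℕ := ⌊δ * n⌋₊ with hH
  have hH1 : (H : ℝ) ≤ δ * n := Nat.floor_le (by positivity)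
  have hH2 : δ * n < H + 1 := Nat.lt_floor_add_one _
  have hH3 : (m : ℝ) + 2 ≤ H := by linarith
  have hH4 : δ * n ≤ 2 * H := by linarith
  have hH0 : (0 : ℝ) < H := by linarith
  have hHn : H ≤ n := by
    have : (H : ℝ) ≤ n := hH1.trans (by nlinarith)
    exact_mod_cast this
  have hH5 : 1 ≤ H := by
    have : (1 : ℝ) ≤ H := by linarith
    exact_mod_cast this
  obtain ⟨ε1, hε1, hpair⟩ := pair_small hd m H hη hζ5
  refine ⟨min ε1 e, by positivity, fun ε hε hε0 I hIdx hI => ?_⟩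
  have hεe : ε ≤ e := hε0.trans (min_le_right _ _)
  set K : ℝ := d * c' / (2 * √δ) with hK
  have hK0 : 0 < K := by positivity
  set Rr : ℕ := ⌈M2 * δ * n⌉₊ with hRr
  have hRr1 : (Rr : ℝ) ≤ M2 * δ * n + 1 := (Nat.ceil_lt_add_one (by positivity)).le
  have hRr2 : M2 * δ * n ≤ (Rr : ℝ) := Nat.le_ceil _
  set Y : ℕ := 2 * H + m + ⌈K / (4 * ε)⌉₊ with hY
  have hY1 : 1 / (Y : ℝ) ≤ 4 * ε / K := by
    have h1 : K / (4 * ε) ≤ Y := (Nat.le_ceil _).trans (by exact_mod_cast Nat.le_add_left _ _)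
    have h2 : 0 < K / (4 * ε) := by positivity
    calc 1 / (Y : ℝ) ≤ 1 / (K / (4 * ε)) := one_div_le_one_div_of_le h2 h1
      _ = 4 * ε / K := by rw [one_div_div]
  have hcard := BTubeB_card hε (by linarith) hI
  -- the sum of the gap probabilities
  have sB : Small2 (fun N1 N2 => 1 / (H : ℝ) * ∑ i ∈ I, Pr G {t | ∃ y : ℤ, 0 ≤ y ∧ y < H ∧
      t ∈ Gap (mu G) m K (loI ε i) (hiI ε i) Rr Y (1 - N1) N2 y}) (C2 * (e * √δ)) := by
    have h1 := Small2.sum I (a := fun _ => 12 * ((Rr : ℝ) + H + m + 1) * (4 * ε / K + 1 / Y))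
      (f := fun i N1 N2 => Pr G {t | ∃ y : ℤ, 0 ≤ y ∧ y < H ∧
        t ∈ Gap (mu G) m K (loI ε i) (hiI ε i) Rr Y (1 - N1) N2 y}) fun i hi => by
      have a1 := (hI i hi).1
      have a2 := (hI i hi).2
      have a3 := small_gap hd (α := alI ε i) (β := beI ε i) (lo := loI ε i) (hi := hiI ε i) (K := K)
        (by unfold alI loI hiI at *; linarith) (by unfold alI loI; linarith)
        (by unfold loI hiI; linarith) (by unfold beI hiI; linarith)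
        (by unfold beI loI hiI at *; linarith) hK0 (m := m) (Rr := Rr) (H := H) (Y := Y) hH5
        (by omega) (by omega)
      have a4 : beI ε i - alI ε i = 4 * ε := by unfold beI alI; ring
      rwa [a4] at a3
    refine (h1.const_mul (by positivity)).mono_right ?_
    rw [Finset.sum_const, nsmul_eq_mul]
    have hM0 : (0 : ℝ) ≤ M2 := Nat.cast_nonneg M2
    have a1 : (Rr : ℝ) + H + m + 1 ≤ (2 * M2 + 2) * H := by
      have : (M2 : ℝ) * (δ * n) ≤ M2 * (2 * H) := mul_le_mul_of_nonneg_left hH4 hM0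
      nlinarith
    calc 1 / (H : ℝ) * (I.card * (12 * ((Rr : ℝ) + H + m + 1) * (4 * ε / K + 1 / Y)))
        ≤ 1 / (H : ℝ) * (I.card * (12 * ((2 * M2 + 2) * H) * (4 * ε / K + 4 * ε / K))) := by
          gcongr
      _ = 192 * (M2 + 1) / K * (I.card * ε) := by field_simp; ring
      _ ≤ 192 * (M2 + 1) / K * (s0 + e - (s0 - e)) := by gcongr
      _ = C2 * (e * √δ) := by
          rw [hC2, hK]
          field_simp
          ring
  have sB' := (sB.rpow fun N1 N2 => mul_nonneg (by positivity)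
    (Finset.sum_nonneg fun i _ => Pr_nonneg G _)).const_mul
    (c := (2 * m + 1) * Cg) (by positivity)
  obtain ⟨hbox, hdet⟩ := hn2 n k2
  have key := ((sB'.add (small2_const (ζ / 5))).add
    (hpair ε hε (hε0.trans (min_le_left _ _)))).add
    (((hn1 n k1).add (hn3 n k3 hbox)).add (small2_const (ζ / 5)))
  refine (key.of_le ⟨2 * A0 * n + n + 1, fun N1 N2 hN1 hN2 => ?_⟩).mono_right ?_
  · have hz : (0 : ℤ) ≤ 2 * A0 * n := by positivity
    have hw' : (0 : ℝ) ≤ ((A + 1 : ℕ) : ℝ) * δ * n := by positivity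
    have hcT := card_tubeV_le θ hw' m n
    refine (hpt (mu G) m n H Rr Y η ε K θ (A * δ * n) (((A + 1 : ℕ) : ℝ) * δ * n) (s0 - e) (s0 + e)
      (1 - N1) N2 I (SlackGood G Cs s0 e θ κ ζ1 A0 n (1 - N1) N2) (LowL G ζ1 A0 0 n)
      (measurableSet_slackGood _ _ _ _ _ _ _ _ _ _) (measurableSet_lowL _ _ _ _ _) hη.le hI hIdx
      hH5 hHn (by push_cast; linarith) k4 (by omega) (fun hU => ?_) ?_).trans ?_
    · refine BTubeB_K hc hδ hd0 (by omega) hδc (by linarith) (by exact_mod_cast hU) ?_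
      have := card_edgesIn_le (tubeV θ (((A + 1 : ℕ) : ℝ) * δ * n) m n)
      have : ((edgesIn (tubeV θ (((A + 1 : ℕ) : ℝ) * δ * n) m n)).card : ℝ) ≤
          4 * (tubeV θ (((A + 1 : ℕ) : ℝ) * δ * n) m n).card := by exact_mod_cast this
      linarith
    · intro t t' ht ht' hlow hSG hΩ i hi y Γ f g l hy0 hyH hWp y' yf' yl' hy' hf hl
      refine hdet (1 - N1) N2 (by omega) (by omega) t t' ht ht' hlow hSG hΩ η _ _ y Γ f g l
        (hI i hi).1 (hI i hi).2 ?_ hWp y' yf' yl' ?_ hf hl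
      · rw [abs_of_nonneg (by exact_mod_cast hy0)]
        have : (y : ℝ) ≤ H := by exact_mod_cast hyH.le
        linarith
      · have : (Rr : ℝ) < |((y' - y : ℤ) : ℝ)| := by exact_mod_cast hy'
        linarith
    · have a1 : ((tubeV θ (((A + 1 : ℕ) : ℝ) * δ * n) m n).card : ℝ) ≤ n * (2 * n + 1) := by
        refine hcT.trans (mul_le_mul_of_nonneg_left ?_ hn0)
        nlinarith
      have a2 := (mul_le_mul_of_nonneg_right a1
        (by positivity : (0 : ℝ) ≤ (1 / 2) ^ (n / 2))).trans k6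
      linarith
  · rw [Real.mul_rpow hC20.le (by positivity)]
    have a1 : 0 ≤ Cg * (C2 ^ ((3 : ℝ) / 4) * (e * √δ) ^ ((3 : ℝ) / 4)) := by positivity
    nlinarith

end Crest.Agent.R151
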