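import Crest.Agent.R151.CFh
import Crest.Agent.R151.TTess

/-! Row 151, part C: the a priori bound C2. -/

set_option autoImplicit false

namespace Crest.Agent.R151.PC

open MeasureTheory ProbabilityTheory Filter Topology Crest.ProbabilityR.FirstPassage
open scoped Classical

variable {G : Measure ℝ} [Law G] {F : FD}

/-- deterministic part: a nearly optimal path between the trimmed endpoints stays in `dom` -/
theorem apr_stay (hF : IsFace (mu G) F) {c : ℝ} (hc : 0 < c)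
    (hgap : ∀ w : V, F.Steep w → c * nrm w ≤ mu G (rv w) - dot F.ρ (rv w))
    {v x : V} {ℓ : ℕ} (hv : F.Inr v) (hℓ : 4 * (ℓ : ℤ) ≤ v.1) (hx1 : x.1 = ℓ)
    (hx2 : |x.2| ≤ F.κ * (ℓ : ℤ)) {R : ℕ} (hR : 2 * F.κ * v.1 + 1 ≤ (R : ℤ)) {e : ℝ} {t : Env}
    (ht : NN t) (hlow : ∀ a ∈ box 0 R, ∀ b ∈ box 0 R, mu G (rv (b - a)) - e ≤ T t a b)
    {γ : Pth} (hγ : γ.Joins Set.univ x (v - x))
    (hlt : γ.tot t < dot F.ρ (rv (v - x - x)) + c * ℓ - 2 * e) : γ.In (F.dom 0 v) := by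
  have hn : 1 ≤ v.1 := hv.1
  have hκ : (1 : ℤ) ≤ F.κ := by exact_mod_cast F.one_le_κ
  have hv2 := abs_le.1 (hF.inr_abs_le hv)
  have hx2' := abs_le.1 hx2
  have hℓ0 : (0 : ℤ) ≤ ℓ := Nat.cast_nonneg ℓ
  have hκℓ : (F.κ : ℤ) * ℓ ≤ F.κ * v.1 := mul_le_mul_of_nonneg_left (by linarith) (by linarith)
  have hκn : v.1 ≤ (F.κ : ℤ) * v.1 := le_mul_of_one_le_left (by linarith) hκ
  have mem : ∀ y : V, y ∈ F.dom 0 v ↔
      0 ≤ y.1 ∧ y.1 ≤ v.1 ∧ -(2 * (F.κ * v.1)) ≤ y.2 ∧ y.2 ≤ 2 * (F.κ * v.1) := fun y => by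
    simp [FD.dom, rect, mul_assoc]
  have bx : ∀ y : V, -1 ≤ y.1 → y.1 ≤ v.1 + 1 → -(2 * (F.κ * v.1)) - 1 ≤ y.2 →
      y.2 ≤ 2 * (F.κ * v.1) + 1 → y ∈ box 0 R := fun y a1 a2 a3 a4 => by
    change nrm (y - 0) ≤ R
    rw [sub_zero, nrm_le_iff, abs_le, abs_le]
    refine ⟨⟨?_, ?_⟩, ?_, ?_⟩ <;> linarith
  by_contra hin
  have hex : ∃ i, i ≤ γ.n ∧ γ.p i ∉ F.dom 0 v := by
    by_contra h
    exact hin fun i hi => by
      by_contra h'
      exact h ⟨i, hi, h'⟩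
  obtain ⟨hk1, hk2⟩ := Nat.find_spec hex
  have hmin := fun m => Nat.find_min hex (m := m)
  generalize Nat.find hex = k at hk1 hk2 hmin
  have hxd : x ∈ F.dom 0 v := (mem x).2 ⟨by linarith, by linarith, by linarith, by linarith⟩
  obtain ⟨j, rfl⟩ : ∃ j, k = j + 1 := by
    rcases k with _ | j
    · rw [hγ.2.2.1] at hk2
      exact absurd hxd hk2
    · exact ⟨j, rfl⟩
  have hj : γ.p j ∈ F.dom 0 v := by
    by_contra h
    exact hmin j (Nat.lt_succ_self j) ⟨by omega, h⟩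
  obtain ⟨j1, j2, j3, j4⟩ := (mem _).1 hj
  have c1 := abs_le.1 (hγ.1.col_step j)
  have c2 := abs_le.1 (hγ.1.row_step j)
  have t1 := T_le_cost ht hγ.1 (Nat.zero_le (j + 1)) hk1
  have t2 := T_le_cost ht hγ.1 hk1 le_rfl
  have t3 := γ.cost_add t (Nat.zero_le (j + 1)) hk1
  rw [hγ.2.2.1] at t1
  rw [hγ.2.2.2] at t2
  generalize γ.p (j + 1) = y at hk2 c1 c2 t1 t2
  have by1 : y ∈ box 0 R := bx y (by linarith) (by linarith) (by linarith) (by linarith)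
  have bx1 : x ∈ box 0 R := bx x (by linarith) (by linarith) (by linarith) (by linarith)
  have bz1 : v - x ∈ box 0 R := bx _ (by rw [Prod.fst_sub]; linarith) (by rw [Prod.fst_sub]; linarith)
    (by rw [Prod.snd_sub]; linarith) (by rw [Prod.snd_sub]; linarith)
  have l1 := hlow x bx1 y by1
  have l2 := hlow y by1 (v - x) bz1
  have e1 : dot F.ρ (rv (v - x - x)) = dot F.ρ (rv (y - x)) + dot F.ρ (rv (v - x - y)) := by
    rw [← dot_add, ← rv_add]; congr 2; abel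
  have g1 := hF.le (rv (y - x))
  have g2 := hF.le (rv (v - x - y))
  have key : ∀ w : V, F.Steep w → (ℓ : ℤ) ≤ |w.1| ∨ (ℓ : ℤ) ≤ |w.2| →
      c * ℓ ≤ mu G (rv w) - dot F.ρ (rv w) := fun w hw h => by
    refine le_trans (mul_le_mul_of_nonneg_left ?_ hc.le) (hgap w hw)
    have : (ℓ : ℤ) ≤ nrm w := h.elim (fun h => h.trans (abs_fst_le_nrm w))
      fun h => h.trans (abs_snd_le_nrm w)
    exact_mod_cast this
  unfold Pth.tot at hlt
  by_cases a1 : y.1 < 0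
  · have := key (y - x) (F.steep_of_nonpos (by rw [Prod.fst_sub]; linarith))
      (Or.inl (le_abs.2 (Or.inr (by rw [Prod.fst_sub]; linarith))))
    linarith
  by_cases a2 : v.1 < y.1
  · have := key (v - x - y) (F.steep_of_nonpos (by rw [Prod.fst_sub, Prod.fst_sub]; linarith))
      (Or.inl (le_abs.2 (Or.inr (by rw [Prod.fst_sub, Prod.fst_sub]; linarith))))
    linarith
  have a3 : (F.κ : ℤ) * v.1 ≤ |(y - x).2| := by
    rw [Prod.snd_sub, le_abs]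
    by_contra h
    rw [not_or, not_le, not_le] at h
    exact hk2 ((mem y).2 ⟨by linarith, by linarith, by linarith [h.2], by linarith [h.1]⟩)
  have := key (y - x) (le_trans (mul_le_mul_of_nonneg_left
    (by rw [Prod.fst_sub]; linarith) (by linarith)) a3) (Or.inr (by linarith))
  linarith

theorem fh_apriori (hE : ExpL G) (hF : IsFace (mu G) F) : ∃ C : ℝ, 0 < C ∧
    ∀ v : V, F.Inr v → F.fh G v ≤ C * (v.1 : ℝ) ^ ((9 : ℝ) / 10) := by
  obtain ⟨c, hc, hgap⟩ := hF.steep_gap' (mu_ok G)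
  obtain ⟨C1, hC1, h1⟩ := fh_le_lin hE hF
  obtain ⟨n0, h0⟩ := inr_trim hF
  obtain ⟨C2, hC2, h2⟩ := TD_rect_moment hE
  obtain ⟨C3, hC3, h3⟩ := Pr_lowT G
  obtain ⟨C4, hC4, h4⟩ := integral_abs_T_sub G
  obtain ⟨C5, hC5, h5⟩ := hm_le_mu G
  obtain ⟨κ, hκe⟩ : ∃ κ : ℝ, κ = F.κ := ⟨_, rfl⟩
  have hκ : 1 ≤ κ := by rw [hκe]; exact_mod_cast F.one_le_κ
  obtain ⟨S, hS⟩ : ∃ S : ℝ, S = 8 + |(n0 : ℝ)| + 12 * κ / c + 8 * κ * C5 / c := ⟨_, rfl⟩
  obtain ⟨K, hK⟩ : ∃ K : ℝ, K = C3 + 8 * κ * C4 / c := ⟨_, rfl⟩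
  have hK0 : 0 < K := by rw [hK]; positivity
  have hρ := norm_nonneg F.ρ
  have q1 : 0 ≤ 12 * κ / c := by positivity
  have q2 : 0 ≤ 8 * κ * C5 / c := by positivity
  have q3 := abs_nonneg (n0 : ℝ)
  refine ⟨C1 * S ^ 2 + (2 * (2 * C2 * κ + c / 2 + 4 * ‖F.ρ‖ * κ) + (C2 + 1) * (2 * κ) * (K + 1)),
    by positivity, fun v hv => ?_⟩
  have hn : 1 ≤ v.1 := hv.1
  obtain ⟨N, hN⟩ := Int.eq_ofNat_of_zero_le (show 0 ≤ v.1 by linarith)
  have hNr : ((v.1 : ℤ) : ℝ) = (N : ℝ) := by rw [hN]; simp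
  have hN1 : (1 : ℝ) ≤ N := by rw [← hNr]; exact_mod_cast hn
  have hN0 : (0 : ℝ) ≤ N := by linarith
  obtain ⟨s, hs⟩ : ∃ s : ℝ, s = (N : ℝ) ^ ((1 : ℝ) / 20) := ⟨_, rfl⟩
  have s1 : 1 ≤ s := by rw [hs]; exact Real.one_le_rpow hN1 (by norm_num)
  have s0 : 0 < s := by linarith
  have spow : ∀ (k : ℕ) (a : ℝ), a = k / 20 → (N : ℝ) ^ a = s ^ k := fun k a ha => by
    rw [hs, ← Real.rpow_mul_natCast hN0, ha]; congr 1; ring
  have s20 : (N : ℝ) = s ^ 20 := by rw [← spow 20 1 (by norm_num), Real.rpow_one]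
  have sle : ∀ {a b : ℕ}, a ≤ b → s ^ a ≤ s ^ b := fun h => pow_le_pow_right₀ s1 h
  rw [hNr, spow 18 _ (by norm_num)]
  have p18 : 0 < s ^ 18 := by positivity
  rcases le_total s S with hsS | hsS
  · have a1 := h1 v hv
    rw [hNr, s20] at a1
    have a2 : s ^ 20 ≤ S ^ 2 * s ^ 18 := by
      rw [show s ^ 20 = s ^ 2 * s ^ 18 by ring]
      exact mul_le_mul_of_nonneg_right (pow_le_pow_left₀ s0.le hsS 2) p18.le
    have a3 := mul_le_mul_of_nonneg_left a2 hC1.le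
    have a4 : 0 ≤ (2 * (2 * C2 * κ + c / 2 + 4 * ‖F.ρ‖ * κ) + (C2 + 1) * (2 * κ) * (K + 1)) *
      s ^ 18 := by positivity
    linarith
  -- large `N`
  obtain ⟨ℓ, hℓ⟩ : ∃ ℓ : ℕ, ℓ = ⌈s ^ 18⌉₊ := ⟨_, rfl⟩
  have l1 : s ^ 18 ≤ ℓ := by rw [hℓ]; exact Nat.le_ceil _
  have l2 : (ℓ : ℝ) ≤ 2 * s ^ 18 := by
    have := Nat.ceil_lt_add_one p18.le
    have := one_le_pow₀ s1 (n := 18)
    rw [hℓ]; linarith
  have l3 : 4 * (ℓ : ℝ) ≤ N := by
    have : 8 * s ^ 18 ≤ s ^ 19 := by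
      rw [pow_succ' s 18]; exact mul_le_mul_of_nonneg_right (by linarith) p18.le
    have := sle (show 19 ≤ 20 by norm_num)
    linarith
  have l4 : 4 * (ℓ : ℤ) ≤ v.1 := by rw [hN]; exact_mod_cast l3
  have l5 : n0 ≤ v.1 := by
    have a1 := sle (show 1 ≤ 20 by norm_num)
    have a2 := le_abs_self (n0 : ℝ)
    rw [pow_one] at a1
    have : (n0 : ℝ) ≤ ((v.1 : ℤ) : ℝ) := by rw [hNr]; linarith
    exact_mod_cast this
  obtain ⟨x, x1, x2, x3, x4⟩ := h0 v hv l5 ℓ l4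
  have hκZ : (1 : ℤ) ≤ F.κ := by exact_mod_cast F.one_le_κ
  have hℓ0 : (0 : ℤ) ≤ ℓ := Nat.cast_nonneg ℓ
  have nx : (nrm x : ℝ) ≤ κ * ℓ := by
    have : nrm x ≤ F.κ * ℓ := by
      rw [nrm_le_iff]
      push_cast
      refine ⟨?_, x2⟩
      rw [x1, abs_of_nonneg hℓ0]
      exact le_mul_of_one_le_left hℓ0 hκZ
    rw [hκe]; exact_mod_cast this
  have nv : (nrm v : ℝ) ≤ κ * N := by
    have := hF.inr_nrm_le hv
    rw [hN] at this
    rw [hκe]; exact_mod_cast this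
  have nw : (nrm (v - x - x) : ℝ) ≤ 2 * κ * N := by
    have a1 := nrm_add_le (v - x) (-x)
    have a2 := nrm_add_le v (-x)
    rw [nrm_neg, ← sub_eq_add_neg] at a1 a2
    have a3 : (nrm (v - x - x) : ℝ) ≤ nrm v + nrm x + nrm x := by exact_mod_cast (by omega)
    have a4 : κ * (4 * ℓ) ≤ κ * N := mul_le_mul_of_nonneg_left l3 (by linarith)
    have a5 : 0 ≤ κ * ℓ := by positivity
    linarith
  have powle : ∀ (A y a : ℝ) (k : ℕ), 1 ≤ A → 0 ≤ y → y ≤ A * N → a = k / 20 → k ≤ 20 →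
      y ^ a ≤ A * s ^ k := fun A y a k hA hy h ha hk => by
    have hk' : (k : ℝ) ≤ 20 := by exact_mod_cast hk
    have a0 : 0 ≤ a := by rw [ha]; positivity
    calc y ^ a ≤ (A * N) ^ a := Real.rpow_le_rpow hy h a0
      _ = A ^ a * s ^ k := by rw [Real.mul_rpow (by linarith) hN0, spow k a ha]
      _ ≤ A * s ^ k := mul_le_mul_of_nonneg_right
          (Real.rpow_le_self_of_one_le hA (by rw [ha]; linarith)) (by positivity)
  have hw : mu G (rv (v - x - x)) = dot F.ρ (rv (v - x - x)) := by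
    refine hF.face_eq (mu_ok G) ?_ x3 x4
    have : 0 ≤ (v - x - x).1 := by rw [Prod.fst_sub, Prod.fst_sub]; linarith
    change (0 : ℝ) ≤ ((v - x - x).1 : ℝ)
    exact_mod_cast this
  obtain ⟨R, hR⟩ : ∃ R : ℕ, R = 2 * F.κ * N + 1 := ⟨_, rfl⟩
  have R1 : 2 * F.κ * v.1 + 1 ≤ (R : ℤ) := by rw [hR, hN]; push_cast; exact le_rfl
  have R2 : (R : ℝ) = 2 * κ * N + 1 := by rw [hR, hκe]; push_cast; rfl
  have kN : (N : ℝ) ≤ κ * N := le_mul_of_one_le_left hN0 hκ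
  have R3 : (R : ℝ) ^ ((3 : ℝ) / 5) ≤ c * ℓ / 4 := by
    have a1 := powle (3 * κ) R (3 / 5) 12 (by linarith) (Nat.cast_nonneg _) (by linarith)
      (by norm_num) (by norm_num)
    have a2 : 12 * κ ≤ s * c := (div_le_iff₀ hc).1 (by linarith)
    have a3 : 12 * κ * s ^ 12 ≤ s * c * s ^ 12 := mul_le_mul_of_nonneg_right a2 (by positivity)
    have a4 : c * s ^ 13 ≤ c * ℓ :=
      mul_le_mul_of_nonneg_left ((sle (by norm_num)).trans l1) hc.le
    have a5 : s * c * s ^ 12 = c * s ^ 13 := by ring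
    linarith
  have R4 : hm G (v - x - x) ≤ mu G (rv (v - x - x)) + c * ℓ / 4 := by
    have a0 := h5 (v - x - x)
    have a1 := powle (2 * κ) (nrm (v - x - x)) (3 / 4) 15 (by linarith) (Nat.cast_nonneg _) nw
      (by norm_num) (by norm_num)
    have a2 : 8 * κ * C5 ≤ s * c := (div_le_iff₀ hc).1 (by linarith)
    have a3 : 8 * κ * C5 * s ^ 15 ≤ s * c * s ^ 15 := mul_le_mul_of_nonneg_right a2 (by positivity)
    have a4 : c * s ^ 16 ≤ c * ℓ :=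
      mul_le_mul_of_nonneg_left ((sle (by norm_num)).trans l1) hc.le
    have a5 : s * c * s ^ 15 = c * s ^ 16 := by ring
    have a6 := mul_le_mul_of_nonneg_left a1 hC5.le
    linarith
  have cl : 0 < c * ℓ := mul_pos hc (by linarith)
  have hv2 := abs_le.1 (hF.inr_abs_le hv)
  have hx2' := abs_le.1 x2
  have hκℓ : (F.κ : ℤ) * ℓ ≤ F.κ * v.1 := mul_le_mul_of_nonneg_left (by linarith) (by linarith)
  have hκ0 : (0 : ℤ) ≤ F.κ * v.1 := by positivity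
  have mem : ∀ y : V, 0 ≤ y.1 → y.1 ≤ v.1 → -(2 * (F.κ * v.1)) ≤ y.2 → y.2 ≤ 2 * (F.κ * v.1) →
      y ∈ F.dom 0 v := fun y a1 a2 a3 a4 => by
    simp [FD.dom, rect, mul_assoc, a1, a2, a3, a4]
  have m0 : (0 : V) ∈ F.dom 0 v := F.mem_dom_left 0 (by linarith)
  have mx : x ∈ F.dom 0 v := mem x (by linarith) (by linarith) (by linarith) (by linarith)
  have mz : v - x ∈ F.dom 0 v := mem _ (by rw [Prod.fst_sub]; linarith)
    (by rw [Prod.fst_sub]; linarith) (by rw [Prod.snd_sub]; linarith) (by rw [Prod.snd_sub]; linarith)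
  have mv : v ∈ F.dom 0 v := mem v (by linarith) le_rfl (by linarith) (by linarith)
  have hp : Pr G {t | dot F.ρ (rv (v - x - x)) + c * ℓ / 2 < TD (F.dom 0 v) t x (v - x)} ≤
      ((K + 1) / s ^ 2) ^ 2 := by
    have a1 := Pr_le_add_of_ae G
      (A := {t | dot F.ρ (rv (v - x - x)) + c * ℓ / 2 < TD (F.dom 0 v) t x (v - x)})
      (B := {t | ∃ a ∈ box 0 R, ∃ b ∈ box 0 R,
        T t a b < mu G (rv (b - a)) - (R : ℝ) ^ ((3 : ℝ) / 5)})
      (C := {t | c * ℓ / 4 ≤ |T t x (v - x) - hm G (v - x - x)|}) (by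
        filter_upwards [ae_nn G] with t ht hA
        by_contra hcon
        rw [not_or] at hcon
        obtain ⟨b1, b2⟩ := hcon
        have b3 : T t x (v - x) < dot F.ρ (rv (v - x - x)) + c * ℓ / 2 := by
          have := (abs_lt.1 (not_le.1 b2)).2
          linarith
        obtain ⟨γ, g1, -, g3⟩ := exists_tot_lt ht (conn_univ x (v - x)) b3
        have g4 := apr_stay hF hc hgap hv l4 x1 x2 R1 (e := (R : ℝ) ^ ((3 : ℝ) / 5)) ht
          (fun a ha b hb => not_lt.1 fun h => b1 ⟨a, ha, b, hb, h⟩) g1 (by linarith)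
        have g5 := TD_le ht (D := F.dom 0 v) (γ := γ) ⟨g1.1, g4, g1.2.2⟩
        exact absurd (g5.trans_lt g3) (not_lt.2 (le_of_lt hA)))
    have a2 := h3 0 R (by omega)
    have a3 := Pr_markov G (TTess_int G x (v - x) (hm G (v - x - x)))
      (Filter.Eventually.of_forall fun t => abs_nonneg _) (show 0 < c * ℓ / 4 by linarith)
    have a4 := h4 x (v - x)
    have a5 := powle (2 * κ) (nrm (v - x - x)) (3 / 5) 12 (by linarith) (Nat.cast_nonneg _) nw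
      (by norm_num) (by norm_num)
    have a6 : C3 / (R : ℝ) ^ 100 ≤ C3 / s ^ 4 := by
      refine div_le_div_of_nonneg_left hC3.le (by positivity) ?_
      have b1 : (1 : ℝ) ≤ R := by linarith
      have b2 := le_self_pow₀ b1 (show 100 ≠ 0 by norm_num)
      have b3 := sle (show 4 ≤ 20 by norm_num)
      linarith
    have a7 : (∫ t, |T t x (v - x) - hm G (v - x - x)| ∂(iidLaw G)) / (c * ℓ / 4) ≤
        8 * κ * C4 / c / s ^ 4 := by
      rw [div_le_div_iff₀ (by linarith) (by positivity)]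
      have b1 : 8 * κ * C4 / c * (c * ℓ / 4) = C4 * (2 * κ) * ℓ := by field_simp; ring
      have b2 : (∫ t, |T t x (v - x) - hm G (v - x - x)| ∂(iidLaw G)) ≤ C4 * (2 * κ * s ^ 12) :=
        a4.trans (mul_le_mul_of_nonneg_left a5 hC4.le)
      rw [b1]
      calc _ ≤ C4 * (2 * κ * s ^ 12) * s ^ 4 := mul_le_mul_of_nonneg_right b2 (by positivity)
        _ = C4 * (2 * κ) * s ^ 16 := by ring
        _ ≤ _ := mul_le_mul_of_nonneg_left ((sle (by norm_num)).trans l1) (by positivity)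
    calc _ ≤ C3 / s ^ 4 + 8 * κ * C4 / c / s ^ 4 := by linarith
      _ = K / s ^ 4 := by rw [hK, add_div]
      _ ≤ (K + 1) ^ 2 / s ^ 4 := div_le_div_of_nonneg_right (by nlinarith) (by positivity)
      _ = _ := by rw [div_pow, ← pow_mul]
  obtain ⟨z1, -, z3⟩ := h2 _ _ _ _ x (v - x) mx mz
  obtain ⟨-, y2, -⟩ := h2 _ _ _ _ 0 x m0 mx
  obtain ⟨-, w2, -⟩ := h2 _ _ _ _ (v - x) v mz mv
  have hμ0 : 0 ≤ dot F.ρ (rv (v - x - x)) := hw ▸ (mu_ok G).nonneg _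
  have hZ := integral_le_of_quantile (G := G) (measurable_TD (F.dom 0 v) x (v - x)) z1
    (a := dot F.ρ (rv (v - x - x)) + c * ℓ / 2) (B := (C2 + 1) * (2 * κ * N)) (by linarith)
    (by positivity) (z3.trans (by
      rw [mul_pow]
      exact mul_le_mul (by nlinarith) (pow_le_pow_left₀ (Nat.cast_nonneg _) nw 2) (by positivity)
        (by positivity))) hp
  rw [Real.sqrt_sq (by positivity)] at hZ
  rw [sub_zero] at y2
  rw [sub_sub_cancel] at w2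
  have i1 := integrable_TD hE (F.dom 0 v) 0 x
  have i2 := integrable_TD hE (F.dom 0 v) x (v - x)
  have i3 := integrable_TD hE (F.dom 0 v) (v - x) v
  have i4 := integrable_TD hE (F.dom 0 v) 0 v
  have e1 : F.fh G v = (∫ t, TD (F.dom 0 v) t 0 v ∂(iidLaw G)) - dot F.ρ (rv v) := by
    unfold FD.fh FD.XD
    rw [zero_add, integral_sub i4 (integrable_const _)]
    simp
  have e2 : (∫ t, TD (F.dom 0 v) t 0 v ∂(iidLaw G)) ≤ (∫ t, TD (F.dom 0 v) t 0 x ∂(iidLaw G)) +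
      (∫ t, TD (F.dom 0 v) t x (v - x) ∂(iidLaw G)) +
        ∫ t, TD (F.dom 0 v) t (v - x) v ∂(iidLaw G) := by
    have i5 : Integrable (fun t => TD (F.dom 0 v) t 0 x + TD (F.dom 0 v) t x (v - x)) (iidLaw G) :=
      i1.add i2
    rw [← integral_add i1 i2, ← integral_add i5 i3]
    refine integral_mono_ae i4 (i5.add i3) ?_
    filter_upwards [ae_nn G] with t ht
    have a1 := TD_triangle ht (D := F.dom 0 v) (conn_rect m0 mz) (conn_rect mz mv)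
    have a2 := TD_triangle ht (D := F.dom 0 v) (conn_rect m0 mx) (conn_rect mx mz)
    change _ ≤ TD (F.dom 0 v) t 0 x + TD (F.dom 0 v) t x (v - x) + TD (F.dom 0 v) t (v - x) v
    linarith
  have e3 : dot F.ρ (rv (v - x - x)) = dot F.ρ (rv v) - dot F.ρ (rv x) - dot F.ρ (rv x) := by
    rw [rv_sub, rv_sub, dot_sub, dot_sub]
  have e4 := (abs_le.1 (abs_dot_le F.ρ (rv x))).1
  rw [norm_rv] at e4
  have e5 : (C2 + 1) * (2 * κ * N) * ((K + 1) / s ^ 2) = (C2 + 1) * (2 * κ) * (K + 1) * s ^ 18 := by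
    rw [s20]; field_simp
  have e6 : C2 * nrm x ≤ C2 * (κ * ℓ) := mul_le_mul_of_nonneg_left nx hC2.le
  have e7 : 2 * ‖F.ρ‖ * nrm x ≤ 2 * ‖F.ρ‖ * (κ * ℓ) := mul_le_mul_of_nonneg_left nx (by positivity)
  have e8 : (2 * C2 * κ + c / 2 + 4 * ‖F.ρ‖ * κ) * ℓ ≤
      (2 * C2 * κ + c / 2 + 4 * ‖F.ρ‖ * κ) * (2 * s ^ 18) :=
    mul_le_mul_of_nonneg_left l2 (by positivity)
  have e9 : 0 ≤ C1 * S ^ 2 * s ^ 18 := by positivity
  change (∫ t, TD (F.dom 0 v) t 0 x ∂(iidLaw G)) ≤ _ at y2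
  change (∫ t, TD (F.dom 0 v) t (v - x) v ∂(iidLaw G)) ≤ _ at w2
  rw [e1]
  linarith

end Crest.Agent.R151.PC
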