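import Crest.Agent.R151.CMom

/-! Row 151, part C: C3: from two quantiles to the mean. -/

set_option autoImplicit false

namespace Crest.Agent.R151.PC

open MeasureTheory ProbabilityTheory Filter Topology Crest.ProbabilityR.FirstPassage
open scoped Classical

variable {G : Measure ℝ} [Law G]

/-- real sequences: midpoint log-concavity propagates the first ratio -/
theorem geom_of_midlc (s : ℕ → ℝ) (q : ℝ) (h0 : ∀ k, 0 ≤ s k) (hanti : ∀ k, s (k + 1) ≤ s k)
    (hlc : ∀ k, s k * s (k + 2) ≤ s (k + 1) ^ 2) (hq0 : 0 ≤ q) (hq : s 1 ≤ q * s 0) :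
    ∀ k, s k ≤ q ^ k * s 0 := by
  have h1 : ∀ k, s (k + 1) ≤ q * s k := by
    intro k
    induction k with
    | zero => exact hq
    | succ k ih =>
      rcases (h0 k).eq_or_lt with h | h
      · have a1 : s (k + 1) ≤ 0 := h ▸ hanti k
        exact (hanti (k + 1)).trans (a1.trans (mul_nonneg hq0 (h0 _)))
      · refine le_of_mul_le_mul_left ((hlc k).trans ?_) h
        have := mul_le_mul_of_nonneg_left ih (h0 (k + 1))
        nlinarith
  intro k
  induction k with
  | zero => simp
  | succ k ih =>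
    refine (h1 k).trans ?_
    rw [pow_succ', mul_assoc]
    exact mul_le_mul_of_nonneg_left ih hq0

/-- geometric tails bound the mean -/
theorem cihr2_tail {Ω : Type*} [MeasurableSpace Ω] {μ : Measure Ω} [IsFiniteMeasure μ] {Z : Ω → ℝ}
    (hm : Measurable Z) (hZ : Integrable Z μ) {d q : ℝ} (hd : 0 < d) (hq0 : 0 ≤ q) (hq1 : q < 1)
    (h : ∀ k : ℕ, μ.real {t | k * d < Z t} ≤ q ^ k) : ∫ t, Z t ∂μ ≤ d / (1 - q) := by
  have hms : ∀ k : ℕ, MeasurableSet {t | k * d < Z t} := fun k => measurableSet_lt measurable_const hm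
  have h1 : ∀ t, ENNReal.ofReal (Z t) ≤
      ∑' k : ℕ, {t | k * d < Z t}.indicator (fun _ => ENNReal.ofReal d) t := by
    intro t
    refine le_trans ?_ (ENNReal.sum_le_tsum (Finset.range ⌈Z t / d⌉₊))
    have e : ∀ k ∈ Finset.range ⌈Z t / d⌉₊,
        {t | k * d < Z t}.indicator (fun _ => ENNReal.ofReal d) t = ENNReal.ofReal d := fun k hk =>
      Set.indicator_of_mem (show t ∈ {t | k * d < Z t} from
        (lt_div_iff₀ hd).1 (Nat.lt_ceil.1 (Finset.mem_range.1 hk))) _
    rw [Finset.sum_congr rfl e, Finset.sum_const, Finset.card_range, nsmul_eq_mul, ← ENNReal.ofReal_natCast,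
      ← ENNReal.ofReal_mul (Nat.cast_nonneg _)]
    exact ENNReal.ofReal_le_ofReal ((div_le_iff₀ hd).1 (Nat.le_ceil _))
  have h2 : ∫⁻ t, ENNReal.ofReal (Z t) ∂μ ≤ ENNReal.ofReal (d / (1 - q)) := by
    refine (lintegral_mono h1).trans ?_
    rw [lintegral_tsum fun k => (measurable_const.indicator (hms k)).aemeasurable,
      div_eq_mul_inv, ← tsum_geometric_of_lt_one hq0 hq1, ← tsum_mul_left,
      ENNReal.ofReal_tsum_of_nonneg (fun k => by positivity)
        ((summable_geometric_of_lt_one hq0 hq1).mul_left d)]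
    refine ENNReal.tsum_le_tsum fun k => ?_
    rw [lintegral_indicator_const (hms k), ENNReal.ofReal_mul hd.le]
    gcongr
    rw [← ENNReal.ofReal_toReal (measure_ne_top μ _)]
    exact ENNReal.ofReal_le_ofReal (h k)
  rw [integral_eq_lintegral_pos_part_sub_lintegral_neg_part hZ]
  have h3 := ENNReal.toReal_le_of_le_ofReal (div_nonneg hd.le (by linarith)) h2
  have h4 := ENNReal.toReal_nonneg (a := ∫⁻ t, ENNReal.ofReal (-Z t) ∂μ)
  linarith

theorem ihr_mean (hE : ExpL G) (F : FD) {D : Set V} (hD : D.Finite) {S : Set Pth} {p0 p1 : V}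
    (hS : ∀ γ ∈ S, γ.Joins D p0 p1) {a b p : ℝ} (hp : 0 < p) (ha : p ≤ Pr G (F.Cheap S a))
    (hb : Pr G (F.Cheap S b) ≤ p / 2) :
    (∫ t, TF S t ∂(iidLaw G)) - dot F.ρ (rv (p1 - p0)) ≤ a + 2 / p * (a - b) := by
  have hp1 : p ≤ 1 := ha.trans (Pr_le_one G _)
  have hd : 0 < a - b := by
    refine sub_pos.2 (lt_of_not_ge fun h => ?_)
    have := Pr_mono G (cheap_mono F (Set.Subset.refl S) h)
    linarith
  set r := dot F.ρ (rv (p1 - p0)) with hr
  have hGT : ∀ x, Pr G (GT S (x + r)) = 1 - Pr G (F.Cheap S x) := fun x => by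
    rw [← Pr_compl G (measurableSet_cheap F S x)]
    congr 1
    ext t
    simp only [GT, FD.Cheap, Set.mem_ofPred_eq, Set.mem_compl_iff, not_exists, not_and, not_le]
    refine forall₂_congr fun γ hγ => ?_
    rw [X_of_joins F (hS γ hγ), lt_sub_iff_add_lt]
  have key := geom_of_midlc (fun k => Pr G (GT S (b + r + k * (a - b)))) (1 - p / 2)
    (fun k => Pr_nonneg G _)
    (fun k => Pr_mono G fun t ht γ hγ => lt_of_le_of_lt (by push_cast; linarith) (ht γ hγ))
    (fun k => by
      have := hE.lc D hD S (fun γ hγ => (hS γ hγ).2.1) (b + r + (k + 1 : ℕ) * (a - b)) (a - b)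
      rwa [show b + r + (k + 1 : ℕ) * (a - b) - (a - b) = b + r + k * (a - b) by push_cast; ring,
        show b + r + (k + 1 : ℕ) * (a - b) + (a - b) = b + r + (k + 2 : ℕ) * (a - b) by
          push_cast; ring] at this)
    (by linarith)
    (by
      rw [show b + r + (1 : ℕ) * (a - b) = a + r by push_cast; ring,
        show b + r + (0 : ℕ) * (a - b) = b + r by push_cast; ring, hGT, hGT]
      nlinarith)
  have h1 := cihr2_tail (μ := iidLaw G) (Z := fun t => TF S t - (a + r))
    ((measurable_TF S).sub_const _) ((integrable_TF hE S).sub (integrable_const _)) hd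
    (q := 1 - p / 2) (by linarith) (by linarith) fun k => by
      have a1 : Pr G {t | k * (a - b) < TF S t - (a + r)} ≤
          Pr G (GT S (b + r + (k + 1 : ℕ) * (a - b))) :=
        Pr_mono_ae G ((ae_nn G).mono fun t ht h γ hγ => by
          have h' : k * (a - b) < TF S t - (a + r) := h
          have := TF_le ht hγ
          push_cast
          linarith)
      refine a1.trans ((key (k + 1)).trans ?_)
      have a2 : 0 ≤ 1 - p / 2 := by linarith
      rw [pow_succ, mul_assoc]
      exact mul_le_of_le_one_right (by positivity)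
        (mul_le_one₀ (by linarith) (Pr_nonneg G _) (Pr_le_one G _))
  rw [integral_sub (integrable_TF hE S) (integrable_const _), integral_const] at h1
  simp only [probReal_univ, smul_eq_mul, one_mul] at h1
  have e : (a - b) / (1 - (1 - p / 2)) = 2 / p * (a - b) := by
    rw [sub_sub_cancel]
    field_simp
  linarith

end Crest.Agent.R151.PC
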