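import Crest.Agent.R151.CY
import Crest.Agent.R151.CIHR2

/-! Row 151, part C: C8 for one pair of windows. -/

set_option autoImplicit false

namespace Crest.Agent.R151.PC

open MeasureTheory ProbabilityTheory Filter Topology Crest.ProbabilityR.FirstPassage
open scoped Classical

variable {G : Measure ℝ} [Law G] {F : FD}

/-- geometry of the pinned displacement -/
theorem cbad1_geom {θ κ : ℝ} (hθ : |θ| + 1 ≤ κ) {K Kp W L : ℕ} (hWL : W ≤ L) {b cx cz g x z : V}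
    (hx : x ∈ box b (K * L)) (hz : z ∈ box b (K * L)) (hx' : x ∈ box cx W) (hz' : z ∈ box cz W)
    (hxz : x.1 ≤ z.1) (hg1 : (W : ℤ) ≤ g.1) (hg : nrm g ≤ Kp * W) :
    0 ≤ (cz + g - (cx - g)).1 ∧ (cz + g - (cx - g)).1 ≤ (2 * K + 2 + 2 * Kp : ℕ) * (L : ℤ) ∧
      dev θ (z - x) - κ * ((2 + 2 * Kp : ℕ) * W) ≤ dev θ (cz + g - (cx - g)) := by
  have a1 := ((nrm_le_iff _ _).1 hx).1
  have a2 := ((nrm_le_iff _ _).1 hz).1
  have a3 := ((nrm_le_iff _ _).1 hx').1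
  have a4 := ((nrm_le_iff _ _).1 hz').1
  have a5 := ((nrm_le_iff _ _).1 hg).1
  simp only [Prod.fst_sub, abs_le] at a1 a2 a3 a4 a5
  have m1 : (Kp : ℤ) * W ≤ Kp * L := by exact_mod_cast Nat.mul_le_mul_left Kp hWL
  have m2 : (W : ℤ) ≤ L := by exact_mod_cast hWL
  push_cast at a1 a2 a5
  refine ⟨?_, ?_, ?_⟩
  · simp only [Prod.fst_sub, Prod.fst_add]
    linarith [a3.1, a3.2, a4.1, a4.2]
  · simp only [Prod.fst_sub, Prod.fst_add]
    push_cast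
    linarith [a3.1, a3.2, a4.1, a4.2, a1.1, a1.2, a2.1, a2.2, a5.2]
  · have e : cz + g - (cx - g) = (z - x) + ((x - cx) + -(z - cz) + g + g) := by abel
    have n1 : nrm ((x - cx) + -(z - cz) + g + g) ≤ (2 + 2 * Kp) * W := by
      have b1 := nrm_add_le ((x - cx) + -(z - cz) + g) g
      have b2 := nrm_add_le ((x - cx) + -(z - cz)) g
      have b3 := nrm_add_le (x - cx) (-(z - cz))
      rw [nrm_neg] at b3
      have c1 : nrm (x - cx) ≤ W := hx'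
      have c2 : nrm (z - cz) ≤ W := hz'
      have : (2 + 2 * Kp) * W = 2 * W + 2 * (Kp * W) := by ring
      omega
    have n2 := abs_dev_le hθ ((x - cx) + -(z - cz) + g + g)
    have n3 : (nrm ((x - cx) + -(z - cz) + g + g) : ℝ) ≤ ((2 + 2 * Kp : ℕ) : ℝ) * W := by
      exact_mod_cast n1
    have hκ : 0 ≤ κ := by linarith [abs_nonneg θ]
    rw [e, dev_add]
    have := mul_le_mul_of_nonneg_left n3 hκ
    linarith [(abs_le.1 (le_trans n2 this)).1]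

theorem win_bound (hE : ExpL G) (hF : IsFace (mu G) F) (K : ℕ) : ∃ (Mw : ℕ) (Q0 : ℝ), 1 ≤ Q0 ∧
    ∀ (i : ℕ) (θ : ℝ) (W : ℕ) (Q : ℝ), Scale F G i θ W Q → Q0 ≤ Q → ∀ b cx cz : V,
      Pr G (F.Cheap {γ | γ ∈ CIn (box b (K * 2 ^ i)) ∧ γ.p 0 ∈ box cx W ∧ γ.p γ.n ∈ box cz W ∧
        (Mw : ℝ) * W ≤ dev θ (disp γ)} (3 * Q * F.Ub G i)) ≤ 1 / Q ^ 7 := by
  obtain ⟨Kp, hKp, Cp, hCp, c0, hpin⟩ := pin hE hF
  obtain ⟨Cw, hCw, hw⟩ := neg_weak hE hF (K + Kp)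
  have hl : 0 < lam ^ c0 := pow_pos lam_pos _
  refine ⟨2 * K + 3 + 2 * Kp + F.κ * (2 + 2 * Kp), 21 + 16 * Cw + Cp * lam ^ c0,
    by nlinarith [mul_pos hCp hl], ?_⟩
  intro i θ W Q hS hQ b cx cz
  have hCl := mul_pos hCp hl
  have hQ1 : 1 ≤ Q := by linarith
  have hQpos : 0 < Q := by linarith
  obtain ⟨hW1, -, -, -, -, hWLr, -, hθ⟩ := hS.basic hE hF hQ1
  have hWL := hS.WL
  have hU1 := one_le_Ub hE hF i
  set U := F.Ub G i with hU
  set S0 : Set Pth := {γ | γ ∈ CIn (box b (K * 2 ^ i)) ∧ γ.p 0 ∈ box cx W ∧ γ.p γ.n ∈ box cz W ∧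
    ((2 * K + 3 + 2 * Kp + F.κ * (2 + 2 * Kp) : ℕ) : ℝ) * W ≤ dev θ (disp γ)} with hS0
  by_contra hlt
  push Not at hlt
  have hp : (0 : ℝ) < 1 / Q ^ 7 := by positivity
  obtain ⟨g, hg1, hg2, -, hg⟩ := hpin W i hW1 hWL
  have h1 := hg cx cz S0 (fun γ hγ => ⟨hγ.1.1, hγ.1.2.2, hγ.2.1, hγ.2.2.1⟩) (3 * Q * U)
  set D := box b ((K + Kp) * 2 ^ i) with hD
  set S : Set Pth := {Γ | Γ.Joins D (cx - g) (cz + g)} with hSdef
  have hsub : Pin (cx - g) (cz + g) (Kp * W) S0 ⊆ S := by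
    intro Γ hΓ
    refine (Pin.joins (b := b) (R := K * 2 ^ i) (fun γ hγ => hγ.1.2.1) hΓ).mono (box_mono _ ?_)
    have := Nat.mul_le_mul_left Kp hWL
    rw [add_mul]
    omega
  have hM : F.M G (i + c0) ≤ lam ^ c0 * U := M_le_Ub hE hF i _
  have h2 : 1 / Q ^ 7 / 2 ≤ Pr G (F.Cheap S (4 * Q * U)) := by
    have m := Pr_mono G (cheap_mono F hsub (x := 3 * Q * U + Cp * F.M G (i + c0))
      (x' := 4 * Q * U) (by
        have a1 := mul_le_mul_of_nonneg_left hM hCp.le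
        have a2 : Cp * lam ^ c0 * U ≤ Q * U :=
          mul_le_mul_of_nonneg_right (by linarith) (by linarith)
        linarith))
    linarith
  have h3 : Pr G (F.Cheap S (-(4 * Cw * Q ^ 7 * U))) ≤ 1 / Q ^ 7 / 2 / 2 := by
    have m := Pr_mono G (cheap_mono F (S := S) (S' := PIn D)
      (fun γ hγ => ⟨hγ.1, hγ.2.1⟩) (le_refl (-(4 * Cw * Q ^ 7 * U))))
    have := hw i b (4 * Cw * Q ^ 7) (by positivity)
    have e : Cw / (4 * Cw * Q ^ 7) = 1 / Q ^ 7 / 2 / 2 := by field_simp; norm_num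
    linarith
  have hfin : D.Finite := by rw [hD, box_eq_rect]; exact finite_rect _ _ _ _
  have h4 := ihr_mean hE F hfin (S := S) (p0 := cx - g) (p1 := cz + g) (fun γ hγ => hγ)
    (by positivity) h2 h3
  -- the family `S` is nonempty
  have hne : S.Nonempty := by
    by_contra hne
    rw [Set.not_nonempty_iff_eq_empty] at hne
    have : F.Cheap S (4 * Q * U) = ∅ := by rw [hne]; simp [FD.Cheap]
    rw [this, Pr_empty] at h2
    linarith
  have hne0 : S0.Nonempty := by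
    by_contra hne
    rw [Set.not_nonempty_iff_eq_empty] at hne
    have : F.Cheap S0 (3 * Q * U) = ∅ := by rw [hne]; simp [FD.Cheap]
    rw [this, Pr_empty] at hlt
    linarith
  obtain ⟨γ0, ⟨-, hin, hcrs⟩, hx, hz, hdev⟩ := hne0
  have h5 := mu_le_integral_TD G (D := D) (x := cx - g) (z := cz + g) hne (integrable_TD hE _ _ _)
  simp only [TD_eq_TF] at h5
  obtain ⟨g1, g2, g3⟩ := cbad1_geom hθ hWL (hin 0 (Nat.zero_le _)) (hin γ0.n le_rfl) hx hz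
    (hcrs γ0.n le_rfl).1 hg1 hg2
  have p2 : (0 : ℝ) < 2 ^ i := by positivity
  have h6 := hS.pen (rv (cz + g - (cx - g))) (by simp only [rv]; exact_mod_cast g1) (by
    have a1 : (((cz + g - (cx - g)).1 : ℤ) : ℝ) ≤ ((2 * K + 2 + 2 * Kp : ℕ) : ℝ) * 2 ^ i := by
      exact_mod_cast g2
    have a2 : (((cz + g - (cx - g)).1 : ℤ) : ℝ) / 2 ^ i ≤ ((2 * K + 2 + 2 * Kp : ℕ) : ℝ) := by
      rw [div_le_iff₀ p2]; exact a1
    have a3 : (0 : ℝ) ≤ W := Nat.cast_nonneg _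
    have a4 := mul_le_mul_of_nonneg_left (add_le_add_left a2 1) a3
    simp only [rv]
    simp only [dev, disp] at g3 hdev
    push_cast at g3 hdev a4 ⊢
    linarith)
  have e : 4 * Q * U + 2 / (1 / Q ^ 7 / 2) * (4 * Q * U - -(4 * Cw * Q ^ 7 * U)) =
      (4 * Q + 16 * Q ^ 8 + 16 * Cw * Q ^ 14) * U := by
    field_simp
    ring
  rw [e] at h4
  have q1 : Q ≤ Q ^ 14 := le_self_pow₀ hQ1 (by norm_num)
  have q2 : Q ^ 8 ≤ Q ^ 14 := pow_le_pow_right₀ hQ1 (by norm_num)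
  have q3 : (0 : ℝ) < Q ^ 14 := by positivity
  have q4 : 4 * Q + 16 * Q ^ 8 + 16 * Cw * Q ^ 14 < Q ^ 15 := by
    have : Q ^ 15 = Q * Q ^ 14 := by ring
    nlinarith
  have q5 := mul_lt_mul_of_pos_right q4 (show 0 < U by linarith)
  linarith

end Crest.Agent.R151.PC
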