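import Crest.Agent.R151.CBad1

/-! Row 151, part C: C8: bad boxes are rare. -/

set_option autoImplicit false

namespace Crest.Agent.R151.PC

open MeasureTheory ProbabilityTheory Filter Topology Crest.ProbabilityR.FirstPassage
open scoped Classical

variable {G : Measure ℝ} [Law G] {F : FD}

/-- union bound over pairs of windows -/
theorem cross_up (hE : ExpL G) (hF : IsFace (mu G) F) (K : ℕ) : ∃ (Mw : ℕ) (Q0 : ℝ), 1 ≤ Q0 ∧
    ∀ (i : ℕ) (θ : ℝ) (W : ℕ) (Q : ℝ), Scale F G i θ W Q → Q0 ≤ Q → ∀ b : V,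
      Pr G (F.Cheap {γ | γ ∈ CIn (box b (K * 2 ^ i)) ∧ (Mw : ℝ) * W ≤ dev θ (disp γ)}
        (3 * Q * F.Ub G i)) ≤ 1 / (3 * Q ^ 2) := by
  obtain ⟨Mw, Q0, hQ0, hwin⟩ := win_bound hE hF K
  refine ⟨Mw, max Q0 (3 * (2 * K + 3) ^ 4), le_trans hQ0 (le_max_left _ _), ?_⟩
  intro i θ W Q hS hQ b
  have hQa : Q0 ≤ Q := le_trans (le_max_left _ _) hQ
  have hQb : 3 * (2 * (K : ℝ) + 3) ^ 4 ≤ Q := le_trans (le_max_right _ _) hQ
  have hQ1 : 1 ≤ Q := le_trans hQ0 hQa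
  have hQpos : 0 < Q := by linarith
  obtain ⟨hW1, -⟩ := hS.basic hE hF hQ1
  set k : ℕ := ⌈K * Q⌉₊ with hk
  have hkW : K * 2 ^ i ≤ k * W := by
    have a1 : (K : ℝ) * Q ≤ k := Nat.le_ceil _
    have a2 := mul_le_mul_of_nonneg_left hS.LQ (Nat.cast_nonneg (α := ℝ) K)
    have a3 := mul_le_mul_of_nonneg_right a1 (Nat.cast_nonneg (α := ℝ) W)
    have : ((K * 2 ^ i : ℕ) : ℝ) ≤ ((k * W : ℕ) : ℝ) := by push_cast; nlinarith
    exact_mod_cast this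
  have hcell : ∀ x ∈ box b (K * 2 ^ i), cell W x ∈ boxF (cell W b) k := fun x hx =>
    mem_boxF.2 (nrm_cell_sub hW1 x b k (le_trans hx hkW))
  refine le_trans (Pr_le_card_mul G (boxF (cell W b) k ×ˢ boxF (cell W b) k)
    (fun c => F.Cheap {γ | γ ∈ CIn (box b (K * 2 ^ i)) ∧ γ.p 0 ∈ box ((W : ℤ) • c.1) W ∧
      γ.p γ.n ∈ box ((W : ℤ) • c.2) W ∧ (Mw : ℝ) * W ≤ dev θ (disp γ)} (3 * Q * F.Ub G i))
    (p := 1 / Q ^ 7) (Filter.Eventually.of_forall ?_) (fun c _ => hwin i θ W Q hS hQa b _ _)) ?_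
  · rintro t ⟨γ, ⟨hγ, hd⟩, hX⟩
    refine ⟨(cell W (γ.p 0), cell W (γ.p γ.n)), Finset.mem_product.2
      ⟨hcell _ (hγ.2.1 0 (Nat.zero_le _)), hcell _ (hγ.2.1 _ le_rfl)⟩, γ, ⟨hγ, ?_, ?_, hd⟩, hX⟩
    · exact (nrm_sub_cell hW1 _).le
    · exact (nrm_sub_cell hW1 _).le
  · rw [Finset.card_product, card_boxF]
    push_cast
    have a1 : (k : ℝ) ≤ K * Q + 1 :=
      (Nat.ceil_lt_add_one (show (0 : ℝ) ≤ K * Q by positivity)).le
    have a2 : 2 * (k : ℝ) + 1 ≤ (2 * K + 3) * Q := by nlinarith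
    have a3 : (2 * (k : ℝ) + 1) ^ 4 ≤ ((2 * K + 3) * Q) ^ 4 :=
      pow_le_pow_left₀ (by positivity) a2 4
    rw [mul_one_div, div_le_div_iff₀ (by positivity) (by positivity)]
    have a4 : (0 : ℝ) ≤ Q ^ 6 := by positivity
    have a5 := mul_le_mul_of_nonneg_right hQb a4
    have a6 := mul_le_mul_of_nonneg_right a3 (show (0 : ℝ) ≤ 3 * Q ^ 2 by positivity)
    calc (2 * (k : ℝ) + 1) ^ 2 * (2 * k + 1) ^ 2 * (3 * Q ^ 2)
        = (2 * (k : ℝ) + 1) ^ 4 * (3 * Q ^ 2) := by ring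
      _ ≤ ((2 * K + 3) * Q) ^ 4 * (3 * Q ^ 2) := a6
      _ = 3 * (2 * K + 3) ^ 4 * Q ^ 6 := by ring
      _ ≤ Q * Q ^ 6 := a5
      _ = 1 * Q ^ 7 := by ring

theorem bad_box (hE : ExpL G) (hF : IsFace (mu G) F) (K : ℕ) : ∃ (Mw : ℕ) (Q0 : ℝ), 1 ≤ Q0 ∧
    ∀ (i : ℕ) (θ : ℝ) (W : ℕ) (Q : ℝ), Scale F G i θ W Q → Q0 ≤ Q → ∀ b : V,
      Pr G (F.Cheap (UpIn θ (box b (K * 2 ^ i)) ((Mw : ℝ) * W)) (Q * F.Ub G i)) ≤ 1 / Q ^ 2 := by
  obtain ⟨Mw, Q1, hQ1, hcr⟩ := cross_up hE hF K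
  obtain ⟨c, c', C, hc, hc', hC, hgd⟩ := gd_prob hF
  obtain ⟨Cw, hCw, hw⟩ := neg_weak hE hF K
  obtain ⟨cU, hcU, hUl⟩ := Ub_lower hE hF
  obtain ⟨Q2, hQ2, hexp⟩ := exists_exp_bound' C (c' * cU) (by positivity) K
  refine ⟨Mw + 2 + F.κ, max (max Q1 Q2) ((2 + 6 * Cw) / c),
    le_trans hQ1 (le_trans (le_max_left _ _) (le_max_left _ _)), ?_⟩
  intro i θ W Q hS hQ b
  have hQa : Q1 ≤ Q := le_trans (le_trans (le_max_left _ _) (le_max_left _ _)) hQ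
  have hQb : Q2 ≤ Q := le_trans (le_trans (le_max_right _ _) (le_max_left _ _)) hQ
  have hQc : (2 + 6 * Cw) / c ≤ Q := le_trans (le_max_right _ _) hQ
  have hQ1' : 1 ≤ Q := le_trans hQ1 hQa
  have hQpos : 0 < Q := by linarith
  obtain ⟨hW1, -, -, hQ2U, -, -, -, hθ⟩ := hS.basic hE hF hQ1'
  have hU1 := one_le_Ub hE hF i
  set U := F.Ub G i with hU
  set D := box b (K * 2 ^ i) with hD
  have hW1' : (1 : ℝ) ≤ W := by exact_mod_cast hW1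
  have b1 : Pr G (F.Gd c D (Q * U))ᶜ ≤ 1 / (3 * Q ^ 2) := by
    refine le_trans (hgd b _ _) ?_
    have h := hexp i Q (Q * U / cU) hQb (by
      rw [le_div_iff₀ hcU]
      nlinarith [mul_le_mul_of_nonneg_left (hUl i) hQpos.le])
    have e : c' * cU * (Q * U / cU) = c' * (Q * U) := by field_simp
    rw [e] at h
    push_cast
    exact h
  have b2 : Pr G (F.Cheap (PIn D) (-(3 * Cw * Q ^ 2 * U))) ≤ 1 / (3 * Q ^ 2) := by
    refine le_trans (hw i b _ (by positivity)) (le_of_eq ?_)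
    field_simp
  have b3 := hcr i θ W Q hS hQa b
  have hsub := Pr_le_add_of_ae G
    (A := F.Cheap (UpIn θ D (((Mw + 2 + F.κ : ℕ) : ℝ) * W)) (Q * U))
    (B := (F.Gd c D (Q * U))ᶜ ∪ F.Cheap (PIn D) (-(3 * Cw * Q ^ 2 * U)))
    (C := F.Cheap {γ | γ ∈ CIn D ∧ (Mw : ℝ) * W ≤ dev θ (disp γ)} (3 * Q * U)) (by
      filter_upwards [ae_nn G] with t ht
      rintro ⟨γ, hγ, hX⟩
      by_cases h1 : t ∈ (F.Gd c D (Q * U))ᶜ ∪ F.Cheap (PIn D) (-(3 * Cw * Q ^ 2 * U))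
      · exact Or.inl h1
      right
      simp only [Set.mem_union, Set.mem_compl_iff, not_or, not_not] at h1
      obtain ⟨hg, hn⟩ := h1
      have hY : ∀ δ ∈ PIn D, -(3 * Cw * Q ^ 2 * U) ≤ F.X δ t := by
        intro δ hδ
        by_contra hlt
        push Not at hlt
        exact hn ⟨δ, hδ, hlt.le⟩
      have hκ : (0 : ℝ) ≤ F.κ := Nat.cast_nonneg _
      have hMw : (0 : ℝ) ≤ Mw := Nat.cast_nonneg _
      obtain ⟨δ, hδ, hd, hX'⟩ := up_decomp F (k := F.κ) (W := W) hc hθ (by positivity) hγ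
        (gd_steepP F ht hg ⟨hγ.1, hγ.2.1⟩) hY hX (by
          have a1 : Q * U ≤ Q ^ 2 * U := by nlinarith [mul_nonneg hQpos.le (show 0 ≤ U by linarith)]
          have a2 : (2 + 6 * Cw) * (Q ^ 2 * U) ≤ (2 + 6 * Cw) * (W / Q) :=
            mul_le_mul_of_nonneg_left hQ2U (by positivity)
          have a3 : (2 + 6 * Cw) * (W / Q) ≤ c * W := by
            rw [div_le_iff₀ hc] at hQc
            rw [← mul_div_assoc, div_le_iff₀ hQpos]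
            nlinarith
          nlinarith) (by push_cast; nlinarith)
      refine ⟨δ, ⟨hδ, ?_⟩, by linarith⟩
      push_cast at hd
      nlinarith)
  have u := Pr_union_le G (F.Gd c D (Q * U))ᶜ (F.Cheap (PIn D) (-(3 * Cw * Q ^ 2 * U)))
  have e : 1 / Q ^ 2 = 1 / (3 * Q ^ 2) + 1 / (3 * Q ^ 2) + 1 / (3 * Q ^ 2) := by
    field_simp; norm_num
  linarith

end Crest.Agent.R151.PC
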