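import Crest.Agent.R151.TIndep

/-! Row 151 toolkit: Peierls bound for chains of cells (K9a). -/

set_option autoImplicit false

namespace Crest.Agent.R151

open MeasureTheory ProbabilityTheory Crest.ProbabilityR.FirstPassage
open scoped Classical

theorem TPeierls1_geom {y : ℝ} (h0 : 0 ≤ y) (h1 : y < 1) (m : ℕ) :
    ∑ z ∈ Finset.Icc (-(m : ℤ)) m, y ^ z.natAbs ≤ 2 * (1 - y)⁻¹ := by
  have hg : ∑ k ∈ Finset.range (m + 1), y ^ k ≤ (1 - y)⁻¹ :=
    ((summable_geometric_of_lt_one h0 h1).sum_le_tsum _ fun k _ => pow_nonneg h0 k).trans_eq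
      (tsum_geometric_of_lt_one h0 h1)
  have hs : Finset.Icc (-(m : ℤ)) m ⊆ (Finset.range (m + 1)).image (fun k : ℕ => (k : ℤ)) ∪
      (Finset.range (m + 1)).image (fun k : ℕ => -(k : ℤ)) := fun z hz => by
    rw [Finset.mem_Icc] at hz
    simp only [Finset.mem_union, Finset.mem_image, Finset.mem_range]
    rcases le_total 0 z with h | h
    · exact Or.inl ⟨z.natAbs, by omega, by omega⟩
    · exact Or.inr ⟨z.natAbs, by omega, by omega⟩
  refine (Finset.sum_le_sum_of_subset_of_nonneg hs fun z _ _ => pow_nonneg h0 _).trans ?_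
  have h2 := Finset.sum_union_inter (s₁ := (Finset.range (m + 1)).image (fun k : ℕ => (k : ℤ)))
    (s₂ := (Finset.range (m + 1)).image (fun k : ℕ => -(k : ℤ))) (f := fun z => y ^ z.natAbs)
  rw [Finset.sum_image (fun a _ b _ h => by exact_mod_cast h),
    Finset.sum_image (fun a _ b _ h => by simpa using h)] at h2
  simp only [Int.natAbs_natCast, Int.natAbs_neg] at h2
  have h3 : 0 ≤ ∑ z ∈ (Finset.range (m + 1)).image (fun k : ℕ => (k : ℤ)) ∩
      (Finset.range (m + 1)).image (fun k : ℕ => -(k : ℤ)), y ^ z.natAbs :=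
    Finset.sum_nonneg fun z _ => pow_nonneg h0 _
  linarith

theorem TPeierls1_card (c : ℕ → V) (n : ℕ) : ((Finset.range (n + 1)).image c).card ≤
    ∑ j ∈ Finset.range n, nrm (c (j + 1) - c j) + 1 := by
  induction n with
  | zero => simp
  | succ n ih =>
    rw [Finset.range_add_one (n := n + 1), Finset.image_insert, Finset.sum_range_succ]
    by_cases h : c (n + 1) = c n
    · rw [Finset.insert_eq_of_mem (h ▸ Finset.mem_image_of_mem c (by simp))]
      omega
    · have h1 : nrm (c (n + 1) - c n) ≠ 0 := fun h2 => h (sub_eq_zero.1 (nrm_eq_zero.1 h2))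
      have h2 := Finset.card_insert_le (c (n + 1)) ((Finset.range (n + 1)).image c)
      omega

theorem TPeierls1_tri (c : ℕ → V) {a b : ℕ} (h : a ≤ b) :
    ∑ j ∈ Finset.range a, nrm (c (j + 1) - c j) + nrm (c b - c a) ≤
      ∑ j ∈ Finset.range b, nrm (c (j + 1) - c j) := by
  induction b, h using Nat.le_induction with
  | base => simp [nrm_zero]
  | succ b _ ih =>
    have := nrm_triangle (c a) (c b) (c (b + 1))
    rw [Finset.sum_range_succ]
    omega

theorem TPeierls1_tel (c : ℕ → V) (g : ℕ → ℕ) (r : ℕ) (h : ∀ i < r, g i ≤ g (i + 1)) :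
    ∑ i ∈ Finset.range r, nrm (c (g (i + 1)) - c (g i)) ≤
      ∑ j ∈ Finset.range (g r), nrm (c (j + 1) - c j) := by
  induction r with
  | zero => simp
  | succ r ih =>
    have h1 := ih fun i hi => h i (by omega)
    have h2 := TPeierls1_tri c (h r (by omega))
    rw [Finset.sum_range_succ]
    omega

theorem TPeierls1_far {R : ℕ} {a b : V} (hne : a ≠ b)
    (h : ((a.1 : ZMod (R + 1)), (a.2 : ZMod (R + 1))) = ((b.1 : ZMod (R + 1)), (b.2 : ZMod (R + 1)))) :
    R < nrm (a - b) := by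
  by_contra hc
  rw [Prod.mk.injEq, eq_comm, ZMod.intCast_eq_intCast_iff_dvd_sub, eq_comm,
    ZMod.intCast_eq_intCast_iff_dvd_sub] at h
  simp only [nrm, Prod.fst_sub, Prod.snd_sub, not_lt, max_le_iff] at hc
  have h1 := Int.eq_zero_of_dvd_of_natAbs_lt_natAbs h.1 (by omega)
  have h2 := Int.eq_zero_of_dvd_of_natAbs_lt_natAbs h.2 (by omega)
  exact hne (Prod.ext (by omega) (by omega))

/-- positions from increments -/
noncomputable def TPeierls1_pos {r : ℕ} (c0 : V) (d : Fin r → V) (i : Fin r) : V :=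
  c0 + ∑ k ∈ Finset.range (i + 1), if h : k < r then d ⟨k, h⟩ else 0

theorem TPeierls1_order (c : ℕ → V) (n r : ℕ) {F : Finset V} (hF : F.card = r)
    (hFc : F ⊆ (Finset.range (n + 1)).image c) : ∃ d : Fin r → V,
      ∑ i, nrm (d i) ≤ ∑ j ∈ Finset.range n, nrm (c (j + 1) - c j) ∧
      Function.Injective (TPeierls1_pos (c 0) d) ∧ ∀ i, TPeierls1_pos (c 0) d i ∈ F := by
  obtain ⟨T, hT, hTi, hTF⟩ := Finset.exists_subset_injOn_image_eq_of_surjOn (f := c)
    (Finset.range (n + 1) : Set ℕ) F fun a ha => by simpa using hFc ha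
  have hTr : T.card = r := by rw [← hF, ← hTF, Finset.card_image_of_injOn hTi]
  let j := T.orderEmbOfFin hTr
  let g : ℕ → ℕ := fun i => Nat.casesOn i 0 fun i => if h : i < r then j ⟨i, h⟩ else 0
  have hg : ∀ i : Fin r, g (i + 1) = j i := fun i => dif_pos i.2
  have hjT : ∀ i, j i ∈ T := T.orderEmbOfFin_mem hTr
  have hpos : ∀ i : Fin r, TPeierls1_pos (c 0) (fun i : Fin r => c (g (i + 1)) - c (g i)) i =
      c (j i) := fun i => by
    rw [TPeierls1_pos, Finset.sum_congr rfl (g := fun k => c (g (k + 1)) - c (g k))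
      fun k hk => dif_pos (by have := Finset.mem_range.1 hk; omega),
      Finset.sum_range_sub (fun k => c (g k)), hg]
    exact add_sub_cancel _ _
  refine ⟨fun i => c (g (i + 1)) - c (g i), ?_, fun a b h => ?_, fun i => ?_⟩
  · rw [Fin.sum_univ_eq_sum_range (fun i => nrm (c (g (i + 1)) - c (g i)))]
    refine (TPeierls1_tel c g r fun i hi => ?_).trans
      (Finset.sum_le_sum_of_subset (Finset.range_mono ?_))
    · rcases i with _ | i
      · exact Nat.zero_le _
      · rw [hg ⟨i, by omega⟩, hg ⟨i + 1, hi⟩]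
        exact j.monotone (Fin.mk_le_mk.2 (Nat.le_succ i))
    · rcases r with _ | r
      · exact Nat.zero_le _
      · exact (hg (Fin.last r)).trans_le (Nat.lt_succ_iff.1 (Finset.mem_range.1 (hT (hjT _))))
  · rw [hpos, hpos] at h
    exact j.injective (hTi (hjT a) (hjT b) h)
  · rw [hpos, ← hTF]
    exact Finset.mem_image_of_mem c (hjT i)

/-- counting sequences of `r` lattice increments of total sup norm at most `m` -/
theorem exists_finset_increments (m r : ℕ) (hr : 1 ≤ r) (hrm : r ≤ m + 1) :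
    ∃ S : Finset (Fin r → V), (S.card : ℝ) ≤ (200 * ((m : ℝ) + 1) ^ 2 / (r : ℝ) ^ 2) ^ r ∧
      ∀ d : Fin r → V, ∑ i, nrm (d i) ≤ m → d ∈ S := by
  have hr0 : (0 : ℝ) < r := by exact_mod_cast hr
  have hrm' : (r : ℝ) ≤ m + 1 := by exact_mod_cast hrm
  set M : ℝ := m + 1 with hM
  have hM0 : 0 < M := by linarith
  set y : ℝ := M / (M + r) with hy
  have hy0 : 0 < y := by positivity
  have hy1 : y < 1 := (div_lt_one (by positivity)).2 (by linarith)
  let B : Finset V := Finset.Icc (-(m : ℤ)) m ×ˢ Finset.Icc (-(m : ℤ)) m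
  refine ⟨(Fintype.piFinset fun _ : Fin r => B).filter fun d => ∑ i, nrm (d i) ≤ m, ?_,
    fun d hd => Finset.mem_filter.2 ⟨Fintype.mem_piFinset.2 fun i => ?_, hd⟩⟩
  swap
  · have h1 := (nrm_le_iff (d i) m).1
      ((Finset.single_le_sum (fun i _ => Nat.zero_le (nrm (d i))) (Finset.mem_univ i)).trans hd)
    simp only [B, Finset.mem_product, Finset.mem_Icc, ← abs_le]
    exact h1
  have h1 : (((Fintype.piFinset fun _ : Fin r => B).filter
      fun d => ∑ i, nrm (d i) ≤ m).card : ℝ) * y ^ (2 * m) ≤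
      (∑ v ∈ B, y ^ v.1.natAbs * y ^ v.2.natAbs) ^ r := by
    rw [Finset.sum_pow', ← nsmul_eq_mul]
    refine (Finset.card_nsmul_le_sum _ (fun d => ∏ i, y ^ (d i).1.natAbs * y ^ (d i).2.natAbs) _
      fun d hd => ?_).trans (Finset.sum_le_sum_of_subset_of_nonneg (Finset.filter_subset _ _)
        fun d _ _ => Finset.prod_nonneg fun i _ => by positivity)
    simp only [← pow_add, Finset.prod_pow_eq_pow_sum]
    refine pow_le_pow_of_le_one hy0.le hy1.le (le_trans ?_
      (Nat.mul_le_mul_left 2 (Finset.mem_filter.1 hd).2))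
    rw [Finset.mul_sum]
    exact Finset.sum_le_sum fun i _ => by unfold nrm; omega
  have h2 : ∑ v ∈ B, y ^ v.1.natAbs * y ^ v.2.natAbs ≤ (4 * M / r) ^ 2 := by
    rw [Finset.sum_product' (f := fun a b : ℤ => y ^ a.natAbs * y ^ b.natAbs),
      ← Finset.sum_mul_sum, ← sq]
    refine pow_le_pow_left₀ (Finset.sum_nonneg fun z _ => by positivity)
      ((TPeierls1_geom hy0.le hy1 m).trans ?_) 2
    have : 1 - y = r / (M + r) := by rw [hy]; field_simp; ring
    rw [this, inv_div, ← mul_div_assoc]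
    exact div_le_div_of_nonneg_right (by linarith) hr0.le
  have h3 : (y ^ (2 * m))⁻¹ ≤ (Real.exp 1 ^ 2) ^ r := by
    have h4 : y⁻¹ ≤ Real.exp (r / M) := by
      refine le_trans (le_of_eq ?_) (Real.add_one_le_exp _)
      rw [hy]; field_simp; ring
    rw [← inv_pow, ← pow_mul, ← Real.exp_nat_mul]
    refine (pow_le_pow_left₀ (by positivity) h4 _).trans ?_
    rw [← Real.exp_nat_mul, Real.exp_le_exp, ← mul_div_assoc, div_le_iff₀ hM0]
    push_cast
    nlinarith
  have h5 : Real.exp 1 ^ 2 ≤ 9 := by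
    have := Real.exp_one_lt_d9
    nlinarith [Real.exp_pos 1]
  rw [← le_mul_inv_iff₀ (by positivity)] at h1
  refine h1.trans ((mul_le_mul (pow_le_pow_left₀ (Finset.sum_nonneg fun z _ => by positivity) h2 r)
    h3 (by positivity) (by positivity)).trans ?_)
  rw [← mul_pow]
  refine pow_le_pow_left₀ (by positivity) ?_ r
  rw [div_pow, div_mul_eq_mul_div]
  exact div_le_div_of_nonneg_right (by nlinarith [sq_nonneg M]) (by positivity)

theorem peierls_chain (G : Measure ℝ) [IsProbabilityMeasure G] {A : V → Set Env}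
    {S : V → Set (Sym2 V)} {R : ℕ} {p : ℝ} (hA : ∀ c, MeasurableSet (A c))
    (dA : ∀ c, Dep (S c) (A c)) (hS : ∀ c c', R < nrm (c - c') → Disjoint (S c) (S c'))
    (hp : ∀ c, Pr G (A c) ≤ p) (c0 : V) (m r : ℕ) (hr : 1 ≤ r) :
    Pr G {t | ∃ (n : ℕ) (c : ℕ → V), c 0 = c0 ∧
        ∑ j ∈ Finset.range n, nrm (c (j + 1) - c j) ≤ m ∧
        (R + 1) ^ 2 * r ≤ (((Finset.range (n + 1)).image c).filter (fun a => t ∈ A a)).card} ≤
      (200 * ((m : ℝ) + 1) ^ 2 * p / (r : ℝ) ^ 2) ^ r := by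
  have hp0 : 0 ≤ p := (Pr_nonneg G _).trans (hp 0)
  by_cases hrm : r ≤ m + 1
  swap
  · refine le_trans (le_of_eq ?_ : _ ≤ (0 : ℝ)) (by positivity)
    rw [← Pr_empty G]
    congr 1
    refine Set.eq_empty_of_forall_notMem ?_
    rintro t ⟨n, c, -, h1, h2⟩
    have h3 := (h2.trans (Finset.card_filter_le _ _)).trans (TPeierls1_card c n)
    have h4 : 1 * r ≤ (R + 1) ^ 2 * r := Nat.mul_le_mul_right r (Nat.one_le_pow _ _ (by omega))
    omega
  obtain ⟨D, hD, hD'⟩ := exists_finset_increments m r hr hrm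
  refine (Pr_le_card_mul G (D.filter fun d => ∀ i j, i ≠ j →
    R < nrm (TPeierls1_pos c0 d i - TPeierls1_pos c0 d j))
    (fun d => ⋂ i ∈ Finset.univ, A (TPeierls1_pos c0 d i)) (p := p ^ r)
    (Filter.Eventually.of_forall ?_) fun d hd => ?_).trans ?_
  · rintro t ⟨n, c, rfl, h1, h2⟩
    obtain ⟨y, -, hy⟩ := Finset.exists_le_card_fiber_of_mul_le_card_of_maps_to
      (t := (Finset.univ : Finset (ZMod (R + 1) × ZMod (R + 1))))
      (f := fun a : V => ((a.1 : ZMod (R + 1)), (a.2 : ZMod (R + 1))))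
      (n := r) (fun _ _ => Finset.mem_univ _) Finset.univ_nonempty
      (le_of_eq_of_le (by simp [sq]) h2)
    obtain ⟨F, hF, hFr⟩ := Finset.exists_subset_card_eq hy
    obtain ⟨d, h3, h4, h5⟩ := TPeierls1_order c n r hFr
      (hF.trans ((Finset.filter_subset _ _).trans (Finset.filter_subset _ _)))
    refine ⟨d, Finset.mem_filter.2 ⟨hD' d (h3.trans h1), fun i j hij => TPeierls1_far (h4.ne hij)
      ((Finset.mem_filter.1 (hF (h5 i))).2.trans (Finset.mem_filter.1 (hF (h5 j))).2.symm)⟩, ?_⟩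
    simp only [Set.mem_iInter]
    exact fun i _ => (Finset.mem_filter.1 (Finset.mem_filter.1 (hF (h5 i))).1).2
  · rw [Pr_biInter_of_dep G Finset.univ (S := fun i => S (TPeierls1_pos c0 d i))
      (fun i _ j _ hij => hS _ _ ((Finset.mem_filter.1 hd).2 i j hij)) (fun i _ => hA _)
      fun i _ => dA _]
    exact (Finset.prod_le_prod (fun i _ => Pr_nonneg G _) fun i _ => hp _).trans_eq (by simp)
  · rw [mul_div_right_comm, mul_pow]
    refine mul_le_mul_of_nonneg_right (le_trans ?_ hD) (by positivity)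
    exact_mod_cast Finset.card_filter_le _ _

end Crest.Agent.R151
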