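import Crest.Agent.R151.CDefs
import Crest.Agent.R151.TPeierls1

/-! Row 151, part C: Peierls bound for chains over column blocks. -/

set_option autoImplicit false

namespace Crest.Agent.R151.PC

open MeasureTheory ProbabilityTheory Filter Topology Crest.ProbabilityR.FirstPassage
open scoped Classical

theorem CChain_cvar_le (h : ℕ → ℤ) {i i' : ℕ} (hi : i ≤ i') :
    (h i' - h i).natAbs + cvar h i ≤ cvar h i' := by
  induction i', hi using Nat.le_induction with
  | base => simp
  | succ m hm ih =>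
    have e : cvar h (m + 1) = cvar h m + (h (m + 1) - h m).natAbs := by
      simp only [cvar, Finset.sum_range_succ]
      omega
    omega

theorem CChain_abs_le (h : ℕ → ℤ) (i : ℕ) : (h i).natAbs ≤ cvar h i := by
  have h1 := CChain_cvar_le h (Nat.zero_le i)
  have e : cvar h 0 = (h 0).natAbs := by simp [cvar]
  omega

theorem CChain_sum_Iic {k : ℕ} (P : ℕ → V) (a : Fin k) :
    ∑ b ∈ Finset.Iic a, (P (b.val + 1) - P b.val) = P (a.val + 1) - P 0 := by
  rw [← Finset.sum_range_sub P (a.val + 1), Nat.range_succ_eq_Iic, ← Fin.map_valEmbedding_Iic,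
    Finset.sum_map]
  rfl

/-- from a chain meeting more than `2k` events extract `k` cells in non-adjacent blocks -/
theorem chain_extract {A : ℕ → ℤ → Set Env} {n Vc k : ℕ} {t : Env}
    (h : t ∈ ChBad A n Vc (2 * k : ℕ)) :
    ∃ (j : Fin k → ℕ) (d : Fin k → V), (∀ a b, a < b → j a + 2 ≤ j b) ∧
      ∑ a, nrm (d a) ≤ (Vc + 1) * n ∧
      ∀ a, (∑ b ∈ Finset.Iic a, d b).1 = j a ∧ t ∈ A (j a) (∑ b ∈ Finset.Iic a, d b).2 := by
  obtain ⟨g, hg, hc⟩ := h
  have hc' : 2 * k < cnt A g n t := by exact_mod_cast hc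
  set J : Finset ℕ := (Finset.range n).filter (fun j => t ∈ A j (g j)) with hJ
  have hcard : 2 * k < J.card := hc'
  let e : Fin J.card ↪o ℕ := J.orderEmbOfFin rfl
  let jj : ℕ → ℕ := fun a => if ha : a < J.card then e ⟨a, ha⟩ else 0
  have hmem : ∀ a, a < J.card → jj a ∈ J := by
    intro a ha
    simp only [jj, dif_pos ha]
    exact J.orderEmbOfFin_mem rfl _
  have hlt : ∀ a b, a < b → b < J.card → jj a < jj b := by
    intro a b hab hb
    simp only [jj, dif_pos hb, dif_pos (hab.trans hb)]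
    exact e.strictMono (Fin.mk_lt_mk.2 hab)
  let P : ℕ → V := fun a => match a with
    | 0 => 0
    | a + 1 => ((jj (2 * a) : ℤ), g (jj (2 * a)))
  have hsum : ∀ m, m < k → ∑ a ∈ Finset.range (m + 1), nrm (P (a + 1) - P a) ≤
      jj (2 * m) + cvar g (jj (2 * m)) := by
    intro m
    induction m with
    | zero =>
      intro _
      have := CChain_abs_le g (jj 0)
      simp only [zero_add, Finset.sum_range_one, P, sub_zero, nrm, Nat.mul_zero]
      omega
    | succ m ih =>
      intro hm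
      have h1 := ih (by omega)
      have h2 := hlt (2 * m) (2 * (m + 1)) (by omega) (by omega)
      have h3 := CChain_cvar_le g h2.le
      rw [Finset.sum_range_succ]
      have h4 : nrm (P (m + 1 + 1) - P (m + 1)) ≤ (jj (2 * (m + 1)) - jj (2 * m)) +
          (g (jj (2 * (m + 1))) - g (jj (2 * m))).natAbs := by
        simp only [P, nrm, Prod.fst_sub, Prod.snd_sub]
        omega
      omega
  refine ⟨fun a => jj (2 * a.val), fun a => P (a.val + 1) - P a.val, ?_, ?_, ?_⟩
  · intro a b hab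
    have hab' : a.val < b.val := hab
    have hb := b.isLt
    have h1 := hlt (2 * a.val) (2 * a.val + 1) (by omega) (by omega)
    have h2 := hlt (2 * a.val + 1) (2 * b.val) (by omega) (by omega)
    show jj (2 * a.val) + 2 ≤ jj (2 * b.val)
    omega
  · rw [Fin.sum_univ_eq_sum_range (fun a => nrm (P (a + 1) - P a)) k]
    rcases k with _ | k
    · simp
    · have h1 := hsum k (by omega)
      have h2 : jj (2 * k) < n :=
        Finset.mem_range.1 (Finset.mem_filter.1 (hmem (2 * k) (by omega))).1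
      have h3 := CChain_cvar_le g h2.le
      have h4 : (Vc + 1) * n = Vc * n + n := by ring
      omega
  · intro a
    have ha := a.isLt
    rw [CChain_sum_Iic P a]
    simp only [P, sub_zero, true_and]
    exact (Finset.mem_filter.1 (hmem (2 * a.val) (by omega))).2

theorem chain_count (Vc : ℕ) : ∃ Kc : ℝ, 0 < Kc ∧
    ∀ (G : Measure ℝ) [IsProbabilityMeasure G] (L n : ℕ) (A : ℕ → ℤ → Set Env) (p : ℝ), 1 ≤ L →
      (∀ j h, MeasurableSet (A j h)) →
      (∀ (j : ℕ) (h : ℤ), Dep (ED (strip ((j : ℤ) * L) (((j : ℤ) + 1) * L))) (A j h)) →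
      (∀ j h, Pr G (A j h) ≤ p) → ∀ k : ℕ, Kc * n * √p ≤ k →
        Pr G (ChBad A n Vc (2 * k : ℕ)) ≤ (1 / 2) ^ k := by
  refine ⟨20 * ((Vc : ℝ) + 2), by positivity, ?_⟩
  intro G _ L n A p hL hA dA hp k hk
  rcases Nat.eq_zero_or_pos k with rfl | hk0
  · simpa using Pr_le_one G _
  have hp0 : 0 ≤ p := (Pr_nonneg G _).trans (hp 0 0)
  by_cases hkn : n < k
  · have : ChBad A n Vc (2 * k : ℕ) = ∅ := by
      refine Set.eq_empty_of_forall_notMem ?_
      rintro t ⟨g, -, hc⟩
      have hc' : 2 * k < cnt A g n t := by exact_mod_cast hc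
      have h1 : cnt A g n t ≤ n := by
        unfold cnt
        exact (Finset.card_filter_le _ _).trans (Finset.card_range n).le
      omega
    rw [this, Pr_empty]
    positivity
  have hkn' : k ≤ n := not_lt.1 hkn
  have hkm : k ≤ (Vc + 1) * n + 1 := by nlinarith
  obtain ⟨S, hS, hSd⟩ := exists_finset_increments ((Vc + 1) * n) k hk0 hkm
  let B : (Fin k → V) → Set Env := fun d =>
    {t | ∃ j : Fin k → ℕ, (∀ a b, a < b → j a + 2 ≤ j b) ∧
      ∀ a, (∑ b ∈ Finset.Iic a, d b).1 = j a ∧ t ∈ A (j a) (∑ b ∈ Finset.Iic a, d b).2}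
  have hB : ∀ d, Pr G (B d) ≤ p ^ k := by
    intro d
    by_cases hne : (B d).Nonempty
    · obtain ⟨t0, j, hj, hj'⟩ := hne
      have hsub : B d ⊆ ⋂ a ∈ (Finset.univ : Finset (Fin k)),
          A (j a) (∑ b ∈ Finset.Iic a, d b).2 := by
        rintro t ⟨j', -, h'⟩
        simp only [Finset.mem_univ, Set.iInter_true, Set.mem_iInter]
        intro a
        have e : j' a = j a := by
          have := (h' a).1.symm.trans (hj' a).1
          exact_mod_cast this
        rw [← e]
        exact (h' a).2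
      have hdisj : ∀ a b : Fin k, a < b →
          Disjoint (ED (strip ((j a : ℤ) * L) (((j a : ℤ) + 1) * L)))
            (ED (strip ((j b : ℤ) * L) (((j b : ℤ) + 1) * L))) := by
        intro a b hab
        refine disjoint_ED (Set.disjoint_left.2 ?_)
        rintro x ⟨-, h1⟩ ⟨h2, -⟩
        have h3 : (j a : ℤ) + 2 ≤ j b := by exact_mod_cast hj a b hab
        have h4 : (1 : ℤ) ≤ L := by exact_mod_cast hL
        nlinarith
      refine (Pr_mono G hsub).trans ?_
      rw [Pr_biInter_of_dep G Finset.univ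
        (S := fun a => ED (strip ((j a : ℤ) * L) (((j a : ℤ) + 1) * L)))
        (fun a _ b _ hab => by
          rcases lt_or_gt_of_ne hab with h | h
          · exact hdisj a b h
          · exact (hdisj b a h).symm)
        (fun a _ => hA _ _) (fun a _ => dA _ _)]
      calc ∏ a : Fin k, Pr G (A (j a) (∑ b ∈ Finset.Iic a, d b).2) ≤ ∏ _a : Fin k, p :=
            Finset.prod_le_prod (fun a _ => Pr_nonneg G _) (fun a _ => hp _ _)
        _ = p ^ k := by simp
    · rw [Set.not_nonempty_iff_eq_empty.1 hne, Pr_empty]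
      positivity
  have key := Pr_le_card_mul G S (A := ChBad A n Vc (2 * k : ℕ)) B (p := p ^ k)
    (Filter.Eventually.of_forall fun t ht => by
      obtain ⟨j, d, h1, h2, h3⟩ := chain_extract ht
      exact ⟨d, hSd d h2, j, h1, h3⟩) (fun d _ => hB d)
  refine key.trans ((mul_le_mul_of_nonneg_right hS (by positivity)).trans ?_)
  rw [← mul_pow]
  refine pow_le_pow_left₀ (by positivity) ?_ k
  have hk0' : (0 : ℝ) < k := by exact_mod_cast hk0
  have hn1 : (1 : ℝ) ≤ n := by exact_mod_cast hk0.trans_le hkn'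
  have hs := Real.sq_sqrt hp0
  have hs0 := Real.sqrt_nonneg p
  have h1 : (((Vc + 1) * n : ℕ) : ℝ) + 1 ≤ ((Vc : ℝ) + 2) * n := by
    push_cast
    nlinarith
  have h2 : ((((Vc + 1) * n : ℕ) : ℝ) + 1) * √p ≤ k / 20 := by
    have := mul_le_mul_of_nonneg_right h1 hs0
    nlinarith
  have h3 : (((((Vc + 1) * n : ℕ) : ℝ) + 1) * √p) ^ 2 ≤ ((k : ℝ) / 20) ^ 2 :=
    pow_le_pow_left₀ (by positivity) h2 2
  rw [mul_pow, hs] at h3
  rw [div_mul_eq_mul_div, div_le_iff₀ (by positivity)]
  nlinarith

end Crest.Agent.R151.PC
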