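import Crest.Agent.R151.Defs

/-!
# Row 151, part C (strict convexity for exponential weights): definitions

All of part C lives in the namespace `Crest.Agent.R151.PC`.  See `R151/CPlan.lean` for the
refined paper proof and the dependency graph of the files `R151/C*.lean`.
-/

set_option autoImplicit false

namespace Crest.Agent.R151.PC

open MeasureTheory Filter Topology Crest.ProbabilityR.FirstPassage
open scoped Classical

/-- datum of a flat edge: a linear functional and the two extreme slopes -/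
structure FD where
  ρ : ℝ × ℝ
  θ1 : ℝ
  θ2 : ℝ

/-- `μ = dot ρ` exactly on the cone of slopes `[θ1, θ2]` in the right half plane -/
structure IsFace (μ : ℝ × ℝ → ℝ) (F : FD) : Prop where
  lt : F.θ1 < F.θ2
  le : ∀ v, dot F.ρ v ≤ μ v
  eq : ∀ θ, F.θ1 ≤ θ → θ ≤ F.θ2 → μ (1, θ) = dot F.ρ (1, θ)
  out : ∀ θ, θ < F.θ1 ∨ F.θ2 < θ → dot F.ρ (1, θ) < μ (1, θ)
  back : ∀ v : ℝ × ℝ, v ≠ 0 → v.1 ≤ 0 → dot F.ρ v < μ v

/-- lattice vector pointing to the right with slope in `[a, b]` -/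
def Sl (a b : ℝ) (v : V) : Prop := 1 ≤ v.1 ∧ a * v.1 ≤ (v.2 : ℝ) ∧ (v.2 : ℝ) ≤ b * v.1

/-- vertical deviation from the line of slope `θ` -/
def dev (θ : ℝ) (v : V) : ℝ := (v.2 : ℝ) - θ * v.1

/-- displacement of a path -/
def disp (γ : Pth) : V := γ.p γ.n - γ.p 0

/-- growth constant of the envelope (`2^(9/10) < lam < 2`) -/
noncomputable def lam : ℝ := 15 / 8

namespace FD

/-- mirror image under `(x,y) ↦ (x,-y)` -/
def mir (F : FD) : FD := ⟨(F.ρ.1, -F.ρ.2), -F.θ2, -F.θ1⟩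

noncomputable def δ (F : FD) : ℝ := (F.θ2 - F.θ1) / 10

/-- slope bound: every slope in `[θ1 - δ, θ2 + δ]` has absolute value at most `κ - 1` -/
noncomputable def κ (F : FD) : ℕ := 2 * ⌈|F.θ1| + |F.θ2|⌉₊ + 1

/-- interior vectors -/
def Inr (F : FD) (v : V) : Prop := Sl (F.θ1 + F.δ) (F.θ2 - F.δ) v
/-- lower band -/
def V1 (F : FD) (v : V) : Prop := Sl (F.θ1 + F.δ) (F.θ1 + 2 * F.δ) v
/-- upper band -/
def V2 (F : FD) (v : V) : Prop := Sl (F.θ2 - 2 * F.δ) (F.θ2 - F.δ) v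

/-- steep or backward vectors -/
def Steep (F : FD) (v : V) : Prop := (F.κ : ℤ) * v.1 ≤ |v.2|

/-- the rectangle in which `b` is joined to `b + v` -/
def dom (F : FD) (b v : V) : Set V :=
  rect b.1 (b.1 + v.1) (b.2 - 2 * F.κ * v.1) (b.2 + 2 * F.κ * v.1)

/-- excess of the portion `a ≤ · ≤ b` of a path -/
def Xs (F : FD) (γ : Pth) (t : Env) (a b : ℕ) : ℝ :=
  γ.cost t a b - dot F.ρ (rv (γ.p b - γ.p a))

/-- excess of a path -/
def X (F : FD) (γ : Pth) (t : Env) : ℝ := γ.tot t - dot F.ρ (rv (disp γ))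

/-- excess of the restricted passage time from `b` to `b + v` -/
noncomputable def XD (F : FD) (t : Env) (b v : V) : ℝ :=
  TD (F.dom b v) t b (b + v) - dot F.ρ (rv v)

/-- mean excess -/
noncomputable def fh (F : FD) (G : Measure ℝ) (v : V) : ℝ := ∫ t, F.XD t 0 v ∂(iidLaw G)

/-- `1 +` the largest mean excess of a band vector of horizontal length at most `2^j` -/
noncomputable def M (F : FD) (G : Measure ℝ) (j : ℕ) : ℝ :=
  1 + sSup {y : ℝ | y = 0 ∨ ∃ v : V, (F.V1 v ∨ F.V2 v) ∧ v.1 ≤ 2 ^ j ∧ y = F.fh G v}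

/-- the envelope -/
noncomputable def Ub (F : FD) (G : Measure ℝ) (i : ℕ) : ℝ := ⨆ k : ℕ, F.M G (i + k) / lam ^ k

/-- some path of the family `S` has excess at most `x` -/
def Cheap (F : FD) (S : Set Pth) (x : ℝ) : Set Env := {t | ∃ γ ∈ S, F.X γ t ≤ x}

/-- linear lower deviations do not occur in `D` -/
def Gd (F : FD) (c : ℝ) (D : Set V) (y : ℝ) : Set Env :=
  {t | ∀ x ∈ D, ∀ z ∈ D, c * nrm (z - x) - y ≤ T t x z ∧
    (F.Steep (z - x) → c * nrm (z - x) - y ≤ T t x z - dot F.ρ (rv (z - x)))}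

/-- every steep or backward portion of `γ` is expensive -/
def SteepP (F : FD) (γ : Pth) (t : Env) (c y : ℝ) : Prop :=
  ∀ k k', k ≤ k' → k' ≤ γ.n → F.Steep (γ.p k' - γ.p k) →
    c * nrm (γ.p k' - γ.p k) - y ≤ F.Xs γ t k k'

/-- generalised inverse of `u ↦ μ (1, θ2 + u) - ρ (1, θ2 + u)` -/
noncomputable def phi (F : FD) (μ : ℝ × ℝ → ℝ) (η : ℝ) : ℝ :=
  sSup {u : ℝ | 0 ≤ u ∧ μ (1, F.θ2 + u) - dot F.ρ (1, F.θ2 + u) ≤ η}

end FD

/-- lattice paths inside `D` -/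
def PIn (D : Set V) : Set Pth := {γ | γ.Ok ∧ γ.In D}

/-- crossing path: starts in its leftmost column and ends in its rightmost column -/
def Crs (γ : Pth) : Prop := ∀ k ≤ γ.n, (γ.p 0).1 ≤ (γ.p k).1 ∧ (γ.p k).1 ≤ (γ.p γ.n).1

/-- crossing paths inside `D` -/
def CIn (D : Set V) : Set Pth := {γ | γ.Ok ∧ γ.In D ∧ Crs γ}

/-- paths inside `D` whose displacement deviates upwards by at least `d` -/
def UpIn (θ : ℝ) (D : Set V) (d : ℝ) : Set Pth := {γ | γ.Ok ∧ γ.In D ∧ d ≤ dev θ (disp γ)}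

/-- never goes back by more than `b` columns -/
def NoBack (γ : Pth) (b : ℕ) : Prop :=
  ∀ k k', k ≤ k' → k' ≤ γ.n → (γ.p k).1 - b ≤ (γ.p k').1

/-- infimum of the costs over a family of paths -/
noncomputable def TF (S : Set Pth) (t : Env) : ℝ := sInf {c | ∃ γ ∈ S, c = γ.tot t}

/-- all members of the family cost more than `s` -/
def GT (S : Set Pth) (s : ℝ) : Set Env := {t | ∀ γ ∈ S, s < γ.tot t}

/-- `Γ` is `γ` preceded by a piece from `p0` lying strictly to the left of the start of `γ` -/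
def ExtL (p0 : V) (r : ℕ) (γ Γ : Pth) : Prop :=
  Γ.Ok ∧ Γ.p 0 = p0 ∧ ∃ s, s + γ.n = Γ.n ∧ (∀ k ≤ γ.n, Γ.p (s + k) = γ.p k) ∧
    ∀ k < s, Γ.p k ∈ box (γ.p 0) r ∧ p0.1 ≤ (Γ.p k).1 ∧ (Γ.p k).1 < (γ.p 0).1

/-- `Γ` is `γ` followed by a piece to `p1` lying strictly to the right of the end of `γ` -/
def ExtR (p1 : V) (r : ℕ) (γ Γ : Pth) : Prop :=
  Γ.Ok ∧ Γ.p Γ.n = p1 ∧ γ.n ≤ Γ.n ∧ (∀ k ≤ γ.n, Γ.p k = γ.p k) ∧
    ∀ k, γ.n < k → k ≤ Γ.n →
      Γ.p k ∈ box (γ.p γ.n) r ∧ (γ.p γ.n).1 < (Γ.p k).1 ∧ (Γ.p k).1 ≤ p1.1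

/-- two-sided extensions of the members of a family -/
def Pin (p0 p1 : V) (r : ℕ) (S : Set Pth) : Set Pth :=
  {Γ | ∃ γ ∈ S, ∃ Γ', ExtL p0 r γ Γ' ∧ ExtR p1 r Γ' Γ}

/-- crossings of the strip of width `L` at `z` inside the slanted tube of half-height `d` -/
def Tube (θ : ℝ) (z : V) (L : ℕ) (d : ℝ) (b : ℕ) : Set Pth :=
  {γ | γ.Ok ∧ (γ.p 0).1 = z.1 ∧ (γ.p γ.n).1 = z.1 + L ∧ γ.In (strip z.1 (z.1 + L)) ∧
    (∀ k ≤ γ.n, |dev θ (γ.p k - z)| ≤ d) ∧ NoBack γ b}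

/-- paths from `p0` to `p1` inside the slanted tube through the origin -/
def TubeP (θ : ℝ) (p0 p1 : V) (R d : ℕ) : Set Pth :=
  {γ | γ.Joins (box 0 R) p0 p1 ∧ (∀ k ≤ γ.n, |dev θ (γ.p k)| ≤ d) ∧ NoBack γ d}

/-- the cell `(j, h)` of the column block `j` -/
def cellD (L K j : ℕ) (h : ℤ) : Set V :=
  rect ((j : ℤ) * L) (((j : ℤ) + 1) * L) ((h - K) * L) ((h + K) * L)

/-- total variation of a chain of heights -/
def cvar (h : ℕ → ℤ) (n : ℕ) : ℕ :=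
  (h 0).natAbs + ∑ j ∈ Finset.range n, (h (j + 1) - h j).natAbs

/-- number of events met by a chain -/
noncomputable def cnt (A : ℕ → ℤ → Set Env) (h : ℕ → ℤ) (n : ℕ) (t : Env) : ℕ :=
  ((Finset.range n).filter (fun j => t ∈ A j (h j))).card

/-- some chain of variation at most `Vc * n` meets more than `k` events -/
def ChBad (A : ℕ → ℤ → Set Env) (n Vc : ℕ) (k : ℝ) : Set Env :=
  {t | ∃ h : ℕ → ℤ, cvar h n ≤ Vc * n ∧ k < cnt A h n t}

/-- along every chain the negative excesses available in the cells sum to at most `B` -/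
def YCh (F : FD) (L K n Vc : ℕ) (B : ℝ) : Set Env :=
  {t | ∀ h : ℕ → ℤ, cvar h n ≤ Vc * n → ∃ Y : ℕ → ℝ,
    (∀ j < n, 0 ≤ Y j ∧ ∀ γ ∈ PIn (cellD L K j (h j)), -Y j ≤ F.X γ t) ∧
      ∑ j ∈ Finset.range n, Y j ≤ B}

/-- `τ j ≤ σ j` are visits to column `j L`; between `σ j` and `τ (j+1)` the path crosses the
strip `[j L, (j+1) L]` -/
structure Segs (γ : Pth) (L n : ℕ) (σ τ : ℕ → ℕ) : Prop where
  τ0 : τ 0 = 0
  σn : σ n = γ.n
  τσ : ∀ j ≤ n, τ j ≤ σ j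
  στ : ∀ j < n, σ j ≤ τ (j + 1)
  colτ : ∀ j ≤ n, (γ.p (τ j)).1 = (j : ℤ) * L
  colσ : ∀ j ≤ n, (γ.p (σ j)).1 = (j : ℤ) * L
  str : ∀ j < n, ∀ k, σ j ≤ k → k ≤ τ (j + 1) →
    γ.p k ∈ strip ((j : ℤ) * L) (((j : ℤ) + 1) * L)

/-- midpoint log-concavity of the survival function of a minimal cost -/
def MidLC (G : Measure ℝ) : Prop :=
  ∀ (D : Set V), D.Finite → ∀ (S : Set Pth), (∀ γ ∈ S, γ.In D) → ∀ s d : ℝ,
    Pr G (GT S (s - d)) * Pr G (GT S (s + d)) ≤ Pr G (GT S s) ^ 2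

/-- what part C uses about the exponential law -/
structure ExpL (G : Measure ℝ) : Prop where
  mom2 : MemLp (fun x : ℝ => x) 2 G
  small : ∀ ε : ℝ, 0 < ε → 0 < G.real (Set.Icc 0 ε)
  lc : MidLC G

/-- the data at scale `L = 2^i` on the upper side of the face: axis `θ`, tube width `W`,
polynomial parameter `Q` -/
structure Scale (F : FD) (G : Measure ℝ) (i : ℕ) (θ : ℝ) (W : ℕ) (Q : ℝ) : Prop where
  lo : F.θ2 ≤ θ
  hi : θ ≤ F.θ2 + F.δ
  cheap : mu G (1, θ) - dot F.ρ (1, θ) ≤ F.Ub G i / 2 ^ i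
  pen : ∀ v : ℝ × ℝ, 0 ≤ v.1 → (W : ℝ) * (v.1 / 2 ^ i + 1) ≤ v.2 - θ * v.1 →
    Q ^ 15 * F.Ub G i ≤ mu G v - dot F.ρ v
  LQ : (2 : ℝ) ^ i ≤ Q * W
  WL : W ≤ 2 ^ i
  UW : Q ^ 3 * F.Ub G i ≤ W

/-- nonnegative null sequences whose partial sums are `o(log)` -/
def Small (w : ℕ → ℝ) : Prop :=
  (∀ i, 0 ≤ w i) ∧ Tendsto w atTop (𝓝 0) ∧
    ∀ ε : ℝ, 0 < ε → ∀ᶠ I : ℕ in atTop, ∑ i ∈ Finset.range I, w i ≤ ε * Real.log I

end Crest.Agent.R151.PC
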