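import Crest.Agent.R151.TSym

/-! Row 151 toolkit: independence of events reading disjoint edge sets. -/

set_option autoImplicit false

namespace Crest.Agent.R151

open MeasureTheory ProbabilityTheory Crest.ProbabilityR.FirstPassage
open scoped Classical

/-- the σ-algebra generated by the weights in `S` -/
def TIndep_sig (S : Set (Sym2 V)) : MeasurableSpace Env :=
  ⨆ e ∈ S, MeasurableSpace.comap (fun t : Env => t e) inferInstance

/-- forget the weights outside `S` -/
noncomputable def TIndep_cut (S : Set (Sym2 V)) (t : Env) : Env := fun e => if e ∈ S then t e else 0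

theorem TIndep_cut_meas (S : Set (Sym2 V)) :
    @Measurable Env Env (TIndep_sig S) inferInstance (TIndep_cut S) := by
  refine @measurable_pi_lambda Env (Sym2 V) (fun _ => ℝ) (TIndep_sig S) _ _ fun e => ?_
  by_cases he : e ∈ S
  · simp only [TIndep_cut, he, if_true]
    exact Measurable.of_comap_le
      (le_iSup₂ (f := fun e (_ : e ∈ S) =>
        MeasurableSpace.comap (fun t : Env => t e) inferInstance) e he)
  · simp only [TIndep_cut, he, if_false]
    exact @measurable_const _ _ _ (TIndep_sig S) _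

theorem TIndep_cut_eq (S : Set (Sym2 V)) (t : Env) : ∀ e ∈ S, t e = TIndep_cut S t e := by
  intro e he
  simp [TIndep_cut, he]

theorem TIndep_meas_fun {α : Type*} [MeasurableSpace α] {S : Set (Sym2 V)} {F : Env → α}
    (hF : Measurable F) (dF : DepF S F) : Measurable[TIndep_sig S] F := by
  have h : F = F ∘ TIndep_cut S := funext fun t => dF _ _ (TIndep_cut_eq S t)
  rw [h]
  exact hF.comp (TIndep_cut_meas S)

theorem TIndep_meas_set {S : Set (Sym2 V)} {A : Set Env} (hA : MeasurableSet A) (dA : Dep S A) :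
    MeasurableSet[TIndep_sig S] A := by
  have h : A = TIndep_cut S ⁻¹' A := by
    ext t
    exact ⟨dA _ _ (TIndep_cut_eq S t), dA _ _ fun e he => (TIndep_cut_eq S t e he).symm⟩
  rw [h]
  exact TIndep_cut_meas S hA

theorem TIndep_sig_le (S : Set (Sym2 V)) :
    TIndep_sig S ≤ (inferInstance : MeasurableSpace Env) :=
  iSup₂_le fun e _ => (measurable_pi_apply e).comap_le

variable (G : Measure ℝ) [IsProbabilityMeasure G]

theorem TIndep_indep {S S' : Set (Sym2 V)} (hd : Disjoint S S') :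
    Indep (TIndep_sig S) (TIndep_sig S') (iidLaw G) := by
  have h : iIndepFun (fun (e : Sym2 V) (t : Env) => t e) (iidLaw G) :=
    iIndepFun_infinitePi (P := fun _ : Sym2 V => G) (X := fun _ x => x) fun _ => measurable_id
  exact indep_iSup_of_disjoint (fun e => (measurable_pi_apply e).comap_le) h.iIndep hd

theorem TIndep_inter {S S' : Set (Sym2 V)} (hd : Disjoint S S') {A B : Set Env}
    (hA : MeasurableSet A) (hB : MeasurableSet B) (dA : Dep S A) (dB : Dep S' B) :
    iidLaw G (A ∩ B) = iidLaw G A * iidLaw G B :=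
  (Indep_iff _ _ _).1 (TIndep_indep G hd) A B (TIndep_meas_set hA dA) (TIndep_meas_set hB dB)

theorem TIndep_biInter {ι : Type*} (s : Finset ι) {S : ι → Set (Sym2 V)}
    (hd : ∀ i ∈ s, ∀ j ∈ s, i ≠ j → Disjoint (S i) (S j)) {A : ι → Set Env}
    (hA : ∀ i ∈ s, MeasurableSet (A i)) (dA : ∀ i ∈ s, Dep (S i) (A i)) :
    iidLaw G (⋂ i ∈ s, A i) = ∏ i ∈ s, iidLaw G (A i) := by
  induction s using Finset.induction_on with
  | empty => simp
  | insert a s ha ih =>
    have hs : ∀ i ∈ s, i ∈ insert a s := fun i hi => Finset.mem_insert_of_mem hi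
    have ha' : a ∈ insert a s := Finset.mem_insert_self a s
    rw [Finset.set_biInter_insert, Finset.prod_insert ha,
      TIndep_inter G (S := S a) (S' := ⋃ i ∈ s, S i) ?_ (hA a ha')
        (Finset.measurableSet_biInter s fun i hi => hA i (hs i hi)) (dA a ha') ?_,
      ih (fun i hi j hj => hd i (hs i hi) j (hs j hj)) (fun i hi => hA i (hs i hi))
        fun i hi => dA i (hs i hi)]
    · exact Set.disjoint_iUnion₂_right.2 fun i hi =>
        hd a ha' i (hs i hi) fun h => ha (h ▸ hi)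
    · intro t t' h ht
      simp only [Set.mem_iInter] at ht ⊢
      exact fun i hi => dA i (hs i hi) t t'
        (fun e he => h e (Set.mem_iUnion₂.2 ⟨i, hi, he⟩)) (ht i hi)

theorem TIndep_select {ι : Type*} [Countable ι] {A B : ι → Set Env} {S S' : ι → Set (Sym2 V)}
    (hA : ∀ i, MeasurableSet (A i)) (hB : ∀ i, MeasurableSet (B i))
    (hdisj : Pairwise (fun i j => Disjoint (A i) (A j))) (dA : ∀ i, Dep (S i) (A i))
    (dB : ∀ i, Dep (S' i) (B i)) (hS : ∀ i, Disjoint (S i) (S' i)) :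
    iidLaw G (⋃ i, A i ∩ B i) = ∑' i, iidLaw G (B i) * iidLaw G (A i) := by
  rw [measure_iUnion (fun i j hij => (hdisj hij).mono Set.inter_subset_left Set.inter_subset_left)
    fun i => (hA i).inter (hB i)]
  exact tsum_congr fun i => by rw [TIndep_inter G (hS i) (hA i) (hB i) (dA i) (dB i), mul_comm]

theorem indepFun_of_depF {α β : Type*} [MeasurableSpace α] [MeasurableSpace β]
    {S S' : Set (Sym2 V)} (hd : Disjoint S S') {F : Env → α} {H : Env → β} (hF : Measurable F)
    (hH : Measurable H) (dF : DepF S F) (dH : DepF S' H) : IndepFun F H (iidLaw G) :=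
  (IndepFun_iff_Indep _ _ _).2 (indep_of_indep_of_le (TIndep_indep G hd)
    (TIndep_meas_fun hF dF).comap_le (TIndep_meas_fun hH dH).comap_le)

theorem iIndepFun_of_depF {ι α : Type*} [MeasurableSpace α] {S : ι → Set (Sym2 V)}
    (hd : Pairwise (fun i j => Disjoint (S i) (S j))) {F : ι → Env → α}
    (hF : ∀ i, Measurable (F i)) (dF : ∀ i, DepF (S i) (F i)) : iIndepFun F (iidLaw G) := by
  rw [iIndepFun_iff_measure_inter_preimage_eq_mul]
  intro s B hB
  refine TIndep_biInter G s (S := S) (fun i _ j _ hij => hd hij) (fun i hi => hF i (hB i hi)) ?_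
  intro i _ t t' h ht
  rwa [Set.mem_preimage, ← dF i t t' h]

theorem Pr_inter_of_dep {S S' : Set (Sym2 V)} (hd : Disjoint S S') {A B : Set Env}
    (hA : MeasurableSet A) (hB : MeasurableSet B) (dA : Dep S A) (dB : Dep S' B) :
    Pr G (A ∩ B) = Pr G A * Pr G B := by
  simp only [Pr, measureReal_def]
  rw [TIndep_inter G hd hA hB dA dB, ENNReal.toReal_mul]

theorem Pr_biInter_of_dep {ι : Type*} (s : Finset ι) {S : ι → Set (Sym2 V)}
    (hd : ∀ i ∈ s, ∀ j ∈ s, i ≠ j → Disjoint (S i) (S j)) {A : ι → Set Env}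
    (hA : ∀ i ∈ s, MeasurableSet (A i)) (dA : ∀ i ∈ s, Dep (S i) (A i)) :
    Pr G (⋂ i ∈ s, A i) = ∏ i ∈ s, Pr G (A i) := by
  simp only [Pr, measureReal_def]
  rw [TIndep_biInter G s hd hA dA, ENNReal.toReal_prod]

theorem setIntegral_of_dep {S S' : Set (Sym2 V)} (hd : Disjoint S S') {A : Set Env}
    (hA : MeasurableSet A) (dA : Dep S A) {F : Env → ℝ} (hF : Measurable F) (dF : DepF S' F) :
    ∫ t in A, F t ∂(iidLaw G) = Pr G A * ∫ t, F t ∂(iidLaw G) :=
  Indep.setIntegral_eq_mul (f := fun x : ℝ => x) (X := F) (TIndep_sig_le S)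
    (indep_of_indep_of_le_right (TIndep_indep G hd) (TIndep_meas_fun hF dF).comap_le)
    hF.aemeasurable (TIndep_meas_set hA dA) measurable_id.aestronglyMeasurable

/-- stopping / selection, probability form: on the piece `A i` an independent event `B i` of
probability at least `q` is required -/
theorem Pr_select {ι : Type*} [Countable ι] {A B : ι → Set Env} {S S' : ι → Set (Sym2 V)}
    (hA : ∀ i, MeasurableSet (A i)) (hB : ∀ i, MeasurableSet (B i))
    (hdisj : Pairwise (fun i j => Disjoint (A i) (A j))) (dA : ∀ i, Dep (S i) (A i))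
    (dB : ∀ i, Dep (S' i) (B i)) (hS : ∀ i, Disjoint (S i) (S' i)) {q : ℝ}
    (hq : ∀ i, q ≤ Pr G (B i)) : q * Pr G (⋃ i, A i) ≤ Pr G (⋃ i, A i ∩ B i) := by
  have h1 : ENNReal.ofReal q * iidLaw G (⋃ i, A i) ≤ iidLaw G (⋃ i, A i ∩ B i) := by
    rw [TIndep_select G hA hB hdisj dA dB hS, measure_iUnion hdisj hA, ← ENNReal.tsum_mul_left]
    refine ENNReal.tsum_le_tsum fun i => ?_
    gcongr
    exact ENNReal.ofReal_le_of_le_toReal (hq i)
  have h2 := ENNReal.toReal_mono (measure_ne_top _ _) h1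
  rw [ENNReal.toReal_mul, ENNReal.toReal_ofReal'] at h2
  exact (mul_le_mul_of_nonneg_right (le_max_left q 0) ENNReal.toReal_nonneg).trans h2

/-- stopping / selection, upper probability form -/
theorem Pr_select_le {ι : Type*} [Countable ι] {A B : ι → Set Env} {S S' : ι → Set (Sym2 V)}
    (hA : ∀ i, MeasurableSet (A i)) (hB : ∀ i, MeasurableSet (B i))
    (hdisj : Pairwise (fun i j => Disjoint (A i) (A j))) (dA : ∀ i, Dep (S i) (A i))
    (dB : ∀ i, Dep (S' i) (B i)) (hS : ∀ i, Disjoint (S i) (S' i)) {q : ℝ}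
    (hq : ∀ i, Pr G (B i) ≤ q) (hq0 : 0 ≤ q) :
    Pr G (⋃ i, A i ∩ B i) ≤ q * Pr G (⋃ i, A i) := by
  have h1 : iidLaw G (⋃ i, A i ∩ B i) ≤ ENNReal.ofReal q * iidLaw G (⋃ i, A i) := by
    rw [TIndep_select G hA hB hdisj dA dB hS, measure_iUnion hdisj hA, ← ENNReal.tsum_mul_left]
    refine ENNReal.tsum_le_tsum fun i => ?_
    gcongr
    exact (ENNReal.le_ofReal_iff_toReal_le (measure_ne_top _ _) hq0).2 (hq i)
  have h2 := ENNReal.toReal_mono (ENNReal.mul_ne_top ENNReal.ofReal_ne_top (measure_ne_top _ _)) h1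
  rwa [ENNReal.toReal_mul, ENNReal.toReal_ofReal hq0] at h2

/-- stopping / selection, mean form (finite family of pieces) -/
theorem integral_select {ι : Type*} (s : Finset ι) {A : ι → Set Env} {F : ι → Env → ℝ}
    {S S' : ι → Set (Sym2 V)} (hA : ∀ i ∈ s, MeasurableSet (A i))
    (hdisj : ∀ i ∈ s, ∀ j ∈ s, i ≠ j → Disjoint (A i) (A j)) (dA : ∀ i ∈ s, Dep (S i) (A i))
    (hF : ∀ i ∈ s, Measurable (F i)) (iF : ∀ i ∈ s, Integrable (F i) (iidLaw G))
    (dF : ∀ i ∈ s, DepF (S' i) (F i)) (hS : ∀ i ∈ s, Disjoint (S i) (S' i)) {c : ℝ}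
    (hc : ∀ i ∈ s, ∫ t, F i t ∂(iidLaw G) ≤ c) :
    Integrable (fun t => ∑ i ∈ s, (A i).indicator (F i) t) (iidLaw G) ∧
    ∫ t, ∑ i ∈ s, (A i).indicator (F i) t ∂(iidLaw G) ≤ c * Pr G (⋃ i ∈ s, A i) := by
  have hI : ∀ i ∈ s, Integrable ((A i).indicator (F i)) (iidLaw G) :=
    fun i hi => (iF i hi).indicator (hA i hi)
  refine ⟨integrable_finsetSum s hI, ?_⟩
  rw [integral_finsetSum s hI, Pr,
    measureReal_biUnion_finset (fun i hi j hj hij => hdisj i hi j hj hij) hA, Finset.mul_sum]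
  refine Finset.sum_le_sum fun i hi => ?_
  rw [integral_indicator (hA i hi),
    setIntegral_of_dep G (hS i hi) (hA i hi) (dA i hi) (hF i hi) (dF i hi), mul_comm]
  exact mul_le_mul_of_nonneg_right (hc i hi) measureReal_nonneg

end Crest.Agent.R151
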