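import Crest.Agent.R151.CPath1
import Crest.Agent.R151.TIndep

/-! Row 151, part C: events of the form `Cheap`, the functionals `TF` and `XD`. -/

set_option autoImplicit false

namespace Crest.Agent.R151.PC

open MeasureTheory ProbabilityTheory Filter Topology Crest.ProbabilityR.FirstPassage
open scoped Classical

variable (F : FD)

theorem measurable_X (γ : Pth) : Measurable (fun t => F.X γ t) := by
  exact (measurable_tot γ).sub measurable_const
theorem measurableSet_cheap (S : Set Pth) (x : ℝ) : MeasurableSet (F.Cheap S x) := by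
  refine measurableSet_exists_pth (q := fun t γ => γ ∈ S ∧ F.X γ t ≤ x) fun γ => ?_
  exact (MeasurableSet.const (γ ∈ S)).inter (measurableSet_le (measurable_X F γ) measurable_const)
theorem dep_cheap {S : Set Pth} {D : Set V} (h : ∀ γ ∈ S, γ.In D) (x : ℝ) :
    Dep (ED D) (F.Cheap S x) := by
  rintro t t' he ⟨γ, hγ, hx⟩
  refine ⟨γ, hγ, ?_⟩
  have e : γ.tot t = γ.tot t' :=
    γ.cost_congr fun i _ hi => he _ ((h γ hγ).edge_mem hi)
  unfold FD.X at hx ⊢
  rwa [← e]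
theorem cheap_mono {S S' : Set Pth} (h : S ⊆ S') {x x' : ℝ} (hx : x ≤ x') :
    F.Cheap S x ⊆ F.Cheap S' x' := by
  rintro t ⟨γ, hγ, h1⟩
  exact ⟨γ, h hγ, h1.trans hx⟩
theorem measurable_TF (S : Set Pth) : Measurable (TF S) := by
  have e : TF S = fun t => ⨅ γ : S, γ.1.tot t := by
    funext t
    unfold TF iInf
    congr 1
    ext c
    constructor
    · rintro ⟨γ, h, rfl⟩
      exact ⟨⟨γ, h⟩, rfl⟩
    · rintro ⟨γ, rfl⟩
      exact ⟨γ.1, γ.2, rfl⟩
  rw [e]
  exact Measurable.iInf fun γ => measurable_tot γ.1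
theorem measurableSet_GT (S : Set Pth) (s : ℝ) : MeasurableSet (GT S s) := by
  refine measurableSet_forall_pth (q := fun t γ => γ ∈ S → s < γ.tot t) fun γ => ?_
  by_cases h : γ ∈ S
  · simp only [h, forall_true_left]
    exact measurableSet_lt measurable_const (measurable_tot γ)
  · simp only [h, IsEmpty.forall_iff, Set.setOf_true]
    exact MeasurableSet.univ
theorem TF_le {t : Env} (ht : NN t) {S : Set Pth} {γ : Pth} (h : γ ∈ S) : TF S t ≤ γ.tot t := by
  refine csInf_le ⟨0, ?_⟩ ⟨γ, h, rfl⟩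
  rintro c ⟨δ, -, rfl⟩
  exact δ.tot_nonneg ht
theorem le_TF {t : Env} {S : Set Pth} (hS : S.Nonempty) {c : ℝ} (h : ∀ γ ∈ S, c ≤ γ.tot t) :
    c ≤ TF S t := by
  obtain ⟨γ, hγ⟩ := hS
  refine le_csInf ⟨_, γ, hγ, rfl⟩ ?_
  rintro c ⟨δ, hδ, rfl⟩
  exact h δ hδ
theorem TF_nonneg {t : Env} (ht : NN t) (S : Set Pth) : 0 ≤ TF S t := by
  refine Real.sInf_nonneg ?_
  rintro c ⟨δ, -, rfl⟩
  exact δ.tot_nonneg ht
theorem TD_eq_TF (D : Set V) (t : Env) (x z : V) : TD D t x z = TF {γ | γ.Joins D x z} t := by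
  rfl
theorem measurable_XD (b v : V) : Measurable (fun t => F.XD t b v) := by
  exact (measurable_TD _ _ _).sub measurable_const
theorem depF_XD (b v : V) : DepF (ED (F.dom b v)) (fun t => F.XD t b v) := by
  intro t t' he
  have e := (depF_TD (F.dom b v) b (b + v)).mono (LE_subset_ED _) t t' he
  simp only [FD.XD] at e ⊢
  rw [e]
theorem XD_act_tr (z b v : V) (t : Env) : F.XD (act (tr z) t) b v = F.XD t (b + z) v := by
  have h := TD_act (isAut_tr z) (F.dom (b + z) v) t b (b + v)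
  have e : tr z ⁻¹' F.dom (b + z) v = F.dom b v := F.preimage_tr_dom z b v
  rw [e, tr_apply, tr_apply, add_right_comm] at h
  unfold FD.XD
  rw [h]
theorem XD_act_reflY (b v : V) (t : Env) :
    F.XD (act reflY t) b v = F.mir.XD t (reflY b) (reflY v) := by
  have h := TD_act isAut_reflY (F.mir.dom (reflY b) (reflY v)) t b (b + v)
  rw [F.preimage_reflY_dom] at h
  have e : reflY (b + v) = reflY b + reflY v := by
    simp only [reflY_apply, Prod.fst_add, Prod.snd_add, Prod.mk_add_mk, neg_add]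
  unfold FD.XD
  rw [h, e]
  congr 1
  simp [dot, rv, FD.mir]
theorem X_map_tr (z : V) (γ : Pth) (t : Env) :
    F.X (γ.map (tr z)) t = F.X γ (act (tr z) t) := by
  unfold FD.X
  rw [Pth.map_tot]
  congr 3
  simp only [disp, Pth.map_p, Pth.map_n, tr_apply]
  abel

section
variable (G : Measure ℝ) [IsProbabilityMeasure G]

theorem Pr_cheap_shift (z : V) {S S' : Set Pth} (h : ∀ γ ∈ S, γ.map (tr z) ∈ S') (x : ℝ) :
    Pr G (F.Cheap S x) ≤ Pr G (F.Cheap S' x) := by
  rw [← Pr_act G (tr z) (F.Cheap S x)]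
  refine Pr_mono G ?_
  rintro t ⟨γ, hγ, hx⟩
  exact ⟨γ.map (tr z), h γ hγ, by rwa [X_map_tr]⟩
omit [IsProbabilityMeasure G] in
theorem cev_map_CIn (b b' : V) (r : ℕ) :
    ∀ γ ∈ CIn (box b r), γ.map (tr (b' - b)) ∈ CIn (box b' r) := by
  rintro γ ⟨h1, h2, h3⟩
  refine ⟨(Pth.map_ok (isAut_tr _) γ).2 h1, (Pth.map_in _ γ _).2 ?_, fun k hk => ?_⟩
  · rw [preimage_tr_box]
    simpa using h2
  · have := h3 k hk
    simp only [Pth.map_p, Pth.map_n, tr_apply, Prod.fst_add]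
    constructor <;> linarith [this.1, this.2]
omit [IsProbabilityMeasure G] in
theorem cev_map_Tube (θ : ℝ) (z z' : V) (L : ℕ) (d : ℝ) (b : ℕ) :
    ∀ γ ∈ Tube θ z L d b, γ.map (tr (z' - z)) ∈ Tube θ z' L d b := by
  rintro γ ⟨h1, h2, h3, h4, h5, h6⟩
  refine ⟨(Pth.map_ok (isAut_tr _) γ).2 h1, ?_, ?_, (Pth.map_in _ γ _).2 ?_, fun k hk => ?_,
    fun k k' hk hk' => ?_⟩
  · simp only [Pth.map_p, tr_apply, Prod.fst_add, Prod.fst_sub, h2]
    ring
  · simp only [Pth.map_p, Pth.map_n, tr_apply, Prod.fst_add, Prod.fst_sub, h3]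
    ring
  · rw [preimage_tr_strip]
    have e1 : z'.1 - (z' - z).1 = z.1 := by simp
    have e2 : z'.1 + L - (z' - z).1 = z.1 + L := by simp only [Prod.fst_sub]; ring
    rw [e1, e2]
    exact h4
  · have e : (γ.map (tr (z' - z))).p k - z' = γ.p k - z := by
      simp only [Pth.map_p, tr_apply]
      abel
    rw [e]
    exact h5 k hk
  · have := h6 k k' hk hk'
    simp only [Pth.map_p, tr_apply, Prod.fst_add]
    linarith
theorem Pr_cheap_CIn_box (b b' : V) (r : ℕ) (x : ℝ) :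
    Pr G (F.Cheap (CIn (box b r)) x) = Pr G (F.Cheap (CIn (box b' r)) x) := by
  exact le_antisymm (Pr_cheap_shift F G _ (cev_map_CIn b b' r) x)
    (Pr_cheap_shift F G _ (cev_map_CIn b' b r) x)
theorem Pr_cheap_tube (θ : ℝ) (z : V) (L : ℕ) (d : ℝ) (b : ℕ) (x : ℝ) :
    Pr G (F.Cheap (Tube θ z L d b) x) = Pr G (F.Cheap (Tube θ 0 L d b) x) := by
  exact le_antisymm (Pr_cheap_shift F G _ (cev_map_Tube θ z 0 L d b) x)
    (Pr_cheap_shift F G _ (cev_map_Tube θ 0 z L d b) x)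
theorem integral_comp_XD (g : ℝ → ℝ) (b v : V) :
    ∫ t, g (F.XD t b v) ∂(iidLaw G) = ∫ t, g (F.XD t 0 v) ∂(iidLaw G) := by
  rw [← integral_act G (tr b) (fun t => g (F.XD t 0 v))]
  simp only [XD_act_tr, zero_add]
theorem integral_XD (b v : V) : ∫ t, F.XD t b v ∂(iidLaw G) = F.fh G v := by
  exact integral_comp_XD F G id b v
theorem fh_mir (v : V) : F.mir.fh G (reflY v) = F.fh G v := by
  unfold FD.fh
  rw [← integral_act G reflY (fun t => F.XD t 0 v)]
  simp only [XD_act_reflY]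
  rfl
theorem M_mir (j : ℕ) : F.mir.M G j = F.M G j := by
  unfold FD.M
  congr 2
  ext y
  simp only [Set.mem_setOf_eq]
  refine or_congr_right ⟨?_, ?_⟩
  · rintro ⟨v, h1, h2, rfl⟩
    have e : reflY (reflY v) = v := by simp
    refine ⟨reflY v, ?_, h2, ?_⟩
    · rw [← F.mir_V1, ← F.mir_V2, e]
      exact h1.symm
    · rw [← fh_mir F G (reflY v), e]
  · rintro ⟨v, h1, h2, rfl⟩
    refine ⟨reflY v, ?_, h2, (fh_mir F G v).symm⟩
    rw [F.mir_V1, F.mir_V2]
    exact h1.symm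
theorem Ub_mir (i : ℕ) : F.mir.Ub G i = F.Ub G i := by
  unfold FD.Ub
  simp only [M_mir]

end

end Crest.Agent.R151.PC
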