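import Crest.Agent.R151.CGeo1

/-! Row 151, part C: lattice decompositions of interior vectors. -/

set_option autoImplicit false

namespace Crest.Agent.R151.PC

open MeasureTheory ProbabilityTheory Filter Topology Crest.ProbabilityR.FirstPassage
open scoped Classical

variable {μ : ℝ × ℝ → ℝ} {F : FD}

private lemma big_n {d : ℝ} (hd : 0 < d) : ∃ n0 : ℤ, ∀ n : ℤ, n0 ≤ n →
    300 * d + 100 ≤ d * (n : ℝ) := by
  refine ⟨⌈(300 * d + 100) / d⌉, fun n hn => ?_⟩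
  have h1 : (300 * d + 100) / d ≤ (n : ℝ) := le_trans (Int.le_ceil _) (by exact_mod_cast hn)
  rw [div_le_iff₀ hd] at h1
  linarith

private lemma th2_eq (F : FD) : F.θ2 = F.θ1 + 10 * F.δ := by
  unfold FD.δ; ring

/-- a long interior vector is in a band or is the sum of two band vectors -/
theorem inr_split (h : IsFace μ F) : ∃ n0 : ℤ, ∀ v : V, F.Inr v → n0 ≤ v.1 →
    F.V1 v ∨ F.V2 v ∨ ∃ v' v'' : V, F.V1 v' ∧ F.V2 v'' ∧ v = v' + v'' := by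
  have hd := h.δ_pos
  obtain ⟨n0, hn0⟩ := big_n hd
  refine ⟨n0, fun v hv hn => ?_⟩
  have hb := hn0 _ hn
  have e2 := th2_eq F
  obtain ⟨hv1, hv2, hv3⟩ := hv
  by_cases c1 : (v.2 : ℝ) ≤ (F.θ1 + 2 * F.δ) * v.1
  · exact Or.inl ⟨hv1, hv2, c1⟩
  by_cases c2 : (F.θ2 - 2 * F.δ) * v.1 ≤ (v.2 : ℝ)
  · exact Or.inr (Or.inl ⟨hv1, c2, hv3⟩)
  push Not at c1 c2
  refine Or.inr (Or.inr ?_)
  set t := F.θ1 with ht
  set d := F.δ with hdd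
  rw [e2] at c2 hv3
  have h7 : (0 : ℝ) < 7 * d := by linarith
  set a : ℤ := ⌊((t + 17 / 2 * d) * v.1 - v.2) / (7 * d)⌋ with ha
  have a1 : (a : ℝ) * (7 * d) ≤ (t + 17 / 2 * d) * v.1 - v.2 := by
    have := Int.floor_le (((t + 17 / 2 * d) * v.1 - v.2) / (7 * d))
    rwa [le_div_iff₀ h7] at this
  have a2 : (t + 17 / 2 * d) * v.1 - v.2 < ((a : ℝ) + 1) * (7 * d) := by
    have := Int.lt_floor_add_one (((t + 17 / 2 * d) * v.1 - v.2) / (7 * d))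
    rwa [div_lt_iff₀ h7] at this
  set c : ℤ := ⌈(t + 3 / 2 * d) * (a : ℝ)⌉ with hc
  have b1 : (t + 3 / 2 * d) * (a : ℝ) ≤ c := Int.le_ceil _
  have b2 : (c : ℝ) < (t + 3 / 2 * d) * (a : ℝ) + 1 := Int.ceil_lt_add_one _
  have ha1 : (1 : ℤ) ≤ a := by
    by_contra hcon
    have : (a : ℝ) ≤ 0 := by exact_mod_cast (by omega : a ≤ 0)
    have : (a : ℝ) * d ≤ 0 := mul_nonpos_of_nonpos_of_nonneg this hd.le
    nlinarith
  have ha2 : (1 : ℤ) ≤ v.1 - a := by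
    by_contra hcon
    have : (v.1 : ℝ) - a ≤ 0 := by exact_mod_cast (by omega : v.1 - a ≤ 0)
    have : ((v.1 : ℝ) - a) * d ≤ 0 := mul_nonpos_of_nonpos_of_nonneg this hd.le
    nlinarith
  refine ⟨(a, c), (v.1 - a, v.2 - c), ⟨ha1, ?_, ?_⟩, ⟨ha2, ?_, ?_⟩, ?_⟩
  · show (t + d) * (a : ℝ) ≤ (c : ℝ)
    nlinarith
  · show (c : ℝ) ≤ (t + 2 * d) * (a : ℝ)
    nlinarith
  · show (F.θ2 - 2 * d) * ((v.1 - a : ℤ) : ℝ) ≤ ((v.2 - c : ℤ) : ℝ)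
    rw [e2]; push_cast
    nlinarith
  · show ((v.2 - c : ℤ) : ℝ) ≤ (F.θ2 - d) * ((v.1 - a : ℤ) : ℝ)
    rw [e2]; push_cast
    nlinarith
  · ext <;> simp

/-- a vector `g` in the middle direction from which a whole window is seen at interior slopes -/
theorem mid_window (h : IsFace μ F) : ∃ Kp : ℕ, 1 ≤ Kp ∧ ∀ r : ℕ, 1 ≤ r → ∃ g : V,
    (r : ℤ) + 2 ≤ g.1 ∧ nrm g ≤ Kp * r ∧ F.Inr (g + g) ∧
      ∀ u : V, nrm u ≤ r + 1 → F.Inr (g + u) := by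
  have hd := h.δ_pos
  have e2 := th2_eq F
  obtain ⟨CR, hCR⟩ : ∃ CR : ℕ, (|F.θ1| + 10 * F.δ + 2) / F.δ ≤ (CR : ℝ) := ⟨_, Nat.le_ceil _⟩
  rw [div_le_iff₀ hd] at hCR
  set t := F.θ1 with ht
  set d := F.δ with hdd
  have ht0 : 0 ≤ |t| := abs_nonneg _
  have hCR3 : 3 ≤ CR := by
    by_contra hcon
    have : (CR : ℝ) ≤ 2 := by exact_mod_cast (by omega : CR ≤ 2)
    nlinarith
  refine ⟨F.κ * CR, Nat.mul_pos (F.one_le_κ) (by omega), fun r hr => ?_⟩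
  have hr' : (1 : ℝ) ≤ r := by exact_mod_cast hr
  set R : ℤ := (CR : ℤ) * r with hR
  have hRr : (R : ℝ) = (CR : ℝ) * r := by rw [hR]; push_cast; ring
  have hdR : (|t| + 10 * d + 2) * r ≤ d * R := by
    rw [hRr]
    have := mul_le_mul_of_nonneg_right hCR (by linarith : (0 : ℝ) ≤ r)
    linarith
  have hR3 : 3 * (r : ℤ) ≤ R := by
    rw [hR]; exact mul_le_mul_of_nonneg_right (by exact_mod_cast hCR3) (by positivity)
  set G : ℤ := ⌊(t + 5 * d) * (R : ℝ)⌋ with hG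
  have g1 : (G : ℝ) ≤ (t + 5 * d) * (R : ℝ) := Int.floor_le _
  have g2 : (t + 5 * d) * (R : ℝ) < G + 1 := Int.lt_floor_add_one _
  have hr1 : (1 : ℤ) ≤ r := by exact_mod_cast hr
  have htr : 0 ≤ |t| * r := by positivity
  have hdr : d ≤ d * r := by nlinarith
  have win : ∀ u : V, nrm u ≤ r + 1 → F.Inr ((R, G) + u) := by
    intro u hu
    have hu1 : |u.1| ≤ 2 * (r : ℤ) := by
      have : u.1.natAbs ≤ r + 1 := le_trans (le_max_left _ _) hu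
      rw [← Int.natCast_natAbs]; omega
    have hu2 : |u.2| ≤ 2 * (r : ℤ) := by
      have : u.2.natAbs ≤ r + 1 := le_trans (le_max_right _ _) hu
      rw [← Int.natCast_natAbs]; omega
    have hu1' : |(u.1 : ℝ)| ≤ 2 * (r : ℝ) := by exact_mod_cast hu1
    have hu2' : |(u.2 : ℝ)| ≤ 2 * (r : ℝ) := by exact_mod_cast hu2
    have k1 : |t * (u.1 : ℝ)| ≤ |t| * (2 * r) := by
      rw [abs_mul]; exact mul_le_mul_of_nonneg_left hu1' ht0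
    have k2 : |d * (u.1 : ℝ)| ≤ d * (2 * r) := by
      rw [abs_mul, abs_of_pos hd]; exact mul_le_mul_of_nonneg_left hu1' hd.le
    rw [abs_le] at hu1 hu2' k1 k2
    refine ⟨?_, ?_, ?_⟩
    · show 1 ≤ R + u.1
      omega
    · show (t + d) * ((R + u.1 : ℤ) : ℝ) ≤ ((G + u.2 : ℤ) : ℝ)
      push_cast
      nlinarith [k1.1, k1.2, k2.1, k2.2, hu2'.1, hu2'.2]
    · show ((G + u.2 : ℤ) : ℝ) ≤ (F.θ2 - d) * ((R + u.1 : ℤ) : ℝ)
      rw [e2]; push_cast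
      nlinarith [k1.1, k1.2, k2.1, k2.2, hu2'.1, hu2'.2]
  refine ⟨(R, G), by show (r : ℤ) + 2 ≤ R; omega, ?_, ⟨?_, ?_, ?_⟩, win⟩
  · have h0 := h.inr_nrm_le (win 0 (by simp [nrm]))
    rw [add_zero] at h0
    have : ((nrm (R, G) : ℕ) : ℤ) ≤ ((F.κ * CR * r : ℕ) : ℤ) := by
      refine le_trans h0 (le_of_eq ?_)
      show (F.κ : ℤ) * R = _
      rw [hR]; push_cast; ring
    exact_mod_cast this
  · show 1 ≤ R + R
    omega
  · show (t + d) * ((R + R : ℤ) : ℝ) ≤ ((G + G : ℤ) : ℝ)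
    push_cast
    nlinarith
  · show ((G + G : ℤ) : ℝ) ≤ (F.θ2 - d) * ((R + R : ℤ) : ℝ)
    rw [e2]; push_cast
    nlinarith

/-- an upper band vector is a lower band vector plus a vector along the axis `θ` -/
theorem v2_split (h : IsFace μ F) : ∃ n0 : ℤ, ∀ θ : ℝ, F.θ2 ≤ θ → θ ≤ F.θ2 + F.δ →
    ∀ v : V, F.V2 v → n0 ≤ v.1 → ∃ v0 w : V, v = v0 + w ∧ F.V1 v0 ∧ 0 ≤ dev θ w ∧ dev θ w ≤ 1 ∧
      v.1 ≤ 10 * v0.1 ∧ 3 * v0.1 ≤ v.1 := by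
  have hd := h.δ_pos
  obtain ⟨n0, hn0⟩ := big_n hd
  refine ⟨n0, fun θ h1 h2 v hv hn => ?_⟩
  have hb := hn0 _ hn
  have e2 := th2_eq F
  obtain ⟨hv1, hv2, hv3⟩ := hv
  set t := F.θ1 with ht
  set d := F.δ with hdd
  rw [e2] at h1 h2 hv2 hv3
  obtain ⟨e, he⟩ : ∃ e, θ = t + 10 * d + e := ⟨θ - t - 10 * d, by ring⟩
  have he0 : 0 ≤ e := by linarith
  have he1 : e ≤ d := by linarith
  have hD : (0 : ℝ) < 17 / 2 * d + e := by linarith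
  have hN : (300 : ℝ) ≤ v.1 := by
    by_contra hcon
    push Not at hcon
    nlinarith
  set a : ℤ := ⌊(θ * v.1 - v.2) / (17 / 2 * d + e)⌋ with ha
  have a1 : (a : ℝ) * (17 / 2 * d + e) ≤ θ * v.1 - v.2 := by
    have := Int.floor_le ((θ * v.1 - v.2) / (17 / 2 * d + e))
    rwa [le_div_iff₀ hD] at this
  have a2 : θ * v.1 - v.2 < ((a : ℝ) + 1) * (17 / 2 * d + e) := by
    have := Int.lt_floor_add_one ((θ * v.1 - v.2) / (17 / 2 * d + e))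
    rwa [div_lt_iff₀ hD] at this
  set c : ℤ := ⌈θ * ((v.1 : ℝ) - a)⌉ with hc
  have b1 : θ * ((v.1 : ℝ) - a) ≤ c := Int.le_ceil _
  have b2 : (c : ℝ) < θ * ((v.1 : ℝ) - a) + 1 := Int.ceil_lt_add_one _
  have heN : 0 ≤ e * v.1 := by positivity
  have heN' : e * v.1 ≤ d * v.1 := mul_le_mul_of_nonneg_right he1 (by linarith)
  have u1 : 3 * (a : ℝ) ≤ v.1 := by
    have : (3 * (a : ℝ)) * (17 / 2 * d + e) ≤ (v.1 : ℝ) * (17 / 2 * d + e) := by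
      rw [he] at a1; nlinarith
    exact le_of_mul_le_mul_right this hD
  have u2 : (v.1 : ℝ) < 17 / 2 * ((a : ℝ) + 1) := by
    have : (v.1 : ℝ) * (17 / 2 * d + e) < (17 / 2 * ((a : ℝ) + 1)) * (17 / 2 * d + e) := by
      rw [he] at a2; nlinarith
    exact lt_of_mul_lt_mul_right this hD.le
  have u3 : (v.1 : ℝ) ≤ 10 * (a : ℝ) := by linarith
  have u4 : d * v.1 ≤ d * (10 * (a : ℝ)) := mul_le_mul_of_nonneg_left u3 hd.le
  have ha1 : (1 : ℤ) ≤ a := by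
    have : (1 : ℝ) ≤ a := by linarith
    exact_mod_cast this
  refine ⟨(a, v.2 - c), (v.1 - a, c), by ext <;> simp, ⟨ha1, ?_, ?_⟩, ?_, ?_, ?_, ?_⟩
  · show (t + d) * (a : ℝ) ≤ ((v.2 - c : ℤ) : ℝ)
    push_cast
    rw [he] at a2 b2
    nlinarith
  · show ((v.2 - c : ℤ) : ℝ) ≤ (t + 2 * d) * (a : ℝ)
    push_cast
    rw [he] at a1 b1
    nlinarith
  · show 0 ≤ (c : ℝ) - θ * ((v.1 - a : ℤ) : ℝ)
    push_cast; linarith
  · show (c : ℝ) - θ * ((v.1 - a : ℤ) : ℝ) ≤ 1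
    push_cast; linarith
  · show v.1 ≤ 10 * a
    exact_mod_cast u3
  · show 3 * a ≤ v.1
    exact_mod_cast u1

/-- trimming an interior vector at both ends (used for the a priori bound) -/
theorem inr_trim (h : IsFace μ F) : ∃ n0 : ℤ, ∀ v : V, F.Inr v → n0 ≤ v.1 → ∀ ℓ : ℕ,
    4 * (ℓ : ℤ) ≤ v.1 → ∃ x : V, x.1 = ℓ ∧ |x.2| ≤ F.κ * (ℓ : ℤ) ∧
      F.θ1 * ((v - x - x).1 : ℝ) ≤ ((v - x - x).2 : ℝ) ∧
      ((v - x - x).2 : ℝ) ≤ F.θ2 * ((v - x - x).1 : ℝ) := by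
  have hd := h.δ_pos
  obtain ⟨n0, hn0⟩ := big_n hd
  refine ⟨n0, fun v hv hn ℓ hℓ => ?_⟩
  have hb := hn0 _ hn
  have e2 := th2_eq F
  obtain ⟨hv1, hv2, hv3⟩ := hv
  have hN : (0 : ℝ) < v.1 := by exact_mod_cast (by omega : 0 < v.1)
  set s : ℝ := (v.2 : ℝ) / v.1 with hs
  have hsv : (v.2 : ℝ) = s * v.1 := by rw [hs]; field_simp
  have s1 : F.θ1 + F.δ ≤ s := by rw [hs, le_div_iff₀ hN]; exact hv2
  have s2 : s ≤ F.θ2 - F.δ := by rw [hs, div_le_iff₀ hN]; exact hv3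
  have hk := h.abs_le_κ (θ := s) (by linarith) (by linarith)
  set X : ℤ := ⌊s * (ℓ : ℝ)⌋ with hX
  have g1 : (X : ℝ) ≤ s * ℓ := Int.floor_le _
  have g2 : s * ℓ < X + 1 := Int.lt_floor_add_one _
  have hℓ' : 4 * (ℓ : ℝ) ≤ v.1 := by exact_mod_cast hℓ
  have hl0 : (0 : ℝ) ≤ ℓ := by positivity
  have hm : (0 : ℝ) ≤ (v.1 : ℝ) - ℓ - ℓ := by linarith
  refine ⟨((ℓ : ℤ), X), rfl, ?_, ?_, ?_⟩
  · show |X| ≤ (F.κ : ℤ) * (ℓ : ℤ)
    rcases Nat.eq_zero_or_pos ℓ with h0 | h0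
    · subst h0
      have : X = 0 := by rw [hX]; simp
      rw [this]; simp
    · have hl1 : (1 : ℝ) ≤ ℓ := by exact_mod_cast h0
      have k1 : |s * (ℓ : ℝ)| = |s| * ℓ := by rw [abs_mul, abs_of_nonneg hl0]
      have k2 := le_abs_self (s * (ℓ : ℝ))
      have k3 := neg_abs_le (s * (ℓ : ℝ))
      have k4 : (|s| + 1) * ℓ ≤ (F.κ : ℝ) * ℓ := mul_le_mul_of_nonneg_right hk hl0
      have : |(X : ℝ)| ≤ (F.κ : ℝ) * ℓ := by
        rw [abs_le]; constructor <;> nlinarith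
      exact_mod_cast this
  · show F.θ1 * ((v.1 - ℓ - ℓ : ℤ) : ℝ) ≤ ((v.2 - X - X : ℤ) : ℝ)
    push_cast
    have : F.θ1 * ((v.1 : ℝ) - ℓ - ℓ) ≤ s * ((v.1 : ℝ) - ℓ - ℓ) :=
      mul_le_mul_of_nonneg_right (by linarith) hm
    nlinarith
  · show ((v.2 - X - X : ℤ) : ℝ) ≤ F.θ2 * ((v.1 - ℓ - ℓ : ℤ) : ℝ)
    push_cast
    have k1 : (s + F.δ) * ((v.1 : ℝ) - ℓ - ℓ) ≤ F.θ2 * ((v.1 : ℝ) - ℓ - ℓ) :=
      mul_le_mul_of_nonneg_right (by linarith) hm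
    have k2 : F.δ * (4 * (ℓ : ℝ)) ≤ F.δ * v.1 := mul_le_mul_of_nonneg_left hℓ' hd.le
    nlinarith

end Crest.Agent.R151.PC
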