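import Crest.Agent.R151.CMom
import Crest.Agent.R151.CGeo2

/-! Row 151, part C: basic properties of `fh` and `M`. -/

set_option autoImplicit false

namespace Crest.Agent.R151.PC

open MeasureTheory ProbabilityTheory Filter Topology Crest.ProbabilityR.FirstPassage
open scoped Classical

variable {G : Measure ℝ} [Law G] {F : FD}

theorem CFh_eq (hE : ExpL G) (v : V) :
    F.fh G v = ∫ t, TD (F.dom 0 v) t 0 (0 + v) ∂(iidLaw G) - dot F.ρ (rv v) := by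
  unfold FD.fh FD.XD
  rw [integral_sub (integrable_TD hE _ _ _) (integrable_const _)]
  simp

theorem fh_nonneg (hE : ExpL G) (hF : IsFace (mu G) F) {v : V} (hv : F.Inr v) :
    0 ≤ F.fh G v := by
  have h1 := mu_le_integral_TD G (hF.inr_conn 0 hv) (integrable_TD hE _ _ _)
  rw [add_sub_cancel_left] at h1
  rw [CFh_eq hE]
  linarith [hF.le (rv v)]

theorem fh_add_le (hE : ExpL G) (hF : IsFace (mu G) F) {v w : V} (hv : F.Inr v) (hw : F.Inr w) :
    F.fh G (v + w) ≤ F.fh G v + F.fh G w := by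
  have hv0 : 0 ≤ v.1 := le_trans zero_le_one hv.1
  have hw0 : 0 ≤ w.1 := le_trans zero_le_one hw.1
  have hv2 : |v.2| ≤ 2 * F.κ * v.1 := by
    have h1 := hF.inr_abs_le hv
    have h2 : 0 ≤ (F.κ : ℤ) * v.1 := mul_nonneg (Nat.cast_nonneg _) hv0
    linarith
  rw [← integral_XD F G (0 + v) w]
  unfold FD.fh
  rw [← integral_add (integrable_XD hE F 0 v) (integrable_XD hE F (0 + v) w)]
  refine integral_mono_ae (integrable_XD hE F _ _)
    ((integrable_XD hE F 0 v).add (integrable_XD hE F (0 + v) w)) ?_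
  filter_upwards [ae_nn G] with t ht
  have s1 := F.dom_subset_left 0 (v := v) hw0
  have s2 := F.dom_subset_right 0 (w := w) hv0 hv2
  have c1 := hF.inr_conn 0 hv
  have c2 := hF.inr_conn (0 + v) hw
  have h1 := TD_triangle ht (c1.mono s1) (c2.mono s2)
  have h2 := TD_anti ht s1 c1
  have h3 := TD_anti ht s2 c2
  simp only [FD.XD, rv_add, dot_add, ← add_assoc]
  linarith

theorem fh_le_lin (hE : ExpL G) (hF : IsFace (mu G) F) : ∃ C : ℝ, 0 < C ∧
    ∀ v : V, F.Inr v → F.fh G v ≤ C * v.1 := by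
  obtain ⟨C, hC, h⟩ := TD_rect_moment hE
  have hκ : (1 : ℝ) ≤ F.κ := by exact_mod_cast F.one_le_κ
  refine ⟨(C + 2 * ‖F.ρ‖) * F.κ, by positivity, fun v hv => ?_⟩
  have c := hF.inr_conn 0 hv
  have h1 : ∫ t, TD (F.dom 0 v) t 0 (0 + v) ∂(iidLaw G) ≤ C * nrm (0 + v - 0) :=
    (h _ _ _ _ 0 (0 + v) c.left_mem c.right_mem).2.1
  rw [add_sub_cancel_left] at h1
  have h2 := abs_dot_le F.ρ (rv v)
  rw [norm_rv] at h2
  have h3 : (nrm v : ℝ) ≤ F.κ * v.1 := by exact_mod_cast hF.inr_nrm_le hv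
  have h4 := mul_le_mul_of_nonneg_left h3 (by positivity : 0 ≤ C + 2 * ‖F.ρ‖)
  rw [CFh_eq hE]
  linarith [(abs_le.1 h2).1]

theorem CFh_bdd (hE : ExpL G) (hF : IsFace (mu G) F) (j : ℕ) :
    BddAbove {y : ℝ | y = 0 ∨ ∃ v : V, (F.V1 v ∨ F.V2 v) ∧ v.1 ≤ 2 ^ j ∧ y = F.fh G v} := by
  obtain ⟨C, hC, h⟩ := fh_le_lin hE hF
  refine ⟨C * 2 ^ j, ?_⟩
  rintro y (rfl | ⟨v, hv, hj, rfl⟩)
  · positivity
  · refine (h v (hv.elim hF.V1_inr hF.V2_inr)).trans (mul_le_mul_of_nonneg_left ?_ hC.le)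
    exact_mod_cast hj

theorem one_le_M (hE : ExpL G) (hF : IsFace (mu G) F) (j : ℕ) : 1 ≤ F.M G j := by
  have := le_csSup (CFh_bdd hE hF j) (a := 0) (Or.inl rfl)
  unfold FD.M
  linarith

theorem fh_le_M (hE : ExpL G) (hF : IsFace (mu G) F) {j : ℕ} {v : V} (hv : F.V1 v ∨ F.V2 v)
    (hj : v.1 ≤ 2 ^ j) : F.fh G v + 1 ≤ F.M G j := by
  have := le_csSup (CFh_bdd hE hF j) (a := F.fh G v) (Or.inr ⟨v, hv, hj, rfl⟩)
  unfold FD.M
  linarith

theorem M_le {j : ℕ} {B : ℝ} (hB : 0 ≤ B)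
    (h : ∀ v : V, F.V1 v ∨ F.V2 v → v.1 ≤ 2 ^ j → F.fh G v ≤ B) : F.M G j ≤ 1 + B := by
  unfold FD.M
  refine add_le_add le_rfl (csSup_le ⟨0, Or.inl rfl⟩ ?_)
  rintro y (rfl | ⟨v, hv, hj, rfl⟩)
  · exact hB
  · exact h v hv hj

theorem M_mono (hE : ExpL G) (hF : IsFace (mu G) F) : Monotone (F.M G) := by
  intro i j hij
  have := M_le (G := G) (F := F) (j := i) (B := F.M G j - 1) (by linarith [one_le_M hE hF j])
    fun v hv hi => by
      have := fh_le_M hE hF (j := j) hv (hi.trans (pow_le_pow_right₀ (by norm_num) hij))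
      linarith
  linarith

/-- C1: interior vectors -/
theorem fh_inr (hE : ExpL G) (hF : IsFace (mu G) F) : ∃ C : ℝ, 0 < C ∧
    ∀ (j : ℕ) (v : V), F.Inr v → v.1 ≤ 2 ^ j → F.fh G v ≤ C * F.M G j := by
  obtain ⟨n0, hn⟩ := inr_split hF
  obtain ⟨C, hC, h⟩ := fh_le_lin hE hF
  have hn0 := abs_nonneg (n0 : ℝ)
  refine ⟨2 + C * |(n0 : ℝ)|, by positivity, fun j v hv hj => ?_⟩
  have hM := one_le_M hE hF j
  have h0 : C * |(n0 : ℝ)| ≤ C * |(n0 : ℝ)| * F.M G j :=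
    le_mul_of_one_le_right (by positivity) hM
  have h0' : 0 ≤ C * |(n0 : ℝ)| := by positivity
  rw [add_mul]
  by_cases hl : n0 ≤ v.1
  · rcases hn v hv hl with h1 | h1 | ⟨v', v'', h1, h2, rfl⟩
    · linarith [fh_le_M hE hF (Or.inl h1) hj]
    · linarith [fh_le_M hE hF (Or.inr h1) hj]
    · have a1 : 1 ≤ v'.1 := h1.1
      have a2 : 1 ≤ v''.1 := h2.1
      rw [Prod.fst_add] at hj
      linarith [fh_le_M hE hF (j := j) (Or.inl h1) (by linarith),
        fh_le_M hE hF (j := j) (Or.inr h2) (by linarith),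
        fh_add_le hE hF (hF.V1_inr h1) (hF.V2_inr h2)]
  · have a1 : (v.1 : ℝ) ≤ |(n0 : ℝ)| :=
      le_trans (by exact_mod_cast (not_le.1 hl).le) (le_abs_self _)
    linarith [h v hv, mul_le_mul_of_nonneg_left a1 hC.le]

end Crest.Agent.R151.PC
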