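import Crest.Agent.R151.CDefs
import Crest.Agent.R151.TMu2

/-! Row 151, part C: existence of a flat edge (pure convex geometry). -/

set_option autoImplicit false

namespace Crest.Agent.R151.PC

open MeasureTheory ProbabilityTheory Filter Topology Crest.ProbabilityR.FirstPassage
open scoped Classical

/-- a segment on the unit sphere gives a supporting functional touching at two points; after a
lattice symmetry its first coordinate dominates -/
theorem exists_flat {μ : ℝ × ℝ → ℝ} (hμ : NormOK μ)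
    (hn : ¬ StrictConvex ℝ {v : ℝ × ℝ | μ v ≤ 1}) :
    ∃ ρ x y : ℝ × ℝ, (∀ v, dot ρ v ≤ μ v) ∧ x ≠ y ∧ μ x = 1 ∧ μ y = 1 ∧ dot ρ x = 1 ∧
      dot ρ y = 1 ∧ |ρ.2| ≤ ρ.1 := by
  simp only [StrictConvex, Set.Pairwise, not_forall] at hn
  obtain ⟨x, hx, y, hy, hxy, a, b, ha, hb, hab, hz⟩ := hn
  have hx' : μ x ≤ 1 := hx
  have hy' : μ y ≤ 1 := hy
  have hz1 : 1 ≤ μ (a • x + b • y) := by
    by_contra h
    have hs : {v | μ v < 1} ⊆ {v | μ v ≤ 1} := fun v (hv : μ v < 1) => hv.le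
    exact hz (interior_maximal hs (isOpen_lt hμ.continuous continuous_const) (not_le.1 h))
  obtain ⟨ρ, h1, h2⟩ := hμ.exists_support (a • x + b • y)
  have h3 : dot ρ (a • x + b • y) = a * dot ρ x + b * dot ρ y := by
    simp only [dot, Prod.fst_add, Prod.snd_add, Prod.smul_fst, Prod.smul_snd, smul_eq_mul]; ring
  have h4 := h2 x
  have h5 := h2 y
  have h6 : dot ρ x = 1 := by
    refine le_antisymm (h4.trans hx') (not_lt.1 fun h => ?_)
    nlinarith [mul_le_mul_of_nonneg_left (h5.trans hy') hb.le, mul_lt_mul_of_pos_left h ha]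
  have h7 : dot ρ y = 1 := by
    refine le_antisymm (h5.trans hy') (not_lt.1 fun h => ?_)
    nlinarith [mul_le_mul_of_nonneg_left (h4.trans hx') ha.le, mul_lt_mul_of_pos_left h hb]
  have h8 : μ x = 1 := le_antisymm hx' (h6 ▸ h4)
  have h9 : μ y = 1 := le_antisymm hy' (h7 ▸ h5)
  have key : ∀ ρ x y : ℝ × ℝ, (∀ v, dot ρ v ≤ μ v) → x ≠ y → μ x = 1 → μ y = 1 → dot ρ x = 1 →
      dot ρ y = 1 → |ρ.2| ≤ |ρ.1| →
      ∃ ρ x y : ℝ × ℝ, (∀ v, dot ρ v ≤ μ v) ∧ x ≠ y ∧ μ x = 1 ∧ μ y = 1 ∧ dot ρ x = 1 ∧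
        dot ρ y = 1 ∧ |ρ.2| ≤ ρ.1 := by
    intro ρ x y a1 a2 a3 a4 a5 a6 a7
    rcases le_total 0 ρ.1 with h | h
    · exact ⟨ρ, x, y, a1, a2, a3, a4, a5, a6, by rwa [abs_of_nonneg h] at a7⟩
    · have e : ∀ v, dot (-ρ) (-v) = dot ρ v := fun v => by simp [dot]
      refine ⟨-ρ, -x, -y, fun v => ?_, neg_injective.ne a2, by rw [hμ.neg, a3], by rw [hμ.neg, a4],
        by rw [e, a5], by rw [e, a6], ?_⟩
      · have := a1 (-v)
        rwa [← e, neg_neg, hμ.neg] at this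
      · rwa [Prod.snd_neg, Prod.fst_neg, abs_neg, ← abs_of_nonpos h]
  rcases le_total |ρ.2| |ρ.1| with h | h
  · exact key ρ x y h2 hxy h8 h9 h6 h7 h
  · have e : ∀ v, dot ρ.swap v.swap = dot ρ v := fun v => by simp [dot, add_comm]
    have e' : ∀ v : ℝ × ℝ, μ v.swap = μ v := fun v => hμ.swap v.1 v.2
    refine key ρ.swap x.swap y.swap (fun v => ?_) (Prod.swap_injective.ne hxy) (by rw [e', h8])
      (by rw [e', h9]) (by rw [e, h6]) (by rw [e, h7]) h
    have := h2 v.swap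
    rwa [← e, Prod.swap_swap, e'] at this

/-- the face does not meet the closed left half plane (differentiability at `(1,0)` excludes the
diamond) -/
theorem flat_back {μ : ℝ × ℝ → ℝ} (hμ : NormOK μ) (hd : DifferentiableAt ℝ μ (1, 0))
    {ρ : ℝ × ℝ} (hρ : ∀ v, dot ρ v ≤ μ v) (h0 : ρ ≠ 0) (h2 : |ρ.2| ≤ ρ.1) :
    ∀ v : ℝ × ℝ, v ≠ 0 → v.1 ≤ 0 → dot ρ v < μ v := by
  have hpos : 0 < ρ.1 := by
    refine lt_of_le_of_ne ((abs_nonneg _).trans h2) fun h => h0 ?_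
    rw [← h] at h2
    exact Prod.ext h.symm (abs_nonpos_iff.1 h2)
  rintro ⟨a, b⟩ hv ha
  rcases lt_or_eq_of_le (show a ≤ 0 from ha) with ha | rfl
  · have h1 := hρ (-a, b)
    rw [hμ.refl1] at h1
    simp only [dot] at h1 ⊢
    nlinarith
  have hb : b ≠ 0 := fun h => hv (by rw [h]; rfl)
  by_contra hc
  have h1 : μ (0, b) = |b| * μ (0, 1) := by
    rw [← hμ.smul_abs]; congr 1; simp
  have h3 : μ (1, 0) ≤ |ρ.2| := by
    rw [hμ.axis_eq]
    refine le_of_mul_le_mul_left ?_ (abs_pos.2 hb)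
    rw [← h1, ← abs_mul]
    refine (not_lt.1 hc).trans ?_
    simp only [dot, mul_zero, zero_add]
    rw [mul_comm]
    exact le_abs_self _
  have hg : DifferentiableAt ℝ (fun s : ℝ => μ (1, s)) 0 :=
    DifferentiableAt.comp (0 : ℝ) (g := μ) (f := fun s : ℝ => ((1, s) : ℝ × ℝ)) hd (by fun_prop)
  have key : ∀ c : ℝ, (∀ s, ρ.1 + c * s ≤ μ (1, s)) → deriv (fun s : ℝ => μ (1, s)) 0 = c := by
    intro c hc
    have m : IsLocalMin (fun s : ℝ => μ (1, s) - c * s) 0 := Filter.Eventually.of_forall fun s => by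
      have := hc s
      simp only [mul_zero, sub_zero]
      linarith
    have := m.hasDerivAt_eq_zero (hg.hasDerivAt.sub ((hasDerivAt_id (0 : ℝ)).const_mul c))
    linarith
  have k1 := key ρ.2 fun s => by simpa [dot] using hρ (1, s)
  have k2 := key (-ρ.2) fun s => by
    have := hρ (1, -s)
    rw [hμ.refl2] at this
    simpa [dot] using this
  have k3 : ρ.2 = 0 := by linarith
  have k4 := hρ (1, 0)
  rw [k3, abs_zero] at h3
  simp only [dot, mul_one, mul_zero, add_zero] at k4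
  linarith

theorem exists_face {μ : ℝ × ℝ → ℝ} (hμ : NormOK μ)
    (hd : ∀ v : ℝ × ℝ, v ≠ 0 → DifferentiableAt ℝ μ v)
    (hn : ¬ StrictConvex ℝ {v : ℝ × ℝ | μ v ≤ 1}) : ∃ F : FD, IsFace μ F := by
  obtain ⟨ρ, x, y, hρ, hxy, hx, hy, dx, dy, h2⟩ := exists_flat hμ hn
  have h0 : ρ ≠ 0 := fun h => by simp [h, dot] at dx
  have hb := flat_back hμ (hd _ (by simp)) hρ h0 h2
  set Θ : Set ℝ := {θ | μ (1, θ) ≤ dot ρ (1, θ)} with hΘ
  have hcl : IsClosed Θ :=
    isClosed_le (hμ.continuous.comp (by fun_prop)) (by unfold dot; fun_prop)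
  have hgap : |ρ.2| < μ (0, 1) := by
    have a1 := hb (0, 1) (by simp) le_rfl
    have a2 := hb (0, -1) (by simp) le_rfl
    rw [hμ.refl2] at a2
    simp only [dot, mul_zero, zero_add, mul_one, mul_neg] at a1 a2
    exact abs_lt.2 ⟨by linarith, a1⟩
  have hbd : ∀ θ ∈ Θ, |θ| ≤ ρ.1 / (μ (0, 1) - |ρ.2|) := by
    intro θ hθ
    have a1 : μ (1, θ) ≤ ρ.1 * 1 + ρ.2 * θ := hθ
    have a2 := hμ.axis_le (1, θ)
    have a3 : |θ| ≤ ‖((1, θ) : ℝ × ℝ)‖ := norm_snd_le ((1, θ) : ℝ × ℝ)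
    have a4 := mul_le_mul_of_nonneg_left a3 hμ.axis_pos.le
    have a5 := le_abs_self (ρ.2 * θ)
    rw [abs_mul] at a5
    rw [le_div_iff₀ (by linarith)]
    linarith
  have hA : BddAbove Θ := ⟨_, fun θ hθ => (abs_le.1 (hbd θ hθ)).2⟩
  have hB : BddBelow Θ := ⟨_, fun θ hθ => (abs_le.1 (hbd θ hθ)).1⟩
  have hmem : ∀ v : ℝ × ℝ, μ v = 1 → dot ρ v = 1 →
      0 < v.1 ∧ v.2 / v.1 ∈ Θ ∧ v.1 * μ (1, v.2 / v.1) = 1 := by
    intro v a1 a2
    have a3 : 0 < v.1 := by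
      refine not_le.1 fun h => ?_
      have := hb v (fun h => by rw [h, hμ.zero] at a1; exact zero_ne_one a1) h
      linarith
    have a4 : v.1 * μ (1, v.2 / v.1) = 1 := by rw [← hμ.homog a3, a1]
    refine ⟨a3, le_of_mul_le_mul_left (le_of_eq ?_) a3, a4⟩
    rw [a4]
    simp only [dot] at a2 ⊢
    field_simp
    linarith
  obtain ⟨x1, x2, x3⟩ := hmem x hx dx
  obtain ⟨y1, y2, y3⟩ := hmem y hy dy
  have hne : Θ.Nonempty := ⟨_, x2⟩
  have hcv : Convex ℝ Θ := by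
    intro s hs t ht a b ha hb hab
    refine (hμ.convexOn_slope.2 (Set.mem_univ s) (Set.mem_univ t) ha hb hab).trans ?_
    have a1 : μ (1, s) ≤ ρ.1 * 1 + ρ.2 * s := hs
    have a2 : μ (1, t) ≤ ρ.1 * 1 + ρ.2 * t := ht
    have a3 := mul_le_mul_of_nonneg_left a1 ha
    have a4 := mul_le_mul_of_nonneg_left a2 hb
    have a5 : ρ.1 = (a + b) * ρ.1 := by rw [hab, one_mul]
    simp only [dot, smul_eq_mul]
    linarith
  refine ⟨⟨ρ, sInf Θ, sSup Θ⟩, ?_, hρ, fun θ a1 a2 => le_antisymm ?_ (hρ _), fun θ h => ?_, hb⟩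
  · refine not_le.1 fun h => hxy ?_
    have a1 : x.2 / x.1 = y.2 / y.1 :=
      le_antisymm ((le_csSup hA x2).trans (h.trans (csInf_le hB y2)))
        ((le_csSup hA y2).trans (h.trans (csInf_le hB x2)))
    rw [a1] at x3
    have a2 : μ (1, y.2 / y.1) ≠ 0 := fun h => by rw [h, mul_zero] at y3; exact zero_ne_one y3
    have a3 : x.1 = y.1 := mul_right_cancel₀ a2 (x3.trans y3.symm)
    rw [a3, div_left_inj' y1.ne'] at a1
    exact Prod.ext a3 a1
  · exact hcv.ordConnected.out (hcl.csInf_mem hne hB) (hcl.csSup_mem hne hA) ⟨a1, a2⟩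
  · refine not_le.1 fun hθ => ?_
    rcases h with h | h
    · exact absurd (csInf_le hB hθ) (not_le.2 h)
    · exact absurd (le_csSup hA hθ) (not_le.2 h)

end Crest.Agent.R151.PC
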