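import Crest.Agent.R151.CEv
import Crest.Agent.Lib.PL.PrekopaLeindler

/-! Row 151, part C: the exponential law is `ExpL` (Prékopa-Leindler). -/

set_option autoImplicit false

namespace Crest.Agent.R151.PC

open MeasureTheory ProbabilityTheory Filter Topology Crest.ProbabilityR.FirstPassage
open scoped Classical

open Crest.Agent

theorem cihr_pdf {r : ℝ} (x : ℝ) (hx : 0 ≤ x) :
    gammaPDFReal 1 r x = r * Real.exp (-(r * x)) := by
  simp [gammaPDFReal, hx]

theorem cihr_lc {r : ℝ} (hr : 0 < r) (x y : ℝ) :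
    gammaPDF 1 r x ^ (1 / 2 : ℝ) * gammaPDF 1 r y ^ (1 / 2 : ℝ) ≤
      gammaPDF 1 r ((1 / 2 : ℝ) • x + (1 / 2 : ℝ) • y) := by
  rcases lt_or_ge x 0 with hx | hx
  · rw [gammaPDF_of_neg hx, ENNReal.zero_rpow_of_pos (by norm_num), zero_mul]
    exact zero_le
  rcases lt_or_ge y 0 with hy | hy
  · rw [gammaPDF_of_neg hy, ENNReal.zero_rpow_of_pos (by norm_num), mul_zero]
    exact zero_le
  have hz : 0 ≤ (1 / 2 : ℝ) • x + (1 / 2 : ℝ) • y := by
    simp only [smul_eq_mul]
    positivity
  simp only [gammaPDF]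
  rw [cihr_pdf x hx, cihr_pdf y hy, cihr_pdf _ hz,
    ← ENNReal.mul_rpow_of_nonneg _ _ (by norm_num), ← ENNReal.ofReal_mul (by positivity),
    ENNReal.ofReal_rpow_of_nonneg (by positivity) (by norm_num)]
  refine le_of_eq (congrArg _ ?_)
  have e : r * Real.exp (-(r * x)) * (r * Real.exp (-(r * y))) =
      (r * Real.exp (-(r * ((1 / 2 : ℝ) • x + (1 / 2 : ℝ) • y)))) ^ 2 := by
    rw [mul_pow, sq (Real.exp _), ← Real.exp_add, mul_mul_mul_comm, ← Real.exp_add, sq]
    simp only [smul_eq_mul]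
    congr 2
    ring
  rw [e, ← Real.sqrt_eq_rpow, Real.sqrt_sq (by positivity)]

theorem cihr_pl1 {r : ℝ} (hr : 0 < r) : Lib.PL.PLProp (1 / 2) (1 / 2) (gammaMeasure 1 r) := by
  intro f g h hf hg hh H
  have hρ : Measurable (gammaPDF 1 r) := (measurable_gammaPDFReal 1 r).ennreal_ofReal
  simp only [gammaMeasure]
  rw [lintegral_withDensity_eq_lintegral_mul _ hρ hf, lintegral_withDensity_eq_lintegral_mul _ hρ hg,
    lintegral_withDensity_eq_lintegral_mul _ hρ hh]
  refine Lib.PL.plProp_real (by norm_num) (by norm_num) (by norm_num) _ _ _ (hρ.mul hf) (hρ.mul hg)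
    (hρ.mul hh) (fun x y => ?_)
  simp only [Pi.mul_apply]
  rw [ENNReal.mul_rpow_of_nonneg _ _ (by norm_num), ENNReal.mul_rpow_of_nonneg _ _ (by norm_num),
    mul_mul_mul_comm]
  exact mul_le_mul' (cihr_lc hr x y) (H x y)

theorem cihr_plfin {μ : Measure ℝ} [IsProbabilityMeasure μ] (hμ : Lib.PL.PLProp (1 / 2) (1 / 2) μ)
    (n : ℕ) : Lib.PL.PLProp (1 / 2) (1 / 2) (Measure.pi (fun _ : Fin n => μ)) := by
  induction n with
  | zero =>
    intro f g h hf hg hh H
    rw [Measure.pi_of_empty _ (0 : Fin 0 → ℝ)]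
    simp only [lintegral_dirac]
    simpa using H 0 0
  | succ n ih =>
    refine (hμ.prod ih).of_measurePreserving
      ((measurePreserving_piFinSuccAbove (fun _ : Fin (n + 1) => μ) 0).symm _) ?_
    rintro ⟨x, u⟩ ⟨y, v⟩
    ext i
    refine Fin.cases ?_ (fun j => ?_) i <;>
      simp [MeasurableEquiv.piFinSuccAbove_symm_apply, Fin.insertNthEquiv]

theorem cihr_plpi {μ : Measure ℝ} [IsProbabilityMeasure μ] (hμ : Lib.PL.PLProp (1 / 2) (1 / 2) μ)
    (ι : Type) [Fintype ι] : Lib.PL.PLProp (1 / 2) (1 / 2) (Measure.pi (fun _ : ι => μ)) := by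
  refine (cihr_plfin hμ (Fintype.card ι)).of_measurePreserving
    (measurePreserving_piCongrLeft (fun _ : ι => μ) (Fintype.equivFin ι).symm) ?_
  intro x y
  ext i
  simp [MeasurableEquiv.coe_piCongrLeft, Equiv.piCongrLeft_apply]

/-- multiplicative Brunn-Minkowski at the midpoint for a product of exponential laws -/
theorem exp_pi_mid {r : ℝ} (hr : 0 < r) {ι : Type} [Fintype ι] {A B C : Set (ι → ℝ)}
    (hA : MeasurableSet A) (hB : MeasurableSet B) (hC : MeasurableSet C)
    (h : ∀ x ∈ A, ∀ y ∈ B, (1 / 2 : ℝ) • x + (1 / 2 : ℝ) • y ∈ C) :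
    (Measure.pi (fun _ : ι => gammaMeasure 1 r)).real A *
        (Measure.pi (fun _ : ι => gammaMeasure 1 r)).real B ≤
      (Measure.pi (fun _ : ι => gammaMeasure 1 r)).real C ^ 2 := by
  have := isProbabilityMeasure_gammaMeasure one_pos hr
  have key := cihr_plpi (cihr_pl1 hr) ι (A.indicator 1) (B.indicator 1) (C.indicator 1)
    (measurable_one.indicator hA) (measurable_one.indicator hB) (measurable_one.indicator hC) (by
      intro x y
      by_cases hx : x ∈ A
      · by_cases hy : y ∈ B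
        · rw [Set.indicator_of_mem hx, Set.indicator_of_mem hy, Set.indicator_of_mem (h x hx y hy)]
          simp
        · rw [Set.indicator_of_notMem hy, ENNReal.zero_rpow_of_pos (by norm_num), mul_zero]
          exact zero_le
      · rw [Set.indicator_of_notMem hx, ENNReal.zero_rpow_of_pos (by norm_num), zero_mul]
        exact zero_le)
  rw [lintegral_indicator_one hA, lintegral_indicator_one hB, lintegral_indicator_one hC,
    ← ENNReal.mul_rpow_of_nonneg _ _ (by norm_num)] at key
  have k2 := ENNReal.toReal_mono (measure_ne_top _ _) key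
  rw [← ENNReal.toReal_rpow, ENNReal.toReal_mul, ← Real.sqrt_eq_rpow] at k2
  exact (Real.sqrt_le_left ENNReal.toReal_nonneg).1 k2

theorem midLC_gamma {r : ℝ} (hr : 0 < r) : MidLC (gammaMeasure 1 r) := by
  have := isProbabilityMeasure_gammaMeasure one_pos hr
  intro D hD S hS s d
  set U : Finset (Sym2 V) := (hD.toFinset ×ˢ hD.toFinset).image (fun p => s(p.1, p.2)) with hU
  set ex : (U → ℝ) → Env := fun x e => if h : e ∈ U then x ⟨e, h⟩ else 0 with hex
  have mex : Measurable ex := by
    refine measurable_pi_lambda _ (fun e => ?_)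
    by_cases h : e ∈ U
    · simp only [hex, h, dif_pos]
      exact measurable_pi_apply _
    · simp only [hex, h, dif_neg, not_false_eq_true]
      exact measurable_const
  have htot : ∀ γ ∈ S, ∀ t : Env, γ.tot (ex (U.restrict t)) = γ.tot t := by
    intro γ hγ t
    refine γ.cost_congr (fun i _ hi => ?_)
    have : γ.edge i ∈ U := Finset.mem_image.2 ⟨(γ.p i, γ.p (i + 1)), Finset.mem_product.2
      ⟨hD.mem_toFinset.2 (hS γ hγ i hi.le), hD.mem_toFinset.2 (hS γ hγ (i + 1) hi)⟩, rfl⟩
    simp only [hex, this, dif_pos, Finset.restrict]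
  have hPr : ∀ c : ℝ, Pr (gammaMeasure 1 r) (GT S c) =
      (Measure.pi (fun _ : U => gammaMeasure 1 r)).real (ex ⁻¹' GT S c) := by
    intro c
    rw [← Measure.infinitePi_map_restrict (fun _ : Sym2 V => gammaMeasure 1 r),
      map_measureReal_apply (Finset.measurable_restrict U) (mex (measurableSet_GT S c))]
    unfold Pr iidLaw
    congr 1
    ext t
    simp only [GT, Set.mem_preimage, Set.mem_ofPred_eq]
    exact forall₂_congr fun γ hγ => by rw [htot γ hγ t]
  rw [hPr, hPr, hPr]
  refine exp_pi_mid hr (mex (measurableSet_GT S _)) (mex (measurableSet_GT S _))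
    (mex (measurableSet_GT S _)) (fun x hx y hy γ hγ => ?_)
  have h1 := hx γ hγ
  have h2 := hy γ hγ
  have e : γ.tot (ex ((1 / 2 : ℝ) • x + (1 / 2 : ℝ) • y)) =
      1 / 2 * γ.tot (ex x) + 1 / 2 * γ.tot (ex y) := by
    simp only [Pth.tot, Pth.cost, Finset.mul_sum, ← Finset.sum_add_distrib]
    refine Finset.sum_congr rfl (fun i _ => ?_)
    by_cases h : γ.edge i ∈ U
    · simp only [hex, h, dif_pos, Pi.add_apply, Pi.smul_apply, smul_eq_mul]
    · simp [hex, h]
  rw [e]
  linarith

theorem expL_gamma {r : ℝ} (hr : 0 < r) : ExpL (gammaMeasure 1 r) := by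
  have := isProbabilityMeasure_gammaMeasure one_pos hr
  have hρ : Measurable (gammaPDF 1 r) := (measurable_gammaPDFReal 1 r).ennreal_ofReal
  refine ⟨?_, fun ε hε => ?_, midLC_gamma hr⟩
  · rw [memLp_two_iff_integrable_sq measurable_id'.aestronglyMeasurable]
    simp only [gammaMeasure]
    rw [integrable_withDensity_iff hρ (Eventually.of_forall fun x => ENNReal.ofReal_lt_top)]
    have h1 := (integrableOn_rpow_mul_exp_neg_mul_rpow (p := 1) (s := 2) (b := r) (by norm_num)
      one_pos hr).const_mul r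
    have h2 := (integrable_indicator_iff measurableSet_Ioi).2 h1
    refine h2.congr (Eventually.of_forall fun x => ?_)
    simp only [gammaPDF]
    rw [ENNReal.toReal_ofReal (gammaPDFReal_nonneg one_pos hr x)]
    rcases lt_trichotomy x 0 with hx | hx | hx
    · simp [gammaPDFReal, not_le.2 hx, not_lt.2 hx.le]
    · simp [hx]
    · rw [cihr_pdf x hx.le, Set.indicator_of_mem (show x ∈ Set.Ioi 0 from hx), Real.rpow_one,
        Real.rpow_two, neg_mul]
      ring
  · refine ENNReal.toReal_pos (fun h0 => ?_) (measure_ne_top _ _)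
    simp only [gammaMeasure] at h0
    rw [withDensity_apply_eq_zero hρ] at h0
    have h1 : Set.Ioc 0 ε ⊆ {x | gammaPDF 1 r x ≠ 0} ∩ Set.Icc 0 ε := fun x hx =>
      ⟨(ENNReal.ofReal_pos.2 (gammaPDFReal_pos one_pos hr hx.1)).ne', hx.1.le, hx.2⟩
    have h2 := measure_mono_null h1 h0
    rw [Real.volume_Ioc, ENNReal.ofReal_eq_zero] at h2
    linarith

end Crest.Agent.R151.PC
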