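import Crest.Agent.R151.CNum1

/-! Row 151, part C: the final numerical contradiction (C12). -/

set_option autoImplicit false

namespace Crest.Agent.R151.PC

open MeasureTheory ProbabilityTheory Filter Topology Crest.ProbabilityR.FirstPassage
open scoped Classical

theorem cnum2_env {M U : ℕ → ℝ} (hU : ∀ i k, M (i + k) ≤ lam ^ k * U i)
    (hU' : ∀ i B, (∀ k, M (i + k) ≤ lam ^ k * B) → U i ≤ B) (j l : ℕ) :
    U (j + l) ≤ lam ^ l * U j :=
  hU' _ _ fun k => by
    have := hU j (l + k)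
    rw [← add_assoc, pow_add] at this
    linarith [mul_left_comm (lam ^ k) (lam ^ l) (U j), mul_assoc (lam ^ l) (lam ^ k) (U j)]

theorem cnum2_geom (n : ℕ) : ∑ j ∈ Finset.range n, (2 : ℝ) ^ j ≤ 2 ^ n := by
  induction n with
  | zero => simp
  | succ n ih => rw [Finset.sum_range_succ, pow_succ]; linarith

theorem cnum2_pow_sum (S : Finset ℕ) {B : ℝ} (hB : 0 ≤ B) (h : ∀ j ∈ S, (2 : ℝ) ^ j < B) :
    ∑ j ∈ S, (2 : ℝ) ^ j ≤ 2 * B := by
  rcases S.eq_empty_or_nonempty with rfl | hS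
  · simp only [Finset.sum_empty]; positivity
  · have h1 : S ⊆ Finset.range (S.max' hS + 1) := fun j hj =>
      Finset.mem_range.2 (Nat.lt_succ_of_le (S.le_max' j hj))
    refine (Finset.sum_le_sum_of_subset_of_nonneg h1 fun _ _ _ => by positivity).trans
      ((cnum2_geom _).trans ?_)
    have := h _ (S.max'_mem hS)
    rw [pow_succ]
    linarith

/-- bootstrap: the envelope is comparable to `M` -/
theorem numeric_boot (M U : ℕ → ℝ) (κ : ℝ) (j0 : ℕ) (hκ0 : 0 ≤ κ) (hκ : κ ≤ 1 / 4)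
    (hM0 : ∀ j, 0 ≤ M j) (hU : ∀ i k, M (i + k) ≤ lam ^ k * U i)
    (hU' : ∀ i B, (∀ k, M (i + k) ≤ lam ^ k * B) → U i ≤ B)
    (hrec : ∀ l, j0 ≤ l → M (l + 1) ≤ M l + κ * U l) : ∀ j, j0 ≤ j → U j ≤ 2 * M j := by
  intro j hj
  have hUj : 0 ≤ U j := by
    have := hU j 0
    simp only [add_zero, pow_zero, one_mul] at this
    exact (hM0 j).trans this
  have key : ∀ k, M (j + k) ≤ M j + 8 / 7 * κ * (lam ^ k * U j) := by
    intro k
    induction k with
    | zero =>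
      simp only [add_zero, pow_zero, one_mul]
      have : 0 ≤ 8 / 7 * κ * U j := by positivity
      linarith
    | succ k ih =>
      have h1 := hrec (j + k) (by omega)
      have h2 := mul_le_mul_of_nonneg_left (cnum2_env hU hU' j k) hκ0
      rw [← add_assoc, pow_succ]
      have e : 8 / 7 * κ * (lam ^ k * lam * U j) =
          8 / 7 * κ * (lam ^ k * U j) + κ * (lam ^ k * U j) := by
        unfold lam; ring
      linarith
  have h := hU' j (M j + 8 / 7 * κ * U j) fun k => (key k).trans (by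
    have h1 : 1 ≤ lam ^ k := one_le_pow₀ (by unfold lam; norm_num)
    have h2 := mul_le_mul_of_nonneg_right h1 (hM0 j)
    nlinarith)
  have h3 := mul_le_mul_of_nonneg_right hκ hUj
  linarith [hM0 j]

/-- the sum of the ratios `2^(j - I j)` is `o(log)` -/
theorem numeric_sum (w : ℕ → ℝ) (hw : Small w) (C : ℝ) (I : ℕ → ℕ) (j0 : ℕ)
    (h1 : ∀ j, j0 ≤ j → (2 : ℝ) ^ j < C * w (I j + 1) * 2 ^ (I j + 1))
    (h2 : ∀ j, j0 ≤ j → I j ≤ 3 * j) {ε : ℝ} (hε : 0 < ε) :
    ∀ᶠ J : ℕ in atTop, ∑ j ∈ Finset.Ico j0 J, (2 : ℝ) ^ j / 2 ^ (I j) ≤ ε * Real.log J := by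
  have hC : 0 < C := by
    by_contra hC
    have h := h1 j0 le_rfl
    have h3 : C * w (I j0 + 1) ≤ 0 := mul_nonpos_of_nonpos_of_nonneg (not_lt.1 hC) (hw.1 _)
    have h4 : C * w (I j0 + 1) * 2 ^ (I j0 + 1) ≤ 0 :=
      mul_nonpos_of_nonpos_of_nonneg h3 (by positivity)
    have h5 : (0 : ℝ) < 2 ^ j0 := by positivity
    linarith
  have ht : Tendsto (fun J : ℕ => 3 * J + 2) atTop atTop :=
    tendsto_atTop_mono (fun J => by show J ≤ 3 * J + 2; omega) tendsto_id
  filter_upwards [ht.eventually (hw.2.2 (ε / (8 * C)) (by positivity)), eventually_ge_atTop 4]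
    with J hJ hJ4
  have hmap : ∀ j ∈ Finset.Ico j0 J, I j ∈ Finset.range (3 * J + 1) := fun j hj => by
    have := Finset.mem_Ico.1 hj
    have := h2 j this.1
    exact Finset.mem_range.2 (by omega)
  rw [← Finset.sum_fiberwise_of_maps_to hmap]
  have hfib : ∀ i ∈ Finset.range (3 * J + 1),
      ∑ j ∈ (Finset.Ico j0 J).filter (fun j => I j = i), (2 : ℝ) ^ j / 2 ^ (I j) ≤
        4 * C * w (i + 1) := by
    intro i _
    have hw0 := hw.1 (i + 1)
    rw [Finset.sum_congr rfl (g := fun j => (2 : ℝ) ^ j / 2 ^ i)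
      (fun j hj => by rw [(Finset.mem_filter.1 hj).2]), ← Finset.sum_div,
      div_le_iff₀ (by positivity)]
    refine (cnum2_pow_sum _ (B := C * w (i + 1) * 2 ^ (i + 1)) (by positivity) fun j hj => ?_).trans
      (le_of_eq (by ring))
    obtain ⟨hj1, hj2⟩ := Finset.mem_filter.1 hj
    rw [← hj2]
    exact h1 j (Finset.mem_Ico.1 hj1).1
  refine (Finset.sum_le_sum hfib).trans ?_
  rw [← Finset.mul_sum]
  have h5 : ∑ i ∈ Finset.range (3 * J + 1), w (i + 1) ≤ ∑ i ∈ Finset.range (3 * J + 2), w i := by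
    rw [Finset.sum_range_succ' w (3 * J + 1)]
    linarith [hw.1 0]
  have hJ' : (4 : ℝ) ≤ J := by exact_mod_cast hJ4
  have h6 : Real.log ((3 * J + 2 : ℕ) : ℝ) ≤ 2 * Real.log J := by
    rw [show (2 : ℝ) * Real.log J = Real.log ((J : ℝ) ^ 2) by rw [Real.log_pow]; norm_num]
    refine Real.log_le_log (by positivity) ?_
    push_cast
    nlinarith
  calc 4 * C * ∑ i ∈ Finset.range (3 * J + 1), w (i + 1)
      ≤ 4 * C * (ε / (8 * C) * (2 * Real.log J)) :=
        mul_le_mul_of_nonneg_left (h5.trans (hJ.trans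
          (mul_le_mul_of_nonneg_left h6 (by positivity)))) (by positivity)
    _ = _ := by field_simp; ring

theorem numeric_contra (M U w : ℕ → ℝ) (c C : ℝ) (i0 : ℕ) (hc : 0 < c) (hC : 0 < C)
    (hlow : ∀ j : ℕ, c * ((j : ℝ) + 1) ≤ M j) (hU : ∀ i k, M (i + k) ≤ lam ^ k * U i)
    (hU' : ∀ i B, (∀ k, M (i + k) ≤ lam ^ k * B) → U i ≤ B) (hw : Small w)
    (hrec : ∀ i j, i0 ≤ i → C * w i * 2 ^ i ≤ 2 ^ j → j + 3 ≤ i →
      M (j + 1) ≤ M j + C * U i * 2 ^ j / 2 ^ i) : False := by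
  have hw' := hw.add small_inv_sq
  set v : ℕ → ℝ := fun i => w i + 1 / ((i : ℝ) + 1) ^ 2 with hv
  have hv1 : ∀ i : ℕ, 1 / ((i : ℝ) + 1) ^ 2 ≤ v i := fun i => le_add_of_nonneg_left (hw.1 i)
  have hrec' : ∀ i j, i0 ≤ i → C * v i * 2 ^ i ≤ 2 ^ j → j + 3 ≤ i →
      M (j + 1) ≤ M j + C * U i * 2 ^ j / 2 ^ i := fun i j h1 h2 h3 =>
    hrec i j h1 (le_trans (mul_le_mul_of_nonneg_right (mul_le_mul_of_nonneg_left
      (le_add_of_nonneg_right (by positivity)) hC.le) (by positivity)) h2) h3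
  have hM0 : ∀ j, 0 ≤ M j := fun j => le_trans (by positivity) (hlow j)
  have hl0 : 0 < lam := by unfold lam; norm_num
  -- the shift `c₀`
  obtain ⟨c0, hc0, hκ⟩ : ∃ c0 : ℕ, 3 ≤ c0 ∧ C * (lam / 2) ^ c0 ≤ 1 / 4 := by
    have h := (tendsto_pow_atTop_nhds_zero_of_lt_one (r := lam / 2) (by positivity)
      (by unfold lam; norm_num)).const_mul C
    rw [mul_zero] at h
    exact ((eventually_ge_atTop 3).and (h.eventually (ge_mem_nhds (by norm_num)))).exists
  obtain ⟨j0, hj0⟩ : ∃ j0 : ℕ, ∀ j, j0 ≤ j → i0 ≤ j ∧ C * v j * 2 ^ c0 ≤ 1 ∧ c0 ≤ j ∧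
      (2 : ℝ) ^ j < C * v (3 * j + 1) * 2 ^ (3 * j + 1) := by
    have h := (hw'.2.1.const_mul C).mul_const ((2 : ℝ) ^ c0)
    rw [mul_zero, zero_mul] at h
    refine eventually_atTop.1 ((eventually_ge_atTop i0).and ((h.eventually
      (ge_mem_nhds (by norm_num))).and ((eventually_ge_atTop c0).and ?_)))
    filter_upwards [eventually_poly_lam (9 / C) 2] with j hj
    have h1 : 1 ≤ lam ^ j := one_le_pow₀ (by unfold lam; norm_num)
    have h2 : 9 / C * ((j : ℝ) + 1) ^ 2 ≤ 2 ^ j :=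
      (le_mul_of_one_le_right (by positivity) h1).trans hj
    have h3 := hv1 (3 * j + 1)
    have hj0 : (0 : ℝ) ≤ j := Nat.cast_nonneg j
    have h4 : 1 / (9 * ((j : ℝ) + 1) ^ 2) ≤ v (3 * j + 1) := by
      refine le_trans (one_div_le_one_div_of_le (by positivity) ?_) h3
      push_cast
      nlinarith
    have h5 : 1 ≤ C * v (3 * j + 1) * 2 ^ j := by
      calc (1 : ℝ) = C * (1 / (9 * ((j : ℝ) + 1) ^ 2)) * (9 / C * ((j : ℝ) + 1) ^ 2) := by
            field_simp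
        _ ≤ _ := mul_le_mul (mul_le_mul_of_nonneg_left h4 hC.le) h2 (by positivity)
            (mul_nonneg hC.le (hw'.1 _))
    have h6 : (1 : ℝ) ≤ 2 ^ j := one_le_pow₀ (by norm_num)
    have e : (2 : ℝ) ^ (3 * j + 1) = 2 ^ j * (2 ^ j * 2 ^ j * 2) := by ring
    rw [e, ← mul_assoc]
    have h7 : (2 : ℝ) ^ j < 2 ^ j * 2 ^ j * 2 := by nlinarith
    exact h7.trans_le (le_mul_of_one_le_left (by positivity) h5)
  have hbase : ∀ l, j0 ≤ l → C * v (l + c0) * 2 ^ (l + c0) ≤ 2 ^ l := fun l hl => by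
    have := mul_le_mul_of_nonneg_right (hj0 (l + c0) (by omega)).2.1
      (show (0 : ℝ) ≤ 2 ^ l by positivity)
    rw [pow_add]
    linarith [mul_assoc (C * v (l + c0)) (2 ^ c0) ((2 : ℝ) ^ l),
      mul_comm ((2 : ℝ) ^ l) (2 ^ c0)]
  have hboot := numeric_boot M U (C * (lam / 2) ^ c0) j0 (by positivity) hκ hM0 hU hU' fun l hl => by
    refine (hrec' (l + c0) l ((hj0 l hl).1.trans (by omega)) (hbase l hl) (by omega)).trans ?_
    have h1 := cnum2_env hU hU' l c0
    have e : C * (lam / 2) ^ c0 * U l = C * (lam ^ c0 * U l) * 2 ^ l / 2 ^ (l + c0) := by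
      rw [div_pow, pow_add]; field_simp
    rw [e]
    gcongr
  -- the index `I j`
  have hex : ∀ j, j0 ≤ j → ∃ i, j + c0 ≤ i ∧ (2 : ℝ) ^ j < C * v (i + 1) * 2 ^ (i + 1) :=
    fun j hj => ⟨3 * j, by have := (hj0 j hj).2.2.1; omega, (hj0 j hj).2.2.2⟩
  set I : ℕ → ℕ := fun j => if h : j0 ≤ j then Nat.find (hex j h) else 0 with hI
  have hI1 : ∀ j, j0 ≤ j → j + c0 ≤ I j ∧ (2 : ℝ) ^ j < C * v (I j + 1) * 2 ^ (I j + 1) :=
    fun j hj => by
      simp only [hI, dif_pos hj]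
      exact Nat.find_spec (hex j hj)
  have hI2 : ∀ j, j0 ≤ j → I j ≤ 3 * j := fun j hj => by
    simp only [hI, dif_pos hj]
    exact Nat.find_min' _ ⟨by have := (hj0 j hj).2.2.1; omega, (hj0 j hj).2.2.2⟩
  have hI3 : ∀ j, j0 ≤ j → C * v (I j) * 2 ^ (I j) ≤ 2 ^ j := fun j hj => by
    rcases (hI1 j hj).1.eq_or_lt with h | h
    · rw [← h]; exact hbase j hj
    · obtain ⟨i, hi⟩ : ∃ i, I j = i + 1 := ⟨I j - 1, by omega⟩
      have h1 : i < Nat.find (hex j hj) := by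
        have : I j = Nat.find (hex j hj) := by simp only [hI, dif_pos hj]
        omega
      have h2 := Nat.find_min (hex j hj) h1
      rw [hi]
      exact not_lt.1 fun h3 => h2 ⟨by omega, h3⟩
  have hstep : ∀ j, j0 ≤ j →
      M (j + 1) ≤ M j * Real.exp (4 * C * lam ^ c0 * (2 ^ j / 2 ^ (I j))) := by
    intro j hj
    obtain ⟨n, hn⟩ : ∃ n, I j = j + n + c0 := ⟨I j - c0 - j, by have := (hI1 j hj).1; omega⟩
    have hi0 : i0 ≤ I j := (hj0 j hj).1.trans (by omega)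
    have hU0 : 0 ≤ U (I j) := by
      have := hU (I j) 0
      simp only [add_zero, pow_zero, one_mul] at this
      exact (hM0 _).trans this
    have h1 : ∀ k, k ≤ n → M (j + k) ≤ M j + C * U (I j) * 2 ^ (j + k) / 2 ^ (I j) := by
      intro k
      induction k with
      | zero =>
        intro _
        have : 0 ≤ C * U (I j) * 2 ^ (j + 0) / 2 ^ (I j) := by positivity
        simp only [add_zero] at this ⊢
        linarith
      | succ k ih =>
        intro hk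
        have h2 := hrec' (I j) (j + k) hi0 ((hI3 j hj).trans
          (pow_le_pow_right₀ (by norm_num) (by omega))) (by omega)
        have h3 := ih (by omega)
        have e : C * U (I j) * 2 ^ (j + (k + 1)) / 2 ^ (I j) =
            2 * (C * U (I j) * 2 ^ (j + k) / 2 ^ (I j)) := by
          rw [← add_assoc, pow_succ]; ring
        rw [e, ← add_assoc]
        linarith
    have h2 := h1 n le_rfl
    have h3 : U (I j) ≤ lam ^ c0 * (2 * M (j + n)) := by
      rw [hn]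
      exact (cnum2_env hU hU' (j + n) c0).trans
        (mul_le_mul_of_nonneg_left (hboot _ (by omega)) (by positivity))
    have h4 : C * U (I j) * 2 ^ (j + n) / 2 ^ (I j) ≤ C * (lam / 2) ^ c0 * (2 * M (j + n)) := by
      have e : C * (lam / 2) ^ c0 * (2 * M (j + n)) =
          C * (lam ^ c0 * (2 * M (j + n))) * 2 ^ (j + n) / 2 ^ (I j) := by
        rw [hn, div_pow, pow_add (2 : ℝ) (j + n)]; field_simp
      rw [e]
      gcongr
    have h5 := mul_le_mul_of_nonneg_right hκ (show 0 ≤ 2 * M (j + n) by linarith [hM0 (j + n)])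
    have h6 : U (I j) ≤ lam ^ c0 * (4 * M j) :=
      h3.trans (mul_le_mul_of_nonneg_left (by linarith) (by positivity))
    refine (hrec' (I j) j hi0 (hI3 j hj) (by omega)).trans ?_
    have h7 : C * U (I j) * 2 ^ j / 2 ^ (I j) ≤ C * (lam ^ c0 * (4 * M j)) * 2 ^ j / 2 ^ (I j) := by
      gcongr
    have h8 := mul_le_mul_of_nonneg_left
      (Real.add_one_le_exp (4 * C * lam ^ c0 * (2 ^ j / 2 ^ (I j)))) (hM0 j)
    have e : C * (lam ^ c0 * (4 * M j)) * 2 ^ j / 2 ^ (I j) =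
        M j * (4 * C * lam ^ c0 * (2 ^ j / 2 ^ (I j))) := by ring
    linarith [mul_add (M j) (4 * C * lam ^ c0 * (2 ^ j / 2 ^ (I j))) 1]
  have hprod : ∀ J, j0 ≤ J → M J ≤ M j0 *
      Real.exp (4 * C * lam ^ c0 * ∑ j ∈ Finset.Ico j0 J, (2 : ℝ) ^ j / 2 ^ (I j)) := by
    intro J hJ
    induction J, hJ using Nat.le_induction with
    | base => simp
    | succ J hJ ih =>
      rw [Finset.sum_Ico_succ_top hJ, mul_add, Real.exp_add, ← mul_assoc]
      exact (hstep J hJ).trans (mul_le_mul_of_nonneg_right ih (Real.exp_pos _).le)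
  have hD : 0 < 4 * C * lam ^ c0 := by positivity
  have hsum := numeric_sum v hw' C I j0 (fun j hj => (hI1 j hj).2) hI2
    (ε := 1 / (2 * (4 * C * lam ^ c0))) (by positivity)
  obtain ⟨J, hJ1, hJ2, hJ3, hJ4⟩ := (hsum.and ((eventually_ge_atTop j0).and
    ((eventually_ge_atTop 1).and (tendsto_natCast_atTop_atTop.eventually
      (eventually_ge_atTop ((M j0 / c) ^ 2)))))).exists
  have hJ0 : (0 : ℝ) < J := by exact_mod_cast hJ3
  have h1 : Real.exp (4 * C * lam ^ c0 * ∑ j ∈ Finset.Ico j0 J, (2 : ℝ) ^ j / 2 ^ (I j)) ≤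
      Real.sqrt J := by
    rw [Real.sqrt_eq_rpow, Real.rpow_def_of_pos hJ0]
    refine Real.exp_le_exp.2 ((mul_le_mul_of_nonneg_left hJ1 hD.le).trans (le_of_eq ?_))
    field_simp
  have h2 : M j0 / c ≤ Real.sqrt J := Real.le_sqrt_of_sq_le hJ4
  rw [div_le_iff₀ hc] at h2
  have h3 := (hlow J).trans ((hprod J hJ2).trans (mul_le_mul_of_nonneg_left h1 (hM0 j0)))
  have h4 := mul_le_mul_of_nonneg_right h2 (Real.sqrt_nonneg (J : ℝ))
  have h5 := Real.mul_self_sqrt hJ0.le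
  have h6 : Real.sqrt J * c * Real.sqrt J = c * J := by
    linear_combination c * h5
  linarith [mul_add c (J : ℝ) 1]

end Crest.Agent.R151.PC
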