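import Crest.Agent.R151.CSide
import Crest.Agent.R151.CNum2
import Crest.Agent.R151.CGeo0
import Crest.Agent.R151.CIHR1
import Crest.Agent.R151.TLink

/-! Row 151, part C: the limit shape of exponential first-passage percolation is strictly convex. -/

set_option autoImplicit false

namespace Crest.Agent.R151

open MeasureTheory ProbabilityTheory Filter Topology Crest.ProbabilityR.FirstPassage
open scoped Classical

namespace PC

theorem no_face {G : Measure ℝ} [Law G] {F : FD} (hE : ExpL G) (hF : IsFace (mu G) F) : False := by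
  obtain ⟨w1, C1, i1, hw1, hC1, h1⟩ := side_rec hE hF
  obtain ⟨w2, C2, i2, hw2, hC2, h2⟩ := side_rec hE (hF.mir (mu_ok G))
  obtain ⟨c, hc, hlow⟩ := M_lower hE hF
  refine numeric_contra (F.M G) (F.Ub G) (fun i => w1 i + w2 i) c (C1 + C2) (max i1 i2) hc
    (by positivity) hlow (M_le_Ub hE hF) (fun i B hB => Ub_le i hB) (hw1.add hw2) ?_
  intro i j hi hw hj
  have hU : 0 ≤ F.Ub G i := le_trans zero_le_one (one_le_Ub hE hF i)
  have hM : 1 ≤ F.M G j := one_le_M hE hF j
  have a1 := hw1.1 i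
  have a2 := hw2.1 i
  have p2 : (0 : ℝ) < 2 ^ i := by positivity
  have hE0 : 0 ≤ F.Ub G i * 2 ^ j / 2 ^ i := by positivity
  have e1 : ∀ C : ℝ, C * F.Ub G i * 2 ^ j / 2 ^ i = C * (F.Ub G i * 2 ^ j / 2 ^ i) := by
    intro C; ring
  have hw1' : C1 * w1 i * 2 ^ i ≤ 2 ^ j := by
    refine le_trans (mul_le_mul_of_nonneg_right ?_ p2.le) hw
    nlinarith [mul_nonneg hC1.le a2, mul_nonneg hC2.le a1, mul_nonneg hC2.le a2]
  have hw2' : C2 * w2 i * 2 ^ i ≤ 2 ^ j := by
    refine le_trans (mul_le_mul_of_nonneg_right ?_ p2.le) hw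
    nlinarith [mul_nonneg hC1.le a2, mul_nonneg hC2.le a1, mul_nonneg hC1.le a1]
  have key : F.M G (j + 1) ≤ 1 + (F.M G j - 1 + (C1 + C2) * (F.Ub G i * 2 ^ j / 2 ^ i)) := by
    refine M_le (by nlinarith [mul_nonneg (add_pos hC1 hC2).le hE0]) ?_
    rintro v (hv | hv) hv1
    · have := h2 i j (le_trans (le_max_right _ _) hi) hw2' hj (reflY v) ((F.mir_V2 v).2 hv) hv1
      rw [fh_mir, M_mir, Ub_mir, e1] at this
      nlinarith [mul_nonneg hC1.le hE0]
    · have := h1 i j (le_trans (le_max_left _ _) hi) hw1' hj v hv hv1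
      rw [e1] at this
      nlinarith [mul_nonneg hC2.le hE0]
  rw [e1]
  linarith

end PC

theorem strict_exp (r : ℝ) (hr : 0 < r)
    (hd : ∀ v : ℝ × ℝ, v ≠ 0 → DifferentiableAt ℝ (mu (gammaMeasure 1 r)) v) :
    StrictConvex ℝ {v : ℝ × ℝ | mu (gammaMeasure 1 r) v ≤ 1} := by
  have : Law (gammaMeasure 1 r) := law_gamma one_pos hr
  by_contra hn
  obtain ⟨F, hF⟩ := PC.exists_face (mu_ok _) hd hn
  exact PC.no_face (PC.expL_gamma hr) hF

end Crest.Agent.R151
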