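import Crest.Agent.R151.TPath2

/-! Row 151 toolkit: restricted passage times and geodesics (deterministic facts). -/

set_option autoImplicit false

namespace Crest.Agent.R151

open MeasureTheory Crest.ProbabilityR.FirstPassage
open scoped Classical

/-- `x` and `z` are joined by a lattice path inside `D` -/
def Conn (D : Set V) (x z : V) : Prop := ∃ γ : Pth, γ.Joins D x z

/-- the lattice edges with both endpoints in `D` -/
def LE (D : Set V) : Set (Sym2 V) := {e | ∃ x y, x ∈ D ∧ y ∈ D ∧ Adj x y ∧ e = s(x, y)}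

theorem LE_subset_ED (D : Set V) : LE D ⊆ ED D := by
  rintro _ ⟨x, y, hx, hy, -, rfl⟩ w hw
  rcases Sym2.mem_iff.1 hw with rfl | rfl <;> assumption
theorem LE_mono {D D' : Set V} (h : D ⊆ D') : LE D ⊆ LE D' := by
  rintro _ ⟨x, y, hx, hy, ha, rfl⟩
  exact ⟨x, y, h hx, h hy, ha, rfl⟩
theorem coe_edgesIn (D : Finset V) : (edgesIn D : Set (Sym2 V)) = LE (D : Set V) := by
  ext e
  simp only [edgesIn, LE, Finset.coe_image, Finset.coe_filter, Finset.mem_product, Set.mem_image,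
    Set.mem_ofPred_eq, Finset.mem_coe]
  constructor
  · rintro ⟨⟨x, y⟩, ⟨⟨hx, hy⟩, ha⟩, rfl⟩
    exact ⟨x, y, hx, hy, ha, rfl⟩
  · rintro ⟨x, y, hx, hy, ha, rfl⟩
    exact ⟨(x, y), ⟨⟨hx, hy⟩, ha⟩, rfl⟩
theorem Pth.edge_mem_LE {γ : Pth} {D : Set V} (h : γ.Ok) (hD : γ.In D) {i : ℕ} (hi : i < γ.n) :
    γ.edge i ∈ LE D := by
  exact ⟨_, _, hD i hi.le, hD (i + 1) hi, h i hi, rfl⟩

theorem Conn.symm {D : Set V} {x z : V} (h : Conn D x z) : Conn D z x := by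
  obtain ⟨γ, hγ⟩ := h
  exact ⟨_, hγ.rev⟩
theorem Conn.trans {D : Set V} {x y z : V} (h : Conn D x y) (h' : Conn D y z) : Conn D x z := by
  obtain ⟨γ, hγ⟩ := h
  obtain ⟨δ, hδ⟩ := h'
  exact ⟨_, hγ.app hδ⟩
theorem Conn.mono {D D' : Set V} {x z : V} (h : Conn D x z) (hD : D ⊆ D') : Conn D' x z := by
  obtain ⟨γ, hγ⟩ := h
  exact ⟨_, hγ.mono hD⟩
theorem Conn.left_mem {D : Set V} {x z : V} (h : Conn D x z) : x ∈ D := by
  obtain ⟨γ, -, h1, rfl, -⟩ := h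
  exact h1 0 (Nat.zero_le _)
theorem Conn.right_mem {D : Set V} {x z : V} (h : Conn D x z) : z ∈ D := by
  obtain ⟨γ, -, h1, -, rfl⟩ := h
  exact h1 _ le_rfl
theorem conn_refl {D : Set V} {x : V} (h : x ∈ D) : Conn D x x := by
  obtain ⟨γ, -, -, hγ, -⟩ := Pth.exists_triv x
  exact ⟨γ, hγ.mono (Set.singleton_subset_iff.2 h)⟩
theorem conn_univ (x z : V) : Conn Set.univ x z := by
  obtain ⟨γ, -, hγ, -⟩ := Pth.exists_stair x z
  exact ⟨γ, hγ.mono (Set.subset_univ _)⟩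
theorem conn_rect {a b c d : ℤ} {x z : V} (hx : x ∈ rect a b c d) (hz : z ∈ rect a b c d) :
    Conn (rect a b c d) x z := by
  obtain ⟨γ, -, hγ, -⟩ := Pth.exists_stair x z
  refine ⟨γ, hγ.mono fun w hw => ?_⟩
  simp only [rect, Set.mem_ofPred_eq] at *
  omega
theorem conn_strip {a b : ℤ} {x z : V} (hx : x ∈ strip a b) (hz : z ∈ strip a b) :
    Conn (strip a b) x z := by
  obtain ⟨γ, -, hγ, -⟩ := Pth.exists_stair x z
  refine ⟨γ, hγ.mono fun w hw => ?_⟩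
  simp only [rect, strip, Set.mem_ofPred_eq] at *
  omega
theorem conn_box {c : V} {r : ℕ} {x z : V} (hx : x ∈ box c r) (hz : z ∈ box c r) :
    Conn (box c r) x z := by
  obtain ⟨γ, -, hγ, -⟩ := Pth.exists_stair x z
  refine ⟨γ, hγ.mono fun w hw => ?_⟩
  simp only [rect, box, nrm, Set.mem_ofPred_eq, Prod.fst_sub, Prod.snd_sub] at *
  omega
theorem conn_strip_inter_box {a b : ℤ} {c : V} {r : ℕ} {x z : V} (hx : x ∈ strip a b ∩ box c r)
    (hz : z ∈ strip a b ∩ box c r) : Conn (strip a b ∩ box c r) x z := by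
  obtain ⟨γ, -, hγ, -⟩ := Pth.exists_stair x z
  refine ⟨γ, hγ.mono fun w hw => ?_⟩
  simp only [rect, strip, box, nrm, Set.mem_inter_iff, Set.mem_ofPred_eq, Prod.fst_sub,
    Prod.snd_sub] at *
  omega
theorem Pth.conn_of_in {γ : Pth} {D : Set V} (h : γ.Ok) (hD : γ.In D) {i j : ℕ} (hi : i ≤ γ.n)
    (hj : j ≤ γ.n) : Conn D (γ.p i) (γ.p j) := by
  rcases le_total i j with hij | hij
  · exact ⟨_, Pth.sub_joins h hij hj fun k _ hk => hD k (hk.trans hj)⟩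
  · exact Conn.symm ⟨_, Pth.sub_joins h hij hi fun k _ hk => hD k (hk.trans hi)⟩

theorem Pos.nn {t : Env} (h : Pos t) : NN t := by
  exact fun e => (h e).le

theorem TPath3_not_conn {D : Set V} {x z : V} (h : ¬ Conn D x z) (t : Env) : TD D t x z = 0 := by
  have : {c | ∃ γ : Pth, γ.Joins D x z ∧ c = γ.tot t} = ∅ :=
    Set.eq_empty_of_forall_notMem fun c ⟨γ, hγ, _⟩ => h ⟨γ, hγ⟩
  rw [TD, this, Real.sInf_empty]
theorem TD_nonneg {t : Env} (ht : NN t) (D : Set V) (x z : V) : 0 ≤ TD D t x z := by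
  refine Real.sInf_nonneg ?_
  rintro _ ⟨γ, -, rfl⟩
  exact γ.tot_nonneg ht
theorem TD_le {t : Env} (ht : NN t) {D : Set V} {x z : V} {γ : Pth} (h : γ.Joins D x z) :
    TD D t x z ≤ γ.tot t := by
  refine csInf_le ⟨0, ?_⟩ ⟨γ, h, rfl⟩
  rintro _ ⟨γ, -, rfl⟩
  exact γ.tot_nonneg ht
theorem TD_le_cost {t : Env} (ht : NN t) {D : Set V} {γ : Pth} (h : γ.Ok) {i j : ℕ} (hij : i ≤ j)
    (hj : j ≤ γ.n) (hD : ∀ k, i ≤ k → k ≤ j → γ.p k ∈ D) :
    TD D t (γ.p i) (γ.p j) ≤ γ.cost t i j := by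
  rw [← γ.sub_tot t hij]
  exact TD_le ht (Pth.sub_joins h hij hj hD)
theorem T_le_cost {t : Env} (ht : NN t) {γ : Pth} (h : γ.Ok) {i j : ℕ} (hij : i ≤ j)
    (hj : j ≤ γ.n) : T t (γ.p i) (γ.p j) ≤ γ.cost t i j := by
  exact TD_le_cost ht h hij hj fun _ _ _ => Set.mem_univ _
theorem le_TD {t : Env} {D : Set V} {x z : V} (hc : Conn D x z) {c : ℝ}
    (h : ∀ γ : Pth, γ.Joins D x z → c ≤ γ.tot t) : c ≤ TD D t x z := by
  obtain ⟨γ, hγ⟩ := hc
  refine le_csInf ⟨_, γ, hγ, rfl⟩ ?_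
  rintro _ ⟨δ, hδ, rfl⟩
  exact h δ hδ
theorem le_TD_of_sa {t : Env} (ht : NN t) {D : Set V} {x z : V} (hc : Conn D x z) {c : ℝ}
    (h : ∀ γ : Pth, γ.Joins D x z → γ.SA → c ≤ γ.tot t) : c ≤ TD D t x z := by
  refine le_TD hc fun γ hγ => ?_
  obtain ⟨δ, h1, h2, -, -, h3⟩ := hγ.exists_sa
  exact (h δ h1 h2).trans (h3 t ht)
theorem exists_tot_lt {t : Env} (ht : NN t) {D : Set V} {x z : V} (hc : Conn D x z) {c : ℝ}
    (h : TD D t x z < c) : ∃ γ : Pth, γ.Joins D x z ∧ γ.SA ∧ γ.tot t < c := by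
  by_contra hn
  push Not at hn
  exact h.not_ge (le_TD_of_sa ht hc hn)
theorem TD_self {t : Env} (ht : NN t) (D : Set V) (x : V) : TD D t x x = 0 := by
  refine le_antisymm ?_ (TD_nonneg ht D x x)
  by_cases hx : x ∈ D
  · obtain ⟨γ, -, -, hγ, h0⟩ := Pth.exists_triv x
    rw [← h0 t]
    exact TD_le ht (hγ.mono (Set.singleton_subset_iff.2 hx))
  · exact (TPath3_not_conn (fun h => hx h.left_mem) t).le
theorem TD_symm (D : Set V) (t : Env) (x z : V) : TD D t x z = TD D t z x := by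
  unfold TD
  congr 1
  ext c
  constructor <;>
  · rintro ⟨γ, hγ, rfl⟩
    exact ⟨γ.rev, hγ.rev, (γ.rev_tot t).symm⟩
theorem TD_triangle {t : Env} (ht : NN t) {D : Set V} {x y z : V} (h1 : Conn D x y)
    (h2 : Conn D y z) : TD D t x z ≤ TD D t x y + TD D t y z := by
  have : TD D t x z - TD D t y z ≤ TD D t x y := le_TD h1 fun γ hγ => by
    have : TD D t x z - γ.tot t ≤ TD D t y z := le_TD h2 fun δ hδ => by
      have := TD_le ht (hγ.app hδ)
      rw [Pth.app_tot (hγ.2.2.2.trans hδ.2.2.1.symm)] at this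
      linarith
    linarith
  linarith
theorem TD_anti {t : Env} (ht : NN t) {D D' : Set V} (hD : D ⊆ D') {x z : V} (hc : Conn D x z) :
    TD D' t x z ≤ TD D t x z := by
  exact le_TD hc fun γ hγ => TD_le ht (hγ.mono hD)
theorem T_le_TD {t : Env} (ht : NN t) {D : Set V} {x z : V} (hc : Conn D x z) :
    T t x z ≤ TD D t x z := by
  exact TD_anti ht (Set.subset_univ D) hc
theorem TD_mono_env {t t' : Env} (ht : NN t) {D : Set V} (h : ∀ e ∈ LE D, t e ≤ t' e) (x z : V) :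
    TD D t x z ≤ TD D t' x z := by
  by_cases hc : Conn D x z
  · exact le_TD hc fun γ hγ => (TD_le ht hγ).trans
      (γ.cost_le_cost fun i _ hi => h _ (Pth.edge_mem_LE hγ.1 hγ.2.1 hi))
  · rw [TPath3_not_conn hc, TPath3_not_conn hc]
theorem TD_congr {t t' : Env} {D : Set V} (h : ∀ e ∈ LE D, t e = t' e) (x z : V) :
    TD D t x z = TD D t' x z := by
  unfold TD
  congr 1
  ext c
  constructor
  · rintro ⟨γ, hγ, rfl⟩
    exact ⟨γ, hγ, γ.cost_congr fun i _ hi => h _ (Pth.edge_mem_LE hγ.1 hγ.2.1 hi)⟩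
  · rintro ⟨γ, hγ, rfl⟩
    exact ⟨γ, hγ, (γ.cost_congr fun i _ hi => h _ (Pth.edge_mem_LE hγ.1 hγ.2.1 hi)).symm⟩
theorem TD_le_edge {t : Env} (ht : NN t) {D : Set V} {x y : V} (h : Adj x y) (hx : x ∈ D)
    (hy : y ∈ D) : TD D t x y ≤ t s(x, y) := by
  obtain ⟨γ, -, -, hγ, h0⟩ := Pth.exists_step h
  rw [← h0 t]
  exact TD_le ht (hγ.mono (Set.insert_subset hx (Set.singleton_subset_iff.2 hy)))
theorem T_nonneg {t : Env} (ht : NN t) (x z : V) : 0 ≤ T t x z := by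
  exact TD_nonneg ht _ x z
theorem T_self {t : Env} (ht : NN t) (x : V) : T t x x = 0 := by
  exact TD_self ht _ x
theorem T_symm (t : Env) (x z : V) : T t x z = T t z x := by
  exact TD_symm _ t x z
theorem T_triangle {t : Env} (ht : NN t) (x y z : V) : T t x z ≤ T t x y + T t y z := by
  exact TD_triangle ht (conn_univ x y) (conn_univ y z)
/-- chaining along any path: the passage time is at most the sum of the one-step passage times -/
theorem TD_le_sum_steps {t : Env} (ht : NN t) {D : Set V} {γ : Pth} (E : ℕ → Set V)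
    (hE : ∀ i < γ.n, E i ⊆ D ∧ Conn (E i) (γ.p i) (γ.p (i + 1))) (h0 : γ.p 0 ∈ D) :
    TD D t (γ.p 0) (γ.p γ.n) ≤ ∑ i ∈ Finset.range γ.n, TD (E i) t (γ.p i) (γ.p (i + 1)) := by
  have key : ∀ k ≤ γ.n, Conn D (γ.p 0) (γ.p k) ∧ TD D t (γ.p 0) (γ.p k) ≤
      ∑ i ∈ Finset.range k, TD (E i) t (γ.p i) (γ.p (i + 1)) := by
    intro k
    induction k with
    | zero => exact fun _ => ⟨conn_refl h0, by simp [TD_self ht]⟩
    | succ k ih =>
      intro hk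
      obtain ⟨h1, h2⟩ := ih (by omega)
      obtain ⟨h3, h4⟩ := hE k hk
      refine ⟨h1.trans (h4.mono h3), ?_⟩
      rw [Finset.sum_range_succ]
      exact (TD_triangle ht h1 (h4.mono h3)).trans (add_le_add h2 (TD_anti ht h3 h4))
  exact (key _ le_rfl).2

theorem IsGeo.joins {D : Set V} {t : Env} {γ : Pth} (h : IsGeo D t γ) :
    γ.Joins D (γ.p 0) (γ.p γ.n) := by
  exact ⟨h.1, h.2.1, rfl, rfl⟩
theorem IsGeo.cost_eq {D : Set V} {t : Env} (ht : NN t) {γ : Pth} (h : IsGeo D t γ) {a b : ℕ}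
    (hab : a ≤ b) (hb : b ≤ γ.n) : γ.cost t a b = TD D t (γ.p a) (γ.p b) := by
  obtain ⟨h1, h2, -, h4⟩ := h
  have ha : a ≤ γ.n := hab.trans hb
  have l : ∀ {i j : ℕ}, i ≤ j → j ≤ γ.n → TD D t (γ.p i) (γ.p j) ≤ γ.cost t i j :=
    fun hij hj => TD_le_cost ht h1 hij hj fun k _ hk => h2 k (hk.trans hj)
  refine le_antisymm ?_ (l hab hb)
  have t1 := TD_triangle ht (Pth.conn_of_in h1 h2 (Nat.zero_le _) ha)
    (Pth.conn_of_in h1 h2 ha le_rfl)
  have t2 := TD_triangle ht (Pth.conn_of_in h1 h2 ha hb) (Pth.conn_of_in h1 h2 hb le_rfl)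
  have c1 := γ.cost_add t (Nat.zero_le a) ha
  have c2 := γ.cost_add t hab hb
  have := l (Nat.zero_le a) ha
  have := l hb le_rfl
  unfold Pth.tot at h4
  linarith
theorem IsGeo.sub {D : Set V} {t : Env} (ht : NN t) {γ : Pth} (h : IsGeo D t γ) {a b : ℕ}
    (hab : a ≤ b) (hb : b ≤ γ.n) : IsGeo D t (γ.sub a b) := by
  refine ⟨h.1.sub a hb, h.2.1.sub a b, h.2.2.1.sub hab hb, ?_⟩
  rw [γ.sub_tot t hab, γ.sub_p_zero, γ.sub_p_last hab, h.cost_eq ht hab hb]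
theorem IsGeo.rev {D : Set V} {t : Env} {γ : Pth} (h : IsGeo D t γ) : IsGeo D t γ.rev := by
  refine ⟨h.1.rev, h.2.1.rev, h.2.2.1.rev, ?_⟩
  rw [h.joins.rev.2.2.1, h.joins.rev.2.2.2, γ.rev_tot, TD_symm, h.2.2.2]
/-- a geodesic of a larger domain that stays in a smaller one is a geodesic there -/
theorem IsGeo.restrict {D D' : Set V} {t : Env} (ht : NN t) {γ : Pth} (h : IsGeo D' t γ)
    (hD : D ⊆ D') (hin : γ.In D) : IsGeo D t γ := by
  have hj : γ.Joins D (γ.p 0) (γ.p γ.n) := ⟨h.1, hin, rfl, rfl⟩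
  refine ⟨h.1, hin, h.2.2.1, le_antisymm ?_ (TD_le ht hj)⟩
  rw [h.2.2.2]
  exact TD_anti ht hD ⟨γ, hj⟩
theorem IsGeo.congr {D : Set V} {t t' : Env} {γ : Pth} (h : IsGeo D t γ)
    (he : ∀ e ∈ LE D, t e = t' e) : IsGeo D t' γ := by
  refine ⟨h.1, h.2.1, h.2.2.1, ?_⟩
  rw [← TD_congr he, ← h.2.2.2]
  exact (γ.cost_congr fun i _ hi => he _ (Pth.edge_mem_LE h.1 h.2.1 hi)).symm
/-- lowering weights on the geodesic itself keeps it a geodesic -/
theorem IsGeo.lower {D : Set V} {t t' : Env} (ht' : NN t') {γ : Pth} (h : IsGeo D t γ)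
    (hle : ∀ e, t' e ≤ t e) (hoff : ∀ e, e ∉ γ.edges → t' e = t e) : IsGeo D t' γ := by
  have ht : NN t := fun e => (ht' e).trans (hle e)
  refine ⟨h.1, h.2.1, h.2.2.1, le_antisymm ?_ (TD_le ht' h.joins)⟩
  refine le_TD_of_sa ht' ⟨γ, h.joins⟩ fun δ hδ sδ => ?_
  have h1 := TD_le ht hδ
  rw [← h.2.2.2, Pth.tot_eq_sum_edges h.1 h.2.2.1, Pth.tot_eq_sum_edges hδ.1 sδ] at h1
  rw [Pth.tot_eq_sum_edges h.1 h.2.2.1, Pth.tot_eq_sum_edges hδ.1 sδ]
  have h2 : ∑ e ∈ δ.edges, (t e - t' e) ≤ ∑ e ∈ γ.edges, (t e - t' e) := by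
    rw [← Finset.sum_filter_of_ne (p := fun e => e ∈ γ.edges) fun e _ hne => by
      by_contra hc
      exact hne (by rw [hoff e hc, sub_self])]
    exact Finset.sum_le_sum_of_subset_of_nonneg (fun e he => (Finset.mem_filter.1 he).2)
      fun e _ _ => sub_nonneg.2 (hle e)
  rw [Finset.sum_sub_distrib, Finset.sum_sub_distrib] at h2
  linarith
/-- in a positive environment an optimal path is self-avoiding -/
theorem isGeo_of_tot_le {D : Set V} {t : Env} (ht : Pos t) {γ : Pth} {x z : V}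
    (h : γ.Joins D x z) (hle : γ.tot t ≤ TD D t x z) : IsGeo D t γ := by
  obtain ⟨h1, h2, rfl, rfl⟩ := h
  refine ⟨h1, h2, ?_, le_antisymm hle (TD_le ht.nn ⟨h1, h2, rfl, rfl⟩)⟩
  have key : ∀ i j, i < j → j ≤ γ.n → γ.p i ≠ γ.p j := by
    intro i j hij hj he
    have hi : i ≤ γ.n := hij.le.trans hj
    have t1 := TD_triangle ht.nn (Pth.conn_of_in h1 h2 (Nat.zero_le _) hi)
      (Pth.conn_of_in h1 h2 hi le_rfl)
    have l1 := TD_le_cost ht.nn h1 (Nat.zero_le i) hi fun k _ hk => h2 k (hk.trans hi)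
    have l2 := TD_le_cost ht.nn h1 hj le_rfl fun k _ hk => h2 k hk
    have c1 := γ.cost_add t (Nat.zero_le i) hi
    have c2 := γ.cost_add t hij.le hj
    have c3 : 0 < γ.cost t i j :=
      Finset.sum_pos (fun k _ => ht _) (Finset.nonempty_Ico.2 hij)
    rw [← he] at l2
    unfold Pth.tot at hle
    linarith
  intro i hi j hj he
  rcases lt_trichotomy i j with h | h | h
  · exact absurd he (key i j h hj)
  · exact h
  · exact absurd he.symm (key j i h hi)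
/-- in a finite domain geodesics exist for every nonnegative environment -/
theorem exists_geo_finite {D : Set V} (hD : D.Finite) {t : Env} (ht : NN t) {x z : V}
    (hc : Conn D x z) : ∃ γ : Pth, IsGeo D t γ ∧ γ.p 0 = x ∧ γ.p γ.n = z := by
  have hf : {γ : Pth | γ.Joins D x z ∧ γ.SA}.Finite :=
    (Pth.finite_sa_in hD).subset fun γ h => ⟨h.2, h.1.2.1⟩
  obtain ⟨γ, hγ⟩ := hc
  obtain ⟨δ, h1, h2, -⟩ := hγ.exists_sa
  obtain ⟨β, ⟨b1, b2⟩, hmin⟩ := Set.exists_min_image _ (fun γ : Pth => γ.tot t) hf ⟨δ, h1, h2⟩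
  refine ⟨β, ⟨b1.1, b1.2.1, b2, ?_⟩, b1.2.2.1, b1.2.2.2⟩
  rw [b1.2.2.1, b1.2.2.2]
  exact le_antisymm (le_TD_of_sa ht ⟨β, b1⟩ fun α a1 a2 => hmin α ⟨a1, a2⟩) (TD_le ht b1)
/-- uniqueness of geodesics in a generic environment -/
theorem IsGeo.unique {C : Set ℝ} (hC : (0 : ℝ) ∈ C) {D : Set V} {t : Env} (hg : Gen C t)
    {γ δ : Pth} (hγ : IsGeo D t γ) (hδ : IsGeo D t δ) (h0 : γ.p 0 = δ.p 0)
    (h1 : γ.p γ.n = δ.p δ.n) : γ = δ := by
  refine Pth.eq_of_edges_eq hγ.1 hγ.2.2.1 hδ.1 hδ.2.2.1 h0 ?_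
  by_contra hne
  refine hg γ δ hγ.1 hγ.2.2.1 hδ.1 hδ.2.2.1 hne ?_
  rwa [hγ.2.2.2, hδ.2.2.2, h0, h1, sub_self]
/-- two self-avoiding paths from the same point whose costs differ by an element of `C` are equal -/
theorem Gen.eq_of_mem {C : Set ℝ} {t : Env} (hg : Gen C t) {γ δ : Pth} (hγ : γ.Ok) (sγ : γ.SA)
    (hδ : δ.Ok) (sδ : δ.SA) (h0 : γ.p 0 = δ.p 0) (hc : γ.tot t - δ.tot t ∈ C) : γ = δ := by
  refine Pth.eq_of_edges_eq hγ sγ hδ sδ h0 ?_
  by_contra hne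
  exact hg γ δ hγ sγ hδ sδ hne hc
theorem Gen.mono {C C' : Set ℝ} (h : C ⊆ C') {t : Env} (hg : Gen C' t) : Gen C t := by
  exact fun γ δ a b c d e hm => hg γ δ a b c d e (h hm)

theorem Low.le {G : Measure ℝ} (hh : h0 G < h1 G) {U : Finset (Sym2 V)} {t t' : Env}
    (h : Low G U t t') (e : Sym2 V) : t' e ≤ t e := by
  rcases h e with h | ⟨-, h1, h2⟩
  · exact h.le
  · exact h2.2.trans (hh.le.trans h1.1)
theorem Low.eq_of_notMem {G : Measure ℝ} {U : Finset (Sym2 V)} {t t' : Env} (h : Low G U t t')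
    {e : Sym2 V} (he : e ∉ U) : t' e = t e := by
  exact (h e).resolve_right fun h => he h.1
theorem Low.pos {G : Measure ℝ} {U : Finset (Sym2 V)} {t t' : Env} (h : Low G U t t')
    (ht : Pos t) : Pos t' := by
  intro e
  rcases h e with h | ⟨-, -, h2⟩
  · rw [h]; exact ht e
  · exact h2.1
/-- gain of a self-avoiding path from `J` flips on its edges -/
theorem Low.tot_le {G : Measure ℝ} (hh : h0 G < h1 G) {U : Finset (Sym2 V)} {t t' : Env}
    (h : Low G U t t') {γ : Pth} (hγ : γ.Ok) (sγ : γ.SA) {H : Finset (Sym2 V)}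
    (hH : H ⊆ γ.edges) (hhi : ∀ e ∈ H, t e ∈ hi G) :
    γ.tot t' + ((H.filter (fun e => t' e ∈ lo G)).card : ℝ) * (h1 G - h0 G) ≤ γ.tot t := by
  rw [Pth.tot_eq_sum_edges hγ sγ, Pth.tot_eq_sum_edges hγ sγ]
  have h1' : ((H.filter (fun e => t' e ∈ lo G)).card : ℝ) * (h1 G - h0 G) ≤
      ∑ e ∈ H.filter (fun e => t' e ∈ lo G), (t e - t' e) := by
    rw [← nsmul_eq_mul]
    refine Finset.card_nsmul_le_sum _ _ _ fun e he => ?_
    obtain ⟨a, b⟩ := Finset.mem_filter.1 he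
    linarith [(hhi e a).1, b.2]
  have h2 : ∑ e ∈ H.filter (fun e => t' e ∈ lo G), (t e - t' e) ≤ ∑ e ∈ γ.edges, (t e - t' e) :=
    Finset.sum_le_sum_of_subset_of_nonneg ((Finset.filter_subset _ _).trans hH)
      fun e _ _ => sub_nonneg.2 (h.le hh e)
  rw [Finset.sum_sub_distrib (s := γ.edges)] at h2
  linarith

end Crest.Agent.R151
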