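import Crest.Agent.R151.CDefs
import Crest.Agent.R151.TMu2
import Crest.Agent.R151.TPath3

/-! Row 151, part C: elementary geometry of a face datum. -/

set_option autoImplicit false

namespace Crest.Agent.R151.PC

open MeasureTheory ProbabilityTheory Filter Topology Crest.ProbabilityR.FirstPassage
open scoped Classical

theorem dev_add (θ : ℝ) (v w : V) : dev θ (v + w) = dev θ v + dev θ w := by
  simp only [dev, Prod.fst_add, Prod.snd_add]; push_cast; ring
theorem dev_sub (θ : ℝ) (v w : V) : dev θ (v - w) = dev θ v - dev θ w := by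
  simp only [dev, Prod.fst_sub, Prod.snd_sub]; push_cast; ring
theorem dev_zero (θ : ℝ) : dev θ 0 = 0 := by simp [dev]
theorem dev_smul (θ : ℝ) (k : ℤ) (v : V) : dev θ (k • v) = k * dev θ v := by
  simp only [dev, Prod.smul_fst, Prod.smul_snd, smul_eq_mul]; push_cast; ring
theorem abs_dev_le {θ k : ℝ} (hθ : |θ| + 1 ≤ k) (v : V) : |dev θ v| ≤ k * nrm v := by
  have h1 : |(v.1 : ℝ)| ≤ nrm v := by exact_mod_cast abs_fst_le_nrm v
  have h2 : |(v.2 : ℝ)| ≤ nrm v := by exact_mod_cast abs_snd_le_nrm v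
  have h3 : |dev θ v| ≤ |(v.2 : ℝ)| + |θ| * |(v.1 : ℝ)| := by
    rw [dev, ← abs_mul]; exact abs_sub _ _
  have h4 := mul_le_mul_of_nonneg_left h1 (abs_nonneg θ)
  have h5 := mul_le_mul_of_nonneg_right hθ (Nat.cast_nonneg (α := ℝ) (nrm v))
  linarith
theorem dev_of_fst_eq_zero (θ : ℝ) {v : V} (h : v.1 = 0) : |dev θ v| = nrm v := by
  simp [dev, nrm, h]

theorem one_lt_lam : 1 < lam := by norm_num [lam]
theorem lam_lt_two : lam < 2 := by norm_num [lam]
theorem lam_pos : 0 < lam := by norm_num [lam]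

namespace FD
variable (F : FD)

theorem mir_mir : F.mir.mir = F := by
  cases F; simp [mir]
theorem mir_δ : F.mir.δ = F.δ := by
  simp only [mir, δ]; ring
theorem mir_κ : F.mir.κ = F.κ := by
  simp only [mir, κ, abs_neg, add_comm]
theorem mir_V1 (v : V) : F.mir.V1 (reflY v) ↔ F.V2 v := by
  have e : reflY v = (v.1, -v.2) := rfl
  simp only [V1, V2, Sl, mir_δ, e]
  simp only [mir]
  push_cast
  constructor <;> rintro ⟨h1, h2, h3⟩ <;> exact ⟨h1, by linarith, by linarith⟩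
theorem mir_V2 (v : V) : F.mir.V2 (reflY v) ↔ F.V1 v := by
  have e : reflY v = (v.1, -v.2) := rfl
  simp only [V1, V2, Sl, mir_δ, e]
  simp only [mir]
  push_cast
  constructor <;> rintro ⟨h1, h2, h3⟩ <;> exact ⟨h1, by linarith, by linarith⟩
theorem one_le_κ : 1 ≤ F.κ := by simp [κ]
theorem steep_of_nonpos {v : V} (h : v.1 ≤ 0) : F.Steep v :=
  le_trans (mul_nonpos_of_nonneg_of_nonpos (Nat.cast_nonneg _) h) (abs_nonneg _)
/-- a vector that is not steep points to the right and is short -/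
theorem nrm_le_of_not_steep {v : V} (h : ¬ F.Steep v) :
    0 < v.1 ∧ (nrm v : ℤ) ≤ F.κ * v.1 := by
  have h0 : 0 < v.1 := by
    by_contra h'
    exact h (F.steep_of_nonpos (not_lt.1 h'))
  refine ⟨h0, ?_⟩
  have h1 : |v.2| < F.κ * v.1 := not_le.1 h
  have h2 : (1 : ℤ) ≤ F.κ := by exact_mod_cast F.one_le_κ
  have h3 : v.1 ≤ F.κ * v.1 := by nlinarith
  simp only [nrm, Nat.cast_max, Int.natCast_natAbs]
  exact max_le (by rwa [abs_of_pos h0]) h1.le
theorem mem_dom_left (b : V) {v : V} (h : 0 ≤ v.1) : b ∈ F.dom b v := by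
  have : (0 : ℤ) ≤ 2 * F.κ * v.1 := by positivity
  simp only [dom, rect, Set.mem_ofPred_eq]
  omega
theorem mem_dom_right (b : V) {v : V} (h : 0 ≤ v.1) (h2 : |v.2| ≤ 2 * F.κ * v.1) :
    b + v ∈ F.dom b v := by
  rw [abs_le] at h2
  simp only [dom, rect, Set.mem_ofPred_eq, Prod.fst_add, Prod.snd_add]
  omega
theorem conn_dom (b : V) {v : V} (h : 0 ≤ v.1) (h2 : |v.2| ≤ 2 * F.κ * v.1) :
    Conn (F.dom b v) b (b + v) := conn_rect (F.mem_dom_left b h) (F.mem_dom_right b h h2)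
theorem dom_finite (b v : V) : (F.dom b v).Finite := finite_rect _ _ _ _
theorem dom_subset_box (b : V) {v : V} {R : ℕ} (h : v.1 ≤ R) :
    F.dom b v ⊆ box b (2 * F.κ * R) := by
  intro x hx
  simp only [dom, rect, Set.mem_ofPred_eq] at hx
  have h2 : (1 : ℤ) ≤ F.κ := by exact_mod_cast F.one_le_κ
  have h3 : 2 * (F.κ : ℤ) * v.1 ≤ 2 * F.κ * R := mul_le_mul_of_nonneg_left h (by positivity)
  have h4 : (R : ℤ) ≤ 2 * F.κ * R := by nlinarith [Nat.cast_nonneg (α := ℤ) R]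
  refine (nrm_le_iff _ _).2 ?_
  simp only [Prod.fst_sub, Prod.snd_sub, abs_le]
  push_cast
  omega
theorem dom_subset_strip (b v : V) : F.dom b v ⊆ strip b.1 (b.1 + v.1) :=
  fun _ hx => ⟨hx.1, hx.2.1⟩
theorem dom_subset_left (b : V) {v w : V} (hw : 0 ≤ w.1) : F.dom b v ⊆ F.dom b (v + w) := by
  intro x hx
  have : (0 : ℤ) ≤ 2 * F.κ * w.1 := by positivity
  simp only [dom, rect, Set.mem_ofPred_eq, Prod.fst_add, mul_add] at hx ⊢
  omega
theorem dom_subset_right (b : V) {v w : V} (hv : 0 ≤ v.1) (h2 : |v.2| ≤ 2 * F.κ * v.1) :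
    F.dom (b + v) w ⊆ F.dom b (v + w) := by
  intro x hx
  rw [abs_le] at h2
  simp only [dom, rect, Set.mem_ofPred_eq, Prod.fst_add, Prod.snd_add, mul_add] at hx ⊢
  omega
theorem preimage_tr_dom (z b v : V) : (Equiv.addRight z) ⁻¹' F.dom (b + z) v = F.dom b v := by
  ext x
  simp only [dom, rect, Set.mem_preimage, Set.mem_ofPred_eq, Equiv.coe_addRight, Prod.fst_add,
    Prod.snd_add]
  omega
theorem preimage_reflY_dom (b v : V) :
    reflY ⁻¹' F.mir.dom (reflY b) (reflY v) = F.dom b v := by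
  ext x
  have e : ∀ u : V, reflY u = (u.1, -u.2) := fun _ => rfl
  simp only [dom, rect, Set.mem_preimage, Set.mem_ofPred_eq, e, mir_κ]
  omega

end FD

namespace IsFace
variable {μ : ℝ × ℝ → ℝ} {F : FD}

theorem mir (h : IsFace μ F) (hμ : NormOK μ) : IsFace μ F.mir := by
  have e : ∀ a b : ℝ, dot F.mir.ρ (a, b) = dot F.ρ (a, -b) := by
    intro a b; simp only [FD.mir, dot]; ring
  refine ⟨by simpa [FD.mir] using h.lt, ?_, ?_, ?_, ?_⟩
  · rintro ⟨a, b⟩
    rw [e, ← hμ.refl2]; exact h.le _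
  · intro θ h1 h2
    simp only [FD.mir] at h1 h2
    rw [e, ← hμ.refl2]
    exact h.eq _ (by linarith) (by linarith)
  · intro θ h1
    simp only [FD.mir] at h1
    rw [e, ← hμ.refl2]
    refine h.out _ ?_
    rcases h1 with h1 | h1
    · right; linarith
    · left; linarith
  · rintro ⟨a, b⟩ h0 h1
    rw [e, ← hμ.refl2]
    refine h.back _ ?_ h1
    intro h2
    apply h0
    simp only [Prod.mk_eq_zero, neg_eq_zero] at h2 ⊢
    exact h2
theorem δ_pos (h : IsFace μ F) : 0 < F.δ := by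
  have := h.lt
  simp only [FD.δ]; linarith
theorem abs_le_κ (h : IsFace μ F) {θ : ℝ} (h1 : F.θ1 - F.δ ≤ θ) (h2 : θ ≤ F.θ2 + F.δ) :
    |θ| + 1 ≤ F.κ := by
  have a1 := Nat.le_ceil (|F.θ1| + |F.θ2|)
  have a2 := abs_nonneg F.θ1
  have a3 := abs_nonneg F.θ2
  have a4 := le_abs_self F.θ2
  have a5 := neg_abs_le F.θ1
  have := h.lt
  simp only [FD.κ, FD.δ] at *
  push_cast
  have : |θ| ≤ 2 * (|F.θ1| + |F.θ2|) := by
    rw [abs_le]; constructor <;> linarith
  linarith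
theorem rho1_pos (h : IsFace μ F) (hμ : NormOK μ) : 0 < F.ρ.1 := by
  have h1 := h.back (-1, F.θ1) (by simp) (by norm_num)
  have h2 := h.eq F.θ1 le_rfl h.lt.le
  rw [hμ.refl1, h2] at h1
  simp only [dot] at h1
  linarith
theorem face_eq (h : IsFace μ F) (hμ : NormOK μ) {v : ℝ × ℝ} (h0 : 0 ≤ v.1)
    (h1 : F.θ1 * v.1 ≤ v.2) (h2 : v.2 ≤ F.θ2 * v.1) : μ v = dot F.ρ v := by
  obtain ⟨a, b⟩ := v
  simp only at h0 h1 h2
  rcases h0.eq_or_lt with rfl | h0
  · have : b = 0 := by linarith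
    subst this
    have := hμ.zero
    simp only [dot]
    rw [show ((0 : ℝ), (0 : ℝ)) = 0 from rfl, this]
    simp
  · rw [hμ.homog h0, h.eq _ (by rw [le_div_iff₀ h0]; exact h1) (by rw [div_le_iff₀ h0]; exact h2)]
    simp only [dot]
    field_simp
theorem steep_pos (h : IsFace μ F) (hμ : NormOK μ) {v : ℝ × ℝ} (h0 : v ≠ 0)
    (hs : (F.κ : ℝ) * v.1 ≤ |v.2|) : 0 < μ v - dot F.ρ v := by
  obtain ⟨a, b⟩ := v
  simp only at hs
  rcases le_or_gt a 0 with ha | ha
  · linarith [h.back _ h0 ha]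
  · have hδ := h.δ_pos
    have hlt := h.lt
    have k1 := h.abs_le_κ (θ := F.θ1) (by linarith) (by linarith)
    have k2 := h.abs_le_κ (θ := F.θ2) (by linarith) (by linarith)
    have k3 : (F.κ : ℝ) ≤ |b / a| := by
      rw [abs_div, abs_of_pos ha, le_div_iff₀ ha]; exact hs
    have k4 : b / a < F.θ1 ∨ F.θ2 < b / a := by
      rcases le_abs.1 k3 with k | k
      · right; linarith [le_abs_self F.θ2]
      · left; linarith [neg_abs_le F.θ1]
    have k5 := h.out _ k4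
    rw [hμ.homog ha]
    have : dot F.ρ (a, b) = a * dot F.ρ (1, b / a) := by
      simp only [dot]; field_simp
    rw [this]
    nlinarith
/-- steep or backward directions stay away from the face (compactness) -/
theorem steep_gap (h : IsFace μ F) (hμ : NormOK μ) : ∃ c : ℝ, 0 < c ∧
    ∀ v : ℝ × ℝ, (F.κ : ℝ) * v.1 ≤ |v.2| → c * ‖v‖ ≤ μ v - dot F.ρ v := by
  set K : Set (ℝ × ℝ) := Metric.sphere 0 1 ∩ {v | (F.κ : ℝ) * v.1 ≤ |v.2|} with hK
  have hKc : IsCompact K := (isCompact_sphere 0 1).inter_right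
    (isClosed_le (by fun_prop) (by fun_prop))
  have hKn : K.Nonempty := ⟨(0, 1), by simp, by simp⟩
  have hcont : Continuous (fun v => μ v - dot F.ρ v) :=
    hμ.continuous.sub (by unfold dot; fun_prop)
  obtain ⟨v0, hv0, hmin⟩ := hKc.exists_isMinOn hKn hcont.continuousOn
  have hv00 : v0 ≠ 0 := by
    rintro rfl
    simp [hK] at hv0
  refine ⟨μ v0 - dot F.ρ v0, h.steep_pos hμ hv00 hv0.2, fun v hv => ?_⟩
  rcases eq_or_ne v 0 with rfl | hne
  · simp [hμ.zero, dot]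
  · have hn : 0 < ‖v‖ := norm_pos_iff.2 hne
    have hmem : ‖v‖⁻¹ • v ∈ K := by
      refine ⟨by simp [norm_smul, hn.ne'], ?_⟩
      simp only [Set.mem_ofPred_eq, Prod.smul_fst, Prod.smul_snd, smul_eq_mul, abs_mul,
        abs_of_pos (inv_pos.2 hn)]
      nlinarith [mul_le_mul_of_nonneg_left hv (inv_pos.2 hn).le]
    have h1 : μ v0 - dot F.ρ v0 ≤ μ (‖v‖⁻¹ • v) - dot F.ρ (‖v‖⁻¹ • v) := hmin hmem
    rw [hμ.smul _ _ (inv_pos.2 hn).le, dot_smul, ← mul_sub, ← div_eq_inv_mul, le_div_iff₀ hn] at h1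
    exact h1
theorem steep_gap' (h : IsFace μ F) (hμ : NormOK μ) : ∃ c : ℝ, 0 < c ∧
    ∀ v : V, F.Steep v → c * nrm v ≤ μ (rv v) - dot F.ρ (rv v) := by
  obtain ⟨c, hc, hg⟩ := h.steep_gap hμ
  refine ⟨c, hc, fun v hv => ?_⟩
  rw [← norm_rv]
  refine hg _ ?_
  simp only [rv]
  exact_mod_cast hv
theorem V1_inr (h : IsFace μ F) {v : V} (hv : F.V1 v) : F.Inr v := by
  have hδ := h.δ_pos
  have h1 : (1 : ℝ) ≤ v.1 := by exact_mod_cast hv.1
  refine ⟨hv.1, hv.2.1, le_trans hv.2.2 (mul_le_mul_of_nonneg_right ?_ (by linarith))⟩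
  simp only [FD.δ] at *
  linarith
theorem V2_inr (h : IsFace μ F) {v : V} (hv : F.V2 v) : F.Inr v := by
  have hδ := h.δ_pos
  have h1 : (1 : ℝ) ≤ v.1 := by exact_mod_cast hv.1
  refine ⟨hv.1, le_trans (mul_le_mul_of_nonneg_right ?_ (by linarith)) hv.2.1, hv.2.2⟩
  simp only [FD.δ] at *
  linarith
theorem inr_abs_le (h : IsFace μ F) {v : V} (hv : F.Inr v) : |v.2| ≤ F.κ * v.1 := by
  have hδ := h.δ_pos
  have hlt := h.lt
  have h1 : (1 : ℝ) ≤ v.1 := by exact_mod_cast hv.1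
  have hδ2 : F.θ1 + F.δ ≤ F.θ2 - F.δ := by simp only [FD.δ] at *; linarith
  have k1 := h.abs_le_κ (θ := F.θ1 + F.δ) (by linarith) (by linarith)
  have k2 := h.abs_le_κ (θ := F.θ2 - F.δ) (by linarith) (by linarith)
  have k3 := neg_abs_le (F.θ1 + F.δ)
  have k4 := le_abs_self (F.θ2 - F.δ)
  have : |(v.2 : ℝ)| ≤ F.κ * v.1 := by
    rw [abs_le]
    constructor
    · nlinarith [hv.2.1]
    · nlinarith [hv.2.2]
  exact_mod_cast this
theorem inr_nrm_le (h : IsFace μ F) {v : V} (hv : F.Inr v) : (nrm v : ℤ) ≤ F.κ * v.1 := by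
  have h0 := hv.1
  have h2 : (1 : ℤ) ≤ F.κ := by exact_mod_cast F.one_le_κ
  have h3 : v.1 ≤ F.κ * v.1 := by nlinarith
  simp only [nrm, Nat.cast_max, Int.natCast_natAbs]
  exact max_le (by rwa [abs_of_pos (by omega)]) (h.inr_abs_le hv)
theorem inr_conn (h : IsFace μ F) (b : V) {v : V} (hv : F.Inr v) :
    Conn (F.dom b v) b (b + v) := by
  have h0 := hv.1
  have h1 := h.inr_abs_le hv
  have h2 : (0 : ℤ) ≤ F.κ * v.1 := by positivity
  exact F.conn_dom b (by omega) (by linarith)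
theorem inr_eq (h : IsFace μ F) (hμ : NormOK μ) {v : V} (hv : F.Inr v) :
    μ (rv v) = dot F.ρ (rv v) := by
  have hδ := h.δ_pos
  have h1 : (1 : ℝ) ≤ v.1 := by exact_mod_cast hv.1
  refine h.face_eq hμ (by simp only [rv]; linarith) ?_ ?_
  · simp only [rv]; nlinarith [hv.2.1]
  · simp only [rv]; nlinarith [hv.2.2]

end IsFace

end Crest.Agent.R151.PC
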