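import Crest.Agent.R151.CGeo1

/-! Row 151, part C: the inverse function `phi` and the curvature penalty. -/

set_option autoImplicit false

namespace Crest.Agent.R151.PC

open MeasureTheory ProbabilityTheory Filter Topology Crest.ProbabilityR.FirstPassage
open scoped Classical

variable {μ : ℝ × ℝ → ℝ} {F : FD}

/-- the excess along the slopes above `θ2` -/
noncomputable def cgeo3_psi (μ : ℝ × ℝ → ℝ) (F : FD) (u : ℝ) : ℝ :=
  μ (1, F.θ2 + u) - dot F.ρ (1, F.θ2 + u)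

theorem cgeo3_zero (h : IsFace μ F) : cgeo3_psi μ F 0 = 0 := by
  unfold cgeo3_psi
  rw [add_zero, h.eq _ h.lt.le le_rfl, sub_self]

theorem cgeo3_pos (h : IsFace μ F) {u : ℝ} (hu : 0 < u) : 0 < cgeo3_psi μ F u :=
  sub_pos.2 (h.out _ (Or.inr (by linarith)))

theorem cgeo3_cont (hμ : NormOK μ) : Continuous (cgeo3_psi μ F) := by
  have := hμ.continuous
  unfold cgeo3_psi dot
  fun_prop

theorem cgeo3_ext (hμ : NormOK μ) {u0 u1 s : ℝ} (h01 : u0 < u1) (hs : 0 ≤ s) :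
    (cgeo3_psi μ F u1 - cgeo3_psi μ F u0) * s ≤
      (cgeo3_psi μ F (u1 + s) - cgeo3_psi μ F u1) * (u1 - u0) := by
  rcases hs.eq_or_lt with rfl | hs
  · simp
  have h := hμ.convexOn_slope.slope_mono_adjacent (Set.mem_univ (F.θ2 + u0))
    (Set.mem_univ (F.θ2 + (u1 + s))) (y := F.θ2 + u1) (by linarith) (by linarith)
  rw [div_le_div_iff₀ (by linarith) (by linarith)] at h
  unfold cgeo3_psi dot
  simp only
  nlinarith [h]

theorem phi_nonneg (η : ℝ) : 0 ≤ F.phi μ η := by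
  exact Real.sSup_nonneg fun u hu => hu.1

theorem phi_bdd (h : IsFace μ F) (hμ : NormOK μ) (η : ℝ) :
    BddAbove {u : ℝ | 0 ≤ u ∧ μ (1, F.θ2 + u) - dot F.ρ (1, F.θ2 + u) ≤ η} := by
  have h1 := cgeo3_pos h one_pos
  refine ⟨max 1 (η / cgeo3_psi μ F 1), fun u hu => ?_⟩
  rcases le_total u 1 with hu1 | hu1
  · exact hu1.trans (le_max_left _ _)
  · refine le_trans ?_ (le_max_right _ _)
    have h2 := cgeo3_ext (F := F) hμ (u0 := 0) (u1 := 1) (s := u - 1) one_pos (by linarith)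
    have h3 : cgeo3_psi μ F u ≤ η := hu.2
    rw [cgeo3_zero h, add_sub_cancel] at h2
    rw [le_div_iff₀ h1]
    linarith

theorem cgeo3_mem (h : IsFace μ F) {η : ℝ} (h0 : 0 ≤ η) :
    (0 : ℝ) ∈ {u : ℝ | 0 ≤ u ∧ μ (1, F.θ2 + u) - dot F.ρ (1, F.θ2 + u) ≤ η} :=
  ⟨le_rfl, (cgeo3_zero h).le.trans h0⟩

theorem phi_mono (h : IsFace μ F) (hμ : NormOK μ) {η η' : ℝ} (h0 : 0 ≤ η) (hle : η ≤ η') :
    F.phi μ η ≤ F.phi μ η' := by
  exact csSup_le_csSup (phi_bdd h hμ η') ⟨0, cgeo3_mem h h0⟩ fun u hu => ⟨hu.1, hu.2.trans hle⟩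

theorem phi_small (h : IsFace μ F) (hμ : NormOK μ) {ε : ℝ} (hε : 0 < ε) :
    ∃ η0 : ℝ, 0 < η0 ∧ ∀ η, 0 ≤ η → η ≤ η0 → F.phi μ η ≤ ε := by
  have h1 := cgeo3_pos h hε
  refine ⟨cgeo3_psi μ F ε / 2, by positivity, fun η h0 hη => ?_⟩
  refine csSup_le ⟨0, cgeo3_mem h h0⟩ fun u hu => ?_
  by_contra hc
  push Not at hc
  have h2 := cgeo3_ext (F := F) hμ (u0 := 0) (u1 := ε) (s := u - ε) hε (by linarith)
  have h3 : cgeo3_psi μ F u ≤ η := hu.2
  rw [cgeo3_zero h, add_sub_cancel] at h2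
  nlinarith [mul_pos h1 (sub_pos.2 hc)]

theorem phi_eq (h : IsFace μ F) (hμ : NormOK μ) {η : ℝ} (h0 : 0 ≤ η) :
    μ (1, F.θ2 + F.phi μ η) - dot F.ρ (1, F.θ2 + F.phi μ η) = η := by
  have hc := cgeo3_cont (F := F) hμ
  have hcl : IsClosed {u : ℝ | 0 ≤ u ∧ μ (1, F.θ2 + u) - dot F.ρ (1, F.θ2 + u) ≤ η} :=
    (isClosed_le continuous_const continuous_id).inter (isClosed_le hc continuous_const)
  have hm := hcl.csSup_mem ⟨0, cgeo3_mem h h0⟩ (phi_bdd h hμ η)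
  refine le_antisymm hm.2 ?_
  by_contra hlt
  push Not at hlt
  have hev : ∀ᶠ u in 𝓝[>] (F.phi μ η), cgeo3_psi μ F u < η :=
    nhdsWithin_le_nhds (hc.continuousAt.eventually_lt continuousAt_const hlt)
  obtain ⟨u, hu, hu'⟩ := (hev.and self_mem_nhdsWithin).exists
  have hu'' : F.phi μ η < u := hu'
  have : u ≤ F.phi μ η := le_csSup (phi_bdd h hμ η) ⟨(phi_nonneg η).trans hu''.le, hu.le⟩
  linarith

/-- convexity: deviating upwards from the slope `θ2 + phi η` is penalised -/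
theorem phi_pen (h : IsFace μ F) (hμ : NormOK μ) {η B : ℝ} (hη : 0 < η) (hB : 1 < B)
    (v : ℝ × ℝ) (Λ : ℝ) (hv : 0 ≤ v.1) (hΛ : 0 ≤ Λ)
    (hd : (F.phi μ (B * η) - F.phi μ η) * (v.1 + Λ) ≤ v.2 - (F.θ2 + F.phi μ η) * v.1) :
    (B - 1) * η * Λ ≤ μ v - dot F.ρ v := by
  have hBη : η < B * η := by nlinarith
  have e0 : cgeo3_psi μ F (F.phi μ η) = η := phi_eq h hμ hη.le
  have e1 : cgeo3_psi μ F (F.phi μ (B * η)) = B * η := phi_eq h hμ (by linarith)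
  have hle := phi_mono h hμ hη.le hBη.le
  generalize F.phi μ η = u0 at *
  generalize F.phi μ (B * η) = u1 at *
  have hlt : u0 < u1 := lt_of_le_of_ne hle fun e => by rw [e] at e0; linarith
  have hw : 0 < v.1 + 1 := by linarith
  set D := v.2 - (F.θ2 + u1) * v.1 with hD
  have hD1 : (u1 - u0) * Λ ≤ D := by rw [hD]; linarith
  have hD0 : 0 ≤ D := le_trans (mul_nonneg (sub_pos.2 hlt).le hΛ) hD1
  have h2 := cgeo3_ext (F := F) hμ hlt (div_nonneg hD0 hw.le)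
  rw [e0, e1] at h2
  have h3 := hμ.add_le v (1, F.θ2 + u1)
  have e2 : v + (1, F.θ2 + u1) = (v.1 + 1) • ((1 : ℝ), F.θ2 + (u1 + D / (v.1 + 1))) := by
    ext
    · simp
    · simp only [Prod.snd_add, Prod.smul_snd, smul_eq_mul, hD]
      field_simp
      ring
  have e3 : dot F.ρ v + dot F.ρ (1, F.θ2 + u1) =
      (v.1 + 1) * dot F.ρ ((1 : ℝ), F.θ2 + (u1 + D / (v.1 + 1))) := by
    simp only [dot, hD]
    field_simp
    ring
  rw [e2, hμ.smul _ _ hw.le] at h3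
  have h4 : (v.1 + 1) * cgeo3_psi μ F (u1 + D / (v.1 + 1)) ≤ μ v - dot F.ρ v + B * η := by
    rw [← e1]
    unfold cgeo3_psi
    rw [mul_sub]
    linarith
  have h5 := mul_le_mul_of_nonneg_left h2 hw.le
  have e4 : (v.1 + 1) * ((B * η - η) * (D / (v.1 + 1))) = (B * η - η) * D := by field_simp
  rw [e4] at h5
  have h6 : (B * η - η) * ((u1 - u0) * Λ) ≤ (B * η - η) * D :=
    mul_le_mul_of_nonneg_left hD1 (by linarith)
  have h7 : (v.1 + 1) * (cgeo3_psi μ F (u1 + D / (v.1 + 1)) - B * η) ≤ μ v - dot F.ρ v := by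
    have : 0 ≤ v.1 * (B * η) := mul_nonneg hv (by linarith)
    linarith
  have h8 := mul_le_mul_of_nonneg_right h7 (sub_pos.2 hlt).le
  refine le_of_mul_le_mul_right ?_ (sub_pos.2 hlt)
  linarith

end Crest.Agent.R151.PC
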