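import Crest.Agent.R151.CPath1
import Crest.Agent.R151.TLD

/-! Row 151, part C: linear lower deviations in a box. -/

set_option autoImplicit false

namespace Crest.Agent.R151.PC

open MeasureTheory ProbabilityTheory Filter Topology Crest.ProbabilityR.FirstPassage
open scoped Classical

variable {G : Measure ℝ} [Law G] {F : FD}

theorem gd_prob (hF : IsFace (mu G) F) : ∃ c c' C : ℝ, 0 < c ∧ 0 < c' ∧ 0 < C ∧
    ∀ (b : V) (r : ℕ) (y : ℝ),
      Pr G (F.Gd c (box b r) y)ᶜ ≤ C * ((r : ℝ) + 1) ^ 2 * Real.exp (-(c' * y)) := by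
  have hμ := mu_ok G
  obtain ⟨c1, hc1, hgap⟩ := hF.steep_gap' hμ
  have hax := hμ.axis_pos
  set c : ℝ := min c1 (mu G (0, 1)) / 2 with hc
  have hc0 : 0 < c := by have := lt_min hc1 hax; positivity
  have hca : 2 * c ≤ c1 := by have := min_le_left c1 (mu G (0, 1)); linarith
  have hcb : 2 * c ≤ mu G (0, 1) := by have := min_le_right c1 (mu G (0, 1)); linarith
  obtain ⟨C, c', hC, hc', hsf⟩ := Pr_shortfall G hc0
  refine ⟨c, c', 4 * C + 1, hc0, hc', by positivity, ?_⟩
  intro b r y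
  have hr : (1 : ℝ) ≤ ((r : ℝ) + 1) ^ 2 := one_le_pow₀ (by linarith [Nat.cast_nonneg (α := ℝ) r])
  rcases lt_or_ge y 0 with hy | hy
  · refine le_trans (Pr_le_one G _) ?_
    have h1 : 1 ≤ Real.exp (-(c' * y)) := Real.one_le_exp (by nlinarith)
    have h2 : (1 : ℝ) ≤ (4 * C + 1) * ((r : ℝ) + 1) ^ 2 := by nlinarith
    nlinarith
  · refine le_trans (Pr_le_card_mul G (boxF b r)
      (fun x => {t | ∃ z : V, T t x z ≤ mu G (rv (z - x)) - c * nrm (z - x) - y})
      (Filter.Eventually.of_forall ?_) (fun x _ => hsf x y hy)) ?_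
    · intro t ht
      by_contra hno
      push Not at hno
      refine ht (fun x hx z _ => ?_)
      have h := hno x (mem_boxF.2 hx)
      simp only [Set.mem_ofPred_eq, not_exists, not_le] at h
      have h1 := h z
      have h2 := hμ.axis_le (rv (z - x))
      rw [norm_rv] at h2
      have h0 : (0 : ℝ) ≤ nrm (z - x) := Nat.cast_nonneg _
      refine ⟨by nlinarith, fun hs => ?_⟩
      have h3 := hgap _ hs
      nlinarith
    · rw [card_boxF]
      push_cast
      have h0 : (0 : ℝ) ≤ r := Nat.cast_nonneg _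
      have h1 : (2 * (r : ℝ) + 1) ^ 2 * C ≤ (4 * C + 1) * ((r : ℝ) + 1) ^ 2 := by nlinarith
      have h2 := mul_le_mul_of_nonneg_right h1 (Real.exp_pos (-(c' * y))).le
      linarith

end Crest.Agent.R151.PC
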