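import Crest.Agent.R151.CDefs

/-! Row 151, part C: small sequences (real analysis only). -/

set_option autoImplicit false

namespace Crest.Agent.R151.PC

open MeasureTheory ProbabilityTheory Filter Topology Crest.ProbabilityR.FirstPassage
open scoped Classical

theorem Small.add {w w' : ℕ → ℝ} (h : Small w) (h' : Small w') : Small (fun i => w i + w' i) := by
  refine ⟨fun i => add_nonneg (h.1 i) (h'.1 i), by simpa using h.2.1.add h'.2.1, fun ε hε => ?_⟩
  filter_upwards [h.2.2 (ε / 2) (half_pos hε), h'.2.2 (ε / 2) (half_pos hε)] with I h1 h2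
  rw [Finset.sum_add_distrib]
  linarith

theorem cnum1_log : Tendsto (fun I : ℕ => Real.log I) atTop atTop :=
  Real.tendsto_log_atTop.comp tendsto_natCast_atTop_atTop

theorem small_inv_sq : Small (fun i => 1 / ((i : ℝ) + 1) ^ 2) := by
  have hs : Summable (fun i : ℕ => 1 / ((i : ℝ) + 1) ^ 2) := by
    have := (summable_nat_add_iff 1).2 (Real.summable_one_div_nat_pow.2 one_lt_two)
    simpa using this
  refine ⟨fun i => by positivity, hs.tendsto_atTop_zero, fun ε hε => ?_⟩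
  filter_upwards [cnum1_log.eventually_ge_atTop ((∑' i : ℕ, 1 / ((i : ℝ) + 1) ^ 2) / ε)] with I hI
  refine (hs.sum_le_tsum _ fun i _ => by positivity).trans ?_
  rw [div_le_iff₀ hε] at hI
  linarith

theorem cnum1_poly (A : ℕ) :
    Tendsto (fun i : ℕ => ((i : ℝ) + 1) ^ A * (15 / 16 : ℝ) ^ i) atTop (𝓝 0) := by
  have h := (tendsto_pow_const_mul_const_pow_of_abs_lt_one A (r := (15 / 16 : ℝ))
    (by rw [abs_of_pos] <;> norm_num)).comp (tendsto_add_atTop_nat 1)
  have h2 := h.const_mul (16 / 15 : ℝ)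
  rw [mul_zero] at h2
  refine h2.congr fun i => ?_
  simp only [Function.comp_apply]
  push_cast
  ring

theorem cnum1_tele {g : ℕ → ℝ} (hg0 : ∀ i, 0 ≤ g i) (hg : Antitone g) (l r n : ℕ) :
    ∑ j ∈ Finset.range n, (g (l + j) - g (l + j + r)) ≤ r * g l := by
  have e1 := Finset.sum_range_add (fun j => g (l + j)) n r
  have e2 := Finset.sum_range_add (fun j => g (l + j)) r n
  rw [add_comm r n, e1] at e2
  have e3 : ∑ j ∈ Finset.range n, g (l + (r + j)) = ∑ j ∈ Finset.range n, g (l + j + r) :=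
    Finset.sum_congr rfl fun j _ => by rw [add_comm r j, add_assoc]
  have e4 : 0 ≤ ∑ j ∈ Finset.range r, g (l + (n + j)) := Finset.sum_nonneg fun j _ => hg0 _
  have e5 : ∑ j ∈ Finset.range r, g (l + j) ≤ r * g l := by
    have := Finset.sum_le_card_nsmul (Finset.range r) (fun j => g (l + j)) (g l)
      fun j _ => hg (Nat.le_add_right l j)
    rwa [Finset.card_range, nsmul_eq_mul] at this
  rw [Finset.sum_sub_distrib]
  linarith

theorem cnum1_sum {a g : ℕ → ℝ} (ha : ∀ i, 0 ≤ a i) (hg0 : ∀ i, 0 ≤ g i) (hg : Antitone g)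
    (l r I : ℕ) {e : ℝ} (h1 : ∀ i, l ≤ i → a i ≤ e) (h2 : g l ≤ e)
    (h3 : ∀ j, j + r < I → a (j + r) ≤ g j - g (j + r)) :
    ∑ i ∈ Finset.range I, a i ≤ ∑ i ∈ Finset.range l, a i + 2 * r * e := by
  have he : 0 ≤ e := (hg0 l).trans h2
  have hr : (0 : ℝ) ≤ r := Nat.cast_nonneg r
  have e1 : ∑ i ∈ Finset.range (l + r), a i ≤ ∑ i ∈ Finset.range l, a i + r * e := by
    rw [Finset.sum_range_add]
    have := Finset.sum_le_card_nsmul (Finset.range r) (fun j => a (l + j)) e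
      fun j _ => h1 _ (Nat.le_add_right l j)
    rw [Finset.card_range, nsmul_eq_mul] at this
    linarith
  rcases le_total I (l + r) with h | h
  · have := Finset.sum_le_sum_of_subset_of_nonneg (Finset.range_mono h) fun i _ _ => ha i
    nlinarith [mul_nonneg hr he]
  · obtain ⟨n, rfl⟩ := Nat.exists_eq_add_of_le h
    rw [Finset.sum_range_add]
    have e2 : ∑ j ∈ Finset.range n, a (l + r + j) ≤
        ∑ j ∈ Finset.range n, (g (l + j) - g (l + j + r)) := by
      refine Finset.sum_le_sum fun j hj => ?_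
      have hj' := Finset.mem_range.1 hj
      rw [show l + r + j = l + j + r by ring]
      exact h3 _ (by omega)
    have e3 := cnum1_tele hg0 hg l r n
    have e4 := mul_le_mul_of_nonneg_left h2 hr
    linarith

theorem small_of_phi (φ : ℝ → ℝ) (η : ℕ → ℝ) (A : ℕ) (hpos : ∀ i, 0 < η i)
    (hq : ∀ i, η (i + 1) ≤ 15 / 16 * η i) (h0 : ∀ x, 0 ≤ φ x)
    (hmono : ∀ x y, 0 ≤ x → x ≤ y → φ x ≤ φ y)
    (hsmall : ∀ ε : ℝ, 0 < ε → ∃ η0 : ℝ, 0 < η0 ∧ ∀ x, 0 ≤ x → x ≤ η0 → φ x ≤ ε) :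
    Small (fun i => φ ((((i : ℝ) + 1) ^ A + 1) * η i) - φ (η i)) := by
  have hgeo : ∀ r j, η (j + r) ≤ (15 / 16 : ℝ) ^ r * η j := by
    intro r j
    induction r with
    | zero => simp
    | succ r ih =>
      rw [← add_assoc, pow_succ]
      have := hq (j + r)
      nlinarith
  have hanti : Antitone η := antitone_nat_of_succ_le fun i => by
    have := hq i
    have := hpos i
    linarith
  have hganti : Antitone fun i => φ (η i) := fun i j hij =>
    hmono _ _ (hpos j).le (hanti hij)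
  have hB : ∀ i : ℕ, (1 : ℝ) ≤ ((i : ℝ) + 1) ^ A + 1 := fun i =>
    le_add_of_nonneg_left (by positivity)
  have hle : ∀ i : ℕ, η i ≤ (((i : ℝ) + 1) ^ A + 1) * η i := fun i =>
    le_mul_of_one_le_left (hpos i).le (hB i)
  have ha : ∀ i : ℕ, 0 ≤ φ ((((i : ℝ) + 1) ^ A + 1) * η i) - φ (η i) := fun i =>
    sub_nonneg.2 (hmono _ _ (hpos i).le (hle i))
  have hlim : Tendsto (fun i : ℕ => (((i : ℝ) + 1) ^ A + 1) * η i) atTop (𝓝 0) := by
    have h1 := ((cnum1_poly A).add (cnum1_poly 0)).mul_const (η 0)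
    rw [add_zero, zero_mul] at h1
    refine squeeze_zero (fun i => (hpos i).le.trans (hle i)) (fun i => ?_) h1
    have h2 := hgeo i 0
    rw [zero_add] at h2
    have h3 := mul_le_mul_of_nonneg_left h2 (zero_le_one.trans (hB i))
    refine h3.trans (le_of_eq ?_)
    ring
  have hev : ∀ e : ℝ, 0 < e → ∀ᶠ i : ℕ in atTop, φ ((((i : ℝ) + 1) ^ A + 1) * η i) ≤ e := by
    intro e he
    obtain ⟨η0, hη0, h⟩ := hsmall e he
    filter_upwards [hlim.eventually (eventually_le_nhds hη0)] with i hi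
    exact h _ ((hpos i).le.trans (hle i)) hi
  refine ⟨ha, ?_, fun ε hε => ?_⟩
  · rw [Metric.tendsto_atTop]
    intro e he
    obtain ⟨N, hN⟩ := eventually_atTop.1 (hev (e / 2) (half_pos he))
    refine ⟨N, fun i hi => ?_⟩
    rw [Real.dist_eq, sub_zero, abs_of_nonneg (ha i)]
    have := hN i hi
    have := h0 (η i)
    linarith
  · have hL : 0 < Real.log (16 / 15) := Real.log_pos (by norm_num)
    set D : ℝ := ((A : ℝ) + 1) / Real.log (16 / 15) + 1 with hD
    have hD0 : 0 < D := by positivity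
    obtain ⟨l, hl⟩ := eventually_atTop.1 (hev (ε / (4 * D)) (by positivity))
    filter_upwards [cnum1_log.eventually_ge_atTop 1, eventually_ge_atTop 2,
      cnum1_log.eventually_ge_atTop ((∑ i ∈ Finset.range l,
        (φ ((((i : ℝ) + 1) ^ A + 1) * η i) - φ (η i))) / (ε / 2))] with I hI1 hI2 hI3
    have hI : (2 : ℝ) ≤ I := by exact_mod_cast hI2
    have hX : (0 : ℝ) < (I : ℝ) ^ A + 1 := by positivity
    set r : ℕ := ⌈Real.log ((I : ℝ) ^ A + 1) / Real.log (16 / 15)⌉₊ with hr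
    have hr1 : (I : ℝ) ^ A + 1 ≤ (16 / 15 : ℝ) ^ r := by
      have h1 : Real.log ((I : ℝ) ^ A + 1) / Real.log (16 / 15) ≤ r := Nat.le_ceil _
      rw [div_le_iff₀ hL, ← Real.log_pow] at h1
      exact (Real.log_le_log_iff hX (by positivity)).1 h1
    have hr2 : (r : ℝ) ≤ D * Real.log I := by
      have hone : (1 : ℝ) ≤ (I : ℝ) ^ A := one_le_pow₀ (by linarith)
      have h1 : Real.log ((I : ℝ) ^ A + 1) ≤ ((A : ℝ) + 1) * Real.log I := by
        have h2 : (I : ℝ) ^ A + 1 ≤ (I : ℝ) ^ (A + 1) := by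
          rw [pow_succ]; nlinarith
        have h3 := Real.log_le_log hX h2
        rw [Real.log_pow] at h3
        push_cast at h3
        exact h3
      have h4 : (r : ℝ) < Real.log ((I : ℝ) ^ A + 1) / Real.log (16 / 15) + 1 :=
        Nat.ceil_lt_add_one (div_nonneg (Real.log_nonneg (by linarith)) hL.le)
      have h5 := div_le_div_of_nonneg_right h1 hL.le
      have h6 : D * Real.log I = ((A : ℝ) + 1) * Real.log I / Real.log (16 / 15) + Real.log I := by
        rw [hD]; ring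
      linarith
    have key := cnum1_sum (a := fun i : ℕ => φ ((((i : ℝ) + 1) ^ A + 1) * η i) - φ (η i))
      (g := fun i => φ (η i)) ha (fun i => h0 _) hganti l r I (e := ε / (4 * D))
      (fun i hi => by have := hl i hi; have := h0 (η i); linarith)
      ((hmono _ _ (hpos l).le (hle l)).trans (hl l le_rfl)) (fun j hj => ?_)
    · refine key.trans ?_
      rw [div_le_iff₀ (half_pos hε)] at hI3
      have h7 : 2 * (r : ℝ) * (ε / (4 * D)) ≤ 2 * (D * Real.log I) * (ε / (4 * D)) :=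
        mul_le_mul_of_nonneg_right (by linarith) (by positivity)
      have h8 : 2 * (D * Real.log I) * (ε / (4 * D)) = Real.log I * (ε / 2) := by
        field_simp
        ring
      linarith
    · refine sub_le_sub_right (hmono _ _ ((hpos _).le.trans (hle _)) ?_) _
      have h1 : (((j + r : ℕ) : ℝ) + 1) ^ A ≤ (I : ℝ) ^ A := by
        refine pow_le_pow_left₀ (by positivity) ?_ A
        exact_mod_cast hj
      have h2 : (((j + r : ℕ) : ℝ) + 1) ^ A + 1 ≤ (16 / 15 : ℝ) ^ r := by linarith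
      calc ((((j + r : ℕ) : ℝ) + 1) ^ A + 1) * η (j + r)
          ≤ (16 / 15 : ℝ) ^ r * ((15 / 16 : ℝ) ^ r * η j) :=
            mul_le_mul h2 (hgeo r j) (hpos _).le (by positivity)
        _ = η j := by
            rw [← mul_assoc, ← mul_pow]
            norm_num

theorem eventually_poly_lam (C : ℝ) (A : ℕ) :
    ∀ᶠ i : ℕ in atTop, C * ((i : ℝ) + 1) ^ A * lam ^ i ≤ 2 ^ i := by
  have h := (cnum1_poly A).const_mul C
  rw [mul_zero] at h
  filter_upwards [h.eventually (eventually_le_nhds one_pos)] with i hi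
  have e : C * ((i : ℝ) + 1) ^ A * lam ^ i = C * (((i : ℝ) + 1) ^ A * (15 / 16 : ℝ) ^ i) * 2 ^ i := by
    rw [lam, show (15 / 8 : ℝ) = 15 / 16 * 2 by norm_num, mul_pow]
    ring
  rw [e]
  exact mul_le_of_le_one_left (by positivity) hi

theorem cnum1_four (n : ℕ) : (4 : ℝ) ^ n ≤ Real.exp (2 * n) := by
  have h1 : (2 : ℝ) ≤ Real.exp 1 := by
    have := Real.add_one_le_exp (1 : ℝ)
    linarith
  have h2 : (4 : ℝ) ≤ Real.exp 2 := by
    rw [show (2 : ℝ) = 1 + 1 by norm_num, Real.exp_add]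
    nlinarith
  rw [mul_comm, Real.exp_nat_mul]
  exact pow_le_pow_left₀ (by norm_num) h2 n

theorem cnum1_box (C : ℝ) (K n : ℕ) :
    C * ((K : ℝ) * 2 ^ n + 1) ^ 2 ≤ |C| * ((K : ℝ) + 1) ^ 2 * Real.exp (2 * n) := by
  have h1 : (1 : ℝ) ≤ 2 ^ n := one_le_pow₀ (by norm_num)
  have h2 : ((K : ℝ) * 2 ^ n + 1) ^ 2 ≤ (((K : ℝ) + 1) * 2 ^ n) ^ 2 :=
    pow_le_pow_left₀ (by positivity) (by linarith) 2
  have h3 : (((K : ℝ) + 1) * 2 ^ n) ^ 2 = ((K : ℝ) + 1) ^ 2 * 4 ^ n := by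
    rw [mul_pow, ← pow_mul, mul_comm n 2, pow_mul]
    norm_num
  have h4 := mul_le_mul_of_nonneg_left (cnum1_four n) (sq_nonneg ((K : ℝ) + 1))
  calc C * ((K : ℝ) * 2 ^ n + 1) ^ 2 ≤ |C| * ((K : ℝ) * 2 ^ n + 1) ^ 2 :=
        mul_le_mul_of_nonneg_right (le_abs_self C) (sq_nonneg _)
    _ ≤ |C| * (((K : ℝ) + 1) ^ 2 * Real.exp (2 * n)) :=
        mul_le_mul_of_nonneg_left (by linarith) (abs_nonneg C)
    _ = _ := by ring

/-- the numerical inequality behind the union bounds over boxes of size `K 2^(a i)` -/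
theorem exists_exp_bound (C c : ℝ) (hc : 0 < c) (K a : ℕ) : ∃ A : ℝ, 0 < A ∧
    ∀ (i s : ℕ) (y : ℝ), A * lam ^ s * ((i : ℝ) + 1) ≤ y →
      C * ((K : ℝ) * 2 ^ (a * i) + 1) ^ 2 * Real.exp (-(c * y)) ≤ (1 / 4) ^ s / 10 := by
  set Z : ℝ := |C| * ((K : ℝ) + 1) ^ 2 with hZ
  have hZ0 : 0 ≤ Z := by positivity
  set T : ℝ := 10 * Z + 2 * a + 3 with hT
  have ha : (0 : ℝ) ≤ a := Nat.cast_nonneg a
  have hT0 : 0 < T := by positivity
  refine ⟨T / c, div_pos hT0 hc, fun i s y hy => ?_⟩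
  have hi : (0 : ℝ) ≤ i := Nat.cast_nonneg i
  have hs : (0 : ℝ) ≤ s := Nat.cast_nonneg s
  have h1 : 1 + (s : ℝ) * (7 / 8) ≤ lam ^ s := by
    have := one_add_mul_le_pow (a := (7 / 8 : ℝ)) (by norm_num) s
    rw [lam, show (15 / 8 : ℝ) = 1 + 7 / 8 by norm_num]
    exact this
  have h2 : T * (lam ^ s * ((i : ℝ) + 1)) ≤ c * y := by
    have := mul_le_mul_of_nonneg_left hy hc.le
    refine le_trans (le_of_eq ?_) this
    field_simp
  have h3 : 1 + (i : ℝ) + s * (7 / 8) ≤ lam ^ s * ((i : ℝ) + 1) := by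
    have := mul_le_mul_of_nonneg_right h1 (show (0 : ℝ) ≤ (i : ℝ) + 1 by positivity)
    nlinarith [mul_nonneg hi hs]
  have h4 : 10 * Z + 2 * ((a * i : ℕ) : ℝ) + 2 * s ≤ c * y := by
    have h5 := mul_le_mul_of_nonneg_left h3 hT0.le
    have h6 : 10 * Z + 2 * ((a * i : ℕ) : ℝ) + 2 * s ≤ T * (1 + (i : ℝ) + s * (7 / 8)) := by
      push_cast
      rw [hT]
      nlinarith [mul_nonneg hZ0 hi, mul_nonneg hZ0 hs, mul_nonneg ha hs, mul_nonneg ha hi]
    linarith
  have h7 := cnum1_box C K (a * i)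
  rw [← hZ] at h7
  have h8 : 10 * Z ≤ Real.exp (10 * Z) := by
    have := Real.add_one_le_exp (10 * Z)
    linarith
  have h9 : (10 * Z) * Real.exp (2 * ((a * i : ℕ) : ℝ)) * 4 ^ s ≤ Real.exp (c * y) := by
    refine le_trans ?_ (Real.exp_le_exp.2 h4)
    rw [Real.exp_add, Real.exp_add]
    exact mul_le_mul (mul_le_mul_of_nonneg_right h8 (Real.exp_pos _).le) (cnum1_four s)
      (by positivity) (by positivity)
  refine (mul_le_mul_of_nonneg_right h7 (Real.exp_pos _).le).trans ?_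
  rw [Real.exp_neg, ← div_eq_mul_inv, one_div, inv_pow, div_le_div_iff₀ (Real.exp_pos _)
    (by norm_num), ← div_eq_inv_mul, le_div_iff₀ (by positivity)]
  linarith

theorem exists_exp_bound' (C c : ℝ) (hc : 0 < c) (K : ℕ) : ∃ Q0 : ℝ, 1 ≤ Q0 ∧
    ∀ (i : ℕ) (Q y : ℝ), Q0 ≤ Q → Q * ((i : ℝ) + 1) ≤ y →
      C * ((K : ℝ) * 2 ^ i + 1) ^ 2 * Real.exp (-(c * y)) ≤ 1 / (3 * Q ^ 2) := by
  set Z : ℝ := |C| * ((K : ℝ) + 1) ^ 2 with hZ
  have hZ0 : 0 ≤ Z := by positivity
  have p1 : 0 ≤ 2 / c := by positivity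
  have p2 : 0 ≤ 18 * Z / c ^ 3 := by positivity
  refine ⟨1 + 2 / c + 18 * Z / c ^ 3, by linarith, fun i Q y hQ hy => ?_⟩
  have hi : (0 : ℝ) ≤ i := Nat.cast_nonneg i
  have hQ0 : 0 < Q := by linarith
  have h1 : 2 ≤ c * Q := by
    have : 2 / c ≤ Q := by linarith
    rw [div_le_iff₀ hc] at this
    linarith
  have h2 : 18 * Z ≤ c ^ 3 * Q := by
    have : 18 * Z / c ^ 3 ≤ Q := by linarith
    rw [div_le_iff₀ (by positivity)] at this
    linarith
  have h3 : c * Q + 2 * i ≤ c * y := by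
    have := mul_le_mul_of_nonneg_left hy hc.le
    nlinarith [mul_le_mul_of_nonneg_right h1 hi]
  have h4 : 3 * Q ^ 2 * Z ≤ Real.exp (c * Q) := by
    have h5 := Real.pow_div_factorial_le_exp (c * Q) (by positivity) 3
    have h6 : ((Nat.factorial 3 : ℕ) : ℝ) = 6 := by norm_num [Nat.factorial]
    rw [h6] at h5
    have h7 := mul_le_mul_of_nonneg_right h2 (sq_nonneg Q)
    nlinarith
  have h7 := cnum1_box C K i
  rw [← hZ] at h7
  have h9 : 3 * Q ^ 2 * Z * Real.exp (2 * (i : ℝ)) ≤ Real.exp (c * y) := by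
    refine le_trans ?_ (Real.exp_le_exp.2 h3)
    rw [Real.exp_add]
    exact mul_le_mul_of_nonneg_right h4 (Real.exp_pos _).le
  refine (mul_le_mul_of_nonneg_right h7 (Real.exp_pos _).le).trans ?_
  rw [Real.exp_neg, ← div_eq_mul_inv, div_le_div_iff₀ (Real.exp_pos _) (by positivity)]
  linarith

end Crest.Agent.R151.PC
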