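import Crest.Agent.R151.CLow
import Crest.Agent.R151.CLD
import Crest.Agent.R151.CNum1
import Crest.Agent.R151.TTess

/-! Row 151, part C: C9: the long cheap path along the axis. -/

set_option autoImplicit false

namespace Crest.Agent.R151.PC

open MeasureTheory ProbabilityTheory Filter Topology Crest.ProbabilityR.FirstPassage
open scoped Classical

variable {G : Measure ℝ} [Law G] {F : FD}

theorem clong_rv (i : ℕ) (θ : ℝ) : ∃ w : ℝ × ℝ, ‖w‖ ≤ 1 ∧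
    rv ((16 : ℤ) ^ i, ⌊θ * 16 ^ i⌋) = (16 : ℝ) ^ i • ((1 : ℝ), θ) + w := by
  refine ⟨(0, (⌊θ * 16 ^ i⌋ : ℝ) - θ * 16 ^ i), ?_, ?_⟩
  · rw [Prod.norm_def]
    refine max_le (by simp) ?_
    rw [Real.norm_eq_abs, abs_le]
    constructor <;> linarith [Int.floor_le (θ * 16 ^ i), Int.lt_floor_add_one (θ * 16 ^ i)]
  · ext
    · simp [rv]
    · simp only [rv, Prod.snd_add, Prod.smul_snd, smul_eq_mul]; ring

theorem clong_nrm (i : ℕ) {θ : ℝ} (hθ : |θ| ≤ F.κ) :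
    (nrm ((16 : ℤ) ^ i, ⌊θ * 16 ^ i⌋) : ℝ) ≤ ((F.κ : ℝ) + 1) * 16 ^ i := by
  obtain ⟨w, hw, h⟩ := clong_rv i θ
  have h16 : (1 : ℝ) ≤ 16 ^ i := one_le_pow₀ (by norm_num)
  have hκ : (1 : ℝ) ≤ F.κ := by
    unfold FD.κ; push_cast; linarith [Nat.cast_nonneg (α := ℝ) ⌈|F.θ1| + |F.θ2|⌉₊]
  have h1 : ‖((1 : ℝ), θ)‖ ≤ F.κ := by
    rw [Prod.norm_def]
    exact max_le (by simpa using hκ) (by simpa using hθ)
  rw [← norm_rv, h]
  refine (norm_add_le _ _).trans ?_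
  rw [norm_smul, Real.norm_of_nonneg (by positivity)]
  nlinarith [mul_le_mul_of_nonneg_left h1 (show (0 : ℝ) ≤ 16 ^ i by positivity)]

theorem clong_rpow (i : ℕ) : ((16 : ℝ) ^ i) ^ ((3 : ℝ) / 4) = 8 ^ i := by
  have h16 : (16 : ℝ) = 2 ^ (4 : ℝ) := by norm_num
  have h8 : (8 : ℝ) = 2 ^ (3 : ℝ) := by norm_num
  rw [← Real.rpow_natCast, ← Real.rpow_mul (by norm_num), mul_comm, Real.rpow_mul (by norm_num),
    Real.rpow_natCast]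
  congr 1
  rw [h16, h8, ← Real.rpow_mul (by norm_num)]
  norm_num

theorem long_cheap (hE : ExpL G) (hF : IsFace (mu G) F) : ∃ Ca : ℝ, 0 < Ca ∧
    ∀ (i : ℕ) (θ : ℝ), |θ| ≤ F.κ → mu G (1, θ) - dot F.ρ (1, θ) ≤ F.Ub G i / 2 ^ i →
      Pr G {t | Ca * 8 ^ i * F.Ub G i ≤ T t 0 ((16 : ℤ) ^ i, ⌊θ * 16 ^ i⌋) -
        dot F.ρ (rv ((16 : ℤ) ^ i, ⌊θ * 16 ^ i⌋))} ≤ 1 / 10 := by
  obtain ⟨Cu, hCu, hup⟩ := (mu_ok G).upper
  obtain ⟨C, hC, hP⟩ := Pr_T_gt_mu G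
  have hk : (0 : ℝ) < ((F.κ : ℝ) + 1) ^ ((3 : ℝ) / 4) := by positivity
  set A : ℝ := 10 * C * ((F.κ : ℝ) + 1) ^ ((3 : ℝ) / 4) with hA
  have hA0 : 0 < A := by positivity
  refine ⟨1 + Cu + 2 * ‖F.ρ‖ + A, by positivity, fun i θ hθ hmu => ?_⟩
  set x : V := ((16 : ℤ) ^ i, ⌊θ * 16 ^ i⌋) with hx
  have h8 : (1 : ℝ) ≤ 8 ^ i := one_le_pow₀ (by norm_num)
  have hU := one_le_Ub hE hF i
  have hexc : mu G (rv x) - dot F.ρ (rv x) ≤ 8 ^ i * F.Ub G i + Cu + 2 * ‖F.ρ‖ := by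
    obtain ⟨w, hw, h⟩ := clong_rv i θ
    rw [hx, h, dot_add, dot_smul]
    have h1 := (mu_ok G).add_le ((16 : ℝ) ^ i • ((1 : ℝ), θ)) w
    rw [(mu_ok G).smul _ _ (by positivity)] at h1
    have h2 : mu G w ≤ Cu := (hup w).trans (by nlinarith)
    have h3 : -(2 * ‖F.ρ‖) ≤ dot F.ρ w := by
      have := abs_dot_le F.ρ w
      have h4 := neg_abs_le (dot F.ρ w)
      nlinarith [norm_nonneg F.ρ]
    have h5 : (16 : ℝ) ^ i * (mu G (1, θ) - dot F.ρ (1, θ)) ≤ 8 ^ i * F.Ub G i := by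
      refine (mul_le_mul_of_nonneg_left hmu (by positivity)).trans (le_of_eq ?_)
      have : (16 : ℝ) ^ i = 8 ^ i * 2 ^ i := by rw [← mul_pow]; norm_num
      rw [this]; field_simp
    linarith
  refine (Pr_mono G (B := {t | mu G (rv (x - 0)) + A * 8 ^ i ≤ T t 0 x}) fun t ht => ?_).trans
    ((hP 0 x _ (by positivity)).trans ?_)
  · simp only [Set.mem_setOf_eq, sub_zero] at ht ⊢
    have h1 : (1 : ℝ) ≤ 8 ^ i * F.Ub G i := by nlinarith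
    have h2 : (8 : ℝ) ^ i ≤ 8 ^ i * F.Ub G i := by nlinarith
    have h3 : Cu + 2 * ‖F.ρ‖ ≤ (Cu + 2 * ‖F.ρ‖) * (8 ^ i * F.Ub G i) :=
      le_mul_of_one_le_right (by positivity) h1
    have h4 : A * 8 ^ i ≤ A * (8 ^ i * F.Ub G i) := mul_le_mul_of_nonneg_left h2 hA0.le
    nlinarith
  · rw [sub_zero, div_le_iff₀ (by positivity)]
    have h1 : (nrm x : ℝ) ^ ((3 : ℝ) / 4) ≤ (((F.κ : ℝ) + 1) * 16 ^ i) ^ ((3 : ℝ) / 4) :=
      Real.rpow_le_rpow (by positivity) (clong_nrm i hθ) (by norm_num)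
    rw [Real.mul_rpow (by positivity) (by positivity), clong_rpow] at h1
    calc C * (nrm x : ℝ) ^ ((3 : ℝ) / 4) ≤ C * (((F.κ : ℝ) + 1) ^ ((3 : ℝ) / 4) * 8 ^ i) :=
          mul_le_mul_of_nonneg_left h1 hC.le
      _ = 1 / 10 * (A * 8 ^ i) := by rw [hA]; ring

/-- with probability `≥ 4/5` there is a long cheap path all of whose steep portions are expensive -/
theorem long_path (hE : ExpL G) (hF : IsFace (mu G) F) : ∃ c Ca Cy : ℝ, 0 < c ∧ 0 < Ca ∧ 0 < Cy ∧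
    ∀ (i : ℕ) (θ : ℝ), |θ| ≤ F.κ → mu G (1, θ) - dot F.ρ (1, θ) ≤ F.Ub G i / 2 ^ i →
      F.Ub G i ≤ 2 ^ i → Cy * F.Ub G i ≤ 2 ^ i →
      Pr G {t | NN t ∧ ∃ γ : Pth, γ.Ok ∧ γ.p 0 = 0 ∧ γ.p γ.n = ((16 : ℤ) ^ i, ⌊θ * 16 ^ i⌋) ∧
        F.SteepP γ t c (Cy * F.Ub G i) ∧ F.X γ t ≤ Ca * 8 ^ i * F.Ub G i}ᶜ ≤ 1 / 5 := by
  obtain ⟨Ca, hCa, hL⟩ := long_cheap hE hF
  obtain ⟨c, c', C, hc, hc', hC, hG⟩ := gd_prob hF
  obtain ⟨cU, hcU, hU⟩ := Ub_lower hE hF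
  obtain ⟨KR, hKR⟩ := exists_nat_ge ((2 * ‖F.ρ‖ * ((F.κ : ℝ) + 1) + Ca + 1) / c)
  rw [div_le_iff₀ hc] at hKR
  obtain ⟨A, hA, hexp⟩ := exists_exp_bound C c' hc' KR 4
  refine ⟨c, Ca, A / cU, hc, hCa, by positivity, fun i θ hθ hmu hU2 hy => ?_⟩
  set x : V := ((16 : ℤ) ^ i, ⌊θ * 16 ^ i⌋) with hx
  set y : ℝ := A / cU * F.Ub G i with hydef
  have hP1 := hL i θ hθ hmu
  have hP2 := hG 0 (KR * 2 ^ (4 * i)) y
  have hy1 : A * lam ^ 0 * ((i : ℝ) + 1) ≤ y := by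
    rw [pow_zero, mul_one, hydef]
    calc A * ((i : ℝ) + 1) = A / cU * (cU * ((i : ℝ) + 1)) := by field_simp
      _ ≤ A / cU * F.Ub G i := mul_le_mul_of_nonneg_left (hU i) (by positivity)
  have hP3 := hexp i 0 y hy1
  have hP4 : Pr G (F.Gd c (box 0 (KR * 2 ^ (4 * i))) y)ᶜ ≤ 1 / 10 := by
    refine hP2.trans ?_
    push_cast
    simpa using hP3
  refine (Pr_le_add_of_ae G (B := {t | Ca * 8 ^ i * F.Ub G i ≤ T t 0 x - dot F.ρ (rv x)})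
    (C := (F.Gd c (box 0 (KR * 2 ^ (4 * i))) y)ᶜ) ?_).trans (by linarith)
  filter_upwards [ae_nn G] with t ht hA'
  by_contra hcon
  rw [not_or] at hcon
  obtain ⟨h1, h2⟩ := hcon
  simp only [Set.mem_setOf_eq, not_le] at h1
  rw [Set.notMem_compl_iff] at h2
  refine hA' ⟨ht, ?_⟩
  have h3 : TD Set.univ t 0 x < dot F.ρ (rv x) + Ca * 8 ^ i * F.Ub G i := by
    have : T t 0 x = TD Set.univ t 0 x := rfl
    linarith
  obtain ⟨γ, hJ, -, htot⟩ := exists_tot_lt ht (conn_univ 0 x) h3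
  have hX := X_of_joins F hJ t
  rw [sub_zero] at hX
  have hstay : γ.In (box 0 (KR * 2 ^ (4 * i))) := by
    refine gd_stay F ht h2 hJ.1 hJ.2.2.1 (htot.trans_le ?_)
    have e16 : (2 : ℝ) ^ (4 * i) = 16 ^ i := by rw [pow_mul]; norm_num
    have e8 : (16 : ℝ) ^ i = 8 ^ i * 2 ^ i := by rw [← mul_pow]; norm_num
    have h8 : (1 : ℝ) ≤ 8 ^ i := one_le_pow₀ (by norm_num)
    have d1 : dot F.ρ (rv x) ≤ 2 * ‖F.ρ‖ * (((F.κ : ℝ) + 1) * 16 ^ i) := by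
      refine (le_abs_self _).trans ((abs_dot_le _ _).trans ?_)
      rw [norm_rv]
      exact mul_le_mul_of_nonneg_left (clong_nrm i hθ) (by positivity)
    have d2 : Ca * 8 ^ i * F.Ub G i ≤ Ca * 16 ^ i := by
      rw [e8, ← mul_assoc]
      exact mul_le_mul_of_nonneg_left hU2 (by positivity)
    have d3 : y ≤ 16 ^ i := by
      refine hy.trans ?_
      rw [e8]
      exact le_mul_of_one_le_left (by positivity) h8
    have d4 := mul_le_mul_of_nonneg_right hKR (show (0 : ℝ) ≤ 16 ^ i by positivity)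
    push_cast
    rw [e16]
    nlinarith
  exact ⟨γ, hJ.1, hJ.2.2.1, hJ.2.2.2, gd_steepP F ht h2 ⟨hJ.1, hstay⟩, by linarith⟩

end Crest.Agent.R151.PC
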