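import Crest.Agent.R151.CApr

/-! Row 151, part C: the envelope `Ub`. -/

set_option autoImplicit false

namespace Crest.Agent.R151.PC

open MeasureTheory ProbabilityTheory Filter Topology Crest.ProbabilityR.FirstPassage
open scoped Classical

variable {G : Measure ℝ} [Law G] {F : FD}

theorem M_le_lam (hE : ExpL G) (hF : IsFace (mu G) F) : ∃ C : ℝ, 0 < C ∧
    ∀ j, F.M G j ≤ C * lam ^ j := by
  obtain ⟨C, hC, h⟩ := fh_apriori hE hF
  refine ⟨1 + C, by positivity, fun j => ?_⟩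
  have h1 : 1 ≤ lam ^ j := one_le_pow₀ one_lt_lam.le
  have h2 : (2 : ℝ) ^ ((9 : ℝ) / 10) ≤ lam := by
    refine le_of_pow_le_pow_left₀ (n := 10) (by norm_num) lam_pos.le ?_
    rw [← Real.rpow_natCast, ← Real.rpow_mul (by norm_num)]
    norm_num [lam]
  have h3 := M_le (G := G) (F := F) (j := j) (B := C * lam ^ j) (by positivity) fun v hv hj => by
    have hi : F.Inr v := hv.elim hF.V1_inr hF.V2_inr
    refine (h v hi).trans (mul_le_mul_of_nonneg_left ?_ hC.le)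
    have h4 : (0 : ℝ) ≤ v.1 := by exact_mod_cast (by linarith [hi.1] : (0 : ℤ) ≤ v.1)
    calc (v.1 : ℝ) ^ ((9 : ℝ) / 10) ≤ ((2 : ℝ) ^ j) ^ ((9 : ℝ) / 10) :=
          Real.rpow_le_rpow h4 (by exact_mod_cast hj) (by norm_num)
      _ = ((2 : ℝ) ^ ((9 : ℝ) / 10)) ^ j := by
          rw [← Real.rpow_natCast, ← Real.rpow_mul (by norm_num), mul_comm,
            Real.rpow_mul (by norm_num), Real.rpow_natCast]
      _ ≤ lam ^ j := pow_le_pow_left₀ (by positivity) h2 j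
  linarith

theorem M_le_Ub (hE : ExpL G) (hF : IsFace (mu G) F) (i k : ℕ) :
    F.M G (i + k) ≤ lam ^ k * F.Ub G i := by
  obtain ⟨C, hC, h⟩ := M_le_lam hE hF
  have hb : BddAbove (Set.range fun k : ℕ => F.M G (i + k) / lam ^ k) := by
    refine ⟨C * lam ^ i, ?_⟩
    rintro _ ⟨k, rfl⟩
    rw [div_le_iff₀ (pow_pos lam_pos k), mul_assoc, ← pow_add]
    exact h _
  have h1 : F.M G (i + k) / lam ^ k ≤ F.Ub G i := le_ciSup hb k
  rwa [div_le_iff₀ (pow_pos lam_pos k), mul_comm] at h1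

theorem Ub_le (i : ℕ) {B : ℝ} (h : ∀ k, F.M G (i + k) ≤ lam ^ k * B) : F.Ub G i ≤ B := by
  refine ciSup_le fun k => ?_
  rw [div_le_iff₀ (pow_pos lam_pos k), mul_comm]
  exact h k

theorem M_le_Ub' (hE : ExpL G) (hF : IsFace (mu G) F) (i : ℕ) : F.M G i ≤ F.Ub G i := by
  simpa using M_le_Ub hE hF i 0

theorem one_le_Ub (hE : ExpL G) (hF : IsFace (mu G) F) (i : ℕ) : 1 ≤ F.Ub G i :=
  (one_le_M hE hF i).trans (M_le_Ub' hE hF i)

theorem Ub_succ_le (hE : ExpL G) (hF : IsFace (mu G) F) (i : ℕ) :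
    F.Ub G (i + 1) ≤ lam * F.Ub G i := by
  refine Ub_le _ fun k => ?_
  rw [← mul_assoc, ← pow_succ, add_assoc, add_comm 1 k]
  exact M_le_Ub hE hF i (k + 1)

theorem Ub_le_lam (hE : ExpL G) (hF : IsFace (mu G) F) : ∃ C : ℝ, 0 < C ∧
    ∀ i, F.Ub G i ≤ C * lam ^ i := by
  obtain ⟨C, hC, h⟩ := M_le_lam hE hF
  refine ⟨C, hC, fun i => Ub_le _ fun k => (h _).trans (le_of_eq ?_)⟩
  rw [pow_add]
  ring

/-- elementary consequences of `Scale` -/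
theorem Scale.basic (hE : ExpL G) (hF : IsFace (mu G) F) {i : ℕ} {θ : ℝ} {W : ℕ} {Q : ℝ}
    (h : Scale F G i θ W Q) (hQ : 1 ≤ Q) :
    1 ≤ W ∧ Q ≤ W ∧ Q * F.Ub G i ≤ W ∧ Q ^ 2 * F.Ub G i ≤ W / Q ∧ F.Ub G i ≤ 2 ^ i ∧
      (W : ℝ) ≤ 2 ^ i ∧ Q ≤ 8 ^ i ∧ |θ| + 1 ≤ F.κ := by
  have h1 := one_le_Ub hE hF i
  have h2 := h.UW
  have h3 : Q ≤ Q ^ 3 := le_self_pow₀ hQ (by norm_num)
  have h4 : Q * F.Ub G i ≤ W := (mul_le_mul_of_nonneg_right h3 (by linarith)).trans h2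
  have h5 : Q ≤ W := (le_mul_of_one_le_right (by linarith) h1).trans h4
  have h6 : (W : ℝ) ≤ 2 ^ i := by exact_mod_cast h.WL
  have h7 : (2 : ℝ) ^ i ≤ 8 ^ i := pow_le_pow_left₀ (by norm_num) (by norm_num) i
  refine ⟨by exact_mod_cast hQ.trans h5, h5, h4, ?_,
    ((le_mul_of_one_le_left (by linarith) hQ).trans h4).trans h6, h6, (h5.trans h6).trans h7,
    hF.abs_le_κ (by linarith [hF.lt, hF.δ_pos, h.lo]) h.hi⟩
  rw [le_div_iff₀ (by linarith)]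
  linarith

end Crest.Agent.R151.PC
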