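import Crest.Agent.R151.CNuc
import Crest.Agent.R151.CUb

/-! Row 151, part C: C7: logarithmic lower bound for `M`. -/

set_option autoImplicit false

namespace Crest.Agent.R151.PC

open MeasureTheory ProbabilityTheory Filter Topology Crest.ProbabilityR.FirstPassage
open scoped Classical

variable {G : Measure ℝ} [Law G] {F : FD}

/-- a straight horizontal segment of small weights -/
theorem straight_prob (hE : ExpL G) (hF : IsFace (mu G) F) : ∃ g : ℝ, 0 < g ∧ ∀ H : ℕ,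
    g ^ H ≤ Pr G (F.Cheap (CIn (box 0 H)) (-(F.ρ.1 / 2 * H))) := by
  have hρ := hF.rho1_pos (mu_ok G)
  have hg := hE.small _ (half_pos hρ)
  refine ⟨_, hg, fun H => ?_⟩
  obtain ⟨γ, hn, hp⟩ : ∃ γ : Pth, γ.n = H ∧ ∀ k ≤ H, γ.p k = ((k : ℤ), 0) :=
    ⟨Pth.of H fun k => ((k : ℤ), 0), rfl, fun k hk => Pth.of_p _ _ hk⟩
  have hγ : γ ∈ CIn (box 0 H) := by
    refine ⟨fun i hi => ?_, fun i hi => ?_, fun k hk => ?_⟩
    · rw [hp i (by omega), hp (i + 1) (by omega), adj_iff]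
      right
      push_cast
      simp
    · rw [hp i (by omega)]
      show nrm _ ≤ H
      simp only [nrm, sub_zero, Int.natAbs_natCast, Int.natAbs_zero]
      omega
    · rw [hp 0 (by omega), hp k (by omega), hn, hp H le_rfl]
      simp only
      omega
  calc G.real (Set.Icc 0 (F.ρ.1 / 2)) ^ H ≤ G.real (Set.Icc 0 (F.ρ.1 / 2)) ^ γ.edges.card :=
        pow_le_pow_of_le_one hg.le measureReal_le_one (γ.card_edges_le.trans hn.le)
    _ = Pr G {t | ∀ e ∈ γ.edges, t e ∈ Set.Icc 0 (F.ρ.1 / 2)} :=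
        (Pr_forall_eval G _ measurableSet_Icc).symm
    _ ≤ _ := by
      refine Pr_mono G fun t ht => ⟨γ, hγ, ?_⟩
      have h1 : γ.tot t ≤ H * (F.ρ.1 / 2) := by
        unfold Pth.tot Pth.cost
        have := Finset.sum_le_card_nsmul (Finset.Ico 0 γ.n) (fun i => t (γ.edge i)) (F.ρ.1 / 2)
          fun i hi => (ht _ (Finset.mem_image_of_mem _
            (Finset.mem_range.2 (Finset.mem_Ico.1 hi).2))).2
        rw [Nat.card_Ico, Nat.sub_zero, nsmul_eq_mul] at this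
        rwa [← hn]
      have h2 : dot F.ρ (rv (disp γ)) = F.ρ.1 * H := by
        unfold disp
        rw [hn, hp H le_rfl, hp 0 (Nat.zero_le _)]
        simp [dot, rv]
      unfold FD.X
      rw [h2]
      linarith

theorem M_lower (hE : ExpL G) (hF : IsFace (mu G) F) : ∃ c : ℝ, 0 < c ∧
    ∀ j : ℕ, c * ((j : ℝ) + 1) ≤ F.M G j := by
  have hρ := hF.rho1_pos (mu_ok G)
  obtain ⟨g, hg, hs⟩ := straight_prob hE hF
  obtain ⟨C, hC, c0, hn⟩ := nuc hE hF
  obtain ⟨A, hA⟩ := exists_pow_lt_of_lt_one hg (show (1 / 4 : ℝ) < 1 by norm_num)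
  have key : ∀ H : ℕ, 1 ≤ H → F.ρ.1 / 2 * H < C * F.M G (H + A * H + c0) := by
    intro H hH
    by_contra hc
    have h1 := (hs H).trans (Pr_mono G (cheap_mono (F := F) subset_rfl
      (neg_le_neg (not_lt.1 hc))))
    have h2 := h1.trans (hn H H (A * H) 0 hH Nat.lt_two_pow_self.le)
    rw [pow_mul] at h2
    exact absurd (pow_lt_pow_left₀ hA (by positivity) (by omega : H ≠ 0)) (not_lt.2 h2)
  have hK : (0 : ℝ) < 2 * (A + 1) + c0 := by positivity
  have hm : 0 < min 1 (F.ρ.1 / 2 / C) := lt_min one_pos (by positivity)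
  refine ⟨min 1 (F.ρ.1 / 2 / C) / (2 * (A + 1) + c0), by positivity, fun j => ?_⟩
  rw [div_mul_eq_mul_div, div_le_iff₀ hK]
  obtain ⟨H, hH⟩ : ∃ H, H = (j - c0) / (A + 1) := ⟨_, rfl⟩
  have e1 : (A + 1) * H ≤ j - c0 := hH ▸ Nat.mul_div_le _ _
  have e2 : j - c0 < (A + 1) * (H + 1) := hH ▸ Nat.lt_mul_div_succ _ (Nat.succ_pos A)
  rcases Nat.eq_zero_or_pos H with h0 | h0
  · have e3 : j + 1 ≤ 2 * (A + 1) + c0 := by rw [h0] at e2; omega
    have e4 : (j : ℝ) + 1 ≤ 2 * (A + 1) + c0 := by exact_mod_cast e3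
    exact mul_le_mul ((min_le_left _ _).trans (one_le_M hE hF j)) e4 (by positivity)
      (zero_le_one.trans (one_le_M hE hF j))
  · have e3 : j + 1 ≤ H * (2 * (A + 1) + c0) := by
      have : c0 ≤ H * c0 := Nat.le_mul_of_pos_left _ h0
      have : A + 1 ≤ (A + 1) * H := Nat.le_mul_of_pos_right _ h0
      have : j + 1 ≤ (A + 1) * (H + 1) + c0 := by omega
      nlinarith
    have e4 : (j : ℝ) + 1 ≤ H * (2 * (A + 1) + c0) := by exact_mod_cast e3
    have e5 : H + A * H + c0 ≤ j := by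
      have : 1 ≤ (A + 1) * H := Nat.mul_pos (Nat.succ_pos A) h0
      have : (A + 1) * H = H + A * H := by ring
      omega
    have e6 : F.ρ.1 / 2 / C * H ≤ F.M G j := by
      rw [div_mul_eq_mul_div, div_le_iff₀ hC, mul_comm _ C]
      exact (key H h0).le.trans (mul_le_mul_of_nonneg_left (M_mono hE hF e5) hC.le)
    calc min 1 (F.ρ.1 / 2 / C) * ((j : ℝ) + 1)
        ≤ F.ρ.1 / 2 / C * (H * (2 * (A + 1) + c0)) :=
          mul_le_mul (min_le_right _ _) e4 (by positivity) (by positivity)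
      _ ≤ _ := by
          rw [← mul_assoc]
          exact mul_le_mul_of_nonneg_right e6 hK.le

theorem Ub_lower (hE : ExpL G) (hF : IsFace (mu G) F) : ∃ c : ℝ, 0 < c ∧
    ∀ i : ℕ, c * ((i : ℝ) + 1) ≤ F.Ub G i := by
  obtain ⟨c, hc, h⟩ := M_lower hE hF
  exact ⟨c, hc, fun i => (h i).trans (M_le_Ub' hE hF i)⟩

end Crest.Agent.R151.PC
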