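import Crest.Agent.R151.CEv
import Crest.Agent.R151.TMu

/-! Row 151, part C: moments under a second-moment assumption. -/

set_option autoImplicit false

namespace Crest.Agent.R151.PC

open MeasureTheory ProbabilityTheory Filter Topology Crest.ProbabilityR.FirstPassage
open scoped Classical

variable {G : Measure ℝ} [Law G]

theorem edge_moment (hE : ExpL G) : ∃ C : ℝ, 0 < C ∧ ∀ e : Sym2 V,
    MemLp (fun t : Env => t e) 2 (iidLaw G) ∧ Integrable (fun t : Env => t e) (iidLaw G) ∧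
      ∫ t : Env, t e ∂(iidLaw G) ≤ C ∧ ∫ t : Env, (t e) ^ 2 ∂(iidLaw G) ≤ C := by
  refine ⟨|∫ x, x ∂G| + |∫ x, x ^ 2 ∂G| + 1, by positivity, fun e => ?_⟩
  have h := measurePreserving_eval' G e
  have h1 : MemLp (fun t : Env => t e) 2 (iidLaw G) := hE.mom2.comp_measurePreserving h
  have h2 : ∀ f : ℝ → ℝ, Measurable f → ∫ t : Env, f (t e) ∂(iidLaw G) = ∫ x, f x ∂G := fun f hf => by
    rw [← integral_map h.measurable.aemeasurable hf.aestronglyMeasurable, h.map_eq]
  refine ⟨h1, h1.integrable one_le_two, ?_, ?_⟩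
  · rw [h2 (fun x => x) measurable_id]
    linarith [le_abs_self (∫ x, x ∂G), abs_nonneg (∫ x, x ^ 2 ∂G)]
  · rw [h2 (fun x => x ^ 2) (by fun_prop)]
    linarith [le_abs_self (∫ x, x ^ 2 ∂G), abs_nonneg (∫ x, x ∂G)]

theorem tot_moment (hE : ExpL G) : ∃ C : ℝ, 0 < C ∧ ∀ γ : Pth,
    MemLp (fun t => γ.tot t) 2 (iidLaw G) ∧ ∫ t, γ.tot t ∂(iidLaw G) ≤ C * γ.n ∧
      ∫ t, (γ.tot t) ^ 2 ∂(iidLaw G) ≤ C * (γ.n : ℝ) ^ 2 := by
  obtain ⟨C, hC, H⟩ := edge_moment hE
  refine ⟨C, hC, fun γ => ?_⟩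
  have h1 : MemLp (fun t => γ.tot t) 2 (iidLaw G) :=
    memLp_finsetSum (Finset.Ico 0 γ.n) fun i _ => (H (γ.edge i)).1
  refine ⟨h1, ?_, ?_⟩
  · unfold Pth.tot Pth.cost
    rw [integral_finsetSum _ fun i _ => (H (γ.edge i)).2.1]
    refine (Finset.sum_le_sum fun i _ => (H (γ.edge i)).2.2.1).trans (le_of_eq ?_)
    simp [mul_comm]
  · have h2 : ∀ i, Integrable (fun t : Env => t (γ.edge i) ^ 2) (iidLaw G) := fun i =>
      (H (γ.edge i)).1.integrable_sq
    calc _ ≤ ∫ t, (γ.n : ℝ) * ∑ i ∈ Finset.Ico 0 γ.n, t (γ.edge i) ^ 2 ∂(iidLaw G) := by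
          refine integral_mono h1.integrable_sq
            ((integrable_finsetSum _ fun i _ => h2 i).const_mul _) fun t => ?_
          simpa [Pth.tot, Pth.cost] using
            sq_sum_le_card_mul_sum_sq (s := Finset.Ico 0 γ.n) (f := fun i => t (γ.edge i))
      _ ≤ (γ.n : ℝ) * ∑ _i ∈ Finset.Ico 0 γ.n, C := by
          rw [integral_const_mul, integral_finsetSum _ fun i _ => h2 i]
          exact mul_le_mul_of_nonneg_left (Finset.sum_le_sum fun i _ => (H (γ.edge i)).2.2.2)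
            (by positivity)
      _ = _ := by simp; ring

theorem memLp_TF (hE : ExpL G) (S : Set Pth) : MemLp (TF S) 2 (iidLaw G) := by
  obtain ⟨C, -, H⟩ := tot_moment hE
  rcases S.eq_empty_or_nonempty with rfl | ⟨γ, hγ⟩
  · have : TF ∅ = fun _ => 0 := funext fun t => by simp [TF]
    rw [this]
    exact memLp_const 0
  · refine (H γ).1.of_le (measurable_TF S).aestronglyMeasurable ?_
    filter_upwards [ae_nn G] with t ht
    rw [Real.norm_of_nonneg (TF_nonneg ht S), Real.norm_of_nonneg (γ.tot_nonneg ht)]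
    exact TF_le ht hγ

theorem integrable_TF (hE : ExpL G) (S : Set Pth) : Integrable (TF S) (iidLaw G) := by
  exact (memLp_TF hE S).integrable one_le_two

theorem integrable_TD (hE : ExpL G) (D : Set V) (x z : V) :
    Integrable (fun t => TD D t x z) (iidLaw G) := by
  simp only [TD_eq_TF]
  exact integrable_TF hE _

theorem integrable_XD (hE : ExpL G) (F : FD) (b v : V) :
    Integrable (fun t => F.XD t b v) (iidLaw G) := by
  exact (integrable_TD hE _ _ _).sub (integrable_const _)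

theorem TD_rect_moment (hE : ExpL G) : ∃ C : ℝ, 0 < C ∧ ∀ (a b c d : ℤ) (x z : V),
    x ∈ rect a b c d → z ∈ rect a b c d →
      MemLp (fun t => TD (rect a b c d) t x z) 2 (iidLaw G) ∧
      ∫ t, TD (rect a b c d) t x z ∂(iidLaw G) ≤ C * nrm (z - x) ∧
      ∫ t, (TD (rect a b c d) t x z) ^ 2 ∂(iidLaw G) ≤ C * (nrm (z - x) : ℝ) ^ 2 := by
  obtain ⟨C, hC, H⟩ := tot_moment hE
  refine ⟨4 * C, by positivity, fun a b c d x z hx hz => ?_⟩
  obtain ⟨γ, -, hj, -, hn, -⟩ := Pth.exists_stair x z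
  have hj' : γ.Joins (rect a b c d) x z := hj.mono fun y hy =>
    ⟨(le_min hx.1 hz.1).trans hy.1, hy.2.1.trans (max_le hx.2.1 hz.2.1),
      (le_min hx.2.2.1 hz.2.2.1).trans hy.2.2.1, hy.2.2.2.trans (max_le hx.2.2.2 hz.2.2.2)⟩
  have hm : MemLp (fun t => TD (rect a b c d) t x z) 2 (iidLaw G) := by
    simp only [TD_eq_TF]
    exact memLp_TF hE _
  have hn' : (γ.n : ℝ) ≤ 2 * nrm (z - x) := by exact_mod_cast hn
  have h0 : (0 : ℝ) ≤ nrm (z - x) := by positivity
  refine ⟨hm, le_trans (integral_mono_ae (hm.integrable one_le_two) ((H γ).1.integrable one_le_two) ?_)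
    ((H γ).2.1.trans (by nlinarith)), le_trans (integral_mono_ae hm.integrable_sq (H γ).1.integrable_sq ?_)
    ((H γ).2.2.trans ?_)⟩
  · filter_upwards [ae_nn G] with t ht using TD_le ht hj'
  · filter_upwards [ae_nn G] with t ht using pow_le_pow_left₀ (TD_nonneg ht _ _ _) (TD_le ht hj') 2
  · have := pow_le_pow_left₀ (by positivity) hn' 2
    nlinarith

/-- a mean bound from one upper quantile and the second moment -/
theorem integral_le_of_quantile {Z : Env → ℝ} (hm : Measurable Z) (hZ : MemLp Z 2 (iidLaw G))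
    {a B p : ℝ} (ha : 0 ≤ a) (hB0 : 0 ≤ B) (hB : ∫ t, Z t ^ 2 ∂(iidLaw G) ≤ B ^ 2)
    (hp : Pr G {t | a < Z t} ≤ p) : ∫ t, Z t ∂(iidLaw G) ≤ a + B * √p := by
  have hA : MeasurableSet {t | a < Z t} := measurableSet_lt measurable_const hm
  have hi := hZ.integrable one_le_two
  have h1 : ∫ t, Z t ∂(iidLaw G) ≤ ∫ t, (a + {t | a < Z t}.indicator (fun t => |Z t|) t) ∂(iidLaw G) := by
    refine integral_mono hi ((integrable_const a).add (hi.abs.indicator hA)) fun t => ?_
    by_cases h : a < Z t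
    · simp only [Set.indicator_of_mem (show t ∈ {t | a < Z t} from h)]
      linarith [le_abs_self (Z t)]
    · simp only [Set.indicator_of_notMem (show t ∉ {t | a < Z t} from h)]
      linarith
  rw [integral_add (integrable_const a) (hi.abs.indicator hA), integral_indicator hA] at h1
  simp only [integral_const, probReal_univ, smul_eq_mul, one_mul] at h1
  refine h1.trans (add_le_add le_rfl ((setIntegral_le_sqrt G hZ hA).trans ?_))
  exact mul_le_mul (Real.sqrt_le_iff.2 ⟨hB0, hB⟩) (Real.sqrt_le_sqrt hp) (by positivity) hB0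

end Crest.Agent.R151.PC
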