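import Crest.Agent.R151.CPin

/-! Row 151, part C: C6 (nucleation for crossing paths). -/

set_option autoImplicit false

namespace Crest.Agent.R151.PC

open MeasureTheory ProbabilityTheory Filter Topology Crest.ProbabilityR.FirstPassage
open scoped Classical

variable {G : Measure ℝ} [Law G] {F : FD}

theorem nuc_half (hE : ExpL G) (hF : IsFace (mu G) F) : ∃ C : ℝ, 0 < C ∧ ∃ c0 : ℕ,
    ∀ (r j : ℕ) (b : V), 1 ≤ r → r ≤ 2 ^ j →
      Pr G (F.Cheap (CIn (box b r)) (-(C * F.M G (j + c0)))) ≤ 1 / 2 := by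
  obtain ⟨Kp, hKp, Cp, hCp, cp, hp⟩ := pin hE hF
  obtain ⟨CT, hCT, cT, hT⟩ := T_neg hE hF
  refine ⟨Cp + 4 * CT, by positivity, cp + (Kp + 1) + cT, fun r j b hr hj => ?_⟩
  obtain ⟨g, -, hg2, hg3, hg⟩ := hp r j hr hj
  set M := F.M G (j + (cp + (Kp + 1) + cT)) with hM
  have hM1 : 1 ≤ M := one_le_M hE hF _
  have hM2 : F.M G (j + cp) ≤ M := M_mono hE hF (by omega)
  have hM3 : F.M G (j + (Kp + 1) + cT) ≤ M := M_mono hE hF (by omega)
  have h1 := hg b b (CIn (box b r))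
    (fun γ hγ => ⟨hγ.1, hγ.2.2, hγ.2.1 0 (Nat.zero_le _), hγ.2.1 _ le_rfl⟩) (-((Cp + 4 * CT) * M))
  have hv : (g + g).1 ≤ 2 ^ (j + (Kp + 1)) := by
    have a1 : g.1 ≤ (Kp * r : ℕ) := (le_abs_self _).trans ((nrm_le_iff g _).1 hg2).1
    have a2 : Kp * r ≤ 2 ^ Kp * 2 ^ j := Nat.mul_le_mul (Nat.lt_two_pow_self).le hj
    have a3 : ((Kp * r : ℕ) : ℤ) ≤ 2 ^ Kp * 2 ^ j := by exact_mod_cast a2
    rw [Prod.fst_add, pow_add, pow_succ]
    linarith
  have h2 := hT (j + (Kp + 1)) (b - g) (g + g) hg3 hv (4 * CT * M) (by positivity)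
  have h3 : Pr G (F.Cheap (Pin (b - g) (b + g) (Kp * r) (CIn (box b r)))
      (-((Cp + 4 * CT) * M) + Cp * F.M G (j + cp))) ≤
      Pr G {t | T t (b - g) (b - g + (g + g)) - dot F.ρ (rv (g + g)) ≤ -(4 * CT * M)} := by
    refine Pr_mono_ae G ?_
    filter_upwards [ae_nn G] with t ht ⟨Γ, hΓ, hX⟩
    have hJ := Pin.joins_univ hΓ
    have a1 : T t (b - g) (b + g) ≤ Γ.tot t := TD_le ht hJ
    rw [X_of_joins F hJ, show b + g - (b - g) = g + g by abel] at hX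
    show T t (b - g) (b - g + (g + g)) - dot F.ρ (rv (g + g)) ≤ -(4 * CT * M)
    rw [show b - g + (g + g) = b + g by abel]
    nlinarith [mul_le_mul_of_nonneg_left hM2 hCp.le]
  have h4 : CT * F.M G (j + (Kp + 1) + cT) / (4 * CT * M) ≤ 1 / 4 := by
    rw [div_le_iff₀ (by positivity)]
    nlinarith [mul_le_mul_of_nonneg_left hM3 hCT.le]
  linarith

theorem nuc (hE : ExpL G) (hF : IsFace (mu G) F) : ∃ C : ℝ, 0 < C ∧ ∃ c0 : ℕ,
    ∀ (r j s : ℕ) (b : V), 1 ≤ r → r ≤ 2 ^ j →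
      Pr G (F.Cheap (CIn (box b r)) (-(C * F.M G (j + s + c0)))) ≤ (1 / 4) ^ s := by
  obtain ⟨C, hC, c0, h⟩ := nuc_half hE hF
  refine ⟨C, hC, 2 + c0, fun r j s b hr hj => ?_⟩
  set x := -(C * F.M G (j + s + (2 + c0))) with hx
  set c : ℕ × ℕ → V := fun k =>
    (b.1 + (2 * r + 1) * (k.1 : ℤ), b.2 + (2 * r + 1) * (k.2 : ℤ)) with hc
  have hpos : 0 < 2 ^ s := Nat.two_pow_pos s
  have hR : 2 ^ s * (2 * r + 1) ≤ 2 ^ (j + s + 2) := by
    have : 2 * r + 1 ≤ 2 ^ j * 2 ^ 2 := by omega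
    calc 2 ^ s * (2 * r + 1) ≤ 2 ^ s * (2 ^ j * 2 ^ 2) := Nat.mul_le_mul_left _ this
      _ = 2 ^ (j + s + 2) := by ring
  have hB := h (2 ^ s * (2 * r + 1)) (j + s + 2) b (Nat.mul_pos hpos (by omega)) hR
  rw [add_assoc (j + s) 2 c0] at hB
  have key := le_inv_of_indep G (Finset.range (2 ^ s) ×ˢ Finset.range (2 ^ s))
    ⟨(0, 0), by simp⟩ (S := fun k => ED (box (c k) r))
    (fun k _ k' _ hne => disjoint_ED (disjoint_box ?_))
    (A := fun k => F.Cheap (CIn (box (c k) r)) x)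
    (fun k _ => measurableSet_cheap F _ _) (fun k _ => dep_cheap F (fun γ hγ => hγ.2.1) _)
    (p := Pr G (F.Cheap (CIn (box b r)) x)) (fun k _ => Pr_cheap_CIn_box F G _ _ _ _)
    (B := F.Cheap (CIn (box b (2 ^ s * (2 * r + 1)))) x)
    (fun k hk => cheap_mono F (CIn_mono (box_subset_box ?_)) le_rfl) hB
  · refine key.trans (le_of_eq ?_)
    rw [Finset.card_product, Finset.card_range, one_div_pow]
    push_cast
    rw [← mul_pow]
    norm_num
  · by_contra hlt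
    rw [not_lt, nrm_le_iff] at hlt
    simp only [hc, Prod.fst_sub, Prod.snd_sub, add_sub_add_left_eq_sub, ← mul_sub, abs_mul] at hlt
    have hr0 : (0 : ℤ) ≤ 2 * r + 1 := by positivity
    rw [abs_of_nonneg hr0] at hlt
    push_cast at hlt
    have aux : ∀ a : ℤ, (2 * r + 1) * |a| ≤ r + r → a = 0 := fun a ha => by
      by_contra h0
      have : 1 ≤ |a| := Int.one_le_abs h0
      nlinarith
    have e1 := aux _ hlt.1
    have e2 := aux _ hlt.2
    exact hne (Prod.ext (by omega) (by omega))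
  · rw [Finset.mem_product, Finset.mem_range, Finset.mem_range] at hk
    have e : nrm (c k - b) ≤ (2 * r + 1) * (2 ^ s - 1) := by
      rw [nrm_le_iff]
      simp only [hc, Prod.fst_sub, Prod.snd_sub, add_sub_cancel_left]
      have a1 : (2 * r + 1) * k.1 ≤ (2 * r + 1) * (2 ^ s - 1) := Nat.mul_le_mul_left _ (by omega)
      have a2 : (2 * r + 1) * k.2 ≤ (2 * r + 1) * (2 ^ s - 1) := Nat.mul_le_mul_left _ (by omega)
      rw [abs_of_nonneg (by positivity), abs_of_nonneg (by positivity)]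
      exact ⟨by exact_mod_cast a1, by exact_mod_cast a2⟩
    obtain ⟨m, hm⟩ : ∃ m, 2 ^ s = m + 1 := ⟨2 ^ s - 1, by omega⟩
    rw [hm] at e ⊢
    rw [Nat.add_sub_cancel] at e
    nlinarith

end Crest.Agent.R151.PC
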