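import Crest.Agent.R151.CDefs

/-! Row 151, part C: counting good column blocks (real sequences only). -/

set_option autoImplicit false

namespace Crest.Agent.R151.PC

open MeasureTheory ProbabilityTheory Filter Topology Crest.ProbabilityR.FirstPassage
open scoped Classical

theorem count_good (c Ca Cy CS Cb K Mw : ℝ) (hc : 0 < c) (hCa : 0 ≤ Ca) (hCy : 0 ≤ Cy)
    (hCS : 0 ≤ CS) (hCb : 0 ≤ Cb) (hK : 0 ≤ K) (hMw : 0 ≤ Mw) :
    ∃ V0 C' Q0 : ℝ, 0 ≤ V0 ∧ 1 ≤ C' ∧ 1 ≤ Q0 ∧
      ∀ (n : ℕ) (L W Q U y : ℝ) (xl dl xr net Y : ℕ → ℝ) (loc bad : ℕ → Prop),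
        1 ≤ n → Q0 ≤ Q → 1 ≤ U → L ≤ Q * W → W ≤ L → Q * U ≤ W → y ≤ Cy * U →
        (∀ j ≤ n, c * |dl j| - y ≤ xl j) →
        (∀ j < n, ¬ loc j → c * (L + |net j|) ≤ xr j) →
        (∀ j < n, loc j → -Y j ≤ xr j ∧ |net j| ≤ K * L) →
        (∀ j < n, loc j → ¬ bad j → xr j + 2 * Y j ≤ Q * U → net j ≤ Mw * W) →
        (∀ j < n, 0 ≤ Y j) →
        ∑ j ∈ Finset.range (n + 1), xl j + ∑ j ∈ Finset.range n, xr j ≤ Ca * n * U →
        ∑ j ∈ Finset.range n, Y j ≤ CS * n * U →
        (((Finset.range n).filter bad).card : ℝ) ≤ Cb * n / Q →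
        |∑ j ∈ Finset.range (n + 1), dl j + ∑ j ∈ Finset.range n, net j| ≤ 1 →
        (∑ j ∈ Finset.range (n + 1), |dl j| + ∑ j ∈ Finset.range n, |net j| ≤ V0 * n * W) ∧
          n ≤ 2 * ((Finset.range n).filter (fun j =>
            loc j ∧ ¬ bad j ∧ xr j + 2 * Y j ≤ C' * U ∧ -(C' * W) ≤ net j)).card := by
  obtain ⟨C1, hC1⟩ : ∃ C1 : ℝ, C1 = Ca + 2 * Cy + 2 * CS := ⟨_, rfl⟩
  have hC10 : 0 ≤ C1 := by rw [hC1]; positivity
  obtain ⟨D, hD⟩ : ∃ D : ℝ, D = C1 / c := ⟨_, rfl⟩
  have hD0 : 0 ≤ D := by rw [hD]; positivity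
  have hDc : D * c = C1 := by rw [hD]; field_simp
  obtain ⟨P, hP⟩ : ∃ P : ℝ, P = Mw + Cb * K + K * C1 + D := ⟨_, rfl⟩
  have hP0 : 0 ≤ P := by rw [hP]; positivity
  obtain ⟨C', hC'⟩ : ∃ C' : ℝ, C' = 4 * (C1 + (P + D + 1)) + 1 := ⟨_, rfl⟩
  have hC'1 : 1 ≤ C' := by rw [hC']; linarith
  refine ⟨D + P + (P + D + 1), C', 4 * (D + Cb) + 1, by positivity, hC'1, by linarith, ?_⟩
  intro n L W Q U y xl dl xr net Y loc bad hn hQ hU hLQ hWL hQU hy h1 h2 h3 h4 h5 h6 h7 h8 h9
  have hn1 : (1 : ℝ) ≤ n := by exact_mod_cast hn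
  have hQ1 : 1 ≤ Q := by linarith
  have hUW : U ≤ W := le_trans (le_mul_of_one_le_left (by linarith) hQ1) hQU
  have hU0 : 0 < U := by linarith
  have hW0 : 0 < W := by linarith
  have hQ0 : 0 < Q := by linarith
  have hC'0 : 0 < C' := by linarith
  have hnU : (n : ℝ) * U ≤ n * W := by gcongr
  have hnW : 1 ≤ (n : ℝ) * W := one_le_mul_of_one_le_of_one_le hn1 (by linarith)
  -- the non-negative excesses
  have ha1 : ∀ j < n, ¬ loc j → c * (L + |net j|) ≤ xr j + 2 * Y j := fun j hj hl => by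
    linarith [h2 j hj hl, h5 j hj]
  have ha0 : ∀ j < n, 0 ≤ xr j + 2 * Y j := fun j hj => by
    by_cases hl : loc j
    · linarith [(h3 j hj hl).1, h5 j hj]
    · refine le_trans (mul_nonneg hc.le ?_) (ha1 j hj hl)
      linarith [abs_nonneg (net j)]
  have s1 : c * ∑ j ∈ Finset.range (n + 1), |dl j| - (n + 1) * y ≤
      ∑ j ∈ Finset.range (n + 1), xl j := by
    have := Finset.sum_le_sum (s := Finset.range (n + 1))
      fun j hj => h1 j (Nat.lt_succ_iff.1 (Finset.mem_range.1 hj))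
    rw [Finset.sum_sub_distrib, ← Finset.mul_sum, Finset.sum_const, Finset.card_range,
      nsmul_eq_mul] at this
    push_cast at this
    exact this
  have s2 : ∑ j ∈ Finset.range n, (xr j + 2 * Y j) =
      ∑ j ∈ Finset.range n, xr j + 2 * ∑ j ∈ Finset.range n, Y j := by
    rw [Finset.sum_add_distrib, Finset.mul_sum]
  have s3 : ((n : ℝ) + 1) * y ≤ 2 * Cy * (n * U) := by
    have a1 : ((n : ℝ) + 1) * y ≤ (n + 1) * (Cy * U) := by gcongr
    have a2 : ((n : ℝ) + 1) * (Cy * U) ≤ (2 * n) * (Cy * U) := by gcongr; linarith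
    linarith
  have d0 : 0 ≤ ∑ j ∈ Finset.range (n + 1), |dl j| := Finset.sum_nonneg fun _ _ => abs_nonneg _
  have a0 : 0 ≤ ∑ j ∈ Finset.range n, (xr j + 2 * Y j) :=
    Finset.sum_nonneg fun j hj => ha0 j (Finset.mem_range.1 hj)
  have stot : c * ∑ j ∈ Finset.range (n + 1), |dl j| + ∑ j ∈ Finset.range n, (xr j + 2 * Y j) ≤
      C1 * (n * U) := by
    rw [s2, hC1]; linarith
  have sa : ∑ j ∈ Finset.range n, (xr j + 2 * Y j) ≤ C1 * (n * U) := by
    linarith [mul_nonneg hc.le d0]
  have sd : ∑ j ∈ Finset.range (n + 1), |dl j| ≤ D * (n * W) := by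
    have : ∑ j ∈ Finset.range (n + 1), |dl j| ≤ D * (n * U) := by
      refine le_of_mul_le_mul_left ?_ hc
      rw [← mul_assoc, mul_comm c D, hDc]
      linarith
    exact this.trans (by gcongr)
  have sb : ∑ j ∈ Finset.range n, (if bad j then (1 : ℝ) else 0) ≤ Cb * n / Q := by
    rw [Finset.sum_boole]; exact h8
  -- the positive parts
  have hp : ∀ j ∈ Finset.range n, max (net j) 0 ≤ Mw * W + K * Q * W * (if bad j then 1 else 0) +
      (K * W / U + 1 / c) * (xr j + 2 * Y j) := fun j hj => by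
    have hj := Finset.mem_range.1 hj
    have b0 : max (net j) 0 ≤ |net j| := max_le (le_abs_self _) (abs_nonneg _)
    have b1 : 0 ≤ Mw * W := by positivity
    have b2 : 0 ≤ K * Q * W * (if bad j then 1 else 0) := by split_ifs <;> positivity
    have b3 : 0 ≤ K * W / U * (xr j + 2 * Y j) := mul_nonneg (by positivity) (ha0 j hj)
    have b4 : 0 ≤ 1 / c * (xr j + 2 * Y j) := mul_nonneg (by positivity) (ha0 j hj)
    rw [add_mul]
    by_cases hl : loc j
    · have b5 : |net j| ≤ K * Q * W := by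
        have := mul_le_mul_of_nonneg_left hLQ hK
        linarith [(h3 j hj hl).2]
      by_cases hb : bad j
      · rw [if_pos hb]; linarith
      by_cases hs : xr j + 2 * Y j ≤ Q * U
      · have := max_le (h4 j hj hl hb hs) b1
        linarith
      · have b6 : K * W / U * (Q * U) ≤ K * W / U * (xr j + 2 * Y j) :=
          mul_le_mul_of_nonneg_left (not_le.1 hs).le (by positivity)
        have b7 : K * W / U * (Q * U) = K * Q * W := by field_simp
        linarith
    · have b5 : |net j| ≤ 1 / c * (xr j + 2 * Y j) := by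
        rw [one_div, ← div_eq_inv_mul, le_div_iff₀ hc]
        have : 0 ≤ c * L := mul_nonneg hc.le (by linarith)
        linarith [ha1 j hj hl]
      linarith
  have sp : ∑ j ∈ Finset.range n, max (net j) 0 ≤ P * (n * W) := by
    have := Finset.sum_le_sum hp
    rw [Finset.sum_add_distrib, Finset.sum_add_distrib, Finset.sum_const, ← Finset.mul_sum,
      ← Finset.mul_sum, Finset.card_range, nsmul_eq_mul] at this
    have b1 : K * Q * W * ∑ j ∈ Finset.range n, (if bad j then (1 : ℝ) else 0) ≤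
        K * Q * W * (Cb * n / Q) := by gcongr
    have b2 : (K * W / U + 1 / c) * ∑ j ∈ Finset.range n, (xr j + 2 * Y j) ≤
        (K * W / U + 1 / c) * (C1 * (n * U)) := by gcongr
    have b3 : K * Q * W * (Cb * n / Q) = Cb * K * (n * W) := by field_simp
    have b4 : (K * W / U + 1 / c) * (C1 * (n * U)) = K * C1 * (n * W) + D * (n * U) := by
      rw [hD]; field_simp
    have b5 : D * (n * U) ≤ D * (n * W) := by gcongr
    rw [hP]
    linarith
  -- the negative parts
  have sm : ∑ j ∈ Finset.range n, max (-net j) 0 ≤ (P + D + 1) * (n * W) := by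
    have e : ∑ j ∈ Finset.range n, max (-net j) 0 =
        ∑ j ∈ Finset.range n, max (net j) 0 - ∑ j ∈ Finset.range n, net j := by
      rw [← Finset.sum_sub_distrib]
      refine Finset.sum_congr rfl fun j _ => ?_
      rcases le_total (net j) 0 with h | h
      · rw [max_eq_left (by linarith), max_eq_right h]; ring
      · rw [max_eq_right (by linarith), max_eq_left h]; ring
    have b1 : ∑ j ∈ Finset.range (n + 1), dl j ≤ ∑ j ∈ Finset.range (n + 1), |dl j| :=
      Finset.sum_le_sum fun _ _ => le_abs_self _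
    linarith [(abs_le.1 h9).1]
  constructor
  · have e : ∑ j ∈ Finset.range n, |net j| =
        ∑ j ∈ Finset.range n, max (net j) 0 + ∑ j ∈ Finset.range n, max (-net j) 0 := by
      rw [← Finset.sum_add_distrib]
      refine Finset.sum_congr rfl fun j _ => ?_
      rcases le_total (net j) 0 with h | h
      · rw [max_eq_right h, max_eq_left (by linarith), abs_of_nonpos h]; ring
      · rw [max_eq_left h, max_eq_right (by linarith), abs_of_nonneg h]; ring
    linarith
  · have hg : ∀ j ∈ Finset.range n, (1 : ℝ) ≤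
        (if loc j ∧ ¬ bad j ∧ xr j + 2 * Y j ≤ C' * U ∧ -(C' * W) ≤ net j then 1 else 0) +
        (if bad j then 1 else 0) + (1 / (c * Q * U) + 1 / (C' * U)) * (xr j + 2 * Y j) +
        1 / (C' * W) * max (-net j) 0 := fun j hj => by
      have hj := Finset.mem_range.1 hj
      have b1 : (0 : ℝ) ≤
          if loc j ∧ ¬ bad j ∧ xr j + 2 * Y j ≤ C' * U ∧ -(C' * W) ≤ net j then 1 else 0 := by
        split_ifs <;> norm_num
      have b2 : (0 : ℝ) ≤ if bad j then 1 else 0 := by split_ifs <;> norm_num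
      have b3 : 0 ≤ 1 / (c * Q * U) * (xr j + 2 * Y j) := mul_nonneg (by positivity) (ha0 j hj)
      have b4 : 0 ≤ 1 / (C' * U) * (xr j + 2 * Y j) := mul_nonneg (by positivity) (ha0 j hj)
      have b5 : 0 ≤ 1 / (C' * W) * max (-net j) 0 := by positivity
      have k : ∀ x z : ℝ, 0 < x → x ≤ z → 1 ≤ 1 / x * z := fun x z hx hz => by
        rw [one_div, ← div_eq_inv_mul]; exact (one_le_div hx).2 hz
      rw [add_mul]
      by_cases hl : loc j
      · by_cases hb : bad j
        · rw [if_pos hb]; linarith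
        by_cases hs : xr j + 2 * Y j ≤ C' * U
        · by_cases hm : -(C' * W) ≤ net j
          · rw [if_pos ⟨hl, hb, hs, hm⟩]; linarith
          · have := k (C' * W) (max (-net j) 0) (by positivity)
              (le_max_of_le_left (by linarith [not_le.1 hm]))
            linarith
        · have := k (C' * U) _ (by positivity) (not_le.1 hs).le
          linarith
      · have b6 : c * Q * U ≤ xr j + 2 * Y j := by
          refine le_trans ?_ (ha1 j hj hl)
          rw [mul_assoc]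
          exact mul_le_mul_of_nonneg_left (by linarith [abs_nonneg (net j)]) hc.le
        have := k _ _ (by positivity) b6
        linarith
    have := Finset.sum_le_sum hg
    rw [Finset.sum_add_distrib, Finset.sum_add_distrib, Finset.sum_add_distrib, ← Finset.mul_sum,
      ← Finset.mul_sum, Finset.sum_const, Finset.card_range, nsmul_eq_mul, mul_one,
      Finset.sum_boole] at this
    have b1 : (1 / (c * Q * U) + 1 / (C' * U)) * ∑ j ∈ Finset.range n, (xr j + 2 * Y j) ≤
        (1 / (c * Q * U) + 1 / (C' * U)) * (C1 * (n * U)) := by gcongr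
    have b2 : 1 / (C' * W) * ∑ j ∈ Finset.range n, max (-net j) 0 ≤
        1 / (C' * W) * ((P + D + 1) * (n * W)) := by gcongr
    have b3 : (1 / (c * Q * U) + 1 / (C' * U)) * (C1 * (n * U)) + Cb * n / Q +
        1 / (C' * W) * ((P + D + 1) * (n * W)) =
        n * ((D + Cb) / Q + (C1 + (P + D + 1)) / C') := by
      rw [hD]; field_simp; ring
    have b4 : (D + Cb) / Q ≤ 1 / 4 := by rw [div_le_iff₀ hQ0]; linarith
    have b5 : (C1 + (P + D + 1)) / C' ≤ 1 / 4 := by rw [div_le_iff₀ hC'0]; linarith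
    have b6 : (n : ℝ) * ((D + Cb) / Q + (C1 + (P + D + 1)) / C') ≤ n * (1 / 4 + 1 / 4) := by gcongr
    have b7 : (n : ℝ) ≤ 2 * (((Finset.range n).filter (fun j =>
        loc j ∧ ¬ bad j ∧ xr j + 2 * Y j ≤ C' * U ∧ -(C' * W) ≤ net j)).card : ℝ) := by linarith
    exact_mod_cast b7

end Crest.Agent.R151.PC
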