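import Crest.Agent.R151.TIndep
import Crest.Agent.R151.CDefs

/-! Row 151, part C: exploration in the order of levels (Ottaviani). -/

set_option autoImplicit false

namespace Crest.Agent.R151.PC

open MeasureTheory ProbabilityTheory Filter Topology Crest.ProbabilityR.FirstPassage
open scoped Classical

theorem ottaviani (G : Measure ℝ) [IsProbabilityMeasure G] {ι : Type*} (s : Finset ι)
    (lev : ι → ℤ) (S : ℤ → Set (Sym2 V)) (hS : ∀ a b, a ≤ b → S b ⊆ S a) (A C : ι → Set Env)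
    (hA : ∀ i ∈ s, MeasurableSet (A i)) (hC : ∀ i ∈ s, MeasurableSet (C i))
    (dA : ∀ i ∈ s, Dep (S (lev i)) (A i)) (dC : ∀ i ∈ s, Dep (S (lev i))ᶜ (C i)) {q : ℝ}
    (hq : ∀ i ∈ s, q ≤ Pr G (C i)) :
    q * Pr G (⋃ i ∈ s, A i) ≤ Pr G (⋃ i ∈ s, A i ∩ C i) := by
  induction s using Finset.induction_on_min_value lev with
  | empty => simp [Pr]
  | insert i s hi hmin ih =>
    have mi := Finset.mem_insert_self i s
    have ms : ∀ {j}, j ∈ s → j ∈ insert i s := fun h => Finset.mem_insert_of_mem h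
    have ih' := ih (fun j hj => hA j (ms hj)) (fun j hj => hC j (ms hj)) (fun j hj => dA j (ms hj))
      (fun j hj => dC j (ms hj)) (fun j hj => hq j (ms hj))
    set U := ⋃ j ∈ s, A j with hU
    have hUm : MeasurableSet U := Finset.measurableSet_biUnion s fun j hj => hA j (ms hj)
    have hVm : MeasurableSet (⋃ j ∈ s, A j ∩ C j) :=
      Finset.measurableSet_biUnion s fun j hj => (hA j (ms hj)).inter (hC j (ms hj))
    have dU : Dep (S (lev i)) U := Dep.iUnion fun j => Dep.iUnion fun hj =>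
      (dA j (ms hj)).mono (hS _ _ (hmin j hj))
    have hBm : MeasurableSet (A i ∩ Uᶜ) := (hA i mi).inter hUm.compl
    have h1 := Pr_inter_of_dep (G := G) disjoint_compl_right hBm (hC i mi)
      ((dA i mi).inter dU.compl) (dC i mi)
    have h2 : Pr G (⋃ j ∈ insert i s, A j) = Pr G (A i ∩ Uᶜ) + Pr G U := by
      rw [Finset.set_biUnion_insert, ← hU, show A i ∪ U = A i ∩ Uᶜ ∪ U by
        rw [Set.inter_union_distrib_right, Set.compl_union_self, Set.inter_univ]]
      exact measureReal_union (Set.disjoint_left.2 fun x hx hx' => hx.2 hx') hUm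
        (measure_ne_top _ _) (measure_ne_top _ _)
    have h3 : Pr G (A i ∩ Uᶜ ∩ C i) + Pr G (⋃ j ∈ s, A j ∩ C j) ≤
        Pr G (⋃ j ∈ insert i s, A j ∩ C j) := by
      rw [Finset.set_biUnion_insert]
      unfold Pr
      rw [← measureReal_union (Set.disjoint_left.2 fun x hx hx' => hx.1.2 (by
        simp only [Set.mem_iUnion] at hx'
        obtain ⟨j, hj, h⟩ := hx'
        exact Set.mem_biUnion hj h.1)) hVm (measure_ne_top _ _) (measure_ne_top _ _)]
      exact measureReal_mono (Set.union_subset_union_left _ fun x hx => ⟨hx.1.1, hx.2⟩)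
        (measure_ne_top _ _)
    have h4 : 0 ≤ Pr G (A i ∩ Uᶜ) := measureReal_nonneg
    have h5 := mul_le_mul_of_nonneg_left (hq i mi) h4
    rw [h2]
    linarith [mul_add q (Pr G (A i ∩ Uᶜ)) (Pr G U), mul_comm q (Pr G (A i ∩ Uᶜ))]

/-- independent copies: if the union of `N` independent events of equal probability has
probability at most `1/2`, each has probability at most `1/N` -/
theorem le_inv_of_indep (G : Measure ℝ) [IsProbabilityMeasure G] {ι : Type*} (s : Finset ι)
    (hs : s.Nonempty) {S : ι → Set (Sym2 V)}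
    (hd : ∀ i ∈ s, ∀ j ∈ s, i ≠ j → Disjoint (S i) (S j)) {A : ι → Set Env}
    (hA : ∀ i ∈ s, MeasurableSet (A i)) (dA : ∀ i ∈ s, Dep (S i) (A i)) {p : ℝ}
    (hp : ∀ i ∈ s, Pr G (A i) = p) {B : Set Env} (hB : ∀ i ∈ s, A i ⊆ B) (hB2 : Pr G B ≤ 1 / 2) :
    p ≤ 1 / s.card := by
  obtain ⟨i₀, hi₀⟩ := hs
  have hc : ∀ {X : Set Env}, MeasurableSet X → Pr G Xᶜ = 1 - Pr G X := fun h =>
    probReal_compl_eq_one_sub h
  have hp0 : 0 ≤ p := hp i₀ hi₀ ▸ measureReal_nonneg
  have hp1 : p ≤ 1 := hp i₀ hi₀ ▸ measureReal_le_one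
  have h1 := Pr_biInter_of_dep (G := G) s hd (A := fun i => (A i)ᶜ) (fun i hi => (hA i hi).compl)
    (fun i hi => (dA i hi).compl)
  rw [Finset.prod_congr rfl (g := fun _ => 1 - p) (fun i hi => by rw [hc (hA i hi), hp i hi]),
    Finset.prod_const] at h1
  have hUm : MeasurableSet (⋃ i ∈ s, A i) := Finset.measurableSet_biUnion s hA
  have h2 : Pr G (⋃ i ∈ s, A i) ≤ 1 / 2 :=
    le_trans (measureReal_mono (Set.iUnion₂_subset hB) (measure_ne_top _ _)) hB2
  have h3 : 1 / 2 ≤ (1 - p) ^ s.card := by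
    rw [← h1, ← Set.compl_iUnion₂, hc hUm]
    linarith
  have h4 : (1 - p) ^ s.card * (1 + s.card * p) ≤ 1 := by
    refine (mul_le_mul_of_nonneg_left (one_add_mul_le_pow (by linarith) _)
      (pow_nonneg (by linarith) _)).trans ?_
    rw [← mul_pow]
    exact pow_le_one₀ (by nlinarith) (by nlinarith)
  have hN : (0 : ℝ) < s.card := by exact_mod_cast Finset.card_pos.2 ⟨i₀, hi₀⟩
  rw [le_div_iff₀ hN]
  have h5 : 0 ≤ 1 + s.card * p := by positivity
  nlinarith [mul_le_mul_of_nonneg_right h3 h5]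

end Crest.Agent.R151.PC
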