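import Crest.Agent.R151.CGeo1

/-! Row 151, part C: excess along paths, crossing decomposition (deterministic). -/

set_option autoImplicit false

namespace Crest.Agent.R151.PC

open MeasureTheory ProbabilityTheory Filter Topology Crest.ProbabilityR.FirstPassage
open scoped Classical

variable (F : FD)

theorem disp_sub (γ : Pth) {a b : ℕ} (h : a ≤ b) : disp (γ.sub a b) = γ.p b - γ.p a := by
  rw [disp, γ.sub_p_last h, γ.sub_p_zero]
theorem disp_of_joins {γ : Pth} {D : Set V} {x z : V} (h : γ.Joins D x z) : disp γ = z - x := by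
  rw [disp, h.2.2.1, h.2.2.2]
theorem Xs_self (γ : Pth) (t : Env) (a : ℕ) : F.Xs γ t a a = 0 := by
  simp [FD.Xs, Pth.cost_self, rv_zero, dot]
theorem Xs_add (γ : Pth) (t : Env) {a b c : ℕ} (hab : a ≤ b) (hbc : b ≤ c) :
    F.Xs γ t a b + F.Xs γ t b c = F.Xs γ t a c := by
  simp only [FD.Xs, rv_sub, dot_sub, ← γ.cost_add t hab hbc]
  ring
theorem X_eq_Xs (γ : Pth) (t : Env) : F.X γ t = F.Xs γ t 0 γ.n := by
  rfl
theorem X_sub (γ : Pth) (t : Env) {a b : ℕ} (h : a ≤ b) : F.X (γ.sub a b) t = F.Xs γ t a b := by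
  rw [FD.X, FD.Xs, γ.sub_tot t h, disp_sub γ h]
theorem Xs_sub (γ : Pth) (t : Env) {a b k k' : ℕ} (hk : k ≤ k') (hk' : k' ≤ b - a) :
    F.Xs (γ.sub a b) t k k' = F.Xs γ t (a + k) (a + k') := by
  rw [FD.Xs, FD.Xs, γ.sub_cost t a b hk', γ.sub_p a b hk', γ.sub_p a b (hk.trans hk')]
theorem X_app {γ δ : Pth} (h : γ.p γ.n = δ.p 0) (t : Env) :
    F.X (γ.app δ) t = F.X γ t + F.X δ t := by
  have e : disp (γ.app δ) = disp γ + disp δ := by
    have e1 : (γ.app δ).p (γ.app δ).n = δ.p δ.n := Pth.app_p_right h δ.n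
    rw [disp, disp, disp, e1, γ.app_p_left δ (Nat.zero_le _), h]
    ring
  rw [FD.X, FD.X, FD.X, e, Pth.app_tot h, rv_add, dot_add]
  ring
theorem X_of_joins {γ : Pth} {D : Set V} {x z : V} (h : γ.Joins D x z) (t : Env) :
    F.X γ t = γ.tot t - dot F.ρ (rv (z - x)) := by
  rw [FD.X, disp_of_joins h]
theorem neg_le_Xs (γ : Pth) {t : Env} (ht : NN t) (a b : ℕ) :
    -(2 * ‖F.ρ‖ * nrm (γ.p b - γ.p a)) ≤ F.Xs γ t a b := by
  have h1 := (abs_le.1 (abs_dot_le F.ρ (rv (γ.p b - γ.p a)))).2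
  have h2 := γ.cost_nonneg ht a b
  rw [norm_rv] at h1
  rw [FD.Xs]
  linarith
theorem neg_le_X_box {t : Env} (ht : NN t) {b : V} {r : ℕ} {γ : Pth} (h : γ ∈ PIn (box b r)) :
    -(4 * ‖F.ρ‖ * r) ≤ F.X γ t := by
  have h1 := neg_le_Xs F γ ht 0 γ.n
  have h2 := nrm_triangle (γ.p 0) b (γ.p γ.n)
  have h3 : nrm (γ.p 0 - b) ≤ r := h.2 0 (Nat.zero_le _)
  have h4 : nrm (γ.p γ.n - b) ≤ r := h.2 γ.n le_rfl
  rw [nrm_sub_comm b] at h2
  have h5 : (nrm (γ.p γ.n - γ.p 0) : ℝ) ≤ 2 * r := by exact_mod_cast (by omega)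
  have h6 := mul_le_mul_of_nonneg_left h5 (norm_nonneg F.ρ)
  rw [X_eq_Xs]
  linarith
theorem T_sub_le_Xs {γ : Pth} {t : Env} (ht : NN t) (h : γ.Ok) {a b : ℕ} (hab : a ≤ b)
    (hb : b ≤ γ.n) : T t (γ.p a) (γ.p b) - dot F.ρ (rv (γ.p b - γ.p a)) ≤ F.Xs γ t a b := by
  exact sub_le_sub_right (T_le_cost ht h hab hb) _
theorem PIn_mono {D D' : Set V} (h : D ⊆ D') : PIn D ⊆ PIn D' := by
  exact fun γ hγ => ⟨hγ.1, hγ.2.mono h⟩
theorem CIn_mono {D D' : Set V} (h : D ⊆ D') : CIn D ⊆ CIn D' := by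
  exact fun γ hγ => ⟨hγ.1, hγ.2.1.mono h, hγ.2.2⟩
theorem UpIn_mono (θ : ℝ) {D D' : Set V} (h : D ⊆ D') {d d' : ℝ} (hd : d' ≤ d) :
    UpIn θ D d ⊆ UpIn θ D' d' := by
  exact fun γ hγ => ⟨hγ.1, hγ.2.1.mono h, hd.trans hγ.2.2⟩
theorem sub_mem_PIn {D : Set V} {γ : Pth} (h : γ ∈ PIn D) (a : ℕ) {b : ℕ} (hb : b ≤ γ.n) :
    γ.sub a b ∈ PIn D := by
  exact ⟨h.1.sub a hb, h.2.sub a b⟩
theorem neg_le_Xs_of_PIn {D : Set V} {γ : Pth} {t : Env} {Y : ℝ} (h : γ ∈ PIn D)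
    (hY : ∀ δ ∈ PIn D, -Y ≤ F.X δ t) {a b : ℕ} (hab : a ≤ b) (hb : b ≤ γ.n) :
    -Y ≤ F.Xs γ t a b := by
  rw [← X_sub F γ t hab]
  exact hY _ (sub_mem_PIn h a hb)
theorem Xs_le_of_PIn {D : Set V} {γ : Pth} {t : Env} {Y : ℝ} (h : γ ∈ PIn D)
    (hY : ∀ δ ∈ PIn D, -Y ≤ F.X δ t) {a b : ℕ} (hab : a ≤ b) (hb : b ≤ γ.n) :
    F.Xs γ t a b ≤ F.X γ t + 2 * Y := by
  have h1 := neg_le_Xs_of_PIn F h hY (Nat.zero_le a) (hab.trans hb)
  have h2 := neg_le_Xs_of_PIn F h hY hb le_rfl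
  have h3 := Xs_add F γ t (Nat.zero_le a) hab
  have h4 := Xs_add F γ t (Nat.zero_le b) hb
  rw [X_eq_Xs]
  linarith

/-- loop at the first column, crossing path, loop at the last column -/
theorem cross_decomp {γ : Pth} (h : γ.Ok) (hc : (γ.p 0).1 ≤ (γ.p γ.n).1) :
    ∃ s s', s ≤ s' ∧ s' ≤ γ.n ∧ (γ.p s).1 = (γ.p 0).1 ∧ (γ.p s').1 = (γ.p γ.n).1 ∧
      Crs (γ.sub s s') := by
  obtain ⟨s', -, a1, a2, a3⟩ := exists_first_level (fun k => (γ.p k).1) (Nat.zero_le γ.n)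
    (fun k _ _ => h.col_step k) _ hc le_rfl
  obtain ⟨s, -, b1, b2, b3⟩ := exists_last_level (fun k => (γ.p k).1) (Nat.zero_le s')
    (fun k _ _ => h.col_step k) _ le_rfl (hc.trans a2.ge)
  refine ⟨s, s', b1, a1, b2, a2, fun k hk => ?_⟩
  have hk' : k ≤ s' - s := hk
  rw [γ.sub_p_last b1, γ.sub_p_zero, γ.sub_p s s' hk']
  constructor
  · rcases Nat.eq_zero_or_pos k with rfl | hk0
    · exact le_rfl
    · exact b2.le.trans (b3 (s + k) (by omega) (by omega)).le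
  · rcases eq_or_lt_of_le (show s + k ≤ s' by omega) with e | e
    · rw [e]
    · exact (a3 (s + k) (Nat.zero_le _) e).le.trans a2.ge

theorem exists_segs {γ : Pth} (h : γ.Ok) {L n : ℕ} (hL : 1 ≤ L) (h0 : (γ.p 0).1 = 0)
    (hn : (γ.p γ.n).1 = (n : ℤ) * L) : ∃ σ τ : ℕ → ℕ, Segs γ L n σ τ := by
  have hL' : (1 : ℤ) ≤ L := by exact_mod_cast hL
  have h1 : ∀ j : ℕ, ∃ k, j ≤ n → k ≤ γ.n ∧ (γ.p k).1 = (j : ℤ) * L ∧
      ∀ k' < k, (γ.p k').1 < (j : ℤ) * L := by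
    intro j
    by_cases hj : j ≤ n
    · obtain ⟨k, -, a1, a2, a3⟩ := exists_first_level (fun k => (γ.p k).1) (Nat.zero_le γ.n)
        (fun k _ _ => h.col_step k) ((j : ℤ) * L) (h0.le.trans (by positivity))
        (le_of_le_of_eq (mul_le_mul_of_nonneg_right (by exact_mod_cast hj) (by positivity)) hn.symm)
      exact ⟨k, fun _ => ⟨a1, a2, fun k' hk' => a3 k' (Nat.zero_le _) hk'⟩⟩
    · exact ⟨0, fun h => absurd h hj⟩
  choose τ hτ using h1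
  have h2 : ∀ j : ℕ, ∃ k, (j < n → τ j ≤ k ∧ k ≤ τ (j + 1) ∧ (γ.p k).1 = (j : ℤ) * L ∧
      ∀ k', k < k' → k' ≤ τ (j + 1) → (j : ℤ) * L < (γ.p k').1) ∧ (j = n → k = γ.n) := by
    intro j
    by_cases hj : j < n
    · obtain ⟨-, a2, a3⟩ := hτ j hj.le
      obtain ⟨-, b2, -⟩ := hτ (j + 1) hj
      have c1 : (j : ℤ) * L ≤ (γ.p (τ (j + 1))).1 := by
        rw [b2]
        push_cast
        linarith
      have c2 : τ j ≤ τ (j + 1) := not_lt.1 fun e => absurd (a3 _ e) (not_lt.2 c1)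
      obtain ⟨k, d1, d2, d3, d4⟩ := exists_last_level (fun k => (γ.p k).1) c2
        (fun k _ _ => h.col_step k) _ a2.le c1
      exact ⟨k, fun _ => ⟨d1, d2, d3, d4⟩, fun e => absurd e hj.ne⟩
    · exact ⟨γ.n, fun h => absurd h hj, fun _ => rfl⟩
  choose σ hσ hσn using h2
  refine ⟨σ, τ, ?_, hσn n rfl, fun j hj => ?_, fun j hj => (hσ j hj).2.1, fun j hj => (hτ j hj).2.1,
    fun j hj => ?_, fun j hj k k1 k2 => ⟨?_, ?_⟩⟩
  · by_contra e
    have := (hτ 0 (Nat.zero_le _)).2.2 0 (Nat.pos_of_ne_zero e)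
    rw [h0] at this
    simp at this
  · rcases eq_or_lt_of_le hj with e | e
    · rw [hσn j e]
      exact (hτ j hj).1
    · exact (hσ j e).1
  · rcases eq_or_lt_of_le hj with e | e
    · rw [hσn j e, hn, e]
    · exact (hσ j e).2.2.1
  · rcases eq_or_lt_of_le k1 with e | e
    · rw [← e, (hσ j hj).2.2.1]
    · exact ((hσ j hj).2.2.2 k e k2).le
  · obtain ⟨-, b2, b3⟩ := hτ (j + 1) hj
    push_cast at b2 b3
    rcases eq_or_lt_of_le k2 with e | e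
    · rw [e, b2]
    · exact (b3 k e).le

theorem Segs.σ_le {γ : Pth} {L n : ℕ} {σ τ : ℕ → ℕ} (h : Segs γ L n σ τ) {j : ℕ} (hj : j ≤ n) :
    σ j ≤ γ.n := by
  rw [← h.σn]
  have key : ∀ m, j ≤ m → m ≤ n → σ j ≤ σ m := by
    intro m hm
    induction m, hm using Nat.le_induction with
    | base => exact fun _ => le_rfl
    | succ m _ ih => exact fun hm => (ih (by omega)).trans ((h.στ m hm).trans (h.τσ _ hm))
  exact key n hj le_rfl
theorem Segs.τ_le {γ : Pth} {L n : ℕ} {σ τ : ℕ → ℕ} (h : Segs γ L n σ τ) {j : ℕ} (hj : j ≤ n) :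
    τ j ≤ γ.n := by
  exact (h.τσ j hj).trans (h.σ_le hj)
/-- telescoping of any additive quantity over the loops and the crossings -/
theorem Segs.sum_eq {γ : Pth} {L n : ℕ} {σ τ : ℕ → ℕ} (h : Segs γ L n σ τ) (f : ℕ → ℕ → ℝ)
    (hf : ∀ a b c, a ≤ b → b ≤ c → f a b + f b c = f a c) :
    ∑ j ∈ Finset.range (n + 1), f (τ j) (σ j) + ∑ j ∈ Finset.range n, f (σ j) (τ (j + 1)) =
      f 0 γ.n := by
  have key : ∀ m ≤ n, ∑ j ∈ Finset.range (m + 1), f (τ j) (σ j) +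
      ∑ j ∈ Finset.range m, f (σ j) (τ (j + 1)) = f 0 (σ m) := by
    intro m
    induction m with
    | zero => intro _; simp [h.τ0]
    | succ m ih =>
      intro hm
      have a1 := ih (by omega)
      have a2 := hf 0 _ _ (Nat.zero_le _) (h.στ m hm)
      have a3 := hf 0 _ _ (Nat.zero_le _) (h.τσ _ hm)
      rw [Finset.sum_range_succ _ (m + 1), Finset.sum_range_succ (fun j => f (σ j) (τ (j + 1)))]
      linarith
  rw [key n le_rfl, h.σn]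

theorem gd_steepP {c y : ℝ} {D : Set V} {t : Env} (ht : NN t) (hg : t ∈ F.Gd c D y) {γ : Pth}
    (h : γ ∈ PIn D) : F.SteepP γ t c y := by
  intro k k' hk hk' hs
  exact ((hg _ (h.2 k (hk.trans hk')) _ (h.2 k' hk')).2 hs).trans (T_sub_le_Xs F ht h.1 hk hk')

/-- a cheap path cannot leave the box -/
theorem gd_stay {c y : ℝ} {b : V} {R : ℕ} {t : Env} (ht : NN t) (hg : t ∈ F.Gd c (box b R) y)
    {γ : Pth} (h : γ.Ok) (h0 : γ.p 0 = b) (hlt : γ.tot t < c * R - y) : γ.In (box b R) := by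
  intro i hi
  by_contra hn
  have a1 : R < nrm (γ.p i - b) := not_le.1 hn
  obtain ⟨k, -, k1, k2⟩ := exists_level (fun k => (nrm (γ.p k - b) : ℤ)) (Nat.zero_le i)
    (fun k _ _ => h.nrm_step b k) (R : ℤ) (Or.inl ⟨by simp [h0, nrm_zero], by exact_mod_cast a1.le⟩)
  have k3 : nrm (γ.p k - b) = R := by exact_mod_cast k2
  have a2 := (hg b (mem_box_self b R) (γ.p k) k3.le).1
  have a3 := T_le_cost ht h (Nat.zero_le k) (k1.trans hi)
  have a4 : γ.cost t 0 k ≤ γ.tot t := γ.cost_mono ht le_rfl (k1.trans hi)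
  rw [h0] at a3
  rw [k3] at a2
  linarith

theorem steepP_sub {γ : Pth} {t : Env} {c y : ℝ} (h : F.SteepP γ t c y) {a b : ℕ} (hab : a ≤ b)
    (hb : b ≤ γ.n) : F.SteepP (γ.sub a b) t c y := by
  intro k k' hk hk' hs
  have hk2 : k' ≤ b - a := hk'
  rw [γ.sub_p a b hk2, γ.sub_p a b (hk.trans hk2)] at hs ⊢
  rw [Xs_sub F γ t hk hk2]
  exact h _ _ (by omega) (by omega) hs

theorem noBack_of_steepP {γ : Pth} {t : Env} {c y x : ℝ} {W : ℕ} (hc : 0 < c)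
    (h : F.SteepP γ t c y) (hX : ∀ k k', k ≤ k' → k' ≤ γ.n → F.Xs γ t k k' ≤ x)
    (hW : x + y ≤ c * W) : NoBack γ W := by
  intro k k' hk hk'
  by_contra hn
  have a0 : (γ.p k' - γ.p k).1 < -W := by
    rw [Prod.fst_sub]
    omega
  have a1 := h k k' hk hk' (F.steep_of_nonpos (by omega))
  have a2 := hX k k' hk hk'
  have a3 : (W : ℤ) < nrm (γ.p k' - γ.p k) :=
    lt_of_lt_of_le (lt_abs.2 (Or.inr (by omega))) (abs_fst_le_nrm _)
  have a4 : (W : ℝ) < nrm (γ.p k' - γ.p k) := by exact_mod_cast a3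
  have a5 := mul_lt_mul_of_pos_left a4 hc
  linarith

/-- a path with very negative excess contains a crossing path with negative excess -/
theorem cheap_decomp {D : Set V} {γ : Pth} {t : Env} {c y x : ℝ} (hc : 0 ≤ c) (hx : 0 < x)
    (hy : 0 ≤ y) (hγ : γ ∈ PIn D) (h : F.SteepP γ t c y) (hX : F.X γ t ≤ -(x + 2 * y)) :
    ∃ δ ∈ CIn D, F.X δ t ≤ -x := by
  rw [X_eq_Xs] at hX
  have key : ∀ k k', k ≤ k' → k' ≤ γ.n → (γ.p k').1 ≤ (γ.p k).1 → -y ≤ F.Xs γ t k k' := by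
    intro k k' hk hk' e
    have a1 := h k k' hk hk' (F.steep_of_nonpos (sub_nonpos.2 e))
    have a2 : 0 ≤ c * nrm (γ.p k' - γ.p k) := by positivity
    linarith
  rcases le_total (γ.p γ.n).1 (γ.p 0).1 with e | e
  · have := key 0 γ.n (Nat.zero_le _) le_rfl e
    linarith
  · obtain ⟨s, s', a1, a2, a3, a4, a5⟩ := cross_decomp hγ.1 e
    refine ⟨γ.sub s s', ⟨hγ.1.sub s a2, hγ.2.sub s s', a5⟩, ?_⟩
    have b1 := key 0 s (Nat.zero_le _) (a1.trans a2) a3.le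
    have b2 := key s' γ.n a2 le_rfl a4.ge
    have b3 := Xs_add F γ t (Nat.zero_le s) a1
    have b4 := Xs_add F γ t (Nat.zero_le s') a2
    rw [X_sub F γ t a1]
    linarith

/-- a cheap path deviating upwards contains a cheap crossing path deviating upwards -/
theorem up_decomp {D : Set V} {γ : Pth} {t : Env} {θ k c y x Y d : ℝ} {W : ℕ} (hc : 0 < c)
    (hθ : |θ| + 1 ≤ k) (hY0 : 0 ≤ Y) (hγ : γ ∈ UpIn θ D d) (h : F.SteepP γ t c y)
    (hY : ∀ δ ∈ PIn D, -Y ≤ F.X δ t) (hX : F.X γ t ≤ x) (hW : x + y + 2 * Y ≤ c * W)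
    (hd : k * W < d) :
    ∃ δ ∈ CIn D, d - 2 * W ≤ dev θ (disp δ) ∧ F.X δ t ≤ x + 2 * y := by
  have key : ∀ a b, a ≤ b → b ≤ γ.n → (γ.p b).1 ≤ (γ.p a).1 →
      -y ≤ F.Xs γ t a b ∧ (nrm (γ.p b - γ.p a) : ℝ) ≤ W := by
    intro a b hab hb e
    have a1 := h a b hab hb (F.steep_of_nonpos (sub_nonpos.2 e))
    have a2 : 0 ≤ c * nrm (γ.p b - γ.p a) := by positivity
    have a3 := Xs_le_of_PIn F ⟨hγ.1, hγ.2.1⟩ hY hab hb
    exact ⟨by linarith, le_of_mul_le_mul_left (by linarith) hc⟩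
  have hdv : d ≤ dev θ (γ.p γ.n - γ.p 0) := hγ.2.2
  rcases le_total (γ.p γ.n).1 (γ.p 0).1 with e | e
  · have a1 := (key 0 γ.n (Nat.zero_le _) le_rfl e).2
    have a2 := (abs_le.1 (abs_dev_le hθ (γ.p γ.n - γ.p 0))).2
    have a3 := mul_le_mul_of_nonneg_left a1 (show 0 ≤ k by linarith [abs_nonneg θ])
    linarith
  · obtain ⟨s, s', a1, a2, a3, a4, a5⟩ := cross_decomp hγ.1 e
    obtain ⟨b1, c1⟩ := key 0 s (Nat.zero_le _) (a1.trans a2) a3.le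
    obtain ⟨b2, c2⟩ := key s' γ.n a2 le_rfl a4.ge
    have b3 := Xs_add F γ t (Nat.zero_le s) a1
    have b4 := Xs_add F γ t (Nat.zero_le s') a2
    rw [← dev_of_fst_eq_zero θ (sub_eq_zero.2 a3)] at c1
    rw [← dev_of_fst_eq_zero θ (sub_eq_zero.2 a4.symm)] at c2
    rw [X_eq_Xs] at hX
    refine ⟨γ.sub s s', ⟨hγ.1.sub s a2, hγ.2.1.sub s s', a5⟩, ?_, ?_⟩
    · have d1 := (abs_le.1 c1).2
      have d2 := (abs_le.1 c2).2
      rw [disp_sub γ a1]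
      rw [dev_sub] at d1 d2 hdv ⊢
      linarith
    · rw [X_sub F γ t a1]
      linarith

end Crest.Agent.R151.PC
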