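import Crest.Agent.R151.CPath1

/-! Row 151, part C: left and right extensions of paths (deterministic). -/

set_option autoImplicit false

namespace Crest.Agent.R151.PC

open MeasureTheory ProbabilityTheory Filter Topology Crest.ProbabilityR.FirstPassage
open scoped Classical

variable (F : FD)

theorem CPath2_step (x : V) : ∃ σ : Pth, σ.n = 1 ∧ σ.SA ∧ σ.Joins Set.univ x (x + (1, 0)) ∧
    ∀ t : Env, F.X σ t = t s(x, x + (1, 0)) - F.ρ.1 := by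
  obtain ⟨σ, h1, h2, h3, h4⟩ := Pth.exists_step (x := x) (y := x + (1, 0)) (by simp [adj_iff])
  refine ⟨σ, h1, h2, h3.mono (Set.subset_univ _), fun t => ?_⟩
  rw [X_of_joins F h3, h4]
  simp [dot, rv]

theorem exists_extL {γ δ : Pth} {D : Set V} {p0 : V} {r : ℕ} (hγ : γ.Ok)
    (hδ : δ.Joins D p0 (γ.p 0 - (1, 0)))
    (hD : ∀ x ∈ D, x ∈ box (γ.p 0) r ∧ p0.1 ≤ x.1 ∧ x.1 < (γ.p 0).1) :
    ∃ Γ, ExtL p0 r γ Γ ∧ ∀ t : Env,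
      F.X Γ t = F.X δ t + t s(γ.p 0 - (1, 0), γ.p 0) - F.ρ.1 + F.X γ t := by
  obtain ⟨σ, hn, -, hσ, hX⟩ := CPath2_step F (γ.p 0 - (1, 0))
  rw [sub_add_cancel] at hσ hX
  have h1 := (hδ.mono (Set.subset_univ _)).app hσ
  have h2 := h1.app (z := γ.p γ.n) ⟨hγ, γ.in_univ, rfl, rfl⟩
  refine ⟨(δ.app σ).app γ, ⟨h2.1, h2.2.2.1, (δ.app σ).n, rfl, fun k _ =>
    Pth.app_p_right h1.2.2.2 k, fun k hk => ?_⟩, fun t => ?_⟩
  · have hk' : k ≤ δ.n := by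
      rw [Pth.app_n, hn] at hk
      omega
    rw [Pth.app_p_left _ _ hk.le, Pth.app_p_left _ _ hk']
    exact hD _ (hδ.2.1 k hk')
  · rw [X_app F h1.2.2.2, X_app F (hδ.2.2.2.trans hσ.2.2.1.symm), hX]
    ring

theorem exists_extR {γ δ : Pth} {D : Set V} {p1 : V} {r : ℕ} (hγ : γ.Ok)
    (hδ : δ.Joins D (γ.p γ.n + (1, 0)) p1)
    (hD : ∀ x ∈ D, x ∈ box (γ.p γ.n) r ∧ (γ.p γ.n).1 < x.1 ∧ x.1 ≤ p1.1) :
    ∃ Γ, ExtR p1 r γ Γ ∧ ∀ t : Env,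
      F.X Γ t = F.X γ t + t s(γ.p γ.n, γ.p γ.n + (1, 0)) - F.ρ.1 + F.X δ t := by
  obtain ⟨σ, hn, -, hσ, hX⟩ := CPath2_step F (γ.p γ.n)
  have h1 := hσ.app (hδ.mono (Set.subset_univ _))
  have h2 := Pth.Joins.app (x := γ.p 0) ⟨hγ, γ.in_univ, rfl, rfl⟩ h1
  have h3 := hσ.2.2.2.trans hδ.2.2.1.symm
  refine ⟨γ.app (σ.app δ), ⟨h2.1, h2.2.2.2, Nat.le_add_right _ _, fun k hk =>
    Pth.app_p_left _ _ hk, fun k hk hk' => ?_⟩, fun t => ?_⟩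
  · rw [Pth.app_n, Pth.app_n] at hk'
    obtain ⟨j, rfl⟩ : ∃ j, k = γ.n + (σ.n + j) := ⟨k - γ.n - 1, by omega⟩
    rw [Pth.app_p_right h1.2.2.1.symm, Pth.app_p_right h3]
    exact hD _ (hδ.2.1 j (by omega))
  · rw [X_app F h1.2.2.1.symm, X_app F h3, hX]
    ring

theorem ExtL.mono {p0 : V} {r r' : ℕ} {γ Γ : Pth} (h : ExtL p0 r γ Γ) (hr : r ≤ r') :
    ExtL p0 r' γ Γ := by
  obtain ⟨h1, h2, s, h3, h4, h5⟩ := h
  exact ⟨h1, h2, s, h3, h4, fun k hk => ⟨box_mono _ hr (h5 k hk).1, (h5 k hk).2⟩⟩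
theorem ExtR.mono {p1 : V} {r r' : ℕ} {γ Γ : Pth} (h : ExtR p1 r γ Γ) (hr : r ≤ r') :
    ExtR p1 r' γ Γ := by
  obtain ⟨h1, h2, h3, h4, h5⟩ := h
  exact ⟨h1, h2, h3, h4, fun k hk hk' => ⟨box_mono _ hr (h5 k hk hk').1, (h5 k hk hk').2⟩⟩
theorem ExtL.last {p0 : V} {r : ℕ} {γ Γ : Pth} (h : ExtL p0 r γ Γ) : Γ.p Γ.n = γ.p γ.n := by
  obtain ⟨-, -, s, h3, h4, -⟩ := h
  rw [← h3, h4 _ le_rfl]
theorem ExtR.first {p1 : V} {r : ℕ} {γ Γ : Pth} (h : ExtR p1 r γ Γ) : Γ.p 0 = γ.p 0 := by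
  exact h.2.2.2.1 0 (Nat.zero_le _)
theorem ExtL.right_anch {p0 : V} {r : ℕ} {γ Γ : Pth} (h : ExtL p0 r γ Γ)
    (hγ : ∀ k ≤ γ.n, (γ.p k).1 ≤ (γ.p γ.n).1) : ∀ k ≤ Γ.n, (Γ.p k).1 ≤ (Γ.p Γ.n).1 := by
  intro k hk
  rw [h.last]
  obtain ⟨-, -, s, h3, h4, h5⟩ := h
  rcases lt_or_ge k s with hs | hs
  · exact (h5 k hs).2.2.le.trans (hγ 0 (Nat.zero_le _))
  · obtain ⟨j, rfl⟩ := Nat.exists_eq_add_of_le hs
    rw [h4 j (by omega)]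
    exact hγ j (by omega)

theorem Pin.mono {p0 p1 : V} {r r' : ℕ} (hr : r ≤ r') (S : Set Pth) :
    Pin p0 p1 r S ⊆ Pin p0 p1 r' S := by
  rintro Γ ⟨γ, h1, Γ', h2, h3⟩
  exact ⟨γ, h1, Γ', h2.mono hr, h3.mono hr⟩

theorem Pin.joins_univ {p0 p1 : V} {r : ℕ} {S : Set Pth} {Γ : Pth} (h : Γ ∈ Pin p0 p1 r S) :
    Γ.Joins Set.univ p0 p1 := by
  obtain ⟨γ, -, Γ', h2, h3⟩ := h
  exact ⟨h3.1, Γ.in_univ, h3.first.trans h2.2.1, h3.2.1⟩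

theorem CPath2_cases {p0 p1 : V} {r : ℕ} {S : Set Pth} {Γ : Pth} (h : Γ ∈ Pin p0 p1 r S) :
    ∃ γ ∈ S, ∃ s, ∀ k ≤ Γ.n, (k < s ∧ Γ.p k ∈ box (γ.p 0) r ∧ (Γ.p k).1 < (γ.p 0).1) ∨
      (∃ j ≤ γ.n, k = s + j ∧ Γ.p k = γ.p j) ∨
      (s + γ.n < k ∧ Γ.p k ∈ box (γ.p γ.n) r ∧ (γ.p γ.n).1 < (Γ.p k).1) := by
  obtain ⟨γ, hγ, Γ', hL, -, -, -, h4, h5⟩ := h
  rw [hL.last] at h5
  obtain ⟨-, -, s, g3, g4, g5⟩ := hL
  refine ⟨γ, hγ, s, fun k hk => ?_⟩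
  rcases lt_or_ge Γ'.n k with h | h
  · exact .inr (.inr ⟨by omega, (h5 k h hk).1, (h5 k h hk).2.1⟩)
  rw [h4 k h]
  rcases lt_or_ge k s with hs | hs
  · exact .inl ⟨hs, (g5 k hs).1, (g5 k hs).2.2⟩
  · obtain ⟨j, rfl⟩ := Nat.exists_eq_add_of_le hs
    exact .inr (.inl ⟨j, by omega, rfl, g4 j (by omega)⟩)

theorem Pin.joins {p0 p1 b : V} {r R : ℕ} {S : Set Pth} (hS : ∀ γ ∈ S, γ.In (box b R)) {Γ : Pth}
    (h : Γ ∈ Pin p0 p1 r S) : Γ.Joins (box b (R + r)) p0 p1 := by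
  obtain ⟨h1, -, h2, h3⟩ := Pin.joins_univ h
  obtain ⟨γ, hγ, s, hs⟩ := CPath2_cases h
  refine ⟨h1, fun k hk => ?_, h2, h3⟩
  rcases hs k hk with h | ⟨j, hj, -, h⟩ | h
  · exact box_subset_box (Nat.add_le_add_right (hS γ hγ 0 (Nat.zero_le _)) r) h.2.1
  · exact h ▸ box_mono _ (Nat.le_add_right _ _) (hS γ hγ j hj)
  · exact box_subset_box (Nat.add_le_add_right (hS γ hγ _ le_rfl) r) h.2.1

theorem tube_crs {θ d : ℝ} {z : V} {L b : ℕ} {γ : Pth} (h : γ ∈ Tube θ z L d b) : Crs γ := by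
  intro k hk
  rw [h.2.1, h.2.2.1]
  exact h.2.2.2.1 k hk

theorem tube_start {θ : ℝ} {L b d : ℕ} {γ : Pth} (h : γ ∈ Tube θ 0 L d b) :
    γ.p 0 ∈ box 0 d := by
  have h1 := h.2.2.2.2.1 0 (Nat.zero_le _)
  rw [dev_of_fst_eq_zero θ (by simpa using h.2.1)] at h1
  exact_mod_cast h1

theorem tube_end {θ : ℝ} {L b d : ℕ} {γ : Pth} (h : γ ∈ Tube θ 0 L d b) :
    γ.p γ.n ∈ box ((L : ℤ), ⌊θ * L⌋) (d + 1) := by
  have h1 := h.2.2.2.2.1 _ le_rfl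
  have h2 : (γ.p γ.n).1 = L := by simpa using h.2.2.1
  rw [sub_zero, dev, h2, Int.cast_natCast, abs_le] at h1
  refine (nrm_le_iff _ _).2 ⟨by simp [h2]; positivity, ?_⟩
  have h3 := Int.floor_le (θ * L)
  have h4 := Int.lt_floor_add_one (θ * L)
  have h5 : |((γ.p γ.n).2 : ℝ) - ⌊θ * L⌋| ≤ d + 1 := abs_le.2 ⟨by linarith [h1.1], by linarith [h1.2]⟩
  exact_mod_cast h5

theorem Pin.mem_tubeP {θ : ℝ} {p0 p1 : V} {k r L d b d' R : ℕ} (hθ : |θ| + 1 ≤ k)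
    (h1 : d + k * r ≤ d') (h2 : b ≤ d') (h3 : r ≤ d') (h4 : d + k * L + r ≤ R) {Γ : Pth}
    (h : Γ ∈ Pin p0 p1 r (Tube θ 0 L d b)) : Γ ∈ TubeP θ p0 p1 R d' := by
  have hk1 : 1 ≤ k := by
    have : (1 : ℝ) ≤ k := by linarith [abs_nonneg θ]
    exact_mod_cast this
  have hJ := Pin.joins (b := 0) (R := d + k * L) (fun γ hγ i hi => by
    obtain ⟨a1, a2⟩ := hγ.2.2.2.1 i hi
    have a3 := hγ.2.2.2.2.1 i hi
    simp only [Prod.fst_zero, zero_add] at a1 a2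
    have a4 : L ≤ k * L := Nat.le_mul_of_pos_left _ hk1
    rw [sub_zero, dev] at a3
    have a5 : |θ * ((γ.p i).1 : ℝ)| ≤ k * L := by
      rw [abs_mul]
      refine mul_le_mul (by linarith) ?_ (abs_nonneg _) (Nat.cast_nonneg _)
      exact_mod_cast (abs_le.2 ⟨by omega, a2⟩ : |(γ.p i).1| ≤ L)
    have a6 : |((γ.p i).2 : ℝ)| ≤ d + k * L := by
      linarith [abs_sub_abs_le_abs_sub ((γ.p i).2 : ℝ) (θ * ((γ.p i).1 : ℝ))]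
    refine (nrm_le_iff _ _).2 ⟨?_, by rw [sub_zero]; exact_mod_cast a6⟩
    rw [sub_zero, abs_le]
    constructor <;> omega) h
  obtain ⟨γ, hγ, s, hs⟩ := CPath2_cases h
  obtain ⟨-, b1, b2, b3, b4, b5⟩ := hγ
  simp only [Prod.fst_zero, zero_add, sub_zero] at b1 b2 b3 b4
  have h1' : (d : ℝ) + k * r ≤ d' := by exact_mod_cast h1
  have key : ∀ j ≤ γ.n, ∀ x ∈ box (γ.p j) r, |dev θ x| ≤ d' := fun j hj x hx => by
    have c1 := abs_dev_le hθ (x - γ.p j)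
    have c2 : (nrm (x - γ.p j) : ℝ) ≤ r := by exact_mod_cast hx
    have c3 := mul_le_mul_of_nonneg_left c2 (Nat.cast_nonneg (α := ℝ) k)
    rw [dev_sub] at c1
    linarith [abs_sub_abs_le_abs_sub (dev θ x) (dev θ (γ.p j)), b4 j hj]
  refine ⟨hJ.mono (box_mono _ h4), fun i hi => ?_, fun i i' hii hi' => ?_⟩
  · rcases hs i hi with h | ⟨j, hj, -, h⟩ | h
    · exact key 0 (Nat.zero_le _) _ h.2.1
    · exact key j hj _ (h ▸ mem_box_self _ _)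
    · exact key _ le_rfl _ h.2.1
  · have col : ∀ {x y : V}, x ∈ box y r → -(r : ℤ) ≤ x.1 - y.1 ∧ x.1 - y.1 ≤ r := fun h =>
      abs_le.1 ((nrm_le_iff _ _).1 h).1
    rcases hs i (hii.trans hi') with ⟨c1, -, c2⟩ | ⟨j, hj, c1, c2⟩ | ⟨c1, c2, -⟩ <;>
      rcases hs i' hi' with ⟨e1, e2, -⟩ | ⟨j', hj', e1, e2⟩ | ⟨e1, -, e2⟩
    · have := col e2
      omega
    · have := (b3 j' hj').1
      rw [e2]
      omega
    · omega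
    · omega
    · have := b5 j j' (by omega) hj'
      rw [c2, e2]
      omega
    · have := (b3 j hj).2
      rw [c2]
      omega
    · omega
    · omega
    · have := col c2
      omega

theorem cellD_subset_box (L K j : ℕ) (h : ℤ) :
    cellD L K j h ⊆ box ((j : ℤ) * L, h * L) ((K + 1) * L) := by
  rintro x ⟨h1, h2, h3, h4⟩
  have h5 : (0 : ℤ) ≤ K * L := by positivity
  refine (nrm_le_iff _ _).2 ⟨abs_le.2 ⟨?_, ?_⟩, abs_le.2 ⟨?_, ?_⟩⟩ <;>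
    simp only [Prod.fst_sub, Prod.snd_sub] <;> push_cast <;> linarith [Int.natCast_nonneg L]

theorem cellD_subset_strip (L K j : ℕ) (h : ℤ) :
    cellD L K j h ⊆ strip ((j : ℤ) * L) (((j : ℤ) + 1) * L) := by
  exact fun x hx => ⟨hx.1, hx.2.1⟩

end Crest.Agent.R151.PC
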