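import Crest.Agent.R151.CTwo
import Crest.Agent.R151.COtt
import Crest.Agent.R151.CPath2

/-! Row 151, part C: C5: the pinning lemma. -/

set_option autoImplicit false

namespace Crest.Agent.R151.PC

open MeasureTheory ProbabilityTheory Filter Topology Crest.ProbabilityR.FirstPassage
open scoped Classical

variable {G : Measure ℝ} [Law G] {F : FD}

theorem CPin_meas (F : FD) (D : Set V) (x z : V) (e : Sym2 V) (c : ℝ) :
    MeasurableSet {t : Env | ∃ δ : Pth, δ.Joins D x z ∧ F.X δ t + t e ≤ c} :=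
  measurableSet_exists_pth fun δ => (MeasurableSet.const _).inter
    (measurableSet_le ((measurable_X F δ).add (measurable_pi_apply e)) measurable_const)

theorem CPin_dep (F : FD) {D D' : Set V} (hD : ∀ y ∈ D, y ∉ D') (x z : V) {e : Sym2 V}
    (he : e ∉ ED D') (c : ℝ) :
    Dep (ED D')ᶜ {t : Env | ∃ δ : Pth, δ.Joins D x z ∧ F.X δ t + t e ≤ c} := by
  rintro t t' h ⟨δ, h1, h2⟩
  refine ⟨δ, h1, ?_⟩
  have h3 : δ.tot t = δ.tot t' := δ.cost_congr fun i _ hi =>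
    h _ fun hm => hD _ (h1.2.1 i hi.le) (mem_ED.1 hm).1
  rw [FD.X, ← h3, ← h e he]
  exact h2

theorem CPin_cover (F : FD) {S : Set Pth} {c : V} {r : ℕ} (f : Pth → V)
    (h : ∀ γ ∈ S, f γ ∈ box c r) (x : ℝ) :
    F.Cheap S x ⊆ ⋃ z ∈ boxF c r, F.Cheap {γ | γ ∈ S ∧ f γ = z} x := by
  rintro t ⟨γ, h1, h2⟩
  exact Set.mem_iUnion₂.2 ⟨f γ, mem_boxF.2 (h γ h1), γ, ⟨h1, rfl⟩, h2⟩

theorem CPin_nrm {c z : V} {r : ℕ} (h : z ∈ boxF c r) :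
    nrm (z - c - (1, 0)) ≤ r + 1 ∧ nrm (c - z - (1, 0)) ≤ r + 1 := by
  have h1 := (nrm_le_iff _ _).1 (mem_boxF.1 h)
  simp only [nrm_le_iff, abs_le, Prod.fst_sub, Prod.snd_sub] at h1 ⊢
  omega

theorem pin_left (hE : ExpL G) (hF : IsFace (mu G) F) : ∃ C : ℝ, 0 < C ∧ ∃ c0 : ℕ,
    ∀ (r R j : ℕ) (g cx : V), (∀ u : V, nrm u ≤ r + 1 → F.Inr (g + u) ∧ (g + u).1 ≤ R) →
      R ≤ 2 ^ j → ∀ S : Set Pth,
      (∀ γ ∈ S, γ.Ok ∧ γ.p 0 ∈ box cx r ∧ ∀ k ≤ γ.n, (γ.p 0).1 ≤ (γ.p k).1) → ∀ x : ℝ,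
        3 / 4 * Pr G (F.Cheap S x) ≤
          Pr G (F.Cheap {Γ | ∃ γ ∈ S, ExtL (cx - g) (3 * F.κ * R + 1) γ Γ}
            (x + C * F.M G (j + c0))) := by
  obtain ⟨C, hC, c0, h⟩ := conn_prob hE hF
  refine ⟨C, hC, c0, fun r R j g cx hg hR S hS x => ?_⟩
  have hR' : (R : ℤ) ≤ 2 ^ j := by exact_mod_cast hR
  have hρ := hF.rho1_pos (mu_ok G)
  have key := ottaviani G (boxF cx r) (fun z => z.1) (fun a => ED {y | a ≤ y.1})
    (fun a b hab => ED_mono fun y hy => hab.trans hy)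
    (fun z => F.Cheap {γ | γ ∈ S ∧ γ.p 0 = z} x)
    (fun z => {t : Env | ∃ δ : Pth, δ.Joins (F.dom (cx - g) (g + (z - cx - (1, 0)))) (cx - g)
      (cx - g + (g + (z - cx - (1, 0)))) ∧ F.X δ t + t s(z - (1, 0), z) ≤ C * F.M G (j + c0)})
    (fun z _ => measurableSet_cheap F _ _) (fun z _ => CPin_meas F _ _ _ _ _)
    (fun z _ => dep_cheap F (fun γ hγ k hk => hγ.2 ▸ (hS γ hγ.1).2.2 k hk) x)
    (fun z _ => CPin_dep F (fun y hy => by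
      have := hy.2.1
      simp only [Prod.fst_sub, Prod.fst_add, Set.mem_ofPred_eq] at this ⊢
      omega) _ _ (fun hm => by
      have := (mem_ED.1 hm).1
      simp only [Prod.fst_sub, Set.mem_ofPred_eq] at this
      omega) _)
    (fun z hz => h j _ _ _ (hg _ (CPin_nrm hz).1).1 ((hg _ (CPin_nrm hz).1).2.trans hR'))
  refine (mul_le_mul_of_nonneg_left (Pr_mono G (CPin_cover F (fun γ => γ.p 0)
    (fun γ hγ => (hS γ hγ).2.1) x)) (by norm_num)).trans (key.trans (Pr_mono G fun t ht => ?_))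
  obtain ⟨z, hz, ⟨γ, ⟨h1, rfl⟩, h2⟩, δ, h3, h4⟩ := Set.mem_iUnion₂.1 ht
  obtain ⟨v1, v2⟩ := hg _ (CPin_nrm hz).1
  have v3 := hF.inr_abs_le v1
  have e : cx - g + (g + (γ.p 0 - cx - (1, 0))) = γ.p 0 - (1, 0) := by abel
  rw [e] at h3
  obtain ⟨Γ, g1, g2⟩ := exists_extL F (r := 3 * F.κ * R + 1) (hS γ h1).1 h3 fun y hy => by
    generalize g + (γ.p 0 - cx - (1, 0)) = v at *
    obtain ⟨y1, y2, y3, y4⟩ := hy
    have e1 : (cx - g).1 + v.1 = (γ.p 0).1 - 1 := congrArg Prod.fst e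
    have e2 : (cx - g).2 + v.2 = (γ.p 0).2 - 0 := congrArg Prod.snd e
    have k1 : (1 : ℤ) ≤ F.κ := by exact_mod_cast F.one_le_κ
    have k2 : (F.κ : ℤ) * v.1 ≤ F.κ * R := mul_le_mul_of_nonneg_left v2 (by positivity)
    have k3 : (R : ℤ) ≤ F.κ * R := le_mul_of_one_le_left (by positivity) k1
    refine ⟨(nrm_le_iff _ _).2 ?_, y1, by omega⟩
    rw [abs_le] at v3
    simp only [abs_le, Prod.fst_sub, Prod.snd_sub] at *
    push_cast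
    refine ⟨⟨?_, ?_⟩, ?_, ?_⟩ <;> linarith
  exact ⟨Γ, ⟨γ, h1, g1⟩, by rw [g2]; linarith⟩

theorem pin_right (hE : ExpL G) (hF : IsFace (mu G) F) : ∃ C : ℝ, 0 < C ∧ ∃ c0 : ℕ,
    ∀ (r R j : ℕ) (g cz : V), (∀ u : V, nrm u ≤ r + 1 → F.Inr (g + u) ∧ (g + u).1 ≤ R) →
      R ≤ 2 ^ j → ∀ S : Set Pth,
      (∀ γ ∈ S, γ.Ok ∧ γ.p γ.n ∈ box cz r ∧ ∀ k ≤ γ.n, (γ.p k).1 ≤ (γ.p γ.n).1) → ∀ x : ℝ,
        3 / 4 * Pr G (F.Cheap S x) ≤
          Pr G (F.Cheap {Γ | ∃ γ ∈ S, ExtR (cz + g) (3 * F.κ * R + 1) γ Γ}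
            (x + C * F.M G (j + c0))) := by
  obtain ⟨C, hC, c0, h⟩ := conn_prob hE hF
  refine ⟨C, hC, c0, fun r R j g cz hg hR S hS x => ?_⟩
  have hR' : (R : ℤ) ≤ 2 ^ j := by exact_mod_cast hR
  have hρ := hF.rho1_pos (mu_ok G)
  have key := ottaviani G (boxF cz r) (fun z => -z.1) (fun a => ED {y | y.1 ≤ -a})
    (fun a b hab => ED_mono fun y hy => le_trans hy (neg_le_neg hab))
    (fun z => F.Cheap {γ | γ ∈ S ∧ γ.p γ.n = z} x)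
    (fun z => {t : Env | ∃ δ : Pth, δ.Joins (F.dom (z + (1, 0)) (g + (cz - z - (1, 0))))
      (z + (1, 0)) (z + (1, 0) + (g + (cz - z - (1, 0)))) ∧
        F.X δ t + t s(z, z + (1, 0)) ≤ C * F.M G (j + c0)})
    (fun z _ => measurableSet_cheap F _ _) (fun z _ => CPin_meas F _ _ _ _ _)
    (fun z _ => dep_cheap F (fun γ hγ k hk => by
      rw [neg_neg, ← hγ.2]
      exact (hS γ hγ.1).2.2 k hk) x)
    (fun z _ => CPin_dep F (fun y hy => by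
      have := hy.1
      simp only [Prod.fst_add, Set.mem_ofPred_eq] at this ⊢
      omega) _ _ (fun hm => by
      have := (mem_ED.1 hm).2
      simp only [Prod.fst_add, Set.mem_ofPred_eq] at this
      omega) _)
    (fun z hz => h j _ _ _ (hg _ (CPin_nrm hz).2).1 ((hg _ (CPin_nrm hz).2).2.trans hR'))
  refine (mul_le_mul_of_nonneg_left (Pr_mono G (CPin_cover F (fun γ => γ.p γ.n)
    (fun γ hγ => (hS γ hγ).2.1) x)) (by norm_num)).trans (key.trans (Pr_mono G fun t ht => ?_))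
  obtain ⟨z, hz, ⟨γ, ⟨h1, rfl⟩, h2⟩, δ, h3, h4⟩ := Set.mem_iUnion₂.1 ht
  obtain ⟨v1, v2⟩ := hg _ (CPin_nrm hz).2
  have v3 := v1.1
  have e : γ.p γ.n + (1, 0) + (g + (cz - γ.p γ.n - (1, 0))) = cz + g := by abel
  rw [e] at h3
  obtain ⟨Γ, g1, g2⟩ := exists_extR F (r := 3 * F.κ * R + 1) (hS γ h1).1 h3 fun y hy => by
    generalize g + (cz - γ.p γ.n - (1, 0)) = v at *
    obtain ⟨y1, y2, y3, y4⟩ := hy
    have e1 : (γ.p γ.n).1 + 1 + v.1 = (cz + g).1 := congrArg Prod.fst e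
    have k1 : (1 : ℤ) ≤ F.κ := by exact_mod_cast F.one_le_κ
    have k2 : (F.κ : ℤ) * v.1 ≤ F.κ * R := mul_le_mul_of_nonneg_left v2 (by positivity)
    have k3 : (R : ℤ) ≤ F.κ * R := le_mul_of_one_le_left (by positivity) k1
    simp only [Prod.fst_add, Prod.snd_add] at y1 y2 y3 y4
    refine ⟨(nrm_le_iff _ _).2 ?_, by omega, by omega⟩
    simp only [abs_le, Prod.fst_sub, Prod.snd_sub]
    push_cast
    refine ⟨⟨?_, ?_⟩, ?_, ?_⟩ <;> linarith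
  exact ⟨Γ, ⟨γ, h1, g1⟩, by rw [g2]; linarith⟩

theorem pin (hE : ExpL G) (hF : IsFace (mu G) F) : ∃ Kp : ℕ, 1 ≤ Kp ∧ ∃ C : ℝ, 0 < C ∧ ∃ c0 : ℕ,
    ∀ r j : ℕ, 1 ≤ r → r ≤ 2 ^ j → ∃ g : V, (r : ℤ) ≤ g.1 ∧ nrm g ≤ Kp * r ∧ F.Inr (g + g) ∧
      ∀ (cx cz : V) (S : Set Pth),
        (∀ γ ∈ S, γ.Ok ∧ Crs γ ∧ γ.p 0 ∈ box cx r ∧ γ.p γ.n ∈ box cz r) → ∀ x : ℝ,
          Pr G (F.Cheap S x) ≤
            2 * Pr G (F.Cheap (Pin (cx - g) (cz + g) (Kp * r) S) (x + C * F.M G (j + c0))) := by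
  obtain ⟨K, hK, hw⟩ := mid_window hF
  obtain ⟨C₁, hC₁, c₁, h₁⟩ := pin_left hE hF
  obtain ⟨C₂, hC₂, c₂, h₂⟩ := pin_right hE hF
  have k1 := F.one_le_κ
  refine ⟨3 * F.κ * (K + 2) + 1, by omega, C₁ + C₂, by positivity, K + 2 + (c₁ + c₂),
    fun r j hr hj => ?_⟩
  obtain ⟨g, g1, g2, g3, g4⟩ := hw r hr
  refine ⟨g, by omega, g2.trans (Nat.mul_le_mul_right _ (by nlinarith)), g3, fun cx cz S hS x => ?_⟩
  have hg : ∀ u : V, nrm u ≤ r + 1 → F.Inr (g + u) ∧ (g + u).1 ≤ ((K + 2) * r : ℕ) := fun u hu => by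
    refine ⟨g4 u hu, (le_abs_self _).trans ((abs_fst_le_nrm _).trans ?_)⟩
    have := nrm_add_le g u
    exact_mod_cast (show nrm (g + u) ≤ (K + 2) * r by nlinarith)
  have hR : (K + 2) * r ≤ 2 ^ (j + (K + 2)) := by
    rw [pow_add, mul_comm]
    exact Nat.mul_le_mul hj Nat.lt_two_pow_self.le
  have a1 := h₁ r _ _ g cx hg hR S (fun γ hγ => ⟨(hS γ hγ).1, (hS γ hγ).2.2.1,
    fun k hk => ((hS γ hγ).2.1 k hk).1⟩) x
  have a2 := h₂ r _ _ g cz hg hR {Γ | ∃ γ ∈ S, ExtL (cx - g) (3 * F.κ * ((K + 2) * r) + 1) γ Γ}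
    (fun Γ ⟨γ, hγ, he⟩ => ⟨he.1, he.last ▸ (hS γ hγ).2.2.2,
      he.right_anch fun k hk => ((hS γ hγ).2.1 k hk).2⟩) (x + C₁ * F.M G (j + (K + 2) + c₁))
  have a3 := Pr_mono G (cheap_mono F
    (S := {Γ | ∃ γ ∈ {Γ | ∃ γ ∈ S, ExtL (cx - g) (3 * F.κ * ((K + 2) * r) + 1) γ Γ},
      ExtR (cz + g) (3 * F.κ * ((K + 2) * r) + 1) γ Γ})
    (S' := Pin (cx - g) (cz + g) ((3 * F.κ * (K + 2) + 1) * r) S)
    (x := x + C₁ * F.M G (j + (K + 2) + c₁) + C₂ * F.M G (j + (K + 2) + c₂))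
    (x' := x + (C₁ + C₂) * F.M G (j + (K + 2 + (c₁ + c₂))))
    (fun Γ ⟨Γ', ⟨γ, hγ, e1⟩, e2⟩ => Pin.mono (by nlinarith) S ⟨γ, hγ, Γ', e1, e2⟩) (by
      have m1 := M_mono hE hF (show j + (K + 2) + c₁ ≤ j + (K + 2 + (c₁ + c₂)) by omega)
      have m2 := M_mono hE hF (show j + (K + 2) + c₂ ≤ j + (K + 2 + (c₁ + c₂)) by omega)
      nlinarith))
  linarith [Pr_nonneg G (F.Cheap S x)]

end Crest.Agent.R151.PC
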