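import Crest.Agent.R151.CTube3

/-! Row 151, part C: C10: the pinned tube has small mean excess. -/

set_option autoImplicit false

namespace Crest.Agent.R151.PC

open MeasureTheory ProbabilityTheory Filter Topology Crest.ProbabilityR.FirstPassage
open scoped Classical

variable {G : Measure ℝ} [Law G] {F : FD}

theorem tube_mean (hE : ExpL G) (hF : IsFace (mu G) F) : ∃ (C3 : ℕ) (C Q0 : ℝ), 1 ≤ C3 ∧ 0 < C ∧ 1 ≤ Q0 ∧
    ∀ (i : ℕ) (θ : ℝ) (W : ℕ) (Q : ℝ), Scale F G i θ W Q → Q0 ≤ Q → ∃ p0 p1 : V,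
      p0.1 ≤ 0 ∧ 2 ^ i ≤ p1.1 ∧ (TubeP θ p0 p1 (C3 * 2 ^ i) (C3 * W)).Nonempty ∧
      (∫ t, TF (TubeP θ p0 p1 (C3 * 2 ^ i) (C3 * W)) t ∂(iidLaw G)) - dot F.ρ (rv (p1 - p0)) ≤
        C * F.Ub G i := by
  obtain ⟨C2, C', q, Q0, hC', hq, hQ0, htube⟩ := tube_prob hE hF
  obtain ⟨Kp, hKp, Cp, hCp, c0, hpin⟩ := pin hE hF
  set C3 : ℕ := C2 + 1 + F.κ + (F.κ + 1) * (Kp * (C2 + 1)) with hC3
  obtain ⟨Cw, hCw, hw⟩ := neg_weak hE hF C3
  set a : ℝ := C' + Cp * lam ^ (C2 + c0) with ha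
  have hl : 0 < lam ^ (C2 + c0) := pow_pos lam_pos _
  have ha0 : 0 < a := by positivity
  refine ⟨C3, a + 2 / (q / 2) * (a + 4 * Cw / q), Q0, by omega, by positivity, hQ0, ?_⟩
  intro i θ W Q hS hQ
  obtain ⟨hW1, -, -, -, -, -, -, hθ⟩ := hS.basic hE hF (le_trans hQ0 hQ)
  have hWL := hS.WL
  have hr1 : 1 ≤ (C2 + 1) * W := Nat.mul_pos (by omega) hW1
  have hr2 : (C2 + 1) * W ≤ 2 ^ (i + C2) := by
    rw [pow_add, mul_comm (2 ^ i)]
    exact Nat.mul_le_mul (Nat.lt_two_pow_self) hWL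
  obtain ⟨g, hg1, -, -, hg⟩ := hpin ((C2 + 1) * W) (i + C2) hr1 hr2
  set S0 := Tube θ 0 (2 ^ i) ((C2 * W : ℕ) : ℝ) W with hS0
  set cz : V := (((2 ^ i : ℕ) : ℤ), ⌊θ * ((2 ^ i : ℕ) : ℝ)⌋) with hcz
  have hle : (C2 + 1) * W = C2 * W + W := by ring
  have h1 := hg 0 cz S0 (fun γ hγ => ⟨hγ.1, tube_crs hγ,
    box_mono _ (by omega) (tube_start hγ), box_mono _ (by omega) (tube_end hγ)⟩) (C' * F.Ub G i)
  set S := TubeP θ (0 - g) (cz + g) (C3 * 2 ^ i) (C3 * W) with hSdef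
  have hsub : Pin (0 - g) (cz + g) (Kp * ((C2 + 1) * W)) S0 ⊆ S := by
    intro Γ hΓ
    have e : C3 * W = C2 * W + W + F.κ * W + F.κ * (Kp * ((C2 + 1) * W)) + Kp * ((C2 + 1) * W) := by
      rw [hC3]; ring
    have e' : C3 * 2 ^ i = C2 * 2 ^ i + 2 ^ i + F.κ * 2 ^ i + F.κ * (Kp * ((C2 + 1) * 2 ^ i)) +
        Kp * ((C2 + 1) * 2 ^ i) := by
      rw [hC3]; ring
    have m1 : C2 * W ≤ C2 * 2 ^ i := Nat.mul_le_mul_left _ hWL
    have m2 : Kp * ((C2 + 1) * W) ≤ Kp * ((C2 + 1) * 2 ^ i) :=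
      Nat.mul_le_mul_left _ (Nat.mul_le_mul_left _ hWL)
    exact Pin.mem_tubeP (k := F.κ) hθ (by omega) (by omega) (by omega) (by omega) hΓ
  have hU1 := one_le_Ub hE hF i
  have hM : F.M G (i + C2 + c0) ≤ lam ^ (C2 + c0) * F.Ub G i := by
    rw [add_assoc]; exact M_le_Ub hE hF i _
  have h2 : q / 2 ≤ Pr G (F.Cheap S (a * F.Ub G i)) := by
    have m := Pr_mono G (cheap_mono F hsub (x := C' * F.Ub G i + Cp * F.M G (i + C2 + c0))
      (x' := a * F.Ub G i) (by rw [ha]; nlinarith))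
    have := htube i θ W Q hS hQ
    linarith
  have h3 : Pr G (F.Cheap S (-(4 * Cw / q * F.Ub G i))) ≤ q / 2 / 2 := by
    have m := Pr_mono G (cheap_mono F (S := S) (S' := PIn (box 0 (C3 * 2 ^ i)))
      (fun γ hγ => ⟨hγ.1.1, hγ.1.2.1⟩) (le_refl (-(4 * Cw / q * F.Ub G i))))
    have := hw i 0 (4 * Cw / q) (by positivity)
    have e : Cw / (4 * Cw / q) = q / 2 / 2 := by field_simp; norm_num
    linarith
  have hfin : (box (0 : V) (C3 * 2 ^ i)).Finite := by rw [box_eq_rect]; exact finite_rect _ _ _ _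
  have h4 := ihr_mean hE F hfin (S := S) (p0 := 0 - g) (p1 := cz + g) (fun γ hγ => hγ.1)
    (by positivity) h2 h3
  have hg0 : (0 : ℤ) ≤ g.1 := le_trans (by positivity) hg1
  refine ⟨0 - g, cz + g, by simpa using hg0, ?_, ?_, ?_⟩
  · simp only [hcz, Prod.fst_add]
    push_cast
    linarith
  · by_contra hne
    rw [Set.not_nonempty_iff_eq_empty] at hne
    have : F.Cheap S (a * F.Ub G i) = ∅ := by
      rw [hSdef, hne]; simp [FD.Cheap]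
    rw [this, Pr_empty] at h2
    linarith
  · refine le_trans h4 (le_of_eq ?_)
    ring

end Crest.Agent.R151.PC
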