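/-!
# Row 151, part C: refined plan and file map (helper76)

Notation of `R151/CDefs.lean`; `L = 2^i`, `U = Ub i`, `lam = 15/8`.  Suppose `{mu ≤ 1}` is not strictly convex.

* CGeo0: a face datum `F = (ρ, θ1, θ2)` exists.  CGeo1/2/3: geometry, lattice splittings, `phi` and the penalty.
* `fh v = E TD(dom 0 v) - ρ v ≥ 0`; `M j = 1 + sup` over band vectors of length `≤ 2^j`; CFh: basic facts,
  interior vectors have `fh ≤ C M j`.  CApr: `fh v ≤ C v.1^0.9`.  CUb: envelope `Ub i = sup_k M (i+k)/lam^k`.
* CIHR1/2: log-concavity (Prékopa-Leindler) ⇒ two quantiles control the mean of a minimal cost.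
* CTwo1/CTwo: choose between `dom 0 v` and a disjoint copy according to the sign of the excess; `E T ≥ ρ` bounds
  the negative part, hence the positive part, hence connections cost `≤ C M` with probability `≥ 3/4`.
* COtt/CPin: explore from the right (resp. left) in the order of the columns, connect to a deterministic point.
* CNuc: crossing paths with excess `≤ -C M` have probability `≤ 1/2`, hence `≤ 4^-s` at level `M (j+s+c)`.
  CLow: `M j ≥ c (j+1)` (straight segment of small weights).  CLD/CY: all paths in a box (loops cost `O(i)`).
* CBad1/2: a cheap path (`X ≤ Q U`) deviating upwards by `Mw W` from the axis `θ` has probability `≤ Q^-2`.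
* CChain/CYch/CLong/CTube1-3 (+ CNum3): cut a long cheap path along the axis into column blocks; half of the blocks are
  crossed cheaply inside a tube of width `C W`; the blocks form a chain of bounded variation; Peierls ⇒ constant probability.
* CPin2: pin both ends, IHR ⇒ mean excess `≤ C U`.
* CRec1/CRecG/CRec2: `m fh v ≤ (m+1) fh v0 + C U` by rerouting along the tube.
* CSide/CNum1/CNum2/CFinal: `M (j+1) ≤ M j + C Ub i 2^(j-i)` when `C w i 2^i ≤ 2^j`, `Σ w = o(log)`; so `M J = J^o(1)`,
  contradicting CLow.  The lower band is the mirror image (`FD.mir`).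
-/
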