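import Crest.Agent.R151.CPath1
import Crest.Agent.R151.TCross

/-! Row 151, part C: C11, deterministic telescoping. -/

set_option autoImplicit false

namespace Crest.Agent.R151.PC

open MeasureTheory ProbabilityTheory Filter Topology Crest.ProbabilityR.FirstPassage
open scoped Classical

variable (F : FD)

/-- one rerouting: along `g`, then along `Γ`, then along `g'` -/
theorem rec_one {t : Env} (ht : NN t) {a v0 w : V} {g g' Γ : Pth} (hv : 0 ≤ v0.1) (hw : 0 ≤ w.1)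
    (hw2 : |w.2| ≤ 2 * F.κ * w.1) (hg : g.Joins (F.dom a v0) a (a + v0))
    (hg' : g'.Joins (F.dom (a + w) v0) (a + w) (a + w + v0)) (hΓ : Γ.Ok) {s s' u u' : ℕ}
    (hs : s ≤ g.n) (hs' : s' ≤ g'.n) (hu : u ≤ u') (hu' : u' ≤ Γ.n) (e : g.p s = Γ.p u)
    (e' : g'.p s' = Γ.p u') (hin : ∀ k, u ≤ k → k ≤ u' → Γ.p k ∈ F.dom a (v0 + w)) :
    F.XD t a (v0 + w) ≤ F.Xs g t 0 s + F.Xs Γ t u u' + F.Xs g' t s' g'.n := by
  have j1 : (g.sub 0 s).Joins (F.dom a (v0 + w)) (g.p 0) (g.p s) :=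
    Pth.sub_joins hg.1 (Nat.zero_le _) hs fun i _ hi => F.dom_subset_left a hw (hg.2.1 i (hi.trans hs))
  have j2 : (Γ.sub u u').Joins (F.dom a (v0 + w)) (Γ.p u) (Γ.p u') := Pth.sub_joins hΓ hu hu' hin
  have j3 : (g'.sub s' g'.n).Joins (F.dom a (v0 + w)) (g'.p s') (g'.p g'.n) :=
    Pth.sub_joins hg'.1 hs' le_rfl fun i _ hi => by
      rw [add_comm v0 w]
      exact F.dom_subset_right a hw hw2 (hg'.2.1 i hi)
  rw [e] at j1
  rw [e'] at j3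
  have j12 := j1.app j2
  have h := TD_le ht (j12.app j3)
  rw [Pth.app_tot (j12.2.2.2.trans j3.2.2.1.symm), Pth.app_tot (j1.2.2.2.trans j2.2.2.1.symm),
    Pth.sub_tot _ _ (Nat.zero_le _), Pth.sub_tot _ _ hu, Pth.sub_tot _ _ hs', hg.2.2.1,
    hg'.2.2.2] at h
  have e1 : v0 + w = a + w + v0 - a := by abel
  have e2 : a + (v0 + w) = a + w + v0 := by abel
  unfold FD.XD FD.Xs
  rw [e2, hg.2.2.1, hg'.2.2.2, e, e']
  conv_lhs => enter [2]; rw [e1]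
  simp only [rv_sub, dot_sub]
  linarith

/-- last visit to the column `c`, then first visit to the column `c + ℓ` -/
theorem rec_times {Γ : Pth} (hΓ : Γ.Ok) (c : ℕ → ℤ) (ℓ : ℤ) (m : ℕ) (hℓ : 0 ≤ ℓ)
    (hc : ∀ l < m, c l + ℓ ≤ c (l + 1)) (h0 : (Γ.p 0).1 ≤ c 0) (h1 : c m + ℓ ≤ (Γ.p Γ.n).1) :
    ∃ σ τ : ℕ → ℕ, (∀ l ≤ m, σ l ≤ τ l ∧ τ l ≤ Γ.n ∧ (Γ.p (σ l)).1 = c l ∧
        (Γ.p (τ l)).1 = c l + ℓ ∧ (∀ k, σ l ≤ k → k ≤ Γ.n → c l ≤ (Γ.p k).1) ∧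
        ∀ k, σ l ≤ k → k ≤ τ l → (Γ.p k).1 ≤ c l + ℓ) ∧ ∀ l < m, τ l ≤ σ (l + 1) := by
  have hm : ∀ l k, l + k ≤ m → c l ≤ c (l + k) := fun l k => by
    induction k with
    | zero => exact fun _ => le_rfl
    | succ k ih =>
      intro h
      have := hc (l + k) (by omega)
      have := ih (by omega)
      rw [← add_assoc]
      omega
  have key : ∀ l, ∃ σ τ : ℕ, l ≤ m → σ ≤ τ ∧ τ ≤ Γ.n ∧ (Γ.p σ).1 = c l ∧ (Γ.p τ).1 = c l + ℓ ∧
      (∀ k, σ < k → k ≤ Γ.n → c l < (Γ.p k).1) ∧ ∀ k, σ ≤ k → k < τ → (Γ.p k).1 < c l + ℓ := by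
    intro l
    by_cases hl : l ≤ m
    · have a1 := hm 0 l (by omega)
      have a2 := hm l (m - l) (by omega)
      rw [zero_add] at a1
      rw [Nat.add_sub_cancel' hl] at a2
      obtain ⟨σ, -, b2, b3, b4⟩ := exists_last_level (fun k => (Γ.p k).1) (Nat.zero_le Γ.n)
        (fun k _ _ => hΓ.col_step k) (c l) (by omega) (by omega)
      obtain ⟨τ, d1, d2, d3, d4⟩ := exists_first_level (fun k => (Γ.p k).1) b2
        (fun k _ _ => hΓ.col_step k) (c l + ℓ) (by omega) (by omega)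
      exact ⟨σ, τ, fun _ => ⟨d1, d2, b3, d3, b4, d4⟩⟩
    · exact ⟨0, 0, fun h => absurd h hl⟩
  choose σ τ H using key
  refine ⟨σ, τ, fun l hl => ?_, fun l hl => ?_⟩
  · obtain ⟨a1, a2, a3, a4, a5, a6⟩ := H l hl
    refine ⟨a1, a2, a3, a4, fun k h h' => ?_, fun k h h' => ?_⟩
    · rcases h.eq_or_lt with rfl | h
      exacts [a3.ge, (a5 k h h').le]
    · rcases h'.eq_or_lt with rfl | h'
      exacts [a4.le, (a6 k h h').le]
  · obtain ⟨a1, a2, a3, -, -, a6⟩ := H l hl.le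
    obtain ⟨-, -, b3, -, b5, -⟩ := H (l + 1) hl
    have := hc l hl
    by_contra hlt
    rcases le_or_gt (σ l) (σ (l + 1)) with h | h
    · have := a6 _ h (by omega)
      omega
    · have := b5 _ h (by omega)
      omega

theorem rec_det {θ Y : ℝ} {v0 w a p0 p1 : V} {m d R R' : ℕ} {t : Env} {Γ : Pth} (ht : NN t)
    (hΓ : Γ ∈ TubeP θ p0 p1 R d) (hθ : |θ| ≤ F.κ) (hv1 : (d : ℤ) ≤ v0.1)
    (hv2 : |v0.2| ≤ 2 * F.κ * v0.1) (hw1 : v0.1 ≤ w.1) (hw2 : |w.2| ≤ 2 * F.κ * w.1)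
    (hp0 : p0.1 ≤ a.1) (hp1 : a.1 + m * w.1 + v0.1 ≤ p1.1)
    (hup : ∀ l ≤ m, (d : ℝ) ≤ dev θ (a + (l : ℤ) • w) ∧
      d + dev θ (a + (l : ℤ) • w) ≤ F.κ * ((v0.1 + w.1 : ℤ) : ℝ))
    (hlo : ∀ l ≤ m, dev θ (a + (l : ℤ) • w + v0) ≤ -(d : ℝ)) (hR : R ≤ R')
    (hd0 : F.dom a v0 ⊆ box 0 R') (hdm : F.dom (a + (m : ℤ) • w) v0 ⊆ box 0 R')
    (hY : ∀ γ ∈ PIn (box 0 R'), -Y ≤ F.X γ t) :
    ∑ l ∈ Finset.range m, F.XD t (a + (l : ℤ) • w) (v0 + w) ≤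
      ∑ l ∈ Finset.range (m + 1), F.XD t (a + (l : ℤ) • w) v0 + F.X Γ t + 4 * Y := by
  obtain ⟨⟨hok, hin, e0, e1⟩, hdev, hnb⟩ := hΓ
  have hv0 : 0 ≤ v0.1 := le_trans (by positivity) hv1
  have hw0 : 0 ≤ w.1 := hv0.trans hw1
  set A : ℕ → V := fun l => a + (l : ℤ) • w with hA
  have hA1 : ∀ l, A (l + 1) = A l + w := fun l => by
    simp only [hA, Nat.cast_add, Nat.cast_one, add_smul, one_smul, add_assoc]
  have hA0 : A 0 = a := by simp [hA]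
  obtain ⟨σ, τ, H, H'⟩ := rec_times hok (fun l => (A l).1) v0.1 m hv0
    (fun l _ => by simp only [hA1, Prod.fst_add]; omega) (by rw [e0, hA0]; exact hp0)
    (by rw [e1]; simpa [hA] using hp1)
  choose g hg hg0 hg1 using fun l => exists_geo_finite (F.dom_finite (A l) v0) ht
    (F.conn_dom (A l) hv0 hv2)
  have hj : ∀ l, (g l).Joins (F.dom (A l) v0) (A l) (A l + v0) := fun l =>
    ⟨(hg l).1, (hg l).2.1, hg0 l, hg1 l⟩
  have hX : ∀ l, F.Xs (g l) t 0 (g l).n = F.XD t (A l) v0 := fun l => by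
    rw [← X_eq_Xs, X_of_joins F (hj l), (hg l).2.2.2, hg0, hg1, add_sub_cancel_left]
    rfl
  have cr : ∀ l, ∃ u s : ℕ, l ≤ m → σ l ≤ u ∧ u ≤ τ l ∧ s ≤ (g l).n ∧ (g l).p s = Γ.p u := by
    intro l
    by_cases hl : l ≤ m
    · obtain ⟨a1, a2, a3, a4, a5, a6⟩ := H l hl
      obtain ⟨i, j, b1, b2, -, b4, b5⟩ := cross_lemma' (a := (A l).1) (b := (A l).1 + v0.1) hok (hg l).1
        a1 a2 (Nat.zero_le _) le_rfl (fun i h h' => ⟨a5 i h (h'.trans a2), a6 i h h'⟩)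
        (fun j _ h' => F.dom_subset_strip _ _ ((hg l).2.1 j h')) a3 a4 (by rw [hg0]) (by rw [hg1]; rfl)
        (by
          have h1 := (abs_le.1 (hdev _ (a1.trans a2))).2.trans (hup l hl).1
          rw [hg0]
          simp only [dev, a3] at h1
          exact_mod_cast (sub_le_sub_iff_right _).1 h1)
        (by
          have h1 := (hlo l hl).trans (abs_le.1 (hdev _ a2)).1
          rw [hg1]
          simp only [dev, a4] at h1
          exact_mod_cast (sub_le_sub_iff_right _).1 h1)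
      exact ⟨i, j, fun _ => ⟨b1, b2, b4, b5.symm⟩⟩
    · exact ⟨0, 0, fun h => absurd h hl⟩
  choose u s K using cr
  have hu : ∀ l < m, u l ≤ u (l + 1) := fun l hl =>
    (K l hl.le).2.1.trans ((H' l hl).trans (K (l + 1) hl).1)
  have one : ∀ l < m, F.XD t (A l) (v0 + w) ≤ F.Xs (g l) t 0 (s l) + F.Xs Γ t (u l) (u (l + 1)) +
      F.Xs (g (l + 1)) t (s (l + 1)) (g (l + 1)).n := fun l hl => by
    obtain ⟨-, -, -, -, a5, -⟩ := H l hl.le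
    obtain ⟨b1, b2, b3, -, -, b6⟩ := H (l + 1) hl
    obtain ⟨c1, -, c3, c4⟩ := K l hl.le
    obtain ⟨-, d2, d3, d4⟩ := K (l + 1) hl
    refine rec_one F ht hv0 hw0 hw2 (hj l) (hA1 l ▸ hj (l + 1)) hok c3 d3 (hu l hl) (d2.trans b2) c4 d4
      fun k h h' => ?_
    have hk : k ≤ Γ.n := h'.trans (d2.trans b2)
    have f1 : (A l).1 ≤ (Γ.p k).1 := a5 k (c1.trans h) hk
    have f2 : (Γ.p k).1 ≤ (A l).1 + (v0.1 + w.1) := by
      simp only [hA1, Prod.fst_add] at b3 b6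
      rcases le_total (σ (l + 1)) k with h1 | h1
      · have := b6 k h1 (h'.trans d2)
        omega
      · have := hnb k _ h1 (b1.trans b2)
        omega
    obtain ⟨f3, f4⟩ := abs_le.1 (hdev k hk)
    obtain ⟨f5, f6⟩ := hup l hl.le
    obtain ⟨f7, f8⟩ := abs_le.1 hθ
    change (d : ℝ) ≤ dev θ (A l) at f5
    change (d : ℝ) + dev θ (A l) ≤ _ at f6
    simp only [dev] at f3 f4 f5 f6
    have g1 : (((A l).1 : ℤ) : ℝ) ≤ ((Γ.p k).1 : ℝ) := by exact_mod_cast f1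
    have g2 : ((Γ.p k).1 : ℝ) ≤ ((A l).1 : ℝ) + ((v0.1 + w.1 : ℤ) : ℝ) := by exact_mod_cast f2
    have g0 : (0 : ℝ) ≤ F.κ := by positivity
    have g3 : (0 : ℝ) ≤ d := by positivity
    refine ⟨f1, f2, ?_, ?_⟩
    · have : ((A l).2 : ℝ) - 2 * F.κ * ((v0.1 + w.1 : ℤ) : ℝ) ≤ ((Γ.p k).2 : ℝ) := by
        nlinarith [mul_nonneg (sub_nonneg.2 f7) (sub_nonneg.2 g1), mul_nonneg g0 (sub_nonneg.2 g2)]
      exact_mod_cast this
    · have : ((Γ.p k).2 : ℝ) ≤ ((A l).2 : ℝ) + 2 * F.κ * ((v0.1 + w.1 : ℤ) : ℝ) := by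
        nlinarith [mul_nonneg (sub_nonneg.2 f8) (sub_nonneg.2 g1), mul_nonneg g0 (sub_nonneg.2 g2)]
      exact_mod_cast this
  have ind : ∀ j ≤ m, u 0 ≤ u j ∧ ∑ l ∈ Finset.range j, F.XD t (A l) (v0 + w) + F.Xs (g j) t 0 (s j) +
      F.Xs (g 0) t (s 0) (g 0).n ≤
      ∑ l ∈ Finset.range (j + 1), F.XD t (A l) v0 + F.Xs Γ t (u 0) (u j) := by
    intro j
    induction j with
    | zero =>
      intro h
      refine ⟨le_rfl, ?_⟩
      rw [Finset.sum_range_zero, Finset.sum_range_one, Xs_self, zero_add, add_zero,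
        Xs_add F _ _ (Nat.zero_le _) (K 0 h).2.2.1, hX]
    | succ j ih =>
      intro h
      obtain ⟨i1, i2⟩ := ih (by omega)
      refine ⟨i1.trans (hu j h), ?_⟩
      have i3 := one j h
      have i4 := Xs_add F Γ t i1 (hu j h)
      have i5 := Xs_add F (g (j + 1)) t (Nat.zero_le _) (K (j + 1) h).2.2.1
      rw [Finset.sum_range_succ, Finset.sum_range_succ _ (j + 1), ← hX (j + 1)]
      linarith
  obtain ⟨i1, i2⟩ := ind m le_rfl
  have k1 := neg_le_Xs_of_PIn F (γ := g m) ⟨(hg m).1, (hg m).2.1.mono hdm⟩ hY (Nat.zero_le _)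
    (K m le_rfl).2.2.1
  have k2 := neg_le_Xs_of_PIn F (γ := g 0) ⟨(hg 0).1, (hg 0).2.1.mono (hA0 ▸ hd0)⟩ hY
    (K 0 (Nat.zero_le _)).2.2.1 le_rfl
  have k3 := Xs_le_of_PIn F (γ := Γ) ⟨hok, hin.mono (box_mono _ hR)⟩ hY i1
    ((K m le_rfl).2.1.trans (H m le_rfl).2.1)
  linarith

end Crest.Agent.R151.PC
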