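import Crest.Agent.R151.CGeo2

/-! Row 151, part C: C11: geometry of the recursion. -/

set_option autoImplicit false

namespace Crest.Agent.R151.PC

open MeasureTheory ProbabilityTheory Filter Topology Crest.ProbabilityR.FirstPassage
open scoped Classical

variable {μ : ℝ × ℝ → ℝ} {F : FD}

/-- the choice of the points `a + l w` (pure geometry) -/
theorem rec_geom (hF : IsFace μ F) (C3 : ℕ) : ∃ C4 K : ℕ, C3 ≤ K ∧
    ∀ (L W : ℕ) (θ Q : ℝ) (v : V), F.θ2 ≤ θ → θ ≤ F.θ2 + F.δ → (L : ℝ) ≤ Q * W → Q ≤ W →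
      W ≤ L → 1 ≤ W → F.V2 v → (C4 : ℤ) * W ≤ v.1 → 4 * v.1 ≤ L →
      ∃ (v0 w a : V) (m : ℕ), v = v0 + w ∧ F.V1 v0 ∧ 2 * v0.1 ≤ v.1 ∧ a.1 = 0 ∧
        ((C3 * W : ℕ) : ℤ) ≤ v0.1 ∧ v0.1 ≤ w.1 ∧ |w.2| ≤ 2 * F.κ * w.1 ∧
        (m : ℤ) * w.1 + v0.1 ≤ L ∧ (L : ℤ) ≤ 2 * m * v.1 ∧
        (∀ l ≤ m, ((C3 * W : ℕ) : ℝ) ≤ dev θ (a + (l : ℤ) • w) ∧
          ((C3 * W : ℕ) : ℝ) + dev θ (a + (l : ℤ) • w) ≤ F.κ * ((v0.1 + w.1 : ℤ) : ℝ)) ∧
        (∀ l ≤ m, dev θ (a + (l : ℤ) • w + v0) ≤ -((C3 * W : ℕ) : ℝ)) ∧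
        F.dom a v0 ⊆ box 0 (K * L) ∧ F.dom (a + (m : ℤ) • w) v0 ⊆ box 0 (K * L) := by
  obtain ⟨n0, hn0⟩ := v2_split hF
  have hδ := hF.δ_pos
  have hκ := F.one_le_κ
  refine ⟨n0.toNat + 10 * C3 + 2 + ⌈(2 * C3 + 1) / (4 / 5 * F.δ)⌉₊, C3 + 3 * F.κ, by omega, ?_⟩
  intro L W θ Q v h1 h2 hLQ hQW hWL hW hv hC4 h4
  set c := ⌈(2 * C3 + 1) / (4 / 5 * F.δ)⌉₊ with hc
  have hW' : (1 : ℤ) ≤ W := by exact_mod_cast hW
  have hn0' : n0 ≤ (n0.toNat : ℤ) := Int.self_le_toNat n0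
  push_cast at hC4
  have p1 : (0 : ℤ) ≤ (n0.toNat : ℤ) * W := by positivity
  have p2 : (0 : ℤ) ≤ (C3 : ℤ) * W := by positivity
  have p3 : (0 : ℤ) ≤ (c : ℤ) * W := by positivity
  have p4 : (n0.toNat : ℤ) ≤ (n0.toNat : ℤ) * W := le_mul_of_one_le_right (by positivity) hW'
  have hsum : (n0.toNat : ℤ) * W + 10 * ((C3 : ℤ) * W) + 2 * W + (c : ℤ) * W ≤ v.1 := by linarith
  obtain ⟨v0, w, hvw, hv0, hd0, hd1, h10, h3⟩ := hn0 θ h1 h2 v hv (by linarith)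
  have hv1 : v.1 = v0.1 + w.1 := by rw [hvw]; rfl
  have hv01 : 1 ≤ v0.1 := hv0.1
  have hw1 : 1 ≤ w.1 := by linarith
  have hwW : (W : ℤ) ≤ w.1 := by linarith
  have hθ : |θ| + 1 ≤ F.κ := hF.abs_le_κ (by linarith [hF.lt]) h2
  have hw2 : |w.2| ≤ F.κ * w.1 := by
    have e : (w.2 : ℝ) = θ * w.1 + dev θ w := by unfold dev; ring
    have hw1' : (1 : ℝ) ≤ w.1 := by exact_mod_cast hw1
    have : |(w.2 : ℝ)| ≤ F.κ * w.1 := by
      rw [e]
      refine (abs_add_le _ _).trans ?_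
      rw [abs_mul, abs_of_nonneg hd0, abs_of_nonneg (by linarith : (0 : ℝ) ≤ w.1)]
      nlinarith [abs_nonneg θ]
    exact_mod_cast this
  have hκ' : (1 : ℤ) ≤ F.κ := by exact_mod_cast hκ
  have hLv : 0 ≤ (L : ℤ) - v0.1 := by linarith
  obtain ⟨m, hm⟩ : ∃ m : ℕ, (m : ℤ) = ((L : ℤ) - v0.1) / w.1 :=
    ⟨_, Int.toNat_of_nonneg (Int.ediv_nonneg hLv (by linarith))⟩
  have hm1 : (m : ℤ) * w.1 ≤ L - v0.1 := by
    rw [hm]; exact Int.ediv_mul_le _ (by linarith)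
  have hm2 : (L : ℤ) - v0.1 < (m + 1) * w.1 := by
    rw [hm]; exact Int.lt_ediv_add_one_mul_self _ (by linarith)
  have hm0 : (0 : ℤ) ≤ m := by positivity
  have hLW : (L : ℤ) ≤ W * W := by
    have : (L : ℝ) ≤ W * W := hLQ.trans (mul_le_mul_of_nonneg_right hQW (by positivity))
    exact_mod_cast this
  have hmW : (m : ℤ) ≤ W := by
    have : (m : ℤ) * W ≤ W * W := by linarith [mul_le_mul_of_nonneg_left hwW hm0]
    exact le_of_mul_le_mul_right this (by linarith)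
  have hmW' : (m : ℝ) ≤ W := by exact_mod_cast hmW
  have hdev : ∀ l : ℕ, dev θ (((0 : ℤ), ((C3 * W : ℕ) : ℤ)) + (l : ℤ) • w) =
      ((C3 * W : ℕ) : ℝ) + l * dev θ w := by
    intro l
    rw [dev_add, dev_smul]
    simp [dev]
  have hl : ∀ l ≤ m, 0 ≤ (l : ℝ) * dev θ w ∧ (l : ℝ) * dev θ w ≤ W := by
    intro l hl
    have : (l : ℝ) ≤ m := by exact_mod_cast hl
    exact ⟨by positivity, (mul_le_of_le_one_right (by positivity) hd1).trans (this.trans hmW')⟩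
  have hna : nrm ((0 : ℤ), ((C3 * W : ℕ) : ℤ)) = C3 * W := by
    simp only [nrm, Int.natAbs_natCast, Int.natAbs_zero]
    omega
  have hCL : C3 * W ≤ C3 * L := Nat.mul_le_mul_left _ hWL
  refine ⟨v0, w, ((0 : ℤ), ((C3 * W : ℕ) : ℤ)), m, hvw, hv0, by linarith, rfl, by push_cast; linarith,
    by linarith, by linarith [mul_nonneg (by linarith : (0 : ℤ) ≤ F.κ) (by linarith : (0 : ℤ) ≤ w.1)],
    by linarith, by linarith [mul_le_mul_of_nonneg_left (by linarith : w.1 ≤ v.1) hm0], fun l hl' => ?_, fun l hl' => ?_, ?_, ?_⟩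
  · rw [hdev l]
    refine ⟨by linarith [(hl l hl').1], ?_⟩
    have e : 2 * ((C3 : ℤ) * W) + W ≤ F.κ * (v0.1 + w.1) := by
      have := le_mul_of_one_le_left (by linarith : (0 : ℤ) ≤ v0.1 + w.1) hκ'
      linarith
    have e' : 2 * ((C3 : ℝ) * W) + W ≤ F.κ * ((v0.1 + w.1 : ℤ) : ℝ) := by exact_mod_cast e
    push_cast at e' ⊢
    linarith [(hl l hl').2]
  · rw [dev_add, hdev l]
    have e1 : (c : ℝ) * W ≤ 10 * (v0.1 : ℝ) := by
      have : (c : ℤ) * W ≤ 10 * v0.1 := by linarith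
      exact_mod_cast this
    have e2 : (2 * C3 + 1 : ℝ) ≤ c * (4 / 5 * F.δ) :=
      (div_le_iff₀ (by positivity)).1 (Nat.le_ceil _)
    have e3 : dev θ v0 ≤ -(8 * F.δ) * v0.1 := by
      have h5 := hv0.2.2
      have h6 : (0 : ℝ) ≤ v0.1 := by exact_mod_cast (by linarith : (0 : ℤ) ≤ v0.1)
      have h7 : F.θ2 = F.θ1 + 10 * F.δ := by unfold FD.δ; ring
      have h8 := mul_le_mul_of_nonneg_right h1 h6
      rw [h7] at h8
      unfold dev
      linarith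
    have hW0 : (0 : ℝ) ≤ W := by positivity
    have e4 := mul_le_mul_of_nonneg_right e2 hW0
    have e5 := mul_le_mul_of_nonneg_left e1 (by positivity : (0 : ℝ) ≤ 4 / 5 * F.δ)
    push_cast
    linarith [(hl l hl').2]
  · refine (F.dom_subset_box _ (R := L) (by linarith)).trans (box_subset_box ?_)
    rw [sub_zero, hna]
    linarith [Nat.zero_le (F.κ * L)]
  · refine (F.dom_subset_box _ (R := L) (by linarith)).trans (box_subset_box ?_)
    rw [sub_zero]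
    have e1 := nrm_add_le ((0 : ℤ), ((C3 * W : ℕ) : ℤ)) ((m : ℤ) • w)
    rw [hna, nrm_smul] at e1
    have e2 : (nrm w : ℤ) ≤ F.κ * w.1 := by
      have h8 : w.1 ≤ F.κ * w.1 := le_mul_of_one_le_left (by linarith) hκ'
      generalize (F.κ : ℤ) * w.1 = u at hw2 h8
      rw [abs_le] at hw2
      simp only [nrm]
      omega
    have e3 : m * nrm w ≤ F.κ * L := by
      have : (m : ℤ) * nrm w ≤ F.κ * L := by
        have a1 := mul_le_mul_of_nonneg_left e2 hm0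
        have a2 := mul_le_mul_of_nonneg_left (by linarith : (m : ℤ) * w.1 ≤ L)
          (by linarith : (0 : ℤ) ≤ F.κ)
        linarith
      exact_mod_cast this
    linarith

end Crest.Agent.R151.PC
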