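import Crest.Agent.R151.CRec1
import Crest.Agent.R151.CRecG
import Crest.Agent.R151.CPin2

/-! Row 151, part C: C11: the recursion. -/

set_option autoImplicit false

namespace Crest.Agent.R151.PC

open MeasureTheory ProbabilityTheory Filter Topology Crest.ProbabilityR.FirstPassage
open scoped Classical

variable {G : Measure ℝ} [Law G] {F : FD}

theorem rec_step (hE : ExpL G) (hF : IsFace (mu G) F) : ∃ (C4 : ℕ) (C Q0 : ℝ), 0 < C ∧ 1 ≤ Q0 ∧
    ∀ (i : ℕ) (θ : ℝ) (W : ℕ) (Q : ℝ), Scale F G i θ W Q → Q0 ≤ Q → ∀ v : V, F.V2 v →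
      (C4 : ℤ) * W ≤ v.1 → 4 * v.1 ≤ 2 ^ i → ∃ v0 : V, F.V1 v0 ∧ 2 * v0.1 ≤ v.1 ∧
        F.fh G v ≤ F.fh G v0 + C * F.Ub G i * v.1 / 2 ^ i := by
  obtain ⟨C3, C, Q0, hC3, hC, hQ0, htube⟩ := tube_mean hE hF
  obtain ⟨C4, K, hK, hgeo⟩ := rec_geom hF C3
  obtain ⟨CY, hCY, hY⟩ := neg_env hE hF K
  refine ⟨C4, 2 * (1 + C + 4 * CY), Q0, by positivity, hQ0, ?_⟩
  intro i θ W Q hS hQ v hv h4 hL
  obtain ⟨hW1, hQW, -, -, -, -, -, hθ⟩ := hS.basic hE hF (le_trans hQ0 hQ)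
  obtain ⟨p0, p1, hp0, hp1, hne, hmean⟩ := htube i θ W Q hS hQ
  obtain ⟨v0, w, a, m, rfl, hv0, h2, ha, hd, hw1, hw2, hm1, hm2, hup, hlo, hd0, hdm⟩ :=
    hgeo (2 ^ i) W θ Q v hS.lo hS.hi (by push_cast; exact hS.LQ) hQW hS.WL hW1 hv h4
      (by push_cast; exact hL)
  obtain ⟨Y, iY, mY, hYle⟩ := hY i 0
  refine ⟨v0, hv0, h2, ?_⟩
  have hv0i := hF.V1_inr hv0
  have habs := hF.inr_abs_le hv0i
  have hv01 : (1 : ℤ) ≤ v0.1 := hv0i.1
  have hκ : (0 : ℤ) ≤ F.κ * v0.1 := by positivity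
  set S := TubeP θ p0 p1 (C3 * 2 ^ i) (C3 * W) with hSdef
  have hpt : ∀ᵐ t ∂(iidLaw G),
      ∑ l ∈ Finset.range m, F.XD t (a + (l : ℤ) • w) (v0 + w) ≤
        ∑ l ∈ Finset.range (m + 1), F.XD t (a + (l : ℤ) • w) v0 +
          (TF S t - dot F.ρ (rv (p1 - p0))) + 4 * Y t := by
    filter_upwards [ae_nn G] with t ht
    have : ∑ l ∈ Finset.range m, F.XD t (a + (l : ℤ) • w) (v0 + w) -
        ∑ l ∈ Finset.range (m + 1), F.XD t (a + (l : ℤ) • w) v0 - 4 * Y t +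
          dot F.ρ (rv (p1 - p0)) ≤ TF S t := by
      refine le_TF hne (fun Γ hΓ => ?_)
      have h := rec_det F (θ := θ) (Y := Y t) (v0 := v0) (w := w) (a := a) (m := m)
        (R' := K * 2 ^ i) ht hΓ (by linarith) hd (by linarith) hw1 hw2 (by omega)
        (by push_cast at hm1; rw [ha]; linarith) hup hlo (Nat.mul_le_mul_right _ hK) hd0 hdm
        (hYle t ht)
      rw [X_of_joins F hΓ.1] at h
      linarith
    linarith
  have i1 : ∀ (n : ℕ) (u : V), Integrable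
      (fun t => ∑ l ∈ Finset.range n, F.XD t (a + (l : ℤ) • w) u) (iidLaw G) :=
    fun n u => integrable_finsetSum _ (fun l _ => integrable_XD hE F _ _)
  have e1 : ∀ (n : ℕ) (u : V), ∫ t, ∑ l ∈ Finset.range n, F.XD t (a + (l : ℤ) • w) u ∂(iidLaw G) =
      n * F.fh G u := by
    intro n u
    rw [integral_finsetSum _ (fun l _ => integrable_XD hE F _ _)]
    simp [integral_XD]
  have iT : Integrable (fun t => TF S t - dot F.ρ (rv (p1 - p0))) (iidLaw G) :=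
    (integrable_TF hE S).sub (integrable_const _)
  have i4 : Integrable (fun t => 4 * Y t) (iidLaw G) := iY.const_mul 4
  have hint := integral_mono_ae (i1 m (v0 + w)) (((i1 (m + 1) v0).add iT).add i4) hpt
  have e2 : ∫ t, ((fun t => ∑ l ∈ Finset.range (m + 1), F.XD t (a + (l : ℤ) • w) v0) +
      (fun t => TF S t - dot F.ρ (rv (p1 - p0))) + fun t => 4 * Y t) t ∂(iidLaw G) =
      ((m + 1 : ℕ) : ℝ) * F.fh G v0 + ((∫ t, TF S t ∂(iidLaw G)) - dot F.ρ (rv (p1 - p0))) +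
        4 * ∫ t, Y t ∂(iidLaw G) := by
    rw [integral_add' ((i1 (m + 1) v0).add iT) i4, integral_add' (i1 (m + 1) v0) iT, e1,
      integral_sub (integrable_TF hE S) (integrable_const _), integral_const_mul]
    simp
  rw [e1, e2] at hint
  have hU1 := one_le_Ub hE hF i
  have hv0U : F.fh G v0 ≤ F.Ub G i := by
    have h1 := fh_le_M hE hF (j := i) (Or.inl hv0) (by
      have : (0 : ℤ) < 2 ^ i := by positivity
      simp only [Prod.fst_add] at h2 hL
      omega)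
    have h2 := M_le_Ub' hE hF i
    linarith
  have hm2' : (2 : ℝ) ^ i ≤ 2 * m * ((v0 + w).1 : ℤ) := by exact_mod_cast hm2
  have p2 : (0 : ℝ) < 2 ^ i := by positivity
  have hmpos : (0 : ℝ) < m := by
    rcases Nat.eq_zero_or_pos m with h | h
    · subst h; simp at hm2'; linarith
    · exact_mod_cast h
  push_cast at hint
  set D := (1 + C + 4 * CY) * F.Ub G i with hD
  have hD0 : 0 ≤ D := by positivity
  have k1 : m * (F.fh G (v0 + w) - F.fh G v0) ≤ D := by nlinarith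
  have k2 : D / m ≤ 2 * (1 + C + 4 * CY) * F.Ub G i * ((v0 + w).1 : ℤ) / 2 ^ i := by
    rw [div_le_div_iff₀ hmpos p2]
    have : 2 * (1 + C + 4 * CY) * F.Ub G i * ((v0 + w).1 : ℤ) * m =
        D * (2 * m * ((v0 + w).1 : ℤ)) := by rw [hD]; ring
    rw [this]
    exact mul_le_mul_of_nonneg_left hm2' hD0
  have k3 : F.fh G (v0 + w) - F.fh G v0 ≤ D / m := by
    rw [le_div_iff₀ hmpos]; linarith
  linarith

end Crest.Agent.R151.PC
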