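import Crest.Agent.R151.CRec2
import Crest.Agent.R151.CGeo3

/-! Row 151, part C: choice of the scale data, one-sided recursion. -/

set_option autoImplicit false

namespace Crest.Agent.R151.PC

open MeasureTheory ProbabilityTheory Filter Topology Crest.ProbabilityR.FirstPassage
open scoped Classical

variable {G : Measure ℝ} [Law G] {F : FD}

theorem exists_scale (hE : ExpL G) (hF : IsFace (mu G) F) : ∃ w : ℕ → ℝ, Small w ∧
    ∀ᶠ i : ℕ in atTop, ∃ (θ : ℝ) (W : ℕ), Scale F G i θ W (((i : ℝ) + 1) ^ 2) ∧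
      (W : ℝ) ≤ 2 * w i * 2 ^ i := by
  have hμ := mu_ok G
  set η : ℕ → ℝ := fun i => F.Ub G i / 2 ^ i with hη
  have hU1 := one_le_Ub hE hF
  have hpos : ∀ i, 0 < η i := fun i => by
    have := hU1 i
    simp only [hη]
    positivity
  have hq : ∀ i, η (i + 1) ≤ 15 / 16 * η i := fun i => by
    have h := Ub_succ_le hE hF i
    simp only [hη]
    rw [div_le_iff₀ (by positivity), pow_succ]
    have : 15 / 16 * (F.Ub G i / 2 ^ i) * (2 ^ i * 2) = lam * F.Ub G i := by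
      rw [lam]; field_simp; ring
    linarith
  set a : ℕ → ℝ := fun i =>
    F.phi (mu G) ((((i : ℝ) + 1) ^ 30 + 1) * η i) - F.phi (mu G) (η i) with ha
  have hsa : Small a := small_of_phi (F.phi (mu G)) η 30 hpos hq phi_nonneg
    (fun x y hx hxy => phi_mono hF hμ hx hxy) (fun ε hε => phi_small hF hμ hε)
  have hsw := hsa.add small_inv_sq
  refine ⟨fun i => a i + 1 / ((i : ℝ) + 1) ^ 2, hsw, ?_⟩
  obtain ⟨CU, hCU, hUl⟩ := Ub_le_lam hE hF
  obtain ⟨η0, hη0, hsm⟩ := phi_small hF hμ hF.δ_pos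
  have ev1 := eventually_poly_lam CU 8
  have ev2 := eventually_poly_lam 1 2
  have ev3 : ∀ᶠ i : ℕ in atTop, a i + 1 / ((i : ℝ) + 1) ^ 2 < 1 / 2 :=
    hsw.2.1.eventually (gt_mem_nhds (by norm_num))
  have ev4 := eventually_poly_lam (CU / η0) 0
  filter_upwards [ev1, ev2, ev3, ev4] with i e1 e2 e3 e4
  have p2 : (0 : ℝ) < 2 ^ i := by positivity
  have pl : (1 : ℝ) ≤ lam ^ i := one_le_pow₀ one_lt_lam.le
  have pi : (0 : ℝ) < ((i : ℝ) + 1) ^ 2 := by positivity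
  have ha0 : 0 ≤ a i := hsa.1 i
  set w : ℝ := a i + 1 / ((i : ℝ) + 1) ^ 2 with hw
  have hw1 : 1 / ((i : ℝ) + 1) ^ 2 ≤ w := by linarith
  have hL1 : ((i : ℝ) + 1) ^ 2 ≤ 2 ^ i := by nlinarith
  have hlow : 2 ^ i / ((i : ℝ) + 1) ^ 2 ≤ w * 2 ^ i := by
    have := mul_le_mul_of_nonneg_right hw1 p2.le
    rwa [one_div, inv_mul_eq_div] at this
  have hone : 1 ≤ w * 2 ^ i := le_trans (by rw [le_div_iff₀ pi]; linarith) hlow
  have hW1 : w * 2 ^ i ≤ (⌈w * 2 ^ i⌉₊ : ℝ) := Nat.le_ceil _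
  have hW2 : (⌈w * 2 ^ i⌉₊ : ℝ) ≤ 2 * w * 2 ^ i := by
    have := (Nat.ceil_lt_add_one (show 0 ≤ w * 2 ^ i by linarith)).le
    linarith
  have hηs : η i ≤ η0 := by
    simp only [hη]
    rw [div_le_iff₀ p2]
    have h1 := hUl i
    have h2 : CU / η0 * ((i : ℝ) + 1) ^ 0 * lam ^ i * η0 = CU * lam ^ i := by
      field_simp
    nlinarith [mul_le_mul_of_nonneg_right e4 hη0.le]
  refine ⟨F.θ2 + F.phi (mu G) (η i), ⌈w * 2 ^ i⌉₊, ⟨?_, ?_, ?_, ?_, ?_, ?_, ?_⟩, hW2⟩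
  · linarith [phi_nonneg (F := F) (μ := mu G) (η i)]
  · linarith [hsm (η i) (hpos i).le hηs]
  · exact (phi_eq hF hμ (hpos i).le).le
  · intro v hv hd
    have hB : (1 : ℝ) < ((i : ℝ) + 1) ^ 30 + 1 := by
      have : (0 : ℝ) < ((i : ℝ) + 1) ^ 30 := by positivity
      linarith
    have h := phi_pen hF hμ (hpos i) hB v (2 ^ i) hv p2.le (by
      refine le_trans ?_ hd
      have h1 : a i * 2 ^ i ≤ (⌈w * 2 ^ i⌉₊ : ℝ) := by
        have : a i ≤ w := by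
          have : 0 ≤ 1 / ((i : ℝ) + 1) ^ 2 := by positivity
          linarith
        nlinarith
      have h2 : a i * (v.1 + 2 ^ i) = a i * 2 ^ i * (v.1 / 2 ^ i + 1) := by field_simp
      show a i * (v.1 + 2 ^ i) ≤ _
      rw [h2]
      exact mul_le_mul_of_nonneg_right h1 (by positivity))
    have e : (((i : ℝ) + 1) ^ 30 + 1 - 1) * η i * 2 ^ i = (((i : ℝ) + 1) ^ 2) ^ 15 * F.Ub G i := by
      simp only [hη]
      field_simp
      ring
    rwa [e] at h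
  · rw [div_le_iff₀ pi] at hlow
    nlinarith
  · have : (⌈w * 2 ^ i⌉₊ : ℝ) ≤ ((2 ^ i : ℕ) : ℝ) := by
      push_cast
      nlinarith
    exact_mod_cast this
  · refine le_trans ?_ (le_trans hlow hW1)
    rw [le_div_iff₀ pi]
    have h1 := hUl i
    have : (((i : ℝ) + 1) ^ 2) ^ 3 * F.Ub G i * ((i : ℝ) + 1) ^ 2 = ((i : ℝ) + 1) ^ 8 * F.Ub G i := by
      ring
    rw [this]
    have h8 : (0 : ℝ) ≤ ((i : ℝ) + 1) ^ 8 := by positivity
    nlinarith [mul_le_mul_of_nonneg_left h1 h8]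

theorem side_rec (hE : ExpL G) (hF : IsFace (mu G) F) : ∃ (w : ℕ → ℝ) (C : ℝ) (i0 : ℕ), Small w ∧ 0 < C ∧
    ∀ i j : ℕ, i0 ≤ i → C * w i * 2 ^ i ≤ 2 ^ j → j + 3 ≤ i → ∀ v : V, F.V2 v →
      v.1 ≤ 2 ^ (j + 1) → F.fh G v + 1 ≤ F.M G j + C * F.Ub G i * 2 ^ j / 2 ^ i := by
  obtain ⟨w, hw, hev⟩ := exists_scale hE hF
  obtain ⟨C4, C, Q0, hC, hQ0, hrec⟩ := rec_step hE hF
  have ev2 : ∀ᶠ i : ℕ in atTop, Q0 ≤ (i : ℝ) :=
    tendsto_natCast_atTop_atTop.eventually_ge_atTop Q0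
  obtain ⟨i0, hi0⟩ := eventually_atTop.1 (hev.and ev2)
  refine ⟨w, 2 * C4 + 2 * C, i0, hw, by positivity, ?_⟩
  intro i j hi hwj hj v hv hv1
  obtain ⟨⟨θ, W, hS, hW⟩, hQ⟩ := hi0 i hi
  have hU := one_le_Ub hE hF i
  have p2 : (0 : ℝ) < 2 ^ i := by positivity
  have hE0 : 0 ≤ F.Ub G i * 2 ^ j / 2 ^ i := by positivity
  have e1 : ∀ C : ℝ, C * F.Ub G i * 2 ^ j / 2 ^ i = C * (F.Ub G i * 2 ^ j / 2 ^ i) := by
    intro C; ring
  have hC4 : (0 : ℝ) ≤ C4 := Nat.cast_nonneg _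
  rw [e1]
  by_cases hsm : v.1 ≤ 2 ^ j
  · have := fh_le_M hE hF (Or.inr hv) hsm
    nlinarith [mul_nonneg hC4 hE0, mul_nonneg hC.le hE0]
  · push Not at hsm
    have hw0 := hw.1 i
    have h4 : (C4 : ℤ) * W ≤ v.1 := by
      have h1 : (C4 : ℝ) * W ≤ 2 ^ j := by
        have a1 := mul_le_mul_of_nonneg_left hW hC4
        have a2 : 0 ≤ C * w i * 2 ^ i := by positivity
        nlinarith
      have h2 : (C4 : ℤ) * W ≤ 2 ^ j := by exact_mod_cast h1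
      omega
    have h5 : 4 * v.1 ≤ 2 ^ i := by
      have : (2 : ℤ) ^ (j + 3) ≤ 2 ^ i := pow_le_pow_right₀ (by norm_num) hj
      rw [pow_add] at this
      rw [pow_succ] at hv1
      omega
    have hQ' : Q0 ≤ ((i : ℝ) + 1) ^ 2 := by
      have : (0 : ℝ) ≤ i := Nat.cast_nonneg _
      nlinarith
    obtain ⟨v0, hv0, h2, hle⟩ := hrec i θ W _ hS hQ' v hv h4 h5
    have h6 := fh_le_M hE hF (j := j) (Or.inl hv0) (by rw [pow_succ] at hv1; omega)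
    have h7 : C * F.Ub G i * v.1 / 2 ^ i ≤ 2 * C * (F.Ub G i * 2 ^ j / 2 ^ i) := by
      have : (v.1 : ℝ) ≤ 2 ^ (j + 1) := by exact_mod_cast hv1
      rw [← e1]
      refine div_le_div_of_nonneg_right ?_ p2.le
      rw [pow_succ] at this
      nlinarith [mul_le_mul_of_nonneg_left this (show 0 ≤ C * F.Ub G i by positivity)]
    nlinarith [mul_nonneg hC4 hE0]

end Crest.Agent.R151.PC
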