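import Crest.Agent.R151.CPath2

/-! Row 151, part C: C9, first deterministic step: local or expensive crossings. -/

set_option autoImplicit false

namespace Crest.Agent.R151.PC

open MeasureTheory ProbabilityTheory Filter Topology Crest.ProbabilityR.FirstPassage
open scoped Classical

/-- a crossing of a strip of width `L` that moves far in height is expensive -/
theorem far_crossing (F : FD) {c : ℝ} (hc : 0 < c) : ∃ K : ℕ, 1 ≤ K ∧
    ∀ (L : ℕ) (a : ℤ) (θ y : ℝ) (t : Env) (γ : Pth), 1 ≤ L → |θ| ≤ F.κ → NN t →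
      (γ.p 0).1 = a → (γ.p γ.n).1 = a + L → γ.In (strip a (a + L)) → F.SteepP γ t c y → y ≤ L →
      (∃ k ≤ γ.n, (K : ℤ) * L ≤ |(γ.p k).2 - (γ.p 0).2|) →
        c / 6 * (L + |dev θ (disp γ)|) ≤ F.X γ t := by
  set K : ℕ := max F.κ ⌈(4 + 4 * ‖F.ρ‖ * F.κ) / c⌉₊ with hK
  have hκK : F.κ ≤ K := le_max_left _ _
  have hK1 : 1 ≤ K := F.one_le_κ.trans hκK
  have hcK : 4 + 4 * ‖F.ρ‖ * F.κ ≤ c * K := by
    have h1 : (⌈(4 + 4 * ‖F.ρ‖ * F.κ) / c⌉₊ : ℝ) ≤ K := by exact_mod_cast le_max_right _ _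
    have h2 := (Nat.le_ceil ((4 + 4 * ‖F.ρ‖ * F.κ) / c)).trans h1
    rw [div_le_iff₀ hc] at h2
    linarith
  refine ⟨K, hK1, fun L a θ y t γ hL hθ ht h0 hn hin hS hy hex => ?_⟩
  obtain ⟨k0, hk0, hfar⟩ := hex
  obtain ⟨k, hk, hmax⟩ := Finset.exists_max_image (Finset.range (γ.n + 1))
    (fun k => |(γ.p k).2 - (γ.p 0).2|) ⟨0, by simp⟩
  have hk' : k ≤ γ.n := Nat.lt_succ_iff.1 (Finset.mem_range.1 hk)
  have hH : (K : ℤ) * L ≤ |(γ.p k).2 - (γ.p 0).2| :=
    hfar.trans (hmax k0 (Finset.mem_range.2 (Nat.lt_succ_of_le hk0)))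
  have hHn : |(γ.p γ.n).2 - (γ.p 0).2| ≤ |(γ.p k).2 - (γ.p 0).2| :=
    hmax γ.n (Finset.mem_range.2 (Nat.lt_succ_self _))
  obtain ⟨s1, s2⟩ := hin k hk'
  have hκ0 : (0 : ℤ) ≤ F.κ := Nat.cast_nonneg _
  have hL0 : (0 : ℤ) ≤ L := Nat.cast_nonneg _
  have hκL : (F.κ : ℤ) * L ≤ (K : ℤ) * L :=
    mul_le_mul_of_nonneg_right (by exact_mod_cast hκK) hL0
  have st : F.Steep (γ.p k - γ.p 0) := by
    show (F.κ : ℤ) * ((γ.p k).1 - (γ.p 0).1) ≤ |(γ.p k).2 - (γ.p 0).2|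
    exact (mul_le_mul_of_nonneg_left (by omega) hκ0).trans (hκL.trans hH)
  set H : ℝ := |((γ.p k).2 : ℝ) - (γ.p 0).2| with hHdef
  have hH' : (K : ℝ) * L ≤ H := by rw [hHdef]; exact_mod_cast hH
  have hHn' : |((γ.p γ.n).2 : ℝ) - (γ.p 0).2| ≤ H := by rw [hHdef]; exact_mod_cast hHn
  have hL' : (1 : ℝ) ≤ L := by exact_mod_cast hL
  have hK' : (1 : ℝ) ≤ K := by exact_mod_cast hK1
  have hκK' : (F.κ : ℝ) ≤ K := by exact_mod_cast hκK
  have hρκ : 0 ≤ ‖F.ρ‖ * F.κ := by positivity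
  have x1 : c * H - L ≤ F.Xs γ t 0 k := by
    have h1 := hS 0 k (Nat.zero_le _) hk' st
    have h2 : H ≤ nrm (γ.p k - γ.p 0) := by
      rw [hHdef]; exact_mod_cast abs_snd_le_nrm (γ.p k - γ.p 0)
    nlinarith
  have x2 : -((1 + 2 * ‖F.ρ‖ * F.κ) * L) ≤ F.Xs γ t k γ.n := by
    by_cases h : F.Steep (γ.p γ.n - γ.p k)
    · have h1 := hS k γ.n hk' le_rfl h
      have h2 : 0 ≤ c * nrm (γ.p γ.n - γ.p k) := by positivity
      nlinarith
    · have h1 := (F.nrm_le_of_not_steep h).2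
      have h2 : (nrm (γ.p γ.n - γ.p k) : ℤ) ≤ F.κ * L :=
        h1.trans (mul_le_mul_of_nonneg_left (by rw [Prod.fst_sub]; omega) hκ0)
      have h3 : (nrm (γ.p γ.n - γ.p k) : ℝ) ≤ F.κ * L := by exact_mod_cast h2
      have h4 := neg_le_Xs F γ ht k γ.n
      have h5 := mul_le_mul_of_nonneg_left h3 (norm_nonneg F.ρ)
      nlinarith
  have x3 : (L : ℝ) + |dev θ (disp γ)| ≤ 3 * H := by
    have e : dev θ (disp γ) = (((γ.p γ.n).2 : ℝ) - (γ.p 0).2) - θ * L := by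
      simp only [dev, disp, Prod.fst_sub, Prod.snd_sub, h0, hn]
      push_cast
      ring
    have h1 : |dev θ (disp γ)| ≤ H + F.κ * L := by
      rw [e]
      refine (abs_sub _ _).trans (add_le_add hHn' ?_)
      rw [abs_mul, abs_of_nonneg (by linarith : (0 : ℝ) ≤ L)]
      exact mul_le_mul_of_nonneg_right hθ (by linarith)
    nlinarith
  rw [X_eq_Xs, ← Xs_add F γ t (Nat.zero_le k) hk']
  have x4 : (4 + 4 * ‖F.ρ‖ * F.κ) * L ≤ c * H :=
    (mul_le_mul_of_nonneg_right hcK (by linarith)).trans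
      (by rw [mul_assoc]; exact mul_le_mul_of_nonneg_left hH' hc.le)
  nlinarith

theorem CTube1_div {L : ℕ} (hL : 1 ≤ L) (a b : ℤ) :
    (L : ℝ) * ((a / L - b / L).natAbs : ℕ) ≤ |(a : ℝ) - b| + L := by
  have hL0 : (0 : ℤ) < L := by exact_mod_cast hL
  have h : (L : ℤ) * |a / L - b / L| ≤ |a - b| + L := by
    have ha := Int.mul_ediv_add_emod a L
    have hb := Int.mul_ediv_add_emod b L
    have a1 := Int.emod_nonneg a hL0.ne'
    have a2 := Int.emod_lt_of_pos a hL0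
    have b1 := Int.emod_nonneg b hL0.ne'
    have b2 := Int.emod_lt_of_pos b hL0
    rw [← abs_of_pos hL0, ← abs_mul, abs_of_pos hL0, mul_sub, abs_le]
    constructor
    · linarith [neg_abs_le (a - b)]
    · linarith [le_abs_self (a - b)]
  rw [Nat.cast_natAbs]
  exact_mod_cast h

theorem tube_det1 (F : FD) {c : ℝ} (hc : 0 < c) (Ca : ℝ) : ∃ K Vc : ℕ,
    ∀ (L n : ℕ) (θ y : ℝ) (t : Env) (γ : Pth) (σ τ : ℕ → ℕ), 1 ≤ L → 1 ≤ n → |θ| ≤ F.κ → NN t →
      γ.p 0 = 0 → Segs γ L n σ τ → F.SteepP γ t c y → y ≤ L → F.X γ t ≤ Ca * n * L →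
      ∃ h : ℕ → ℤ, cvar h n ≤ Vc * n ∧ ∀ j < n,
        (γ.sub (σ j) (τ (j + 1))).In (cellD L K j (h j)) ∨
          c / 6 * (L + |dev θ (γ.p (τ (j + 1)) - γ.p (σ j))|) ≤ F.Xs γ t (σ j) (τ (j + 1)) := by
  obtain ⟨K, hK1, hfar⟩ := far_crossing F hc
  set C : ℝ := 2 * ‖F.ρ‖ * K with hC
  set D : ℝ := 6 * F.κ / c with hD
  have hκ1 : (1 : ℝ) ≤ F.κ := by exact_mod_cast F.one_le_κ
  have hC0 : 0 ≤ C := by positivity
  have hD0 : 0 ≤ D := by positivity
  have hcD : c * D = 6 * F.κ := by rw [hD]; field_simp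
  refine ⟨K + 1, ⌈K + D * (Ca + 2 + C) + 2⌉₊,
    fun L n θ y t γ σ τ hL hn hθ ht h0 hseg hS hy hX => ?_⟩
  have hL0 : (0 : ℤ) < L := by exact_mod_cast hL
  have hL' : (1 : ℝ) ≤ L := by exact_mod_cast hL
  have hn' : (1 : ℝ) ≤ n := by exact_mod_cast hn
  have alt : ∀ j < n, (∀ k, σ j ≤ k → k ≤ τ (j + 1) → |(γ.p k).2 - (γ.p (σ j)).2| < (K : ℤ) * L) ∨
      c / 6 * (L + |dev θ (γ.p (τ (j + 1)) - γ.p (σ j))|) ≤ F.Xs γ t (σ j) (τ (j + 1)) := by
    intro j hj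
    have h1 := hseg.στ j hj
    have h2 : τ (j + 1) ≤ γ.n := hseg.τ_le hj
    by_cases h : ∀ k, σ j ≤ k → k ≤ τ (j + 1) → |(γ.p k).2 - (γ.p (σ j)).2| < (K : ℤ) * L
    · exact Or.inl h
    · right
      push Not at h
      obtain ⟨k, k1, k2, k3⟩ := h
      have := hfar L ((j : ℤ) * L) θ y t (γ.sub (σ j) (τ (j + 1))) hL hθ ht
        (by rw [Pth.sub_p_zero, hseg.colσ j hj.le])
        (by rw [Pth.sub_p_last _ h1, hseg.colτ (j + 1) hj]; push_cast; ring)
        (Pth.sub_in h1 fun i i1 i2 => by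
          have := hseg.str j hj i i1 i2
          rwa [add_mul, one_mul] at this)
        (steepP_sub F hS h1 h2) hy
        ⟨k - σ j, by show k - σ j ≤ τ (j + 1) - σ j; omega, by
          rw [Pth.sub_p_zero, Pth.sub_p _ _ _ (by omega), Nat.add_sub_cancel' k1]; exact k3⟩
      rwa [disp_sub _ h1, X_sub F _ _ h1] at this
  refine ⟨fun j => (γ.p (σ j)).2 / L, ?_, fun j hj => (alt j hj).imp_left fun h => ?_⟩
  · -- loops
    have lp : ∀ j ∈ Finset.range (n + 1), |((γ.p (σ j)).2 : ℝ) - (γ.p (τ j)).2| ≤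
        D * (F.Xs γ t (τ j) (σ j) + L) := by
      intro j hj
      have hj' : j ≤ n := Nat.lt_succ_iff.1 (Finset.mem_range.1 hj)
      have h1 := hS (τ j) (σ j) (hseg.τσ j hj') (hseg.σ_le hj') (F.steep_of_nonpos (by
        rw [Prod.fst_sub, hseg.colσ j hj', hseg.colτ j hj', sub_self]))
      have h2 : |((γ.p (σ j)).2 : ℝ) - (γ.p (τ j)).2| ≤ nrm (γ.p (σ j) - γ.p (τ j)) := by
        exact_mod_cast abs_snd_le_nrm (γ.p (σ j) - γ.p (τ j))
      have h3 : c * |((γ.p (σ j)).2 : ℝ) - (γ.p (τ j)).2| ≤ F.Xs γ t (τ j) (σ j) + L := by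
        nlinarith
      have h4 := mul_le_mul_of_nonneg_left h3 hD0
      have h5 := abs_nonneg (((γ.p (σ j)).2 : ℝ) - (γ.p (τ j)).2)
      rw [← mul_assoc, mul_comm D c, hcD] at h4
      nlinarith
    have cr : ∀ j ∈ Finset.range n, |((γ.p (τ (j + 1))).2 : ℝ) - (γ.p (σ j)).2| ≤
        K * L + D * (F.Xs γ t (σ j) (τ (j + 1)) + C * L) := by
      intro j hj
      have hj' : j < n := Finset.mem_range.1 hj
      have e1 : (γ.p (τ (j + 1))).1 - (γ.p (σ j)).1 = L := by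
        rw [hseg.colσ j hj'.le, hseg.colτ (j + 1) hj']; push_cast; ring
      rcases alt j hj' with h | h
      · have h1 := (h _ (hseg.στ j hj') le_rfl).le
        have h1' : |((γ.p (τ (j + 1))).2 : ℝ) - (γ.p (σ j)).2| ≤ K * L := by exact_mod_cast h1
        have h2 : nrm (γ.p (τ (j + 1)) - γ.p (σ j)) ≤ K * L := by
          rw [nrm_le_iff, Prod.fst_sub, Prod.snd_sub, e1]
          push_cast
          refine ⟨?_, h1⟩
          rw [abs_of_pos hL0]
          exact le_mul_of_one_le_left hL0.le (by exact_mod_cast hK1)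
        have h3 : (nrm (γ.p (τ (j + 1)) - γ.p (σ j)) : ℝ) ≤ K * L := by exact_mod_cast h2
        have h4 := neg_le_Xs F γ ht (σ j) (τ (j + 1))
        have h5 := mul_le_mul_of_nonneg_left h3 (norm_nonneg F.ρ)
        have h6 : 0 ≤ F.Xs γ t (σ j) (τ (j + 1)) + C * L := by rw [hC]; nlinarith
        have h7 := mul_nonneg hD0 h6
        linarith
      · have e : ((γ.p (τ (j + 1))).2 : ℝ) - (γ.p (σ j)).2 =
            dev θ (γ.p (τ (j + 1)) - γ.p (σ j)) + θ * L := by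
          simp only [dev, Prod.fst_sub, Prod.snd_sub, e1]
          push_cast
          ring
        have h1 : |((γ.p (τ (j + 1))).2 : ℝ) - (γ.p (σ j)).2| ≤
            |dev θ (γ.p (τ (j + 1)) - γ.p (σ j))| + F.κ * L := by
          rw [e]
          refine (abs_add_le _ _).trans (add_le_add le_rfl ?_)
          rw [abs_mul, abs_of_nonneg (by linarith : (0 : ℝ) ≤ L)]
          exact mul_le_mul_of_nonneg_right hθ (by linarith)
        have h2 := mul_le_mul_of_nonneg_left h hD0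
        have e2 : D * (c / 6 * (L + |dev θ (γ.p (τ (j + 1)) - γ.p (σ j))|)) =
            F.κ * (L + |dev θ (γ.p (τ (j + 1)) - γ.p (σ j))|) := by
          rw [hD]; field_simp
        rw [e2] at h2
        have h3 := abs_nonneg (dev θ (γ.p (τ (j + 1)) - γ.p (σ j)))
        have h4 : 0 ≤ D * (C * L) := by positivity
        have h5 : (0 : ℝ) ≤ K * L := by positivity
        nlinarith
    have hsum := hseg.sum_eq (F.Xs γ t) fun a b c hab hbc => Xs_add F γ t hab hbc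
    rw [← X_eq_Xs] at hsum
    have s1 := Finset.sum_le_sum lp
    have s2 := Finset.sum_le_sum cr
    rw [← Finset.mul_sum, Finset.sum_add_distrib, Finset.sum_const, Finset.card_range,
      nsmul_eq_mul] at s1
    rw [Finset.sum_add_distrib, Finset.sum_const, ← Finset.mul_sum, Finset.sum_add_distrib,
      Finset.sum_const, Finset.card_range, nsmul_eq_mul, nsmul_eq_mul] at s2
    have v0 : (L : ℝ) * (((γ.p (σ 0)).2 / L).natAbs : ℕ) ≤
        |((γ.p (σ 0)).2 : ℝ) - (γ.p (τ 0)).2| + L := by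
      have := CTube1_div hL (γ.p (σ 0)).2 0
      rw [hseg.τ0, h0]
      simpa using this
    have v1 : ∀ j ∈ Finset.range n,
        (L : ℝ) * (((γ.p (σ (j + 1))).2 / L - (γ.p (σ j)).2 / L).natAbs : ℕ) ≤
          |((γ.p (σ (j + 1))).2 : ℝ) - (γ.p (τ (j + 1))).2| +
            |((γ.p (τ (j + 1))).2 : ℝ) - (γ.p (σ j)).2| + L := fun j _ =>
      (CTube1_div hL _ _).trans (add_le_add (abs_sub_le _ _ _) le_rfl)
    have s3 := Finset.sum_le_sum v1
    rw [← Finset.mul_sum, Finset.sum_add_distrib, Finset.sum_add_distrib, Finset.sum_const,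
      Finset.card_range, nsmul_eq_mul] at s3
    rw [Finset.sum_range_succ'] at s1
    have key : (L : ℝ) * (cvar (fun j => (γ.p (σ j)).2 / L) n : ℕ) ≤
        L * ((K + D * (Ca + 2 + C) + 2) * n) := by
      rw [cvar]
      push_cast at s1 s3 v0 ⊢
      have k1 : D * F.X γ t ≤ D * (Ca * n * L) := mul_le_mul_of_nonneg_left hX hD0
      rw [← hsum] at k1
      have k2 : (L : ℝ) ≤ n * L := le_mul_of_one_le_left (by linarith) hn'
      have k3 := mul_le_mul_of_nonneg_left k2 hD0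
      nlinarith
    have key2 := (le_of_mul_le_mul_left key (by linarith)).trans
      (mul_le_mul_of_nonneg_right (Nat.le_ceil _) (by linarith))
    exact_mod_cast key2
  · refine Pth.sub_in (hseg.στ j hj) fun i i1 i2 => ?_
    obtain ⟨s1, s2⟩ := hseg.str j hj i i1 i2
    have h1 := abs_lt.1 (h i i1 i2)
    have ha := Int.mul_ediv_add_emod (γ.p (σ j)).2 L
    have a1 := Int.emod_nonneg (γ.p (σ j)).2 hL0.ne'
    have a2 := Int.emod_lt_of_pos (γ.p (σ j)).2 hL0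
    refine ⟨s1, s2, ?_, ?_⟩
    · push_cast
      nlinarith
    · push_cast
      nlinarith

end Crest.Agent.R151.PC
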