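import Crest.Agent.R151.CPath2
import Crest.Agent.R151.CNum3

/-! Row 151, part C: C9, second deterministic step: many blocks are crossed inside a thin tube. -/

set_option autoImplicit false

namespace Crest.Agent.R151.PC

open MeasureTheory ProbabilityTheory Filter Topology Crest.ProbabilityR.FirstPassage
open scoped Classical

/-- one good block gives a tube crossing -/
theorem good_block (F : FD) {c θ y x x' Y m m' : ℝ} {L W : ℕ} {a : ℤ} {D : Set V} {t : Env}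
    {γ : Pth} (hc : 0 < c) (hW : 1 ≤ W) (hγ : γ ∈ PIn D) (h0 : (γ.p 0).1 = a)
    (h1 : (γ.p γ.n).1 = a + L) (hs : γ.In (strip a (a + L))) (hS : F.SteepP γ t c y)
    (hY0 : 0 ≤ Y) (hY : ∀ δ ∈ PIn D, -Y ≤ F.X δ t) (hX : F.X γ t + 2 * Y ≤ x) (hx : x ≤ x')
    (hbad : t ∉ F.Cheap (UpIn θ D (m * W)) x') (hnet : -(m' * W) ≤ dev θ (disp γ))
    (hm : 0 ≤ m) (hm' : 0 ≤ m') (hb : x + y ≤ c * W) :
    t ∈ F.Cheap (Tube θ (a, ⌊θ * a⌋ + ⌊dev θ (γ.p 0) / W⌋ * W) L ((m + m' + 2) * W) W) x := by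
  have hXs : ∀ k k', k ≤ k' → k' ≤ γ.n → F.Xs γ t k k' ≤ x := fun k k' h h' =>
    (Xs_le_of_PIn F hγ hY h h').trans hX
  have key : ∀ k k', k ≤ k' → k' ≤ γ.n → dev θ (γ.p k' - γ.p k) < m * W := by
    intro k k' h h'
    by_contra hh
    have h2 := sub_mem_PIn hγ k h'
    refine hbad ⟨γ.sub k k', ⟨h2.1, h2.2, ?_⟩, ?_⟩
    · rw [disp_sub γ h]
      exact not_lt.1 hh
    · rw [X_sub F γ t h]
      exact (hXs k k' h h').trans hx
  refine ⟨γ, ⟨hγ.1, h0, h1, hs, fun k hk => ?_, noBack_of_steepP F hc hS hXs hb⟩, by linarith⟩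
  have hW' : (1 : ℝ) ≤ W := by exact_mod_cast hW
  have k1 := key 0 k (Nat.zero_le _) hk
  have k2 := key k γ.n hk le_rfl
  rw [disp, dev_sub] at hnet
  rw [dev_sub] at k1 k2 ⊢
  have e : dev θ (a, ⌊θ * a⌋ + ⌊dev θ (γ.p 0) / W⌋ * W) =
      (⌊θ * a⌋ : ℝ) + ⌊dev θ (γ.p 0) / W⌋ * W - θ * a := by
    rw [dev]
    push_cast
    rfl
  have k3 := Int.floor_le (θ * a)
  have k4 := Int.lt_floor_add_one (θ * a)
  have k5 := (le_div_iff₀ (by linarith : (0 : ℝ) < W)).1 (Int.floor_le (dev θ (γ.p 0) / W))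
  have k6 := (div_lt_iff₀ (by linarith : (0 : ℝ) < W)).1
    (Int.lt_floor_add_one (dev θ (γ.p 0) / W))
  have k7 : 0 ≤ m' * W := by positivity
  rw [e, abs_le]
  constructor <;> linarith

theorem CTube2_floor (a b : ℝ) : ((⌊a⌋ - ⌊b⌋).natAbs : ℝ) ≤ |a - b| + 1 := by
  rw [Nat.cast_natAbs, Int.cast_abs, Int.cast_sub, abs_le]
  have h1 := Int.floor_le a
  have h2 := Int.floor_le b
  have h3 := Int.lt_floor_add_one a
  have h4 := Int.lt_floor_add_one b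
  have h5 := le_abs_self (a - b)
  have h6 := neg_abs_le (a - b)
  constructor <;> linarith

theorem CTube2_mono (F : FD) {θ d d' x : ℝ} {z : V} {L b : ℕ} {t : Env} (hd : d ≤ d')
    (h : t ∈ F.Cheap (Tube θ z L d b) x) : t ∈ F.Cheap (Tube θ z L d' b) x := by
  obtain ⟨γ, ⟨h1, h2, h3, h4, h5, h6⟩, h7⟩ := h
  exact ⟨γ, ⟨h1, h2, h3, h4, fun k hk => (h5 k hk).trans hd, h6⟩, h7⟩

theorem cvar_floor_le (u : ℕ → ℝ) {W : ℝ} (hW : 0 < W) (n : ℕ) :
    (cvar (fun j => ⌊u j / W⌋) n : ℝ) ≤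
      (|u 0| + ∑ j ∈ Finset.range n, |u (j + 1) - u j|) / W + n + 1 := by
  have h0 : ((⌊u 0 / W⌋).natAbs : ℝ) ≤ |u 0| / W + 1 := by
    have := CTube2_floor (u 0 / W) 0
    rwa [Int.floor_zero, sub_zero, sub_zero, abs_div, abs_of_pos hW] at this
  have h1 : ∑ j ∈ Finset.range n, ((⌊u (j + 1) / W⌋ - ⌊u j / W⌋).natAbs : ℝ) ≤
      ∑ j ∈ Finset.range n, (|u (j + 1) - u j| / W + 1) := Finset.sum_le_sum fun j _ => by
    have := CTube2_floor (u (j + 1) / W) (u j / W)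
    rwa [← sub_div, abs_div, abs_of_pos hW] at this
  rw [Finset.sum_add_distrib, ← Finset.sum_div, Finset.sum_const, Finset.card_range,
    nsmul_eq_mul, mul_one] at h1
  rw [cvar, Nat.cast_add, Nat.cast_sum, add_div]
  linarith

theorem tube_det2 (F : FD) {c : ℝ} (hc : 0 < c) (Ca Cy CS Cb : ℝ) (hCa : 0 ≤ Ca) (hCy : 0 ≤ Cy)
    (hCS : 0 ≤ CS) (hCb : 0 ≤ Cb) (K Mw : ℕ) : ∃ (C2 V2 : ℕ) (C' Q0 : ℝ), 0 < C' ∧ 1 ≤ Q0 ∧
    ∀ (L n W : ℕ) (θ Q U y : ℝ) (t : Env) (γ : Pth) (σ τ : ℕ → ℕ) (h : ℕ → ℤ) (Y : ℕ → ℝ),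
      1 ≤ n → Q0 ≤ Q → 1 ≤ U → (L : ℝ) ≤ Q * W → W ≤ L → Q * U ≤ W → y ≤ Cy * U → |θ| ≤ F.κ →
      γ.Ok → γ.p 0 = 0 → |dev θ (γ.p γ.n)| ≤ 1 → Segs γ L n σ τ → F.SteepP γ t c y →
      F.X γ t ≤ Ca * n * U →
      (∀ j < n, (γ.sub (σ j) (τ (j + 1))).In (cellD L K j (h j)) ∨
        c / 6 * (L + |dev θ (γ.p (τ (j + 1)) - γ.p (σ j))|) ≤ F.Xs γ t (σ j) (τ (j + 1))) →
      (∀ j < n, 0 ≤ Y j ∧ ∀ δ ∈ PIn (cellD L K j (h j)), -Y j ≤ F.X δ t) →
      ∑ j ∈ Finset.range n, Y j ≤ CS * n * U →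
      (cnt (fun j h => F.Cheap (UpIn θ (cellD L K j h) ((Mw : ℝ) * W)) (Q * U)) h n t : ℝ) ≤
        Cb * n / Q →
      ∃ h' : ℕ → ℤ, cvar h' n ≤ V2 * n ∧ n ≤ 2 * cnt (fun j h => F.Cheap
        (Tube θ ((j : ℤ) * L, ⌊θ * (((j : ℤ) * L : ℤ) : ℝ)⌋ + h * W) L ((C2 * W : ℕ) : ℝ) W)
          (C' * U)) h' n t := by
  obtain ⟨V0, C', Q0, hV0, hC', hQ0, H⟩ := count_good (c / 6) Ca Cy CS Cb (2 * K + F.κ) Mw
    (by positivity) hCa hCy hCS hCb (by positivity) (by positivity)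
  refine ⟨Mw + ⌈C'⌉₊ + 2, ⌈V0⌉₊ + 2, C', max Q0 (max C' ((C' + Cy) / c)), by linarith,
    le_max_of_le_left hQ0, ?_⟩
  intro L n W θ Q U y t γ σ τ h Y hn hQ hU hLQ hWL hQU hy hθ hok hp0 hend hseg hS hX hloc hY hYs hcnt
  have hQ1 : Q0 ≤ Q := (le_max_left _ _).trans hQ
  have hQ2 : C' ≤ Q := ((le_max_left _ _).trans (le_max_right _ _)).trans hQ
  have hQ3 : (C' + Cy) / c ≤ Q := ((le_max_right _ _).trans (le_max_right _ _)).trans hQ
  have hW1 : (1 : ℝ) ≤ W := le_trans (by nlinarith) hQU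
  have hsub : ∀ j < n, (γ.sub (σ j) (τ (j + 1))).In (cellD L K j (h j)) →
      γ.sub (σ j) (τ (j + 1)) ∈ PIn (cellD L K j (h j)) := fun j hj hl =>
    ⟨hok.sub _ (hseg.τ_le hj), hl⟩
  obtain ⟨H1, H2⟩ := H n L W Q U y (fun j => F.Xs γ t (τ j) (σ j))
    (fun j => dev θ (γ.p (σ j) - γ.p (τ j))) (fun j => F.Xs γ t (σ j) (τ (j + 1)))
    (fun j => dev θ (γ.p (τ (j + 1)) - γ.p (σ j))) Y
    (fun j => (γ.sub (σ j) (τ (j + 1))).In (cellD L K j (h j)))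
    (fun j => t ∈ F.Cheap (UpIn θ (cellD L K j (h j)) ((Mw : ℝ) * W)) (Q * U))
    hn hQ1 hU hLQ (by exact_mod_cast hWL) hQU hy
    (fun j hj => by
      have e : (γ.p (σ j) - γ.p (τ j)).1 = 0 := by
        rw [Prod.fst_sub, hseg.colσ j hj, hseg.colτ j hj, sub_self]
      have h1 := hS _ _ (hseg.τσ j hj) (hseg.σ_le hj) (F.steep_of_nonpos e.le)
      rw [dev_of_fst_eq_zero θ e]
      have : 0 ≤ c * nrm (γ.p (σ j) - γ.p (τ j)) := by positivity
      linarith)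
    (fun j hj hl => (hloc j hj).resolve_left hl)
    (fun j hj hl => by
      refine ⟨X_sub F γ t (hseg.στ j hj) ▸ (hY j hj).2 _ (hsub j hj hl), ?_⟩
      have h1 := hl 0 (Nat.zero_le _)
      have h2 := hl _ le_rfl
      rw [Pth.sub_p_zero] at h1
      rw [Pth.sub_p_last γ (hseg.στ j hj)] at h2
      have e : (γ.p (τ (j + 1)) - γ.p (σ j)).1 = L := by
        rw [Prod.fst_sub, hseg.colσ j hj.le, hseg.colτ (j + 1) hj]
        push_cast
        ring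
      have h3 : |(γ.p (τ (j + 1)) - γ.p (σ j)).2| ≤ 2 * K * L := by
        obtain ⟨-, -, a1, a2⟩ := h1
        obtain ⟨-, -, a3, a4⟩ := h2
        rw [Prod.snd_sub, abs_le]
        constructor <;> linarith
      have h4 : |((γ.p (τ (j + 1)) - γ.p (σ j)).2 : ℝ)| ≤ 2 * K * L := by exact_mod_cast h3
      have h5 : |θ * (L : ℝ)| ≤ F.κ * L := by
        rw [abs_mul, Nat.abs_cast]
        gcongr
      rw [dev, e, Int.cast_natCast]
      refine (abs_sub _ _).trans ?_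
      linarith)
    (fun j hj hl hb hx => by
      by_contra hh
      refine hb ⟨γ.sub (σ j) (τ (j + 1)), ⟨(hsub j hj hl).1, hl, ?_⟩, ?_⟩
      · rw [disp_sub γ (hseg.στ j hj)]
        exact (not_le.1 hh).le
      · rw [X_sub F γ t (hseg.στ j hj)]
        linarith [(hY j hj).1])
    (fun j hj => (hY j hj).1)
    (by
      rw [hseg.sum_eq (F.Xs γ t) fun a b c h1 h2 => Xs_add F γ t h1 h2, ← X_eq_Xs]
      exact hX)
    hYs hcnt
    (by
      rw [hseg.sum_eq (fun a b => dev θ (γ.p b - γ.p a)) fun a b c _ _ => by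
        simp only [dev_sub]
        ring]
      rwa [hp0, sub_zero])
  have hn1 : (1 : ℝ) ≤ n := by exact_mod_cast hn
  refine ⟨fun j => ⌊dev θ (γ.p (σ j)) / W⌋, ?_, H2.trans (Nat.mul_le_mul_left _ ?_)⟩
  · have h1 := cvar_floor_le (fun j => dev θ (γ.p (σ j))) (W := W) (by linarith) n
    have h2 : |dev θ (γ.p (σ 0))| +
        ∑ j ∈ Finset.range n, |dev θ (γ.p (σ (j + 1))) - dev θ (γ.p (σ j))| ≤ V0 * n * W := by
      refine le_trans ?_ H1
      rw [Finset.sum_range_succ', hseg.τ0, hp0, sub_zero, add_right_comm, add_comm,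
        ← Finset.sum_add_distrib]
      refine add_le_add (Finset.sum_le_sum fun j _ => ?_) le_rfl
      refine le_trans (le_of_eq ?_) (abs_add_le _ _)
      simp only [dev_sub]
      congr 1
      ring
    have h3 := (div_le_iff₀ (by linarith : (0 : ℝ) < W)).2 h2
    have h4 : V0 * n ≤ ⌈V0⌉₊ * n := mul_le_mul_of_nonneg_right (Nat.le_ceil _) (by linarith)
    have h5 : (cvar (fun j => ⌊dev θ (γ.p (σ j)) / W⌋) n : ℝ) ≤ (⌈V0⌉₊ + 2) * n := by linarith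
    exact_mod_cast h5
  · refine Finset.card_le_card fun j hj => ?_
    obtain ⟨hj, hl, hb, hx, hnet⟩ := Finset.mem_filter.1 hj
    refine Finset.mem_filter.2 ⟨hj, ?_⟩
    have hj' := Finset.mem_range.1 hj
    have hst := hseg.στ j hj'
    have h1 := good_block F (a := (j : ℤ) * L) (L := L) (W := W) (x := C' * U) (x' := Q * U)
      (m := Mw) (m' := C') (θ := θ) hc (by exact_mod_cast hW1) (hsub j hj' hl)
      (by rw [Pth.sub_p_zero, hseg.colσ j hj'.le])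
      (by
        rw [Pth.sub_p_last γ hst, hseg.colτ (j + 1) hj']
        push_cast
        ring)
      (Pth.sub_in hst fun i h1 h2 => by
        have := hseg.str j hj' i h1 h2
        rwa [add_mul, one_mul] at this)
      (steepP_sub F hS hst (hseg.τ_le hj')) (hY j hj').1 (hY j hj').2
      (by rw [X_sub F γ t hst]; exact hx) (by gcongr) hb (by rw [disp_sub γ hst]; exact hnet)
      (by positivity) (by linarith)
      (by
        rw [div_le_iff₀ hc] at hQ3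
        have h2 : (C' + Cy) * U ≤ Q * c * U := by gcongr
        have h3 : c * (Q * U) ≤ c * W := by gcongr
        linarith)
    rw [Pth.sub_p_zero] at h1
    refine CTube2_mono F ?_ h1
    push_cast
    have := Nat.le_ceil C'
    gcongr

end Crest.Agent.R151.PC
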