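import Crest.Agent.R151.CY
import Crest.Agent.R151.CChain

/-! Row 151, part C: negative excesses along chains. -/

set_option autoImplicit false

namespace Crest.Agent.R151.PC

open MeasureTheory ProbabilityTheory Filter Topology Crest.ProbabilityR.FirstPassage
open scoped Classical

variable {G : Measure ℝ} [Law G] {F : FD}

private lemma cych_sum1 (S : ℕ) :
    ∑ s ∈ Finset.range S, lam ^ (s + 1) * (1 / 2 : ℝ) ^ s = 30 - 30 * (15 / 16 : ℝ) ^ S := by
  induction S with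
  | zero => simp
  | succ S ih =>
    rw [Finset.sum_range_succ, ih]
    have h : lam ^ (S + 1) * (1 / 2 : ℝ) ^ S = 15 / 8 * (15 / 16 : ℝ) ^ S := by
      rw [pow_succ, mul_right_comm, ← mul_pow]
      simp only [lam]
      norm_num
      ring
    rw [h, pow_succ]
    ring

private lemma cych_sum2 (S : ℕ) :
    ∑ s ∈ Finset.range S, lam ^ (s + 1) * (2 * (s : ℝ) + 12) ≤ 24 * S * 2 ^ S := by
  induction S with
  | zero => simp
  | succ S ih =>
    rw [Finset.sum_range_succ]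
    have h1 : lam ^ (S + 1) ≤ 2 ^ (S + 1) := pow_le_pow_left₀ lam_pos.le lam_lt_two.le _
    have h2 : lam ^ (S + 1) * (2 * (S : ℝ) + 12) ≤ 2 ^ (S + 1) * (2 * (S : ℝ) + 12) :=
      mul_le_mul_of_nonneg_right h1 (by positivity)
    have h3 : (0 : ℝ) ≤ 2 ^ S := by positivity
    have h4 : (0 : ℝ) ≤ S * 2 ^ S := by positivity
    refine (add_le_add ih h2).trans ?_
    push_cast
    rw [pow_succ]
    nlinarith

private lemma cych_sum3 (S : ℕ) :
    ∑ s ∈ Finset.range S, (1 / 2 : ℝ) ^ (s + 5) = 1 / 16 - (1 / 2) ^ (S + 4) := by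
  induction S with
  | zero => norm_num
  | succ S ih =>
    rw [Finset.sum_range_succ, ih]
    ring

theorem ych_prob (hE : ExpL G) (hF : IsFace (mu G) F) (K Vc : ℕ) : ∃ CS : ℝ, 0 < CS ∧
    ∀ i : ℕ, Pr G (YCh F (2 ^ i) K (8 ^ i) Vc (CS * 8 ^ i * F.Ub G i))ᶜ ≤ 1 / 10 := by
  obtain ⟨C0, hC0, hneg⟩ := neg_tail hE hF (K + 1)
  obtain ⟨Kc, hKc, hch⟩ := chain_count Vc
  obtain ⟨c, hc⟩ : ∃ c : ℕ, 4 * ‖F.ρ‖ * (K + 1) / C0 < 2 ^ c := pow_unbounded_of_one_lt _ one_lt_two
  rw [div_lt_iff₀ hC0] at hc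
  refine ⟨C0 * (1 + 120 * Kc + 48 * 8 ^ c), by positivity, fun i => ?_⟩
  have hU := one_le_Ub hE hF i
  set U := F.Ub G i with hUdef
  set a : ℝ := C0 * U with ha
  have ha0 : 0 ≤ a := by positivity
  set S : ℕ := 2 * (i + c) with hS
  set A : ℕ → ℕ → ℤ → Set Env := fun s j h =>
    F.Cheap (PIn (cellD (2 ^ i) K j h)) (-(a * lam ^ s)) with hA
  set k : ℕ → ℕ := fun s => ⌈Kc * ((8 ^ i : ℕ) : ℝ) * (2 * (1 / 2) ^ s)⌉₊ + (s + 5) with hk
  have hP : ∀ s, Pr G (ChBad (A s) (8 ^ i) Vc (2 * k s : ℕ)) ≤ (1 / 2) ^ (s + 5) := by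
    intro s
    have h1 := hch G (2 ^ i) (8 ^ i) (A s) ((2 * (1 / 2) ^ s) ^ 2) Nat.one_le_two_pow
      (fun j h => measurableSet_cheap F _ _)
      (fun j h => (dep_cheap F (fun γ hγ => hγ.2) _).mono (ED_mono (cellD_subset_strip _ _ _ _)))
      (fun j h => by
        have h2 := hneg i s ((j : ℤ) * ((2 ^ i : ℕ) : ℤ), h * ((2 ^ i : ℕ) : ℤ))
        have h3 : A s j h ⊆ F.Cheap (PIn (box ((j : ℤ) * ((2 ^ i : ℕ) : ℤ), h * ((2 ^ i : ℕ) : ℤ))
            ((K + 1) * 2 ^ i))) (-(C0 * lam ^ s * U)) :=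
          cheap_mono F (PIn_mono (cellD_subset_box _ _ _ _)) (le_of_eq (by rw [ha]; ring))
        refine (Pr_mono G h3).trans (h2.trans ?_)
        have h4 : ((1 / 2 : ℝ) ^ s) ^ 2 = (1 / 4) ^ s := by
          rw [← pow_mul, mul_comm, pow_mul]; norm_num
        have h5 : (0 : ℝ) ≤ (1 / 4) ^ s := by positivity
        rw [mul_pow, h4]
        linarith)
      (k s) (by
        rw [Real.sqrt_sq (by positivity)]
        simp only [hk]
        push_cast
        have h6 := Nat.le_ceil (Kc * (8 : ℝ) ^ i * (2 * (1 / 2) ^ s))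
        have h7 : (0 : ℝ) ≤ s := by positivity
        linarith)
    refine h1.trans (pow_le_pow_of_le_one (by norm_num) (by norm_num) ?_)
    simp only [hk]
    omega
  have hB : 4 * ‖F.ρ‖ * (((K + 1) * 2 ^ i : ℕ) : ℝ) ≤ a * lam ^ S := by
    have h1 : (2 : ℝ) ^ (i + c) ≤ lam ^ S := by
      rw [hS, pow_mul]
      refine pow_le_pow_left₀ (by norm_num) ?_ _
      simp only [lam]; norm_num
    have h2 : C0 ≤ a := by rw [ha]; nlinarith
    have h3 : C0 * 2 ^ (i + c) ≤ a * lam ^ S := mul_le_mul h2 h1 (by positivity) ha0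
    refine le_trans ?_ h3
    push_cast
    rw [pow_add]
    have h4 : (0 : ℝ) ≤ 2 ^ i := by positivity
    nlinarith
  refine (Pr_le_sum_of_ae G (Finset.range S) (fun s => ChBad (A s) (8 ^ i) Vc (2 * k s : ℕ)) ?_).trans ?_
  · filter_upwards [ae_nn G] with t ht hbad
    by_contra hcon
    push Not at hcon
    apply hbad
    intro h hh
    have hcnt : ∀ s ∈ Finset.range S, (cnt (A s) h (8 ^ i) t : ℝ) ≤ (2 * k s : ℕ) := by
      intro s hs
      by_contra hlt
      exact hcon s hs ⟨h, hh, not_le.1 hlt⟩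
    refine ⟨fun j => a + ∑ s ∈ Finset.range S, (if t ∈ A s j (h j) then a * lam ^ (s + 1) else 0),
      fun j _ => ⟨?_, ?_⟩, ?_⟩
    · refine add_nonneg ha0 (Finset.sum_nonneg fun s _ => ?_)
      have := lam_pos
      split_ifs <;> positivity
    · refine neg_layers ha0 S fun γ hγ => ?_
      have h1 := neg_le_X_box F ht (PIn_mono (cellD_subset_box _ _ _ _) hγ)
      linarith
    · rw [Finset.sum_add_distrib, Finset.sum_comm]
      have h1 : ∀ s ∈ Finset.range S,
          ∑ j ∈ Finset.range (8 ^ i), (if t ∈ A s j (h j) then a * lam ^ (s + 1) else 0) ≤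
            a * (4 * Kc * 8 ^ i) * (lam ^ (s + 1) * (1 / 2 : ℝ) ^ s) +
              a * (lam ^ (s + 1) * (2 * (s : ℝ) + 12)) := by
        intro s hs
        rw [← Finset.sum_filter, Finset.sum_const, nsmul_eq_mul]
        have h2 := hcnt s hs
        have h3 : ((2 * k s : ℕ) : ℝ) ≤ 4 * Kc * 8 ^ i * (1 / 2) ^ s + (2 * s + 12) := by
          simp only [hk]
          push_cast
          have h6 := (Nat.ceil_lt_add_one (a := Kc * (8 : ℝ) ^ i * (2 * (1 / 2) ^ s)) (by positivity)).le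
          linarith
        have h4 : 0 ≤ a * lam ^ (s + 1) := by have := lam_pos; positivity
        have h5 := mul_le_mul_of_nonneg_right (h2.trans h3) h4
        refine h5.trans (le_of_eq ?_)
        ring
      have h2 := Finset.sum_le_sum h1
      rw [Finset.sum_add_distrib, ← Finset.mul_sum, ← Finset.mul_sum, cych_sum1] at h2
      have h3 := cych_sum2 S
      have h4 : (24 : ℝ) * S * 2 ^ S ≤ 48 * 8 ^ c * 8 ^ i := by
        have e1 : ((i + c : ℕ) : ℝ) ≤ 2 ^ (i + c) := by exact_mod_cast Nat.lt_two_pow_self.le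
        have e2 : (2 : ℝ) ^ S = 4 ^ (i + c) := by rw [hS, pow_mul]; norm_num
        have e3 : (8 : ℝ) ^ c * 8 ^ i = 2 ^ (i + c) * 4 ^ (i + c) := by
          rw [← mul_pow, ← pow_add, add_comm]; norm_num
        have e4 : (S : ℝ) = 2 * ((i + c : ℕ) : ℝ) := by rw [hS]; push_cast; ring
        rw [e2, mul_assoc 48, e3, e4]
        have e5 : (0 : ℝ) ≤ 4 ^ (i + c) := by positivity
        nlinarith
      have h5 : a * (4 * Kc * 8 ^ i) * (30 - 30 * (15 / 16 : ℝ) ^ S) ≤ a * (4 * Kc * 8 ^ i) * 30 :=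
        mul_le_mul_of_nonneg_left (by
          have : (0 : ℝ) ≤ (15 / 16) ^ S := by positivity
          linarith) (by positivity)
      have h6 := mul_le_mul_of_nonneg_left (h3.trans h4) ha0
      rw [Finset.sum_const, Finset.card_range, nsmul_eq_mul]
      push_cast
      have h7 : C0 * (1 + 120 * Kc + 48 * 8 ^ c) * 8 ^ i * U =
          8 ^ i * a + (a * (4 * Kc * 8 ^ i) * 30 + a * (48 * 8 ^ c * 8 ^ i)) := by rw [ha]; ring
      rw [h7]
      linarith
  · refine (Finset.sum_le_sum fun s _ => hP s).trans ?_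
    rw [cych_sum3]
    have : (0 : ℝ) ≤ (1 / 2) ^ (S + 4) := by positivity
    linarith

end Crest.Agent.R151.PC
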