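import Crest.Agent.R151.CTube1
import Crest.Agent.R151.CTube2
import Crest.Agent.R151.CYch
import Crest.Agent.R151.CBad2
import Crest.Agent.R151.CLong

/-! Row 151, part C: C9: a thin cheap tube has constant probability. -/

set_option autoImplicit false

namespace Crest.Agent.R151.PC

open MeasureTheory ProbabilityTheory Filter Topology Crest.ProbabilityR.FirstPassage
open scoped Classical

variable {G : Measure ℝ} [Law G] {F : FD}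

theorem ctube3_half_pow (a : ℕ) : ((1 : ℝ) / 2) ^ (a + 5) ≤ 1 / 32 := by
  rw [pow_add]
  have h1 : ((1 : ℝ) / 2) ^ a ≤ 1 := pow_le_one₀ (by norm_num) (by norm_num)
  nlinarith

theorem ctube3_cnt_le {A : ℕ → ℤ → Set Env} {n Vc k : ℕ} {t : Env}
    (h : t ∉ ChBad A n Vc (2 * k : ℕ)) {f : ℕ → ℤ} (hf : cvar f n ≤ Vc * n) :
    (cnt A f n t : ℝ) ≤ 2 * k := by
  by_contra hc
  push Not at hc
  exact h ⟨f, hf, by exact_mod_cast hc⟩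

theorem tube_prob (hE : ExpL G) (hF : IsFace (mu G) F) : ∃ (C2 : ℕ) (C' p0 Q0 : ℝ), 0 < C' ∧ 0 < p0 ∧ 1 ≤ Q0 ∧
    ∀ (i : ℕ) (θ : ℝ) (W : ℕ) (Q : ℝ), Scale F G i θ W Q → Q0 ≤ Q →
      p0 ≤ Pr G (F.Cheap (Tube θ 0 (2 ^ i) ((C2 * W : ℕ) : ℝ) W) (C' * F.Ub G i)) := by
  obtain ⟨c, Ca, Cy, hc, hCa, hCy, hlong⟩ := long_path hE hF
  obtain ⟨K, Vc, hdet1⟩ := tube_det1 F hc Ca
  obtain ⟨CS, hCS, hych⟩ := ych_prob hE hF K Vc
  obtain ⟨Mw, Qb, hQb, hbad⟩ := bad_box hE hF (K + 1)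
  obtain ⟨Kc, hKc, hch1⟩ := chain_count Vc
  obtain ⟨C2, V2, C', Qd, hC', hQd, hdet2⟩ := tube_det2 F hc Ca Cy CS (2 * Kc + 12) hCa.le hCy.le
    hCS.le (by positivity) K Mw
  obtain ⟨Kc2, hKc2, hch2⟩ := chain_count V2
  refine ⟨C2, C', (1 / (16 * Kc2)) ^ 2, max (max Qb Qd) (max Cy 33), hC', by positivity,
    le_trans hQb (le_trans (le_max_left _ _) (le_max_left _ _)), ?_⟩
  intro i θ W Q hS hQ
  have hQ1 : Qb ≤ Q := le_trans (le_trans (le_max_left _ _) (le_max_left _ _)) hQ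
  have hQ2 : Qd ≤ Q := le_trans (le_trans (le_max_right _ _) (le_max_left _ _)) hQ
  have hQ3 : Cy ≤ Q := le_trans (le_trans (le_max_left _ _) (le_max_right _ _)) hQ
  have hQ4 : (33 : ℝ) ≤ Q := le_trans (le_trans (le_max_right _ _) (le_max_right _ _)) hQ
  have hQpos : 0 < Q := by linarith
  obtain ⟨hW1, -, hQU, -, hUL, hWL, hQn, hθ⟩ := hS.basic hE hF (by linarith)
  have hU1 : 1 ≤ F.Ub G i := one_le_Ub hE hF i
  set U := F.Ub G i with hUdef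
  have hθ' : |θ| ≤ F.κ := by linarith
  have hL1 : 1 ≤ 2 ^ i := Nat.one_le_two_pow
  have hn1 : 1 ≤ 8 ^ i := Nat.one_le_pow _ _ (by norm_num)
  have hyL : Cy * U ≤ 2 ^ i := by nlinarith
  by_contra hlt
  push Not at hlt
  -- the four bad events
  set A1 : ℕ → ℤ → Set Env := fun j h =>
    F.Cheap (UpIn θ (cellD (2 ^ i) K j h) ((Mw : ℝ) * W)) (Q * U) with hA1
  set A2 : ℕ → ℤ → Set Env := fun j h => F.Cheap
    (Tube θ ((j : ℤ) * ((2 ^ i : ℕ) : ℤ), ⌊θ * (((j : ℤ) * ((2 ^ i : ℕ) : ℤ) : ℤ) : ℝ)⌋ + h * W)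
      (2 ^ i) ((C2 * W : ℕ) : ℝ) W) (C' * U) with hA2
  set k1 : ℕ := ⌈Kc * 8 ^ i / Q⌉₊ + 5 with hk1
  set k2 : ℕ := ⌈(8 : ℝ) ^ i / 16⌉₊ + 5 with hk2
  have b1 : Pr G (ChBad A1 (8 ^ i) Vc (2 * k1 : ℕ)) ≤ 1 / 32 := by
    refine le_trans (hch1 G (2 ^ i) (8 ^ i) A1 (1 / Q ^ 2) hL1
      (fun j h => measurableSet_cheap F _ _) (fun j h => ?_) (fun j h => ?_) k1 ?_)
      (ctube3_half_pow _)
    · exact dep_cheap F (fun γ hγ => hγ.2.1.mono (cellD_subset_strip _ _ _ _)) _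
    · refine le_trans (Pr_mono G (cheap_mono F (UpIn_mono θ ?_ le_rfl) le_rfl))
        (hbad i θ W Q hS hQ1 ((j : ℤ) * ((2 ^ i : ℕ) : ℤ), h * ((2 ^ i : ℕ) : ℤ)))
      exact cellD_subset_box _ _ _ _
    · have : √(1 / Q ^ 2) = 1 / Q := by
        rw [show (1 : ℝ) / Q ^ 2 = (1 / Q) ^ 2 by ring, Real.sqrt_sq (by positivity)]
      rw [this, hk1]
      push_cast
      have := Nat.le_ceil (Kc * 8 ^ i / Q)
      have e : Kc * 8 ^ i * (1 / Q) = Kc * 8 ^ i / Q := by ring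
      linarith
  have b2 : Pr G (ChBad A2 (8 ^ i) V2 (2 * k2 : ℕ)) ≤ 1 / 32 := by
    refine le_trans (hch2 G (2 ^ i) (8 ^ i) A2 ((1 / (16 * Kc2)) ^ 2) hL1
      (fun j h => measurableSet_cheap F _ _) (fun j h => ?_) (fun j h => ?_) k2 ?_)
      (ctube3_half_pow _)
    · refine dep_cheap F (fun γ hγ => ?_) _
      have := hγ.2.2.2.1
      simp only at this
      rwa [show ((j : ℤ) + 1) * ((2 ^ i : ℕ) : ℤ) = (j : ℤ) * ((2 ^ i : ℕ) : ℤ) + ((2 ^ i : ℕ) : ℤ)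
        by ring]
    · simp only [hA2]
      rw [Pr_cheap_tube]
      exact hlt.le
    · rw [Real.sqrt_sq (by positivity), hk2]
      push_cast
      have := Nat.le_ceil ((8 : ℝ) ^ i / 16)
      have e : Kc2 * 8 ^ i * (1 / (16 * Kc2)) = 8 ^ i / 16 := by field_simp
      linarith
  have b3 := hlong i θ hθ' hS.cheap hUL hyL
  have b4 := hych i
  set E3 := {t : Env | NN t ∧ ∃ γ : Pth, γ.Ok ∧ γ.p 0 = 0 ∧
    γ.p γ.n = ((16 : ℤ) ^ i, ⌊θ * 16 ^ i⌋) ∧ F.SteepP γ t c (Cy * U) ∧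
      F.X γ t ≤ Ca * 8 ^ i * U} with hE3
  set E4 := YCh F (2 ^ i) K (8 ^ i) Vc (CS * 8 ^ i * U) with hE4
  have hcover : (Set.univ : Set Env) ⊆ (E3ᶜ ∪ E4ᶜ) ∪
      (ChBad A1 (8 ^ i) Vc (2 * k1 : ℕ) ∪ ChBad A2 (8 ^ i) V2 (2 * k2 : ℕ)) := by
    intro t _
    by_contra hno
    simp only [Set.mem_union, Set.mem_compl_iff, not_or, not_not] at hno
    obtain ⟨⟨⟨ht, γ, hok, h0, hend, hst, hX⟩, h4⟩, h1, h2⟩ := hno
    have hcol : (γ.p γ.n).1 = ((8 ^ i : ℕ) : ℤ) * ((2 ^ i : ℕ) : ℤ) := by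
      rw [hend]
      push_cast
      rw [← mul_pow]
      norm_num
    obtain ⟨σ, τ, hseg⟩ := exists_segs hok hL1 (by rw [h0]; rfl) hcol
    have hX' : F.X γ t ≤ Ca * ((8 ^ i : ℕ) : ℝ) * ((2 ^ i : ℕ) : ℝ) := by
      push_cast
      exact le_trans hX (mul_le_mul_of_nonneg_left hUL (by positivity))
    obtain ⟨f, hf, hloc⟩ := hdet1 (2 ^ i) (8 ^ i) θ (Cy * U) t γ σ τ hL1 hn1 hθ' ht h0 hseg hst
      (by push_cast; exact hyL) hX'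
    obtain ⟨Y, hY, hYs⟩ := h4 f hf
    have hdev : |dev θ (γ.p γ.n)| ≤ 1 := by
      rw [hend]
      simp only [dev]
      push_cast
      have a1 := Int.floor_le (θ * 16 ^ i)
      have a2 := Int.lt_floor_add_one (θ * 16 ^ i)
      rw [abs_le]
      constructor <;> linarith
    have hc1 : (cnt A1 f (8 ^ i) t : ℝ) ≤ (2 * Kc + 12) * ((8 ^ i : ℕ) : ℝ) / Q := by
      refine le_trans (ctube3_cnt_le h1 hf) ?_
      rw [hk1]
      push_cast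
      have a1 := (Nat.ceil_lt_add_one (show (0 : ℝ) ≤ Kc * 8 ^ i / Q by positivity)).le
      have a2 : (1 : ℝ) ≤ 8 ^ i / Q := by rw [le_div_iff₀ hQpos]; linarith
      have e : (2 * Kc + 12) * 8 ^ i / Q = 2 * (Kc * 8 ^ i / Q) + 12 * (8 ^ i / Q) := by ring
      rw [e]
      linarith
    obtain ⟨f', hf', hcnt⟩ := hdet2 (2 ^ i) (8 ^ i) W θ Q U (Cy * U) t γ σ τ f Y hn1 hQ2 hU1
      (by push_cast; exact hS.LQ) hS.WL hQU le_rfl hθ' hok h0 hdev hseg hst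
      (by push_cast; exact hX) hloc hY (by push_cast; exact hYs) hc1
    have hc2 := ctube3_cnt_le h2 hf'
    have hcnt' : ((8 ^ i : ℕ) : ℝ) ≤ 2 * (cnt A2 f' (8 ^ i) t : ℝ) := by exact_mod_cast hcnt
    rw [hk2] at hc2
    push_cast at hc2 hcnt'
    have a1 := (Nat.ceil_lt_add_one (show (0 : ℝ) ≤ 8 ^ i / 16 by positivity)).le
    linarith
  have := Pr_mono G hcover
  rw [Pr_univ] at this
  have u1 := Pr_union_le G (E3ᶜ ∪ E4ᶜ)
    (ChBad A1 (8 ^ i) Vc (2 * k1 : ℕ) ∪ ChBad A2 (8 ^ i) V2 (2 * k2 : ℕ))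
  have u2 := Pr_union_le G E3ᶜ E4ᶜ
  have u3 := Pr_union_le G (ChBad A1 (8 ^ i) Vc (2 * k1 : ℕ)) (ChBad A2 (8 ^ i) V2 (2 * k2 : ℕ))
  linarith

end Crest.Agent.R151.PC
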