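import Crest.Agent.R151.CTwo1

/-! Row 151, part C: consequences of C4. -/

set_option autoImplicit false

namespace Crest.Agent.R151.PC

open MeasureTheory ProbabilityTheory Filter Topology Crest.ProbabilityR.FirstPassage
open scoped Classical

variable {G : Measure ℝ} [Law G] {F : FD}

theorem CTwo_split {Z : Env → ℝ} (hZ : Integrable Z (iidLaw G)) :
    ∫ t, max (Z t) 0 ∂(iidLaw G) = ∫ t, Z t ∂(iidLaw G) + ∫ t, max (-Z t) 0 ∂(iidLaw G) := by
  have h1 : Integrable (fun t => max (-Z t) 0) (iidLaw G) := hZ.neg.pos_part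
  rw [← integral_add hZ h1]
  refine integral_congr_ae (Eventually.of_forall fun t => ?_)
  dsimp only
  rcases le_total (Z t) 0 with h | h
  · rw [max_eq_right h, max_eq_left (neg_nonneg.2 h), add_neg_cancel]
  · rw [max_eq_left h, max_eq_right (neg_nonpos.2 h), add_zero]

theorem xd_pos (hE : ExpL G) (hF : IsFace (mu G) F) : ∃ C : ℝ, 0 < C ∧ ∃ c0 : ℕ,
    ∀ (j : ℕ) (b v : V), F.Inr v → v.1 ≤ 2 ^ j →
      ∫ t, max (F.XD t b v) 0 ∂(iidLaw G) ≤ C * F.M G (j + c0) := by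
  obtain ⟨C₁, h₁, c0, hn⟩ := xd_neg hE hF
  obtain ⟨C₂, h₂, hf⟩ := fh_inr hE hF
  refine ⟨C₁ + C₂, by positivity, c0, fun j b v hv hj => ?_⟩
  rw [integral_comp_XD F G (fun x => max x 0) b v, CTwo_split (integrable_XD hE F 0 v)]
  have h3 := hn j v hv hj
  have h4 := (hf j v hv hj).trans
    (mul_le_mul_of_nonneg_left (M_mono hE hF (Nat.le_add_right j c0)) h₂.le)
  rw [FD.fh] at h4
  linarith

theorem T_neg (hE : ExpL G) (hF : IsFace (mu G) F) : ∃ C : ℝ, 0 < C ∧ ∃ c0 : ℕ,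
    ∀ (j : ℕ) (b v : V), F.Inr v → v.1 ≤ 2 ^ j → ∀ y : ℝ, 0 < y →
      Pr G {t | T t b (b + v) - dot F.ρ (rv v) ≤ -y} ≤ C * F.M G (j + c0) / y := by
  obtain ⟨C, hC, c0, h⟩ := xd_pos hE hF
  refine ⟨C, hC, c0, fun j b v hv hj y hy => ?_⟩
  have hZ : Integrable (fun t => T t b (b + v) - dot F.ρ (rv v)) (iidLaw G) :=
    (integrable_T G b (b + v)).sub (integrable_const _)
  have h1 := CTwo_split hZ
  have h2 : 0 ≤ ∫ t, (T t b (b + v) - dot F.ρ (rv v)) ∂(iidLaw G) := by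
    rw [integral_sub (integrable_T G b (b + v)) (integrable_const _), integral_T, add_sub_cancel_left,
      integral_const, probReal_univ, one_smul, sub_nonneg]
    exact (hF.le _).trans (mu_le_hm G v)
  have h3 : ∫ t, max (T t b (b + v) - dot F.ρ (rv v)) 0 ∂(iidLaw G) ≤
      ∫ t, max (F.XD t b v) 0 ∂(iidLaw G) := by
    refine integral_mono_ae hZ.pos_part (integrable_XD hE F b v).pos_part ?_
    filter_upwards [ae_nn G] with t ht
    exact max_le_max_right _ (sub_le_sub_right (T_le_TD ht (hF.inr_conn b hv)) _)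
  have h4 := h j b v hv hj
  have h5 : Integrable (fun t => max (-(T t b (b + v) - dot F.ρ (rv v))) 0) (iidLaw G) :=
    hZ.neg.pos_part
  refine (Pr_mono G fun t ht => ?_).trans
    ((Pr_markov G h5 (Eventually.of_forall fun t => le_max_right _ _) hy).trans
      (div_le_div_of_nonneg_right (by linarith) hy.le))
  have ht' : T t b (b + v) - dot F.ρ (rv v) ≤ -y := ht
  exact le_max_of_le_left (le_neg.1 ht')

theorem conn_prob (hE : ExpL G) (hF : IsFace (mu G) F) : ∃ C : ℝ, 0 < C ∧ ∃ c0 : ℕ,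
    ∀ (j : ℕ) (b v : V) (e : Sym2 V), F.Inr v → v.1 ≤ 2 ^ j →
      3 / 4 ≤ Pr G {t | ∃ δ : Pth, δ.Joins (F.dom b v) b (b + v) ∧
        F.X δ t + t e ≤ C * F.M G (j + c0)} := by
  obtain ⟨C, hC, c0, h⟩ := xd_pos hE hF
  obtain ⟨Ce, hCe, he⟩ := edge_moment hE
  refine ⟨4 * (C + Ce), by positivity, c0, fun j b v e hv hj => ?_⟩
  have hM := one_le_M hE hF (j + c0)
  obtain ⟨-, hi, hle, -⟩ := he e
  have hp : Integrable (fun t => max (F.XD t b v) 0) (iidLaw G) :=
    (integrable_XD hE F b v).pos_part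
  have hl : 0 < 4 * (C + Ce) * F.M G (j + c0) := by positivity
  have h1 := Pr_markov G (F := fun t => max (F.XD t b v) 0 + t e) (hp.add hi)
    ((ae_nn G).mono fun t ht => add_nonneg (le_max_right _ _) (ht e)) hl
  rw [integral_add hp hi] at h1
  have h2 : (∫ t, max (F.XD t b v) 0 ∂(iidLaw G) + ∫ t : Env, t e ∂(iidLaw G)) /
      (4 * (C + Ce) * F.M G (j + c0)) ≤ 1 / 4 := by
    rw [div_le_iff₀ hl]
    nlinarith [h j b v hv hj]
  have h3 := one_sub_Pr_le_compl G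
    {t | 4 * (C + Ce) * F.M G (j + c0) ≤ max (F.XD t b v) 0 + t e}
  refine le_trans (by linarith) (h3.trans (Pr_mono_ae G ?_))
  filter_upwards [ae_nn G] with t ht hlt
  have h4 : max (F.XD t b v) 0 + t e < 4 * (C + Ce) * F.M G (j + c0) := not_le.1 hlt
  have h5 := le_max_left (F.XD t b v) 0
  obtain ⟨δ, hδ, -, h6⟩ := exists_tot_lt ht (hF.inr_conn b hv)
    (c := 4 * (C + Ce) * F.M G (j + c0) - t e + dot F.ρ (rv v)) (by rw [FD.XD] at h4 h5; linarith)
  refine ⟨δ, hδ, ?_⟩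
  rw [X_of_joins F hδ, add_sub_cancel_left]
  linarith

end Crest.Agent.R151.PC
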