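import Crest.Agent.R151.CFh

/-! Row 151, part C: C4: two copies, the negative part of the excess. -/

set_option autoImplicit false

namespace Crest.Agent.R151.PC

open MeasureTheory ProbabilityTheory Filter Topology Crest.ProbabilityR.FirstPassage
open scoped Classical

variable {G : Measure ℝ} [Law G] {F : FD}

/-- deterministic routing `p0 → σ - e1 → σ → σ + v → σ + v + e1 → p1` -/
theorem two_route {t : Env} (ht : NN t) {p0 σ v a b : V} (ha : p0 + a = σ - (1, 0))
    (ca : Conn (F.dom p0 a) p0 (p0 + a)) (cv : Conn (F.dom σ v) σ (σ + v))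
    (cb : Conn (F.dom (σ + v + (1, 0)) b) (σ + v + (1, 0)) (σ + v + (1, 0) + b)) :
    T t p0 (σ + v + (1, 0) + b) - dot F.ρ (rv (σ + v + (1, 0) + b - p0)) ≤
      F.XD t p0 a + t s(σ - (1, 0), σ) + F.XD t σ v + t s(σ + v, σ + v + (1, 0)) +
        F.XD t (σ + v + (1, 0)) b - 2 * F.ρ.1 := by
  have a1 : Adj (σ - (1, 0)) σ := (adj_iff _ _).2 (Or.inr ⟨by simp, Or.inl (by simp)⟩)
  have a2 : Adj (σ + v) (σ + v + (1, 0)) := (adj_iff _ _).2 (Or.inr ⟨by simp, Or.inl (by simp)⟩)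
  have h1 := T_le_TD ht ca
  have h2 : T t (σ - (1, 0)) σ ≤ t s(σ - (1, 0), σ) := TD_le_edge ht a1 trivial trivial
  have h3 := T_le_TD ht cv
  have h4 : T t (σ + v) (σ + v + (1, 0)) ≤ t s(σ + v, σ + v + (1, 0)) :=
    TD_le_edge ht a2 trivial trivial
  have h5 := T_le_TD ht cb
  have k1 := T_triangle ht p0 (p0 + a) (σ + v + (1, 0) + b)
  have k2 := T_triangle ht (σ - (1, 0)) σ (σ + v + (1, 0) + b)
  have k3 := T_triangle ht σ (σ + v) (σ + v + (1, 0) + b)
  have k4 := T_triangle ht (σ + v) (σ + v + (1, 0)) (σ + v + (1, 0) + b)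
  have e : σ + v + (1, 0) + b - p0 = a + (1, 0) + v + (1, 0) + b := by
    have : p0 = σ - (1, 0) - a := by rw [← ha]; abel
    rw [this]; abel
  have e1 : dot F.ρ (rv ((1, 0) : V)) = F.ρ.1 := by simp [dot, rv]
  rw [e, rv_add, rv_add, rv_add, rv_add, dot_add, dot_add, dot_add, dot_add, e1]
  unfold FD.XD
  rw [← ha] at k2 h2 ⊢
  linarith

theorem CTwo1_set {S S' : Set (Sym2 V)} (hd : Disjoint S S') {A : Set Env} (hA : MeasurableSet A)
    (dA : Dep S A) {f : Env → ℝ} (hf : Measurable f) (df : DepF S' f) {B : ℝ} (hB : 0 ≤ B)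
    (h : ∫ t, f t ∂(iidLaw G) ≤ B) : ∫ t in A, f t ∂(iidLaw G) ≤ B := by
  rw [setIntegral_of_dep G hd hA dA hf df]
  exact (mul_le_mul_of_nonneg_left h (Pr_nonneg G A)).trans
    (mul_le_of_le_one_left hB (Pr_le_one G A))

theorem CTwo1_edge {D : Set V} {x y : V} (h : x ∉ D ∨ y ∉ D) : Disjoint (ED D) {s(x, y)} := by
  rw [Set.disjoint_singleton_right, mem_ED]
  tauto

/-- the four outer terms -/
noncomputable def CTwo1_f (F : FD) (g v σ : V) (t : Env) : ℝ :=
  F.XD t (-g) (g + (σ - (1, 0))) + t s(σ - (1, 0), σ) + t s(σ + v, σ + v + (1, 0)) +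
    F.XD t (σ + v + (1, 0)) (g + (-σ - (1, 0)))

theorem CTwo1_outer (hE : ExpL G) {g v σ : V} (hσ : σ.1 = 0) {A : Set Env} (hA : MeasurableSet A)
    (dA : Dep (ED (F.dom 0 v)) A) {B : ℝ} (hB : 0 ≤ B) (h1 : F.fh G (g + (σ - (1, 0))) ≤ B)
    (h2 : F.fh G (g + (-σ - (1, 0))) ≤ B) (h3 : ∀ e : Sym2 V, ∫ t : Env, t e ∂(iidLaw G) ≤ B) :
    Integrable (CTwo1_f F g v σ) (iidLaw G) ∧ ∫ t in A, CTwo1_f F g v σ t ∂(iidLaw G) ≤ 4 * B := by
  obtain ⟨_, -, he⟩ := edge_moment hE
  have i1 := integrable_XD hE F (-g) (g + (σ - (1, 0)))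
  have i2 := (he s(σ - (1, 0), σ)).2.1
  have i3 := (he s(σ + v, σ + v + (1, 0))).2.1
  have i4 := integrable_XD hE F (σ + v + (1, 0)) (g + (-σ - (1, 0)))
  refine ⟨((i1.add i2).add i3).add i4, ?_⟩
  have de : ∀ e : Sym2 V, DepF {e} fun t : Env => t e := fun e t t' h => h e rfl
  have b1 := CTwo1_set (G := G) (disjoint_ED (D' := F.dom (-g) (g + (σ - (1, 0))))
    (Set.disjoint_left.2 fun x hx hx' => by
      have c1 := hx.1
      have c2 := hx'.2.1
      simp only [Prod.fst_add, Prod.fst_sub, Prod.fst_neg, Prod.fst_zero, hσ] at c1 c2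
      omega)) hA dA (measurable_XD F _ _) (depF_XD F _ _) hB (by rw [integral_XD]; exact h1)
  have b2 := CTwo1_set (G := G) (CTwo1_edge (x := σ - (1, 0)) (y := σ) (Or.inl fun hx => by
      have c1 := hx.1
      simp only [Prod.fst_sub, Prod.fst_zero, hσ] at c1
      omega)) hA dA (measurable_pi_apply _) (de _) hB (h3 _)
  have b3 := CTwo1_set (G := G) (CTwo1_edge (x := σ + v) (y := σ + v + (1, 0)) (Or.inr fun hx => by
      have c1 := hx.2.1
      simp only [Prod.fst_add, Prod.fst_zero, hσ] at c1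
      omega)) hA dA (measurable_pi_apply _) (de _) hB (h3 _)
  have b4 := CTwo1_set (G := G) (disjoint_ED (D' := F.dom (σ + v + (1, 0)) (g + (-σ - (1, 0))))
    (Set.disjoint_left.2 fun x hx hx' => by
      have c1 := hx.2.1
      have c2 := hx'.1
      simp only [Prod.fst_add, Prod.fst_zero, hσ] at c1 c2
      omega)) hA dA (measurable_XD F _ _) (depF_XD F _ _) hB (by rw [integral_XD]; exact h2)
  unfold CTwo1_f
  rw [integral_add, integral_add, integral_add]
  · linarith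
  exacts [i1.integrableOn, i2.integrableOn, (i1.add i2).integrableOn, i3.integrableOn,
    ((i1.add i2).add i3).integrableOn, i4.integrableOn]

theorem CTwo1_route (hF : IsFace (mu G) F) {t : Env} (ht : NN t) {g v σ : V} (hv : F.Inr v)
    (h1 : F.Inr (g + (σ - (1, 0)))) (h2 : F.Inr (g + (-σ - (1, 0)))) :
    T t (-g) (v + g) - dot F.ρ (rv (v + g - -g)) ≤ CTwo1_f F g v σ t + F.XD t σ v := by
  have h := two_route (F := F) ht (p0 := -g) (σ := σ) (v := v) (a := g + (σ - (1, 0)))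
    (b := g + (-σ - (1, 0))) (by abel) (hF.inr_conn _ h1) (hF.inr_conn _ hv) (hF.inr_conn _ h2)
  have e : σ + v + (1, 0) + (g + (-σ - (1, 0))) = v + g := by abel
  rw [e] at h
  have := hF.rho1_pos (mu_ok G)
  unfold CTwo1_f
  linarith

theorem xd_neg (hE : ExpL G) (hF : IsFace (mu G) F) : ∃ C : ℝ, 0 < C ∧ ∃ c0 : ℕ,
    ∀ (j : ℕ) (v : V), F.Inr v → v.1 ≤ 2 ^ j →
      ∫ t, max (-F.XD t 0 v) 0 ∂(iidLaw G) ≤ C * F.M G (j + c0) := by
  obtain ⟨Kp, hKp, hw⟩ := mid_window hF
  obtain ⟨C1, hC1, h1⟩ := fh_inr hE hF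
  obtain ⟨C2, hC2, h2⟩ := edge_moment hE
  refine ⟨9 * (C1 + C2), by positivity, Kp * (4 * F.κ + 1), fun j v hv hj => ?_⟩
  obtain ⟨n, hn⟩ : ∃ n : ℕ, v.1 = n := ⟨v.1.toNat, (Int.toNat_of_nonneg (by linarith [hv.1])).symm⟩
  have hn1 : 1 ≤ n := by have := hv.1; omega
  have hnj : n ≤ 2 ^ j := by rw [hn] at hj; exact_mod_cast hj
  obtain ⟨g, hg1, hg2, -, hg4⟩ := hw (4 * F.κ * n + 1) (by omega)
  set J := j + Kp * (4 * F.κ + 1) with hJ
  have hM := one_le_M hE hF J
  have hgJ : g.1 ≤ 2 ^ J := by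
    have a1 : nrm g ≤ 2 ^ J := by
      calc nrm g ≤ Kp * (4 * F.κ * n + 1) := hg2
        _ ≤ Kp * ((4 * F.κ + 1) * n) := Nat.mul_le_mul_left _ (by nlinarith)
        _ = Kp * (4 * F.κ + 1) * n := by ring
        _ ≤ 2 ^ (Kp * (4 * F.κ + 1)) * 2 ^ j := Nat.mul_le_mul Nat.lt_two_pow_self.le hnj
        _ = 2 ^ J := by rw [hJ, pow_add, mul_comm]
    have a2 := (le_abs_self _).trans (abs_fst_le_nrm g)
    exact a2.trans (by exact_mod_cast a1)
  set B := (C1 + C2) * F.M G J with hB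
  have hB0 : 0 ≤ B := by positivity
  have hfh : ∀ w : V, F.Inr w → w.1 ≤ 2 ^ J → F.fh G w ≤ B := fun w hw hw' =>
    (h1 J w hw hw').trans (by rw [hB]; nlinarith)
  have hed : ∀ e : Sym2 V, ∫ t : Env, t e ∂(iidLaw G) ≤ B := fun e =>
    (h2 e).2.2.1.trans (by rw [hB]; nlinarith)
  have hin : ∀ σ : V, σ.1 = 0 → |σ.2| ≤ (4 * F.κ * n + 1 : ℕ) →
      F.Inr (g + (σ - (1, 0))) ∧ F.fh G (g + (σ - (1, 0))) ≤ B := fun σ h0 hs => by
    have a : F.Inr (g + (σ - (1, 0))) := hg4 _ (by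
      rw [nrm_le_iff]
      simp only [Prod.fst_sub, Prod.snd_sub, h0, sub_zero]
      refine ⟨by norm_num; positivity, hs.trans (by push_cast; linarith)⟩)
    refine ⟨a, hfh _ a ?_⟩
    simp only [Prod.fst_add, Prod.fst_sub, h0]
    linarith
  set d : V := (0, ((4 * F.κ * n + 1 : ℕ) : ℤ)) with hd
  have i0 := hin 0 rfl (by simp only [Prod.snd_zero, abs_zero]; positivity)
  have i0' := hin (-0) rfl (by simp only [neg_zero, Prod.snd_zero, abs_zero]; positivity)
  have i1 := hin d rfl (by rw [hd]; exact (abs_of_nonneg (by positivity)).le)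
  have i1' := hin (-d) rfl (by
    rw [Prod.snd_neg, abs_neg, hd]; exact (abs_of_nonneg (by positivity)).le)
  set A : Set Env := (fun t => F.XD t 0 v) ⁻¹' Set.Iic 0 with hAdef
  have hA : MeasurableSet A := measurable_XD F 0 v measurableSet_Iic
  have dA : Dep (ED (F.dom 0 v)) A := (depF_XD F 0 v).preimage _
  obtain ⟨j0, b0⟩ := CTwo1_outer hE (g := g) (σ := 0) rfl hA dA hB0 i0.2 i0'.2 hed
  obtain ⟨j1, b1⟩ := CTwo1_outer hE (g := g) (σ := d) rfl hA.compl dA.compl hB0 i1.2 i1'.2 hed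
  have j2 := integrable_XD hE F d v
  have b2 := CTwo1_set (G := G) (disjoint_ED (D' := F.dom d v)
    (Set.disjoint_left.2 fun x hx hx' => by
      have c1 := hx.2.2.2
      have c2 := hx'.2.2.1
      simp only [Prod.snd_zero, hd, hn] at c1 c2
      push_cast at c2
      linarith)) hA.compl dA.compl (measurable_XD F _ _) (depF_XD F _ _) hB0
      (by
        rw [integral_XD]
        refine hfh v hv (hj.trans ?_)
        exact_mod_cast Nat.pow_le_pow_right (show 0 < 2 by norm_num) (Nat.le_add_right j _))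
  have j3 : Integrable (fun t => T t (-g) (v + g) - dot F.ρ (rv (v + g - -g))) (iidLaw G) :=
    (integrable_T G _ _).sub (integrable_const _)
  have b3 : 0 ≤ ∫ t, T t (-g) (v + g) - dot F.ρ (rv (v + g - -g)) ∂(iidLaw G) := by
    rw [integral_sub (integrable_T G _ _) (integrable_const _), integral_T]
    simp only [integral_const, probReal_univ, smul_eq_mul, one_mul]
    linarith [mu_le_hm G (v + g - -g), hF.le (rv (v + g - -g))]
  have key : ∫ t, max (-F.XD t 0 v) 0 ∂(iidLaw G) ≤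
      ∫ t, (A.indicator (CTwo1_f F g v 0) t + Aᶜ.indicator (CTwo1_f F g v d) t +
        Aᶜ.indicator (fun t => F.XD t d v) t -
        (T t (-g) (v + g) - dot F.ρ (rv (v + g - -g)))) ∂(iidLaw G) := by
    refine integral_mono_ae ((integrable_XD hE F 0 v).neg.pos_part)
      ((((j0.indicator hA).add (j1.indicator hA.compl)).add (j2.indicator hA.compl)).sub j3) ?_
    filter_upwards [ae_nn G] with t ht
    by_cases htA : t ∈ A
    · have c1 : F.XD t 0 v ≤ 0 := htA
      have c2 := CTwo1_route hF ht hv i0.1 i0'.1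
      have c3 : t ∉ Aᶜ := fun h => h htA
      rw [Set.indicator_of_mem htA, Set.indicator_of_notMem c3, Set.indicator_of_notMem c3,
        max_eq_left (by linarith)]
      linarith
    · have c1 : 0 < F.XD t 0 v := not_le.1 htA
      have c2 := CTwo1_route hF ht hv i1.1 i1'.1
      rw [Set.indicator_of_notMem htA, Set.indicator_of_mem htA, Set.indicator_of_mem htA,
        max_eq_right (by linarith)]
      linarith
  rw [integral_sub _ j3, integral_add _ (j2.indicator hA.compl),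
    integral_add (j0.indicator hA) (j1.indicator hA.compl), integral_indicator hA,
    integral_indicator hA.compl, integral_indicator hA.compl] at key
  · have : 9 * (C1 + C2) * F.M G J = 9 * B := by rw [hB]; ring
    rw [this]
    linarith
  exacts [(j0.indicator hA).add (j1.indicator hA.compl),
    ((j0.indicator hA).add (j1.indicator hA.compl)).add (j2.indicator hA.compl)]

end Crest.Agent.R151.PC
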