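import Crest.Agent.R151.CLow
import Crest.Agent.R151.CLD
import Crest.Agent.R151.CNum1

/-! Row 151, part C: C6: the most negative excess in a box. -/

set_option autoImplicit false

namespace Crest.Agent.R151.PC

open MeasureTheory ProbabilityTheory Filter Topology Crest.ProbabilityR.FirstPassage
open scoped Classical

variable {G : Measure ℝ} [Law G] {F : FD}

theorem neg_tail (hE : ExpL G) (hF : IsFace (mu G) F) (K : ℕ) : ∃ C : ℝ, 0 < C ∧
    ∀ (i s : ℕ) (b : V),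
      Pr G (F.Cheap (PIn (box b (K * 2 ^ i))) (-(C * lam ^ s * F.Ub G i))) ≤ 2 * (1 / 4) ^ s := by
  obtain ⟨C1, hC1, c0, h1⟩ := nuc hE hF
  obtain ⟨c, c', C2, hc, hc', hC2, h2⟩ := gd_prob hF
  obtain ⟨A, hA, h3⟩ := exists_exp_bound C2 c' hc' K 1
  obtain ⟨cU, hcU, h4⟩ := Ub_lower hE hF
  have hl := lam_pos
  refine ⟨C1 * lam ^ (K + c0) + 2 * (A / cU), by positivity, fun i s b => ?_⟩
  have hU := one_le_Ub hE hF i
  set U := F.Ub G i with hUd
  set x := C1 * F.M G (i + K + s + c0) with hx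
  set y := A / cU * lam ^ s * U with hy
  have hx0 : 0 < x := mul_pos hC1 (lt_of_lt_of_le one_pos (one_le_M hE hF _))
  have hy0 : 0 ≤ y := by positivity
  have hx1 : x ≤ C1 * lam ^ (K + c0) * lam ^ s * U := by
    have := M_le_Ub hE hF i (K + s + c0)
    rw [show i + (K + s + c0) = i + K + s + c0 by ring] at this
    calc x ≤ C1 * (lam ^ (K + s + c0) * U) := mul_le_mul_of_nonneg_left this hC1.le
      _ = _ := by ring
  have hy1 : A * lam ^ s * ((i : ℝ) + 1) ≤ y := by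
    have h5 : (i : ℝ) + 1 ≤ U / cU := by rw [le_div_iff₀ hcU, mul_comm]; exact h4 i
    calc _ ≤ A * lam ^ s * (U / cU) := mul_le_mul_of_nonneg_left h5 (by positivity)
      _ = y := by rw [hy]; ring
  have hr1 : 1 ≤ (K + 1) * 2 ^ i := Nat.succ_le_of_lt (by positivity)
  have hr2 : (K + 1) * 2 ^ i ≤ 2 ^ (i + K) := by
    rw [pow_add, mul_comm]
    exact Nat.mul_le_mul_left _ (Nat.succ_le_of_lt Nat.lt_two_pow_self)
  have e1 := h1 _ _ s b hr1 hr2
  have e2 := h2 b (K * 2 ^ i) y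
  have e3 := h3 i s y hy1
  rw [one_mul] at e3
  push_cast at e2
  have e4 : Pr G (F.Cheap (PIn (box b (K * 2 ^ i)))
      (-((C1 * lam ^ (K + c0) + 2 * (A / cU)) * lam ^ s * U))) ≤
      Pr G (F.Cheap (CIn (box b ((K + 1) * 2 ^ i))) (-x)) + Pr G (F.Gd c (box b (K * 2 ^ i)) y)ᶜ := by
    refine Pr_le_add_of_ae G ((ae_nn G).mono fun t ht hch => ?_)
    by_cases hg : t ∈ F.Gd c (box b (K * 2 ^ i)) y
    · left
      obtain ⟨γ, hγ, hX⟩ := hch
      have hX' : F.X γ t ≤ -(x + 2 * y) := by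
        refine hX.trans (neg_le_neg ?_)
        calc x + 2 * y ≤ C1 * lam ^ (K + c0) * lam ^ s * U + 2 * y := by linarith
          _ = _ := by rw [hy]; ring
      obtain ⟨δ, hδ, hδX⟩ := cheap_decomp F hc.le hx0 hy0 hγ (gd_steepP F ht hg hγ) hX'
      exact ⟨δ, CIn_mono (box_mono b (Nat.mul_le_mul_right _ (Nat.le_succ K))) hδ, hδX⟩
    · exact Or.inr hg
  have e5 : (0 : ℝ) ≤ (1 / 4) ^ s := by positivity
  linarith

theorem neg_weak (hE : ExpL G) (hF : IsFace (mu G) F) (K : ℕ) : ∃ C : ℝ, 0 < C ∧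
    ∀ (i : ℕ) (b : V) (y : ℝ), 0 < y →
      Pr G (F.Cheap (PIn (box b (K * 2 ^ i))) (-(y * F.Ub G i))) ≤ C / y := by
  obtain ⟨C, hC, h⟩ := neg_tail hE hF K
  refine ⟨4 * C, by positivity, fun i b y hy => ?_⟩
  have hU := one_le_Ub hE hF i
  rcases le_total y C with h1 | h1
  · refine (Pr_le_one G _).trans ?_
    rw [le_div_iff₀ hy]; linarith
  · obtain ⟨s, hs1, hs2⟩ := exists_nat_pow_near ((one_le_div hC).2 h1) one_lt_lam
    rw [le_div_iff₀ hC] at hs1
    rw [div_lt_iff₀ hC] at hs2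
    have e1 : -(y * F.Ub G i) ≤ -(C * lam ^ s * F.Ub G i) :=
      neg_le_neg (mul_le_mul_of_nonneg_right (by linarith) (by linarith))
    refine ((Pr_mono G (cheap_mono F subset_rfl e1)).trans (h i s b)).trans ?_
    rw [le_div_iff₀ hy]
    have e2 : (1 / 4 : ℝ) ^ s * lam ^ s ≤ 1 := by
      rw [← mul_pow]
      exact pow_le_one₀ (mul_nonneg (by norm_num) lam_pos.le) (by linarith [lam_lt_two])
    have e3 : (0 : ℝ) ≤ (1 / 4) ^ s := by positivity
    calc 2 * (1 / 4 : ℝ) ^ s * y ≤ 2 * (1 / 4 : ℝ) ^ s * (lam ^ (s + 1) * C) :=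
          mul_le_mul_of_nonneg_left hs2.le (by positivity)
      _ = 2 * C * lam * ((1 / 4 : ℝ) ^ s * lam ^ s) := by ring
      _ ≤ 2 * C * lam * 1 := mul_le_mul_of_nonneg_left e2 (mul_nonneg (by positivity) lam_pos.le)
      _ ≤ 4 * C := by nlinarith [lam_lt_two]

/-- deterministic layer cake -/
theorem neg_layers {D : Set V} {t : Env} {a : ℝ} (ha : 0 ≤ a) (S : ℕ)
    (hS : ∀ γ ∈ PIn D, -(a * lam ^ S) ≤ F.X γ t) :
    ∀ γ ∈ PIn D, -(a + ∑ s ∈ Finset.range S,
      (if t ∈ F.Cheap (PIn D) (-(a * lam ^ s)) then a * lam ^ (s + 1) else 0)) ≤ F.X γ t := by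
  intro γ hγ
  have hl := lam_pos
  have h0 := hS γ hγ
  clear hS
  induction S with
  | zero => simpa using h0
  | succ S ih =>
    rw [Finset.sum_range_succ]
    by_cases h1 : -(a * lam ^ S) ≤ F.X γ t
    · have h2 : 0 ≤ (if t ∈ F.Cheap (PIn D) (-(a * lam ^ S)) then a * lam ^ (S + 1) else 0) := by
        split_ifs <;> positivity
      linarith [ih h1]
    · have h2 : t ∈ F.Cheap (PIn D) (-(a * lam ^ S)) := ⟨γ, hγ, (not_le.1 h1).le⟩
      have h3 : 0 ≤ ∑ s ∈ Finset.range S,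
          (if t ∈ F.Cheap (PIn D) (-(a * lam ^ s)) then a * lam ^ (s + 1) else 0) :=
        Finset.sum_nonneg fun s _ => by split_ifs <;> positivity
      rw [if_pos h2]
      linarith

theorem neg_env (hE : ExpL G) (hF : IsFace (mu G) F) (K : ℕ) : ∃ C : ℝ, 0 < C ∧
    ∀ (i : ℕ) (b : V), ∃ Y : Env → ℝ, Integrable Y (iidLaw G) ∧
      ∫ t, Y t ∂(iidLaw G) ≤ C * F.Ub G i ∧
      ∀ t, NN t → ∀ γ ∈ PIn (box b (K * 2 ^ i)), -Y t ≤ F.X γ t := by
  obtain ⟨C, hC, h⟩ := neg_tail hE hF K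
  refine ⟨9 * C, by positivity, fun i b => ?_⟩
  have hU := one_le_Ub hE hF i
  have hl := lam_pos
  set a := C * F.Ub G i with ha
  have ha0 : 0 < a := by positivity
  obtain ⟨S, hS⟩ := pow_unbounded_of_one_lt (4 * ‖F.ρ‖ * ((K * 2 ^ i : ℕ) : ℝ) / a) one_lt_lam
  rw [div_lt_iff₀ ha0] at hS
  set E : ℕ → Set Env := fun s => F.Cheap (PIn (box b (K * 2 ^ i))) (-(a * lam ^ s)) with hEd
  have hm : ∀ s, MeasurableSet (E s) := fun s => measurableSet_cheap F _ _
  have hi : ∀ s, Integrable ((E s).indicator fun _ => a * lam ^ (s + 1)) (iidLaw G) :=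
    fun s => (integrable_const _).indicator (hm s)
  refine ⟨fun t => a + ∑ s ∈ Finset.range S, (E s).indicator (fun _ => a * lam ^ (s + 1)) t,
    (integrable_const a).add (integrable_finset_sum _ fun s _ => hi s), ?_, fun t ht γ hγ => ?_⟩
  · rw [integral_add (integrable_const a) (integrable_finset_sum _ fun s _ => hi s),
      integral_finset_sum _ fun s _ => hi s]
    have e1 : ∀ s ∈ Finset.range S,
        ∫ t, (E s).indicator (fun _ => a * lam ^ (s + 1)) t ∂(iidLaw G) ≤ 4 * a * (1 / 2) ^ s := by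
      intro s _
      rw [integral_indicator_const _ (hm s), smul_eq_mul]
      have e2 : (iidLaw G).real (E s) ≤ 2 * (1 / 4) ^ s := by
        have := h i s b
        rw [show C * lam ^ s * F.Ub G i = a * lam ^ s by rw [ha]; ring] at this
        exact this
      have e3 : lam ^ (s + 1) ≤ 2 ^ (s + 1) := pow_le_pow_left₀ hl.le lam_lt_two.le _
      calc _ ≤ (2 * (1 / 4) ^ s) * (a * 2 ^ (s + 1)) := by gcongr
        _ = 4 * a * ((1 / 4) * 2) ^ s := by rw [mul_pow]; ring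
        _ = _ := by norm_num
    have e4 := Finset.sum_le_sum e1
    rw [← Finset.mul_sum] at e4
    have e5 := sum_geometric_two_le S
    have e6 : ∫ _ : Env, a ∂(iidLaw G) = a := by simp
    rw [e6]
    nlinarith
  · have := neg_layers (F := F) (D := box b (K * 2 ^ i)) (t := t) ha0.le S
      (fun δ hδ => le_trans (by linarith) (neg_le_X_box F ht hδ)) γ hγ
    simpa only [Set.indicator_apply] using this

end Crest.Agent.R151.PC
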