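import Crest.Prelude.Def_PlanarFPP

/-!
# Row 151 (planar first-passage percolation): core definitions

Everything is phrased with finite time-indexed lattice paths `Pth` (a countable type, so events of
the form `∃ γ : Pth, …` are countable unions).  Probabilities are `Pr G A = (iidLaw G).real A`
(outer measure for arbitrary sets, so union bounds need no measurability).
-/

set_option autoImplicit false

namespace Crest.Agent.R151

open MeasureTheory Crest.ProbabilityR.FirstPassage
open scoped Classical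

abbrev V : Type := ℤ × ℤ
abbrev Env : Type := Environment

/-- lattice adjacency -/
def Adj (x y : V) : Prop := squareLattice.Adj x y

/-- a lattice point as a real vector -/
def rv (x : V) : ℝ × ℝ := ((x.1 : ℝ), (x.2 : ℝ))

/-- sup norm of a lattice point -/
def nrm (x : V) : ℕ := max x.1.natAbs x.2.natAbs

/-- closed sup-norm ball -/
def box (c : V) (r : ℕ) : Set V := {x | nrm (x - c) ≤ r}

/-- closed sup-norm ball as a finset -/
noncomputable def boxF (c : V) (r : ℕ) : Finset V :=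
  Finset.Icc (c.1 - r) (c.1 + r) ×ˢ Finset.Icc (c.2 - r) (c.2 + r)

/-- vertical strip of columns `a ≤ x.1 ≤ b` -/
def strip (a b : ℤ) : Set V := {x | a ≤ x.1 ∧ x.1 ≤ b}

/-- rectangle `[a,b] × [c,d]` -/
def rect (a b c d : ℤ) : Set V := {x | a ≤ x.1 ∧ x.1 ≤ b ∧ c ≤ x.2 ∧ x.2 ≤ d}

/-- all unordered pairs with both points in `D` -/
def ED (D : Set V) : Set (Sym2 V) := {e | ∀ x ∈ e, x ∈ D}

/-- the lattice edges with both endpoints in a finite set -/
noncomputable def edgesIn (D : Finset V) : Finset (Sym2 V) :=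
  ((D ×ˢ D).filter (fun p => Adj p.1 p.2)).image (fun p => s(p.1, p.2))

/-- a finite sequence of lattice points with `n` steps -/
structure Pth where
  n : ℕ
  f : Fin (n + 1) → V

instance : Inhabited Pth := ⟨⟨0, fun _ => 0⟩⟩

instance : Countable Pth := by
  have : Function.Injective (fun γ : Pth => (⟨γ.n, γ.f⟩ : Σ n : ℕ, Fin (n + 1) → V)) := by
    rintro ⟨n, f⟩ ⟨m, g⟩ h
    cases h
    rfl
  exact this.countable

namespace Pth

/-- position at time `i` (constant after the last time `γ.n`) -/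
def p (γ : Pth) (i : ℕ) : V := γ.f ⟨min i γ.n, Nat.lt_succ_of_le (min_le_right _ _)⟩

/-- the path with `n` steps read off a sequence -/
def of (n : ℕ) (q : ℕ → V) : Pth := ⟨n, fun i => q i⟩

/-- consecutive points are lattice neighbours -/
def Ok (γ : Pth) : Prop := ∀ i < γ.n, Adj (γ.p i) (γ.p (i + 1))

/-- self-avoiding -/
def SA (γ : Pth) : Prop := ∀ i ≤ γ.n, ∀ j ≤ γ.n, γ.p i = γ.p j → i = j

/-- stays in `D` -/
def In (γ : Pth) (D : Set V) : Prop := ∀ i ≤ γ.n, γ.p i ∈ D

/-- the `i`-th edge -/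
def edge (γ : Pth) (i : ℕ) : Sym2 V := s(γ.p i, γ.p (i + 1))

/-- the set of edges -/
noncomputable def edges (γ : Pth) : Finset (Sym2 V) := (Finset.range γ.n).image γ.edge

/-- cost of the steps `a ≤ i < b` -/
def cost (γ : Pth) (t : Env) (a b : ℕ) : ℝ := ∑ i ∈ Finset.Ico a b, t (γ.edge i)

/-- total cost -/
def tot (γ : Pth) (t : Env) : ℝ := γ.cost t 0 γ.n

/-- lattice path inside `D` from `x` to `z` -/
def Joins (γ : Pth) (D : Set V) (x z : V) : Prop :=
  γ.Ok ∧ γ.In D ∧ γ.p 0 = x ∧ γ.p γ.n = z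

/-- the sub-path between times `a` and `b` -/
def sub (γ : Pth) (a b : ℕ) : Pth := of (b - a) (fun i => γ.p (a + i))

/-- time reversal -/
def rev (γ : Pth) : Pth := of γ.n (fun i => γ.p (γ.n - i))

/-- concatenation (meaningful when `γ.p γ.n = δ.p 0`) -/
def app (γ δ : Pth) : Pth :=
  of (γ.n + δ.n) (fun i => if i ≤ γ.n then γ.p i else δ.p (i - γ.n))

/-- image under a map of the lattice -/
def map (σ : V → V) (γ : Pth) : Pth := of γ.n (fun i => σ (γ.p i))

end Pth

/-- passage time among paths staying in `D` (real infimum; `0` if there is no such path) -/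
noncomputable def TD (D : Set V) (t : Env) (x z : V) : ℝ :=
  sInf {c | ∃ γ : Pth, γ.Joins D x z ∧ c = γ.tot t}

/-- unrestricted passage time -/
noncomputable def T (t : Env) (x z : V) : ℝ := TD Set.univ t x z

/-- nonnegative environment -/
def NN (t : Env) : Prop := ∀ e, 0 ≤ t e

/-- positive environment -/
def Pos (t : Env) : Prop := ∀ e, 0 < t e

/-- self-avoiding optimal path in `D` between its endpoints -/
def IsGeo (D : Set V) (t : Env) (γ : Pth) : Prop :=
  γ.Ok ∧ γ.In D ∧ γ.SA ∧ γ.tot t = TD D t (γ.p 0) (γ.p γ.n)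

/-- the standing assumptions on the weight law -/
class Law (G : Measure ℝ) : Prop extends IsProbabilityMeasure G, NullSingletonClass G where
  nonneg : G (Set.Iio 0) = 0
  mom : ∫⁻ x, ENNReal.ofReal ((⨅ i, x i) ^ 2) ∂(Measure.pi fun _ : Fin 4 => G) < ⊤

/-- probability (outer measure) as a real number -/
noncomputable def Pr (G : Measure ℝ) (A : Set Env) : ℝ := (iidLaw G).real A

/-- levels `0 < h0 < h1 ≤ h2`: `lo = (0,h0]` has positive mass, `hi = [h1,h2]` has mass `≥ 0.999` -/
def HLSpec (G : Measure ℝ) (h : ℝ × ℝ × ℝ) : Prop :=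
  0 < h.1 ∧ h.1 < h.2.1 ∧ h.2.1 ≤ h.2.2 ∧ 0 < G.real (Set.Ioc 0 h.1) ∧
    G.real (Set.Icc h.2.1 h.2.2)ᶜ ≤ 1 / 1000

noncomputable def hl (G : Measure ℝ) : ℝ × ℝ × ℝ := Classical.epsilon (HLSpec G)
noncomputable def h0 (G : Measure ℝ) : ℝ := (hl G).1
noncomputable def h1 (G : Measure ℝ) : ℝ := (hl G).2.1
noncomputable def h2 (G : Measure ℝ) : ℝ := (hl G).2.2
/-- low weights -/
def lo (G : Measure ℝ) : Set ℝ := Set.Ioc 0 (h0 G)
/-- high weights -/
def hi (G : Measure ℝ) : Set ℝ := Set.Icc (h1 G) (h2 G)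

/-- number of high steps among `a ≤ i < b` -/
noncomputable def Pth.nhi (γ : Pth) (G : Measure ℝ) (t : Env) (a b : ℕ) : ℕ :=
  ((Finset.Ico a b).filter (fun i => t (γ.edge i) ∈ hi G)).card

/-- threshold constant for good squares -/
def KapSpec (G : Measure ℝ) (κ : ℝ) : Prop :=
  1 ≤ κ ∧ ∀ r : ℕ, 1 ≤ r → G.real (Set.Ioi (κ * (r : ℝ) ^ 2)) ≤ 1 / (16 * r)

noncomputable def kap (G : Measure ℝ) : ℝ := Classical.epsilon (KapSpec G)

/-- all edges of the square circuit of radius `r` around `c` weigh at most `kap G * r²` -/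
def GoodSq (G : Measure ℝ) (t : Env) (c : V) (r : ℕ) : Prop :=
  ∀ x y, Adj x y → nrm (x - c) = r → nrm (y - c) = r → t s(x, y) ≤ kap G * (r : ℝ) ^ 2

/-- no good square around `c` with radius in `(a, b]` -/
def NoSq (G : Measure ℝ) (c : V) (a b : ℕ) : Set Env :=
  {t | ∀ r, a < r → r ≤ b → ¬ GoodSq G t c r}

/-- some self-avoiding path from `x` with `n` steps has fewer than `n/2` high steps -/
def KesBad (G : Measure ℝ) (x : V) (n : ℕ) : Set Env :=
  {t | ∃ γ : Pth, γ.Ok ∧ γ.SA ∧ γ.p 0 = x ∧ γ.n = n ∧ 2 * γ.nhi G t 0 n < n}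

/-- regular environment: positive, and long self-avoiding paths are expensive -/
def Reg (G : Measure ℝ) (t : Env) : Prop :=
  Pos t ∧ ∀ x, ∃ n0, ∀ n, n0 ≤ n → t ∉ KesBad G x n

/-- generic environment: self-avoiding paths with different edge sets have cost differences
outside `C` -/
def Gen (C : Set ℝ) (t : Env) : Prop :=
  ∀ γ δ : Pth, γ.Ok → γ.SA → δ.Ok → δ.SA → γ.edges ≠ δ.edges → γ.tot t - δ.tot t ∉ C

/-- a fixed enumeration of all paths -/
noncomputable def enumP : ℕ → Pth := Classical.choose (exists_surjective_nat Pth)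

/-- measurable selection: the first path in the enumeration with property `q` -/
noncomputable def pick (q : Pth → Prop) : Pth :=
  if h : ∃ n, q (enumP n) then enumP (Nat.find h) else default

/-- the selected geodesic from `x` to `z` -/
noncomputable def geo (t : Env) (x z : V) : Pth :=
  pick (fun γ => IsGeo Set.univ t γ ∧ γ.p 0 = x ∧ γ.p γ.n = z)

/-- mean passage time -/
noncomputable def hm (G : Measure ℝ) (x : V) : ℝ := ∫ t, T t 0 x ∂(iidLaw G)

/-- the time constant -/
noncomputable def mu (G : Measure ℝ) (v : ℝ × ℝ) : ℝ :=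
  Filter.limUnder Filter.atTop (fun n : ℕ => hm G (⌊(n : ℝ) * v.1⌋, ⌊(n : ℝ) * v.2⌋) / n)

/-- a norm on the plane with the symmetries of the square lattice -/
structure NormOK (μ : ℝ × ℝ → ℝ) : Prop where
  add_le : ∀ v w, μ (v + w) ≤ μ v + μ w
  smul : ∀ (c : ℝ) v, 0 ≤ c → μ (c • v) = c * μ v
  refl1 : ∀ a b : ℝ, μ (-a, b) = μ (a, b)
  refl2 : ∀ a b : ℝ, μ (a, -b) = μ (a, b)
  swap : ∀ a b : ℝ, μ (b, a) = μ (a, b)
  lower : ∃ c > 0, ∀ v, c * ‖v‖ ≤ μ v
  upper : ∃ C > 0, ∀ v, μ v ≤ C * ‖v‖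

/-- the linear functional `ρ` -/
def dot (ρ v : ℝ × ℝ) : ℝ := ρ.1 * v.1 + ρ.2 * v.2

/-- membership in `A` is decided by the weights in `S` -/
def Dep (S : Set (Sym2 V)) (A : Set Env) : Prop :=
  ∀ t t' : Env, (∀ e ∈ S, t e = t' e) → t ∈ A → t' ∈ A

/-- the cell of side `ℓ` containing `x` -/
def cell (ℓ : ℕ) (x : V) : V := (x.1 / (ℓ : ℤ), x.2 / (ℓ : ℤ))

/-- a family of local events indexed by the cells of side `ℓ`, each decided within distance
`K ℓ` of the corner of its cell and of probability at most `p` -/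
def LocFam (G : Measure ℝ) (ℓ K : ℕ) (p : ℝ) (A : V → Set Env) : Prop :=
  ∀ c : V, MeasurableSet (A c) ∧ Dep (ED (box ((ℓ : ℤ) • c) (K * ℓ))) (A c) ∧ Pr G (A c) ≤ p

/-- number of cells of side `ℓ` visited by `γ` whose event occurs -/
noncomputable def Pth.nbad (γ : Pth) (ℓ : ℕ) (A : V → Set Env) (t : Env) : ℕ :=
  (((Finset.range (γ.n + 1)).image (fun i => cell ℓ (γ.p i))).filter (fun c => t ∈ A c)).card

/-- environment read through a bijection of the lattice points -/
def act (σ : V ≃ V) (t : Env) : Env := fun e => t (Sym2.map σ e)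

/-- a bijection of the lattice points preserving adjacency -/
def IsAut (σ : V ≃ V) : Prop := ∀ x y, Adj (σ x) (σ y) ↔ Adj x y

/-- `(x,y) ↦ (-x,y)` -/
def reflX : V ≃ V := Equiv.prodCongr (Equiv.neg ℤ) (Equiv.refl ℤ)
/-- `(x,y) ↦ (x,-y)` -/
def reflY : V ≃ V := Equiv.prodCongr (Equiv.refl ℤ) (Equiv.neg ℤ)

/-- the pair read by the sheared environment: vertical pairs in column `c` are moved down by
`σ c`, horizontal lattice edges between columns `c` and `c+1` are moved down by `η c` -/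
def shearE (σ η : ℤ → ℤ) : Sym2 V → Sym2 V :=
  Sym2.lift ⟨fun x z =>
    if x.1 = z.1 then s((x.1, x.2 - σ x.1), (z.1, z.2 - σ z.1))
    else if x.2 = z.2 ∧ (z.1 = x.1 + 1 ∨ x.1 = z.1 + 1) then
      s((x.1, x.2 - η (min x.1 z.1)), (z.1, z.2 - η (min x.1 z.1)))
    else s(x, z), by
      intro x z
      by_cases h : x.1 = z.1
      · simp only [h, if_true]
        exact Sym2.eq_swap
      · have h' : ¬ z.1 = x.1 := fun h'' => h h''.symm
        simp only [h, h', if_false]
        by_cases g : x.2 = z.2 ∧ (z.1 = x.1 + 1 ∨ x.1 = z.1 + 1)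
        · have g' : z.2 = x.2 ∧ (x.1 = z.1 + 1 ∨ z.1 = x.1 + 1) := ⟨g.1.symm, g.2.symm⟩
          rw [if_pos g, if_pos g', min_comm z.1 x.1]
          exact Sym2.eq_swap
        · have g' : ¬ (z.2 = x.2 ∧ (x.1 = z.1 + 1 ∨ z.1 = x.1 + 1)) :=
            fun g'' => g ⟨g''.1.symm, g''.2.symm⟩
          rw [if_neg g, if_neg g']
          exact Sym2.eq_swap⟩

/-- the sheared environment: column `c` is moved up by `σ c`, the horizontal edges between
columns `c` and `c+1` are moved up by `η c` -/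
def shear (σ η : ℤ → ℤ) (t : Env) : Env := fun e => t (shearE σ η e)

/-- image of a lattice point under the shear -/
def shV (σ : ℤ → ℤ) (x : V) : V := (x.1, x.2 + σ x.1)

/-- `t'` is obtained from `t` by replacing some high weights in `U` by low weights -/
def Low (G : Measure ℝ) (U : Finset (Sym2 V)) (t t' : Env) : Prop :=
  ∀ e, t' e = t e ∨ (e ∈ U ∧ t e ∈ hi G ∧ t' e ∈ lo G)

/-- modulus of continuity of the law -/
noncomputable def omg (G : Measure ℝ) (η : ℝ) : ℝ := ⨆ a : ℝ, G.real (Set.Icc (a - η) (a + η))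

end Crest.Agent.R151
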