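/-!
# Row 151, part A: paper proof that `mu G` is differentiable off `0` for every `Law G`

TARGET (file `R151/AFinal.lean`, namespace `Crest.Agent.R151`):
`theorem mu_diff (G : Measure ℝ) [Law G] : ∀ v : ℝ × ℝ, v ≠ 0 → DifferentiableAt ℝ (mu G) v`.
Use `R151/Defs.lean` and the toolkit files `R151/T*.lean`.  Weights are only known to have tail
`P(t>x) ≤ C x^(-1/2)`: never pay for a prescribed edge, move along good squares (`GoodSq`, Sq1).

A0 (convex geometry, NormOK only).  It suffices that g(θ) = μ(1,θ) has no corner at any |θ0| ≤ 1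
   (homogeneity + swap/reflections; a convex function of one variable without corner is differentiable,
   μ(a,b) = a g(b/a)).  A1: a corner gives ρ, c>0 with μ v - dot ρ v ≥ c(|dev v| + (-v.1)^+) for all v,
   dev v = v.2 - θ0 v.1, and μ(1,θ0) = dot ρ (1,θ0).  ALL of A2-A10 are under this corner datum.
   Targets x = (N, ⌊θ0 N⌋ + n), 0 ≤ n ≤ K+1 (K fixed, N → ∞); X = T - dot ρ disp; E X(geo 0 x) ≤ C N^(3/4) + C K (Tess).
Scales: q = 2^i, ℓ = q^20, d = q^17, w = q^18, Λ = 2^20, r = Λℓ.  Top scale: smallest q with ℓ ≥ 2 C1 N·C
   (so q^20 ≤ C N).  Time i of a path γ is IRREGULAR at scale q if some time i' with γ staying in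
   box(γ_i, r) strictly between i and i' (exit step included) has |dev(γ_i' - γ_i)| > d or wrong-way column move ≥ d
   ((γ_i' - γ_i).1 ≤ -d for i'>i, ≥ d for i'<i), or the cell of γ_i (side ℓ) is bad for a given local family
   (LocFam, range ≤ 4Λ+4, probability ≤ C ℓ^-100; it contains the local lower tail failure and KesBad for n ≥ ℓ/4.. in the region).
A2 deterministic: cut γ at successive exits of boxes of radius r ('steps').  a_j = X(step j) + 3 err ≥ 0 on good cells
   (err = C ℓ^(3/5) = C q^12; every sub-path of a step has X ≥ μ-ρ - err ≥ -err); a step containing a sub-path with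
   |dev| > d/10 or backtrack ≥ d/10 has a_j ≥ c d/10 ('heavy').  If steps j-3..j+3 are good and not heavy, each advances
   ≥ r - d/10 columns (|θ0| ≤ 1) and every time of step j is regular.  Step j has ≤ C(r + a_j) times on Kesten-good cells,
   ≤ (2r+1)² times and X ≥ -C r on bad cells.  So #irregular ≤ C (r/d) Σ a_j + C Σ a_j + C r² #bad steps,
   Σ a_j ≤ X(γ) + 3 err (|γ|/r+1) + C r #bad.
A3: E #irregular times of geo t 0 x at scale q ≤ C N/q² whenever q^20 ≤ C N (K9c: E nbad ≤ C(N/ℓ+1)p^(1/4); E|γ| ≤ C N).
   'Regular' time = regular at all scales q1 ≤ q ≤ top and |γ| ≤ C1|x|.  E #(not regular times) ≤ C N/q1² + C N^(3/5).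
   A regular time i: induction on scales ⇒ all visits of γ to columns within ℓ_q of γ_i have |dev| ≤ C d_q, in particular
   all visits to columns within d1 of γ_i.1 are in box(γ_i, C d1), so there are ≤ C d1² of them.
Slip (k,ε,b), ε = ±1, b ∈ {0,ε}: `shear σ η` with σ c = ε·1{c>k}, η c = ε for c>k, b for c=k, 0 for c<k; measure preserving;
   its inverse is (k,-ε,-b).  Only cuts k ∈ [N/4, 3N/4].  γ = geo t 0 x, γ' = geo t' 0 (x+ε e2), Δ_k = T' - T,
   E Δ_k = F(n+ε) - F(n), F(n) = hm G x_n.
A8 repair of ONE crossing step (horizontal step of γ across a cut): smallest radius ρ ≥ 2 with a good square, in the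
   sheared environment, around the image of γ_i; Sq1 jumps from the image of γ_i to the image of the first later time on
   level ρ (the image path moves ≤ 1 per step in sup norm) at cost Zc = 8 κ ρ³ (0 is outside, the end is outside, since
   ρ < N/8; otherwise, probability ≤ 2^(-N/9), use the crude bound T+T' and Cauchy-Schwarz).  So Δ_k ≤ Σ_{crossing steps} Zc,
   and -Δ_k ≤ the same sum for γ' in t.
A9 uniform integrability: E Σ_{steps} Zc 1{ρ > ρ0} ≤ η N, uniformly over 1-Lipschitz shear patterns chosen as a function of
   the column of the step (single slip at that column, or the multi-slip with residue k mod D): levels ℓ'=2^j, local event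
   'some centre y in the cell has NoSq (ℓ'/2.. ℓ') in the sheared environment', probability ≤ ℓ'² 2^(-ℓ'/2), K9c, ≤ ℓ'² times per cell.
   Steps at cuts crossed ≥ j0 = C d1² times are not regular.  Hence for any (random) set Bad of cuts:
   E Σ_{k∈Bad} Σ_{crossings of k} Zc ≤ η N + 8κρ0³ (j0 E|Bad| + E #not regular).
Local_k(M): times iL ≤ iR of γ, iL ≤ iR' of γ' with equal prefixes up to iL in columns ≤ k, suffixes γ'(iR'+j) = γ(iR+j)+ε e2 (same
   remaining length) in columns ≥ k+1, both middles in columns [k-M,k+M].  Local = LL ∧ RR; RR follows from LL by reversal + point reflection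
   (this swaps b ↔ ε-b, that is why both b are carried; or carry a general start point).  If γ, γ' (regular at their first visits to column k)
   share a vertex in columns [k-M',k-M'/2] then LL holds (both prefixes stay left of the cut, have equal cost, `Gen {0}` ⇒ equal).
A7: Σ_k P(¬LL_k) ≤ η N for M' large.  On {all crossings of γ and γ' have ρ ≤ ρ0 < M'/2, ≤ j0 crossings} the repaired γ' gives δ0: 0→x in t with
   gap ≤ λ = 16κρ0³ j0, equal to γ' until column k-ρ0 is reached, afterwards in columns > k - M'/2 (regularity).  If no shared vertex: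
   sep(c) = height difference of first visits to column c.  All but M'/16 of the c in the range are regular for both paths
   (else charge k to irregular times: 16·#irr).
   A5 (sep(c) ≥ w1 = q1^18 for many c): bands U(c,q,y0) = {c-ℓ ≤ x.1 ≤ c, |x.2 - y0 - θ0(x.1-c)| ≤ w/4}, anchors y0 ∈ ⌊w/8⌋ℤ nearest to γ at column c;
   Û = columns [c-Λℓ,c], half-width (2q)^18 (contains U(c,2q,·) of γ).  δ0 avoids the vertices of U(c,q1); at the top scale 0 ∈ U so nothing avoids it;
   take the last q where a gap-≤λ path avoids U(c,q): event Tie(c,q,y0) = {a geodesic γ has ≥ ℓ/4 hi edges inside U, some path with gap ≤ λ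
   avoids U, every path with gap ≤ λ meets Û}.  Toolkit Tie lemma with Mev = {some geodesic 0→x meets Û}: lowering in U keeps a geodesic through U,
   J = ⌈λ/(h1-h0)⌉+1 flips on γ kill the tie, after raising in U a geodesic meets U or is the best U-avoiding path, which meets Û.
   P(Tie) ≤ C(J) √|U|/ℓ · P(Mev) ≤ C P(Mev)/q.  Σ_{c,y0} P(Mev) ≤ C N: slanted cells ℓ×w visited by γ number ≤ C(|γ|/ℓ + 1 + #irr_q/w)
   (look at w consecutive times: all irregular, or jump to the exit of box(γ_i', ℓ)), each cell meets C ℓ pairs (c,y0).  Sum over q ≥ q1: C(λ) N/q1.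
   A6 (sep(c) < w1 for many c ∈ [k-3M'/4,k-M'/2]): special time i = first visit of γ to c with a good square of radius in (w1+C d1, R0] around γ_i and
   ≥ R1/2 hi edges among steps [i,i+R1) (other times are ≤ ηN, K9c).  λ' = λ + 16κR0³, (R1/2)(h1-h0) > λ'.  Barrier at time i := every path 0→x avoiding
   the edges of steps [i,i+R1) has gap > λ'.  Lower the hi edges among those steps (resample lemma, cost G(lo)^-R1): γ stays geodesic, i becomes a barrier,
   and no time in [i - M'/8, i - R2 - R1] is a barrier (R2 = C R0² ≥ i - first hit of the square; detour: δ0 to the square, along the square to γ's first hit,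
   then γ; gap ≤ λ').  Such times number ≤ (R2+R1)(8|γ|/M'+1).  So E #special ≤ C(R1,R0) N/M'.
   Order of constants: η → ρ0 (A9) → q1 depends on λ but λ depends on j0 = C d1²: AVOID this circle by bounding the number of crossings separately:
   first choose j0, ρ0 with E #(steps at cuts crossed ≥ j0 times) ≤ ηN (use an auxiliary scale q0: j0 = C q0^34), then λ, then q1 ≥ q0, then R0,R1, then M'.
A10 multi-slip: cuts k0 + r + jD, j < J = ⌊N/(2D)⌋ - 1, D > 4M.  Good cut: Local_k(M) and every crossing step at another cut k' has ρ < |k-k'| - M (radius in the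
   multi-slipped t'').  Downward induction on time (Sq1 jumps at crossings of bad cuts never touch the columns of good pieces; across a good piece use γ'_k's middle,
   which reads the same weights in t''): T''(0, x+Jε e2) ≤ T + Σ_good Δ_k + Σ_{bad} Σ Zc''.  #spoiled cuts ≤ Σ_steps ρ 1{ρ ≥ D/2}.
   Average over residues r: F(n+Jε) ≤ F(n) + J(F(n+ε)-F(n)) + η' J.
A11: choose n ∈ [1,K] with F(n+1)+F(n-1)-2F(n) ≤ C/K (|F(n+1)-F(n)| ≤ hm e2); F(n+J)+F(n-J)-2F(n) ≥ 2cJ - C(K+1) - C N^(3/4)
   (hm ≥ μ, Tess).  Contradiction for K large, η' small, N large.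
-/
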