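/-!
# Row 151, part B: paper proof that there is no bigeodesic, given differentiability of `mu G` off `0`

TARGET (file `R151/BFinal.lean`, namespace `Crest.Agent.R151`):
`theorem no_bigeo (G : Measure ℝ) [Law G] (hd : ∀ v : ℝ × ℝ, v ≠ 0 → DifferentiableAt ℝ (mu G) v) :
   iidLaw G {t | ∃ v : ℤ → ℤ × ℤ, IsBigeodesic t v} = 0`.
Everything is in finite volume.  P̄ = average of P over (N1,N2) ∈ [N0,2N0)², N0 → ∞ FIRST (limsup), all other parameters fixed.

B0 geometry (NormOK + hd only).  g θ = μ(1,θ), u = deriv g continuous monotone.  S0 = u 1 < μ(0,1); fix S0 < S < S' < S'' < μ(0,1).  For |s| ≤ S'':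
   rho1 s = min_θ (g θ - sθ), ρ(s) = (rho1 s, s), dot ρ(s) v ≤ μ v, Θ(s) = {u = s} = [θ⁻ s, θ⁺ s] ⊂ [-θmax,θmax]; θ⁺ a < θ⁻ b for a<b;
   for σ>0, θ ∈ Θ(s0), Θ-range of [s0-σ,s0+σ] ≤ δ':  μ v - dot ρ(s0) v ≥ σ(|v.2 - θ v.1| - δ'|v.1|);  μ v - dot ρ(s) v ≥ c (-v.1)^+.
   Almost-equality lemma (compactness): ∀ζ ∃ζ': μ(p+q) ≥ μ p + μ q - ζ', c ≤ ‖p‖,‖q‖ ≤ C ⇒ ‖∇μ p - ∇μ q‖ ≤ ζ.  One of σ ∈ {id,neg,swap,neg∘swap} makes ∇μ q = (a,b), a ≥ |b|;
   then q.1 ≥ c‖q‖ and |u(q.2/q.1)| ≤ S0.  Number of grid intervals J of length e with Θ-range of the 100e-neighbourhood > δ' is ≤ C/δ'·(const).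
Fields.  Φ(k,N,b)(x) = TD (strip k N) t x (N,b).  Gd t k N s x = ⨅ z, TD (strip k N) t x (N,z) - s z (x anywhere in the strip), Gf t k N s y = Gd t k N s (k,y).
   Left fields are right fields of `act reflX t` with slope -s.  A.s. the inf is attained by a unique path ('line' F^s_{k,N}(x); Gen with C = sℤ), sub-path property.
   E[Gf(y+1) - Gf(y)] = -s (vertical shift), Gf integrable.
B2 (deterministic, Cross): y1≤y2, z1≤z2 ⇒ TD(y1,z1)+TD(y2,z2) ≤ TD(y1,z2)+TD(y2,z1).  D = Gf α - Gf β (α<β) is monotone in y.  Sandwich for y1≤y2: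
   z^α(y2) ≤ b ⇒ Φ_b(y2)-Φ_b(y1) ≤ Gf α incr;  b ≤ z^β(y1) ⇒ Gf β incr ≤ Φ_b incr.
B3: E TD(strip 0 n)(0,(n,⌊θn⌋)) ≤ nμ(1,θ)+o(n) uniformly in |θ| ≤ θmax (T-geodesic between points ζn inside does not backtrack ζn w.h.p.; connect with local L¹ moves
   (three disjoint paths in three adjacent columns), UI on the bad event); Γ_N(s) = E Gf 0 N s 0 = N rho1 s + o(N); minimisers z^s_N(0) ∈ N[θ⁻s - ζ, θ⁺s + ζ] w.h.p.
B5: ∀ζ ∃ℓ0 ∀ℓ≥ℓ0.. avg_N E|Gf k N s (ℓ) - Gf k N s 0 + sℓ| ≤ ζℓ.  [Gf 0 N y ≤ TD(strip 0 n)((0,y),(n,θn)) + Gf n N (θn); avg_N of E Gf 0 N 0 - E Gf n N 0 = avg(Γ_N - Γ_{N-n}) = n rho1 + o(n),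
   so B = Gf 0 N 0 - Gf n N (θn) ≈ μ(n,θn) in L¹; then Gf(ℓ) - Gf(0) ≤ μ(n,θn-ℓ) - μ(n,θn) + o(n) = -sℓ + o(ℓ), ℓ = ζ'n (differentiability), and the mean is exactly -sℓ.]
B6 Inc(k,N,s,y,ζ,ℓ1): ∀ y', |Gf(y') - Gf(y) + s(y'-y)| ≤ ζ(|y'-y| + ℓ1).  ∀ζ,p ∃ℓ1: avg_N P(¬Inc) ≤ p (maximal inequality for block increments under the vertical shift;
   inside a block use local moves Z_y, P(∃J≥J0 block sum_J > ζJℓ0) small).  Used only for FINITELY many deterministic slopes.
LD event Low(L,ζ): ∀ x ∈ box(0,C L), ∀ z, T x z ≥ μ(z-x) - ζ(‖z-x‖+L); probability → 1 (toolkit LD).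
B1: if P(bigeodesic) > 0 then p0 = P(bigeodesic with v 0 = 0) > 0 and ∀ε>0, ∀N0 large, ∀ N1,N2 ∈ [N0,2N0): P(W0) ≥ p0/8, W0 = ∃ a b Γ, IsGeo univ Γ from A=(-N1,a) to B=(N2,b), In strip (-N1) N2,
   through (0,0), slopes u(b/N2), u(-a/N1) ∈ [-S,S] within ε/2 of each other.  (Exit points at scale N0, Up on good squares crossed by the bigeodesic, lower tail, B0, symmetry.)
B4 mid lemma.  Cut = horizontal edges between columns 0 and 1; left strip (-N1,0), right strip (1,N2).  x⁺ = LAST visit of Γ to column n, height w: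
   cost(0→x⁺) = T(0,B) - Φ(n,N2,b)(w) ≤ T(0,(n,0)) + (S''+ζ)|w| + ζn (sandwich with slopes ±S'', Inc) and ≥ μ(0,1)|w| - Cn ⇒ cost ≤ Cn ⇒ Γ[0,x⁺] ⊂ box(Cn).  Same on the left.
   So w.h.p. (m large) the part of Γ between its first and last crossing of the cut lies in box((0,y),m).  W(y;m) := such Γ (slopes taken relative to (0,y)), first crossing from (0,yf), last crossing edge e* into (1,yl).
   η-gap: W^η = W and every path A→B avoiding e* costs ≥ cost Γ + η.  W is preserved by lowering t(e*); if t+η·1_{e} ∈ W_e then t ∈ W^η_e, so sections of W_e \ W^η_e in t(e) have diameter ≤ η: P ≤ C m² omg(η).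
   Fine index i: both slopes in [(i-1)ε,(i+1)ε]; α_i=(i-2)ε, β_i=(i+2)ε.  W_i(y) always includes mid-in-box and η-gap.  P̄(∪_i W_i(0)) ≥ p1.
B7 budget.  Gap_i(y;R,K,Y): ∃ a b (index i relative to y), yf,yl ∈ [y-m,y+m], ∀ y' with R<|y'-y|≤Y, yf',yl' ∈ [y'-m,y'+m]:
   Φ^L_a(yf')+M_{y'}(yf',yl')+Φ^R_b(yl') ≥ Φ^L_a(yf)+M_y(yf,yl)+Φ^R_b(yl)+K,  M_y = TD(box((0,y),m)) (0,yf) (1,yl) [quantify only over pairs joined in the box].  Two gapped heights more than R+2m apart force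
   D^L incr + D^R incr ≥ 2K (mid terms cancel; sandwich holds w.h.p. as N0→∞ by B3).  E D incr = 4ε·length.  So P̄(∃y∈[0,H) Gap_i(y)) ≤ C(R+H+m+1)(ε/K+1/Y)+o(1).
   W_i(y) ⇒ Gap_i(y;2m+1,η,Y) ⇒ P̄(W_i(0)) ≤ C m ε/η: slope law has bounded density; any union of grid intervals of total length λ carries ≤ C m λ/η.
Directedness (B-dir): slopes in [α0,β0], deterministic, Θ-range of the neighbourhood ≤ δ.  o on Γ near the cut, x = last visit to column n, w0 = y+θn:
   cost(o→x) ≤ T(õ,(n,w0)) + Φ(w0)-Φ(w) (UpTo via a good square around o crossed by Γ earlier), sandwich+Inc at α0,β0 ⇒ |w-w0| ≤ 2δ n w.h.p. as n→∞.  Same to the left with first visits.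
   Between grid columns spaced δ'L the cost is ≤ Cδ'L (Up), so Γ stays in a tube of half-width Cδ'L.
B8 coalescence (Licea-Newman by LOWERING), uniformly in |s| ≤ S': ∀h,ζ ∃j,C: avg_N P(lines from (1,y),(1,y'), |y-y'|≤h, do not meet before their first visits to column j, or leave [1,j]×[y-Cj,y+Cj] before) ≤ ζ.
   w_k(y) = height of the FIRST visit of F_{k,N}(k,y) to column j; monotone in y (Cross + uniqueness), equal iff met.  top: w(y+1)>w(y).  P_k = range of w_k, d_k = P(0∈P_k) = P(0 is a top) (mass transport; w(y)→∞).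
   Line control w.h.p. (Inc at ±S'' + monotone D + Low): last visit to column k+n within Cn, cost ≤ Cn, no return to columns ≤ k* after reaching column j ≫ k* ('nb').
   P_k^{nb} ⊂ P_{k+k0}.  If d_k ≥ ζ/2: with prob ≥ ζ/8 a window of height Λ=8/ζ·2 has y1<y2<y3 with distinct w; lower the hi edges among the first m0 < k0 steps of g1 (gain > 2 Z0, Z0 = bound for moves inside the
   window in columns [k,k+2]); then w2 ∈ P'_{k+k0} = P_{k+k0} but ∉ P'^{nb}_k: an nb line F' ending its prefix at (j,w2) must touch g1∪g3 (y outside [y1,y3]: Cross; inside: the gain forces a lowered edge),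
   after its last touch it reads unmodified weights and is t-optimal, so it IS g1 or g3 from there: w2 = w1 or w3, false.  The class of w2 at level k+k0 lies between the last visits of g1,g3 (within Ck0), so it has a top in a
   window of size Ck0: density of new points ≥ c'(ζ).  d_{k+k0} ≥ d_k + c' - err(N).  Iterate ⌈2/c'⌉ times, d ≤ 1: d_1(N) < ζ for all N with small err(N).
B9 near-tie: for fixed s,x,e: P(|best Gd-path from x through e - best avoiding e| ≤ η') ≤ omg(η') (section lemma).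
B-follow (deterministic): if D_i^R(y+H') - D_i^R(y-H') < η', H' = C'n', sandwich, line control, no near-tie for (x,e) ∈ window×Λ, then Γ's right part from (1,yl) coincides with F^{α_i}(1,yl) until it leaves Λ:
   F^α(y+H') ends at or below B so it meets Γ^R; c = first point of Γ^R on it; c ∉ Λ (cost of coming down H' is ≥ μ(0,1)H' - Cn' but Gd(y2)-Gd(c) ≤ (S''+ζ)H'+Cn');
   slack of Γ[y,c]+F^α[c,·] ≤ G^α incr - Φ_b incr ≤ D incr < η'.
B10 pairs.  ι_H = P̄(∃i, 4m+1<|y'|≤H, W_i(0)∧W_i(y')) → 0 as ε→0 (H fixed).  Pair ⇒ D_i^L incr ≥ η or D_i^R incr ≥ η on [-H-m,H+m]; by reflX assume L.  Left/right fields are independent,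
   Σ_i P(D_i^L ≥ η) ≤ C H/η.  So up to (C H/η)·(εH'/η' + |Λ|·H omg η' + B8 error + line control) both Γ's follow F^{α_i} lines which meet inside Λ_{n'}: event TypeL_i(0; n').
   Kill TypeL: move the cut to column j ∈ [n,2n) (P̄ is shift invariant up to n/N0).  With δ-directedness (intermediate grid ε2; bad intervals carry ≤ C m ε2/(ηδ)), first visits w1,w2 of Γ1,Γ2 to column 0:
   route A1→(0,w2)→Γ2→merge point→Γ1→B1 avoids e1*, and symmetrically, so 2η ≤ D_i^{L,cut 0} incr on the deterministic window 3I (|I| = δn·C tiling) around y-θ_i j: event E_{i,I}, P ≤ Cεδn/η.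
   On E_{i,I}, up to errors (εn/η' + poly(n) omg η', independent of the left; i-independent line control is charged to P(∃i)), every index-i Γ whose last crossing of cut 0 is in 5I follows an F^{α_i}_{1,N2} line through the box of size Cn.
   The lines from 7I form a successor forest: #merge vertices ≤ 7|I|; each serves ≤ C n'² positions (j,y).  So n|I| P̄(TypeL_i, directed) ≤ (Cεδn/η) C n'² |I| ⇒ Σ_i ≤ Cδ n'²/η.  Order: n', δ, ε2, n, η', ε.
B11 tube.  Coarse grid ε1, good J (100ε1-neighbourhood has Θ-range ≤ δ' = Mε1), centre s0, θ ∈ Θ(s0), σ = 100ε1, some good J has P̄(W^J(0)) ≥ c p1 ε1.  H = ⌊δ'L⌋, U = edges of the tube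
   {m+2 ≤ x.1 ≤ L, |x.2 - θ x.1| ≤ C δ' L}, |U| ≤ Cδ'L², τ = |U|^(-1/2), coupling t → t' (toolkit Coup), K = c δ'^(-1/2).  For t ∈ W_i(y), y ∈ [0,H), i ∈ J, on i-independent good events: Γ's columns [m+2,L] part is in the tube with ≥ L/4 hi edges,
   ≥ K/(h1-h0) flips w.p. ≥ 1/2.  A competitor from height y', |y'-y| > V = M2δ'L, either avoids U (t'-cost = t-cost ≥ cost Γ) or meets U at x; with x' = (2L,w') its last visit to column 2L:
   slack ≥ ex(x-o') + ex(x'-x) - 3ε1(|y'-y|+|w'-w0|) - o(L) ≥ cσ M2 δ' L (ex = μ - ρ(s0); Low holds in t' because the law of t' has density in L⁴; Φ^L, Φ^{(2L)} do not read U; Inc at the ends of J).  So t' ∈ B_i = ∃y∈[0,H) Gap_i(y;V,K,Y).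
B12 Gap lemma (toolkit): E min(n,H) ≤ C H^(1/4)(Σ_i P(B_i))^(3/4), n = #{i ∈ J : ∃y∈[0,H) W_i(y), good}.  E min(n,H) ≥ (H P(W^J) - Hι_H - H P(bad))/(8m+4) ≥ c ε1 H;  Σ_i P̄(B_i) ≤ C ε1 M2 H/K + small (Y ≫ LK/ε).
   So c ε1 ≤ C(ε1 M2/K)^(3/4) = C' ε1^(9/8): false for ε1 small.  Order of constants: p0 → m, η → M, M2 → ε1 → L → (n',δ,ε2,n,η') → ε → Y → N0.  (Jensen for the average over (N1,N2).)
-/
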