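/-!
# Row 151, part C: paper proof that `{mu ≤ 1}` is strictly convex for exponential weights

TARGET (file `R151/CFinal.lean`, namespace `Crest.Agent.R151`):
`theorem strict_exp (r : ℝ) (hr : 0 < r) (hd : ∀ v : ℝ × ℝ, v ≠ 0 → DifferentiableAt ℝ (mu (gammaMeasure 1 r)) v) :
   StrictConvex ℝ {v : ℝ × ℝ | mu (gammaMeasure 1 r) v ≤ 1}`.
`G = gammaMeasure 1 r` is a `Law` (toolkit `Link`).  Use `R151/Defs.lean` and the toolkit files
`R151/T*.lean` (PathOps, Meas, Sym, Indep, Kesten, Cross, Mom, Mu, Conc, Tess, LD, Peierls ...).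

NOTATION.  `μ = mu G` (NormOK).  Suppose not strictly convex.  C0 (pure convex geometry, uses `hd`,
NormOK symmetries): after possibly swapping coordinates (μ is swap-symmetric so nothing has to be
transported) there are `ρ`, `θ1 < θ2` finite with `dot ρ v ≤ μ v` for all v, `μ (1,θ) = dot ρ (1,θ)`
exactly for `θ ∈ [θ1,θ2]` (maximal face), `|ρ.2| < μ (0,1)`, and
`μ v - dot ρ v ≥ c‖v‖` whenever `v.1 ≤ 0` or `|v.2| ≥ K0 v.1`.  (If the face contained both axis
directions there would be a corner at an axis.)  `X(γ) = tot γ - dot ρ (end - start)` (excess; additive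
along paths).  `ψ2(u) = μ(1,θ2+u) - dot ρ (1,θ2+u)`, convex, ψ2(0)=0, strictly increasing, → ∞;
`φ2 = ψ2⁻¹` on [0,∞), continuous, φ2(0)=0.  Same `ψ1(u)` at `θ1-u`.  The θ1 side is the mirror image of
the θ2 side under `reflY` (face [-θ2,-θ1], ρ' = (ρ.1,-ρ.2)): state every one-sided lemma for a general
face datum and apply it twice.
`dom v = rect 0 v.1 (-K v.1) (K v.1)`, `fh v = E TD (dom v) 0 v - dot ρ v ≥ 0` (E T ≥ μ ≥ ρ).
fh is subadditive for vectors with |slope| ≤ K (domains nest), translation invariant.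
Bands: V1 = slopes in [θ1+δ,θ1+2δ], V2 = slopes in [θ2-2δ,θ2-δ], δ small.
`U j = max {fh v : v ∈ V1 ∪ V2, 2^j ≤ v.1 < 2^(j+1)}`, `M j = max_{j' ≤ j} U j'`.
C1 interior vectors: any lattice v with slope in [θ1+2δ,θ2-2δ], 2^j ≤ v.1 < 2^(j+1), j large, is v'+v''
   with v' ∈ V1, v'' ∈ V2 up to O(1) rounding (absorbed in the bands by aiming at the band middles),
   so fh v ≤ 2 M j (+C).
C2 a priori: fh v ≤ C |v|^(9/10) on the bands.  (x̃ = point at distance ℓ' = |v|^0.9 inside along v, same
   at the end; T(x̃,z̃) geodesic cannot backtrack ℓ' columns or leave the height range since that costs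
   c ℓ' in μ-ρ excess while T ≤ μ + |v|^0.8 (Tess + E|T-h| bound + Markov) and lower tails (LD or local
   lower tail) hold; connect by straight staircases of mean cost C ℓ'; on the bad event (prob ≤ |v|^-0.2)
   use a staircase and Cauchy-Schwarz.)
   Envelope: fix α' = 0.95, `Ub i = sup_{i'} U i' * 2^(-α' (i'-i)^+)` finite, monotone, `Ub (i+1) ≤ 2^α' Ub i`,
   `M (i+k) ≤ 2^(α' k) Ub i`, `Ub i ≤ C 2^(0.95 i)`.
C3 IHR (needs log-concavity of Exp; `Lib/PL/PrekopaLeindler`): Z = min over a finite nonempty family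
   of paths of tot (a concave function of finitely many weights) ⇒ t ↦ P(Z ≥ t) is log-concave ⇒ if
   P(Z ≤ a) ≥ p, P(Z ≤ b) ≤ p/2, b<a then E Z ≤ a + (2/p)(a-b)   [S(a)/S(b) ≤ 1-p/2, iterate].
C4 two copies: E X^+ ≤ C M(j+C)+C for Z = TD(dom v) 0 v - ρ·v, v in a band or interior, scale j.
   Two vertically disjoint translates of dom v give iid X1,X2; connect a deterministic p0 (columns left)
   to the better start and its end to a deterministic p1 (columns right) by interior vectors, the link
   between column blocks being ONE horizontal edge (so all blocks read disjoint edge sets and are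
   independent); E T(p0,p1) ≥ ρ·(p1-p0) gives E min(X1,X2) ≥ -2·2M-C, hence E|X1-X2| ≤ C M,
   E|X1 - E X1| ≤ E|X1-X2|.
C5 pinning lemma.  R = rect 0 L' (-L'') L''.  A = {some path inside R from its own leftmost column a to
   its own rightmost column b ('crossing path': starts in column a, ends in column b, stays in columns
   [a,b]) has X ≤ -Kc}.  Step 1: a* = LARGEST a admitting such a path; {a*=a, selected start y*} depends
   only on edges in columns ≥ a; connect p0 = -C L'(1,θmid) to (a-1,y*) (interior vector, columns ≤ a-1,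
   X^+ ≤ 8U^+ with cond. prob ≥ 7/8) + one edge.  Step 2: b* = SMALLEST b such that there is a path from
   p0 ending in column b, staying in columns ≤ b (and in a big box), X ≤ -Kc + 8U^+ + C; depends on columns ≤ b;
   connect to p1 likewise.  So P(Zpinned ≤ -Kc + C U^+) ≥ P(A)/2.  (State it once, with general
   windows for start and end points, so that C8 can reuse it with W×W windows and connections of scale W.)
C6 nucleation.  Zpinned has E Z ≥ 0, E Z^+ ≤ U^+ ⇒ P(A(L',Kc)) ≤ 1/4 for Kc = C M(log L' + C).  A region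
   of size kL' contains k² disjoint translates of the region of size L' (independent) ⇒
   P(A(L', C k^α' Ub)) ≤ 1/k².  Loops/backward pieces: for pairs x,z in the region with z.1 ≤ x.1,
   or both in one column: P(max (ρ·(z-x) - T x z) ≥ C log L + y) ≤ e^{-c y} (toolkit LD: exponential lower
   deviations, μ-ρ ≥ c‖v‖ there).  Any path x→z with z.1 ≥ x.1 = loop at column x.1 (up to the last visit
   of column x.1 before the first hit of column z.1) + crossing path + loop at column z.1.  So for
   Y(L) = max over ALL paths in a box of size C L of (-X): P(Y ≥ C k^α' Ub_i + C log L) ≤ C/k², E Y ≤ C Ub_i.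
C7 lower bound M j ≥ c j: a staircase of H = c j steps in direction θmid with all weights tiny has
   probability ≥ 2^(-j/2) and X ≤ -c H; it is a crossing path; C6 with k² ≈ 2^(j/2)·C.  Hence Ub_i ≥ c i
   (absorbs the log L in C6).
C8 bad box.  L = 2^i, η_i = Ub_i/2^i (η_{i+1} ≤ 2^(α'-1) η_i), u0 = φ(η_i), axis θa = θ2+u0,
   dev v = v.2 - θa v.1, B = i^C1, a_i = φ(Bη_i) - φ(η_i), w_i = max(a_i^(1), a_i^(2), i^-2), W = w_i L.
   Claim: P(some path in a box of size C L has X ≤ i^3 Ub_i and [dev ≥ Mw W or backtrack ≥ W]) ≤ i^-20.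
   Loops/backward pieces that are cheap have displacement ≤ C i^3 Ub ≪ W (LD, Y bound).  For crossing
   pieces: union over (C L/W)^4 ≤ C i^8 pairs of W×W windows; if one pair has probability ≥ p = i^-30, pin
   with connections of scale C W (C5), lower quantile P(Z ≤ -2C Ub/p) ≤ p/4 from Z ≥ -Y and Markov,
   IHR ⇒ E Z ≤ C Ub i^3/p² ; but with ρ' supporting μ at slope θa + a_i:
   E Z ≥ (ρ'-ρ)·v ≥ ψ'(dev v - a_i v.1) ≥ ψ' a_i L ≥ (B-1) η_i L = (B-1) Ub_i  when dev v ≥ (C+1) a_i L
   (ψ' = slope of ρ'-ρ in the second coordinate, ψ' a ≥ ψ(u0+a) - ψ(u0)).  Contradiction for C1 large.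
C9 thin tube with constant probability.  N = L^10, n = N/L, x = (N, ⌊θa N⌋), γ = geo t 0 x.
   E X(γ) ≤ N η + C N^(3/4) ≤ 2 n Ub (Tess).  Cut γ at first hits τ_j of columns jL: segments S_j.
   Σ_j X(S_j)^- ≤ C n Ub in mean: local segments (inside box(γ_{τ_j}, C L)) have X ≥ -Y(cell); layer-cake
   with local events {Y ≥ y Ub} of probability y^(-2/α') and the toolkit bound
   E max over paths of length ≤ C N of nbad ≤ C (n+1) √p  (Σ dyadic y·y^(-1/α') converges);
   non-local segments have X ≥ 0 except on cells where the local lower tail fails (prob L^-100);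
   {|γ| > C1|x|} costs E[|γ|;..] ≤ C N^(3/5).  So Σ X(S_j)^+ ≤ C n Ub; fraction of segments with
   X ≥ i^3 Ub is ≤ C i^-3 and such a segment has |dev| ≤ C(L + X) (lower tail / Kesten), total ≤ C n W;
   fraction of segments in bad boxes (C8) ≤ C i^-10, each dev ≤ C L = C W/w.  So Σ_j D_j^+ ≤ C n W with
   probability ≥ 9/10, D_j^+ = max dev over sub-paths of S_j.  Total dev = O(1) ⇒ Σ |net dev_j| ≤ C n W and
   inward deviation of a sub-path ≤ -net dev + 2 D^+.  So ≥ n/2 segments are cheap (X ≤ C Ub after adding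
   2Y), confined (|dev| ≤ C W for all sub-paths) and backtrack ≤ W.  Windows h_j = ⌊dev(γ_{τ_j})/W⌋ form a
   chain (j,h_j) with total variation ≤ C n; chain Peierls (toolkit K9a) ⇒ the canonical tube event
   (crossing path of strip 0 L inside |dev| ≤ C W, X ≤ C Ub, backtrack ≤ W; cells are lattice translates
   up to rounding) has probability ≥ c0.
C10 pin both ends (columns are deterministic now, connections of scale C W, single edges): family 𝓕 = self-avoiding
   paths p0→p1 in the tube |dev| ≤ C3 W with backtrack ≤ C3 W (finite family); IHR + Z ≥ -Y ⇒ E Z ≤ C Ub_i.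
   Γ = selected optimal member of 𝓕.
C11 recursion.  v ∈ V2 at scale j, v = v0 + h, v0 ∈ V1, h of slope θa up to rounding,
   v0.1/v.1 ∈ [cδ, 1/4], so v0 has scale in [j-κ, j-2].  Need v0.1 ≥ C4 W.  a_l = a_0 + l h above the
   tube, b_l = a_l + v0 below it, l = 0..m, m = ⌊(L - C v.1)/h.1⌋, g_l = optimal path in a_l + dom v0.
   Portion of Γ from its LAST visit to column a_l.1 to the first hit of column b_l.1 after that: crossing
   lemma (Cross) gives a common point c_l with g_l.  The path a_l → c_l (g_l), c_l → c_{l+1} (Γ),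
   c_{l+1} → b_{l+1} (g_{l+1}) lies in a_l + dom v (Γ backtracks < v0.1).  Sum over l:
   m fh v ≤ (m+1) fh v0 + E X(Γ) + 4 E Y  ⇒  fh v ≤ fh v0 + C Ub_i/m.  Mirror for v ∈ V1.
C12 numbers.  i(j) = max{i : C w_{i'} 2^{i'} ≤ 2^j for all j ≤ i' ≤ i}, ε_j = 2^(j-i(j)); w_i → 0;
   i(j)-j ≤ 3 log j; i(·) monotone; Σ_{i≤I} a_i = o(log I) (a_i ≤ φ(η_{i-r})-φ(η_i), r = C log i, telescoping
   increments are summable); Σ_{j: i(j)+1=i*} ε_j ≤ 4 C w_{i*} ⇒ Σ_{j≤J} ε_j = o(log J).
   M j ≤ M (j-1) + C ε_j Ub(i(j)).  Bootstrap: Ub(i(j)) ≤ ε_j^(-α') Ub j ⇒ M j ≤ M(j-1) + C ε_j^(1-α') Ub(j-1);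
   small sup ε ⇒ Ub j ≤ 2 M j for j ≥ j0; then M(i(j)) ≤ C M(j-1) because Σ_{l=j}^{i(j)} ε_l^(1-α') ≤ C
   (ε_l ≤ 2^(l-i(j))); so M j ≤ M(j-1)(1 + C ε_j), log M J = o(log J), contradicting C7.
-/
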