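import Crest.Agent.R151.TMom

/-! Row 151 toolkit: good squares. -/

set_option autoImplicit false

namespace Crest.Agent.R151

open MeasureTheory ProbabilityTheory Crest.ProbabilityR.FirstPassage
open scoped Classical

variable (G : Measure ℝ)

/-- parametrisation of the edges of the square circuit -/
def sqEdge (c : V) (r : ℕ) (p : Fin 4 × ℤ) : Sym2 V :=
  if p.1 = 0 then s((c.1 + p.2, c.2 + r), (c.1 + p.2 + 1, c.2 + r))
  else if p.1 = 1 then s((c.1 + p.2, c.2 - r), (c.1 + p.2 + 1, c.2 - r))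
  else if p.1 = 2 then s((c.1 + r, c.2 + p.2), (c.1 + r, c.2 + p.2 + 1))
  else s((c.1 - r, c.2 + p.2), (c.1 - r, c.2 + p.2 + 1))

theorem exists_sqEdge (c : V) {r : ℕ} {x y : V} (h : Adj x y) (hx : nrm (x - c) = r)
    (hy : nrm (y - c) = r) :
    ∃ p ∈ (Finset.univ : Finset (Fin 4)) ×ˢ Finset.Ico (-(r : ℤ)) r, sqEdge c r p = s(x, y) := by
  obtain ⟨x1, x2⟩ := x
  obtain ⟨y1, y2⟩ := y
  obtain ⟨c1, c2⟩ := c
  rw [adj_iff] at h
  simp only [nrm, Prod.fst_sub, Prod.snd_sub] at hx hy h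
  simp only [Finset.mem_product, Finset.mem_univ, true_and, Finset.mem_Ico, Prod.exists]
  rcases h with ⟨h1, h2 | h2⟩ | ⟨h1, h2 | h2⟩
  · by_cases g : x1 = c1 + r
    · refine ⟨2, x2 - c2, by omega, ?_⟩
      simp only [sqEdge, Fin.reduceEq, if_false, if_true, Sym2.eq_iff, Prod.mk.injEq]
      omega
    · refine ⟨3, x2 - c2, by omega, ?_⟩
      simp only [sqEdge, Fin.reduceEq, if_false, Sym2.eq_iff, Prod.mk.injEq]
      omega
  · by_cases g : x1 = c1 + r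
    · refine ⟨2, y2 - c2, by omega, ?_⟩
      simp only [sqEdge, Fin.reduceEq, if_false, if_true, Sym2.eq_iff, Prod.mk.injEq]
      omega
    · refine ⟨3, y2 - c2, by omega, ?_⟩
      simp only [sqEdge, Fin.reduceEq, if_false, Sym2.eq_iff, Prod.mk.injEq]
      omega
  · by_cases g : x2 = c2 + r
    · refine ⟨0, x1 - c1, by omega, ?_⟩
      simp only [sqEdge, if_true, Sym2.eq_iff, Prod.mk.injEq]
      omega
    · refine ⟨1, x1 - c1, by omega, ?_⟩
      simp only [sqEdge, Fin.reduceEq, if_false, if_true, Sym2.eq_iff, Prod.mk.injEq]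
      omega
  · by_cases g : x2 = c2 + r
    · refine ⟨0, y1 - c1, by omega, ?_⟩
      simp only [sqEdge, if_true, Sym2.eq_iff, Prod.mk.injEq]
      omega
    · refine ⟨1, y1 - c1, by omega, ?_⟩
      simp only [sqEdge, Fin.reduceEq, if_false, if_true, Sym2.eq_iff, Prod.mk.injEq]
      omega

theorem conn_sq_corner (c : V) {r : ℕ} {y : V} (hy : nrm (y - c) = r) :
    Conn {x | nrm (x - c) = r} y (c.1 + r, c.2 + r) := by
  obtain ⟨y1, y2⟩ := y
  obtain ⟨c1, c2⟩ := c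
  have top : rect (c1 - r) (c1 + r) (c2 + r) (c2 + r) ⊆ {x | nrm (x - (c1, c2)) = r} := by
    rintro ⟨x1, x2⟩ h
    simp only [rect, nrm, Set.mem_ofPred_eq, Prod.fst_sub, Prod.snd_sub] at h ⊢
    omega
  have bot : rect (c1 - r) (c1 + r) (c2 - r) (c2 - r) ⊆ {x | nrm (x - (c1, c2)) = r} := by
    rintro ⟨x1, x2⟩ h
    simp only [rect, nrm, Set.mem_ofPred_eq, Prod.fst_sub, Prod.snd_sub] at h ⊢
    omega
  have rig : rect (c1 + r) (c1 + r) (c2 - r) (c2 + r) ⊆ {x | nrm (x - (c1, c2)) = r} := by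
    rintro ⟨x1, x2⟩ h
    simp only [rect, nrm, Set.mem_ofPred_eq, Prod.fst_sub, Prod.snd_sub] at h ⊢
    omega
  have lef : rect (c1 - r) (c1 - r) (c2 - r) (c2 + r) ⊆ {x | nrm (x - (c1, c2)) = r} := by
    rintro ⟨x1, x2⟩ h
    simp only [rect, nrm, Set.mem_ofPred_eq, Prod.fst_sub, Prod.snd_sub] at h ⊢
    omega
  simp only [nrm, Prod.fst_sub, Prod.snd_sub] at hy
  by_cases g1 : y2 = c2 + r
  · refine (conn_rect ?_ ?_).mono top
    · simp only [rect, Set.mem_ofPred_eq]; omega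
    · simp only [rect, Set.mem_ofPred_eq]; omega
  by_cases g2 : y1 = c1 + r
  · refine (conn_rect ?_ ?_).mono rig
    · simp only [rect, Set.mem_ofPred_eq]; omega
    · simp only [rect, Set.mem_ofPred_eq]; omega
  by_cases g3 : y2 = c2 - r
  · refine Conn.trans (y := (c1 + r, c2 - r)) ((conn_rect ?_ ?_).mono bot)
      ((conn_rect ?_ ?_).mono rig)
    all_goals (simp only [rect, Set.mem_ofPred_eq]; omega)
  · refine Conn.trans (y := (c1 - r, c2 + r)) ((conn_rect ?_ ?_).mono lef)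
      ((conn_rect ?_ ?_).mono top)
    all_goals (simp only [rect, Set.mem_ofPred_eq]; omega)

theorem Pr_not_goodSq [Law G] (c : V) {r : ℕ} (hr : 1 ≤ r) :
    Pr G {t | ¬ GoodSq G t c r} ≤ 1 / 2 := by
  have hk := (kap_spec G).2 r hr
  have hr' : (0 : ℝ) < r := by exact_mod_cast hr
  have h := Pr_le_card_mul G ((Finset.univ : Finset (Fin 4)) ×ˢ Finset.Ico (-(r : ℤ)) r)
    (A := {t | ¬ GoodSq G t c r})
    (fun p => {t : Env | t (sqEdge c r p) ∈ Set.Ioi (kap G * (r : ℝ) ^ 2)}) (p := 1 / (16 * r))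
    (Filter.Eventually.of_forall ?_) ?_
  · have hc : (((Finset.univ : Finset (Fin 4)) ×ˢ Finset.Ico (-(r : ℤ)) r).card : ℝ) = 8 * r := by
      rw [Finset.card_product, Finset.card_univ, Fintype.card_fin, Int.card_Ico]
      have : ((r : ℤ) - -(r : ℤ)).toNat = 2 * r := by omega
      rw [this]; push_cast; ring
    rw [hc] at h
    refine h.trans (le_of_eq ?_)
    field_simp
    norm_num
  · intro t ht
    simp only [Set.mem_ofPred_eq, GoodSq] at ht
    push Not at ht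
    obtain ⟨x, y, hxy, hx, hy, hlt⟩ := ht
    obtain ⟨p, hp, he⟩ := exists_sqEdge c hxy hx hy
    exact ⟨p, hp, by simpa only [Set.mem_ofPred_eq, he, Set.mem_Ioi] using hlt⟩
  · intro p _
    rw [Pr_eval G _ measurableSet_Ioi]
    exact hk

theorem Pr_noSq [Law G] (c : V) (a b : ℕ) : Pr G (NoSq G c a b) ≤ (1 / 2) ^ (b - a) := by
  have he : NoSq G c a b = ⋂ r ∈ Finset.Ioc a b, {t | GoodSq G t c r}ᶜ := by
    ext t
    simp only [NoSq, Set.mem_ofPred_eq, Set.mem_iInter, Finset.mem_Ioc, Set.mem_compl_iff, and_imp]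
  rw [he, Pr_biInter_of_dep G (Finset.Ioc a b) (S := fun r => LE {x | nrm (x - c) = r})]
  · calc ∏ r ∈ Finset.Ioc a b, Pr G {t | GoodSq G t c r}ᶜ
        ≤ ∏ _r ∈ Finset.Ioc a b, (1 / 2 : ℝ) := by
          refine Finset.prod_le_prod (fun r _ => Pr_nonneg G _) (fun r hr => ?_)
          have hr1 : 1 ≤ r := by have := (Finset.mem_Ioc.1 hr).1; omega
          exact Pr_not_goodSq G c hr1
      _ = (1 / 2) ^ (b - a) := by rw [Finset.prod_const, Nat.card_Ioc]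
  · intro i _ j _ hij
    refine Set.disjoint_of_subset (LE_subset_ED _) (LE_subset_ED _) (disjoint_ED ?_)
    rw [Set.disjoint_left]
    intro x hx hx'
    exact hij (hx.symm.trans hx')
  · intro r _
    exact (measurableSet_goodSq G c r).compl
  · intro r _
    exact (dep_goodSq G c r).compl

/-- some centre in `F` has no good square with radius in `(a,b]` -/
theorem Pr_noSq_exists [Law G] (F : Finset V) (a b : ℕ) :
    Pr G {t | ∃ c ∈ F, t ∈ NoSq G c a b} ≤ F.card * (1 / 2) ^ (b - a) :=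
  Pr_le_card_mul G F (fun c => NoSq G c a b) (Filter.Eventually.of_forall fun _ h => h)
    (fun c _ => Pr_noSq G c a b)

theorem ae_exists_goodSq [Law G] :
    ∀ᵐ t ∂(iidLaw G), ∀ (c : V) (a : ℕ), ∃ r, a < r ∧ GoodSq G t c r := by
  rw [ae_all_iff]
  intro c
  rw [ae_all_iff]
  intro a
  rw [ae_iff, ← Pr_eq_zero_iff]
  refine le_antisymm ?_ (Pr_nonneg G _)
  have hlim : Filter.Tendsto (fun k : ℕ => (1 / 2 : ℝ) ^ k) Filter.atTop (nhds 0) :=
    tendsto_pow_atTop_nhds_zero_of_lt_one (by norm_num) (by norm_num)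
  refine ge_of_tendsto' hlim (fun k => ?_)
  have h := Pr_noSq G c a (a + k)
  rw [Nat.add_sub_cancel_left] at h
  refine le_trans (Pr_mono G ?_) h
  intro t ht r har _ hg
  exact ht ⟨r, har, hg⟩

/-- two points of the square circuit are joined along the circuit -/
theorem exists_arc (c : V) {r : ℕ} (hr : 1 ≤ r) {y y' : V} (hy : nrm (y - c) = r)
    (hy' : nrm (y' - c) = r) :
    ∃ γ : Pth, γ.SA ∧ γ.Joins {x | nrm (x - c) = r} y y' ∧ γ.n ≤ 8 * r := by
  obtain ⟨γ, hγ⟩ := (conn_sq_corner c hy).trans (conn_sq_corner c hy').symm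
  obtain ⟨δ, hδ, hs, -, -, -⟩ := hγ.exists_sa
  refine ⟨δ, hs, hδ, ?_⟩
  have hsub : boxF c (r - 1) ⊆ boxF c r := by
    intro x hx
    rw [mem_boxF] at hx ⊢
    exact box_mono c (Nat.sub_le r 1) hx
  have h := hs.succ_le_card (F := boxF c r \ boxF c (r - 1)) (hδ.2.1.mono ?_)
  · rw [Finset.card_sdiff_of_subset hsub, card_boxF, card_boxF] at h
    obtain ⟨m, rfl⟩ : ∃ m, r = m + 1 := ⟨r - 1, by omega⟩
    simp only [Nat.add_sub_cancel] at h
    have : (2 * (m + 1) + 1) ^ 2 = (2 * m + 1) ^ 2 + 8 * (m + 1) := by ring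
    omega
  · intro x hx
    simp only [Set.mem_ofPred_eq] at hx
    simp only [Finset.coe_sdiff, coe_boxF, Set.mem_sdiff, box, Set.mem_ofPred_eq]
    omega

theorem GoodSq.exists_arc [Law G] {t : Env} {c : V} {r : ℕ} (hg : GoodSq G t c r) (hr : 1 ≤ r)
    {y y' : V} (hy : nrm (y - c) = r) (hy' : nrm (y' - c) = r) :
    ∃ γ : Pth, γ.SA ∧ γ.Joins {x | nrm (x - c) = r} y y' ∧ γ.n ≤ 8 * r ∧
      γ.tot t ≤ 8 * kap G * (r : ℝ) ^ 3 := by
  obtain ⟨γ, hs, hj, hn⟩ := Crest.Agent.R151.exists_arc c hr hy hy'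
  refine ⟨γ, hs, hj, hn, ?_⟩
  have hk := one_le_kap G
  have h1 : γ.tot t ≤ ∑ _i ∈ Finset.Ico 0 γ.n, kap G * (r : ℝ) ^ 2 := by
    unfold Pth.tot Pth.cost
    refine Finset.sum_le_sum (fun i hi => ?_)
    have hi' := (Finset.mem_Ico.1 hi).2
    exact hg _ _ (hj.1 i hi') (hj.2.1 i hi'.le) (hj.2.1 (i + 1) hi')
  rw [Finset.sum_const, Nat.card_Ico, Nat.sub_zero, nsmul_eq_mul] at h1
  have hn' : (γ.n : ℝ) ≤ 8 * r := by exact_mod_cast hn
  have h0 : 0 ≤ kap G * (r : ℝ) ^ 2 := by positivity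
  calc γ.tot t ≤ γ.n * (kap G * (r : ℝ) ^ 2) := h1
    _ ≤ (8 * r) * (kap G * (r : ℝ) ^ 2) := mul_le_mul_of_nonneg_right hn' h0
    _ = 8 * kap G * (r : ℝ) ^ 3 := by ring

theorem GoodSq.TD_arc [Law G] {t : Env} (ht : NN t) {c : V} {r : ℕ} (hg : GoodSq G t c r)
    (hr : 1 ≤ r) {D : Set V} (hD : {x | nrm (x - c) = r} ⊆ D) {y y' : V} (hy : nrm (y - c) = r)
    (hy' : nrm (y' - c) = r) : Conn D y y' ∧ TD D t y y' ≤ 8 * kap G * (r : ℝ) ^ 3 := by
  obtain ⟨γ, -, hj, -, ht'⟩ := GoodSq.exists_arc G hg hr hy hy'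
  exact ⟨⟨γ, hj.mono hD⟩, (TD_le ht (hj.mono hD)).trans ht'⟩

/-- `Sq1`: from outside the square, a point of the circuit is reached almost as fast as any
point inside -/
theorem GoodSq.sq1 [Law G] {t : Env} (ht : NN t) {c : V} {r : ℕ} (hg : GoodSq G t c r)
    (hr : 1 ≤ r) {D : Set V} (hD : {x | nrm (x - c) = r} ⊆ D) {y0 y y' : V} (hc : Conn D y0 y)
    (h0 : r ≤ nrm (y0 - c)) (hy : nrm (y - c) ≤ r) (hy' : nrm (y' - c) = r) :
    Conn D y0 y' ∧ TD D t y0 y' ≤ TD D t y0 y + 8 * kap G * (r : ℝ) ^ 3 := by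
  have key : ∀ γ : Pth, γ.Joins D y0 y →
      Conn D y0 y' ∧ TD D t y0 y' ≤ γ.tot t + 8 * kap G * (r : ℝ) ^ 3 := by
    intro γ hγ
    obtain ⟨k, -, hk, hl⟩ := exists_level (fun i => (nrm (γ.p i - c) : ℤ)) (Nat.zero_le γ.n)
      (fun k _ _ => hγ.1.nrm_step c k) (r : ℤ) (Or.inr (by
        simp only [hγ.2.2.1, hγ.2.2.2]
        exact ⟨by exact_mod_cast hy, by exact_mod_cast h0⟩))
    have hl' : nrm (γ.p k - c) = r := by exact_mod_cast hl
    have c1 : Conn D y0 (γ.p k) := by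
      have := Pth.conn_of_in hγ.1 hγ.2.1 (Nat.zero_le _) hk
      rwa [hγ.2.2.1] at this
    obtain ⟨c2, h2⟩ := GoodSq.TD_arc G ht hg hr hD hl' hy'
    refine ⟨c1.trans c2, ?_⟩
    have h3 : TD D t y0 (γ.p k) ≤ γ.tot t := by
      have := TD_le_cost ht (D := D) hγ.1 (Nat.zero_le k) hk
        (fun i _ hi => hγ.2.1 i (hi.trans hk))
      rw [hγ.2.2.1] at this
      exact this.trans (γ.cost_mono ht le_rfl hk)
    linarith [TD_triangle ht c1 c2]
  obtain ⟨γ0, hγ0⟩ := hc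
  refine ⟨(key γ0 hγ0).1, ?_⟩
  have := le_TD (t := t) (c := TD D t y0 y' - 8 * kap G * (r : ℝ) ^ 3) ⟨γ0, hγ0⟩
    (fun γ hγ => by linarith [(key γ hγ).2])
  linarith

theorem GoodSq.sq1_T [Law G] {t : Env} (ht : NN t) {c : V} {r : ℕ} (hg : GoodSq G t c r)
    (hr : 1 ≤ r) {y0 y y' : V} (h0 : r ≤ nrm (y0 - c)) (hy : nrm (y - c) ≤ r)
    (hy' : nrm (y' - c) = r) : T t y0 y' ≤ T t y0 y + 8 * kap G * (r : ℝ) ^ 3 :=
  (GoodSq.sq1 G ht hg hr (Set.subset_univ _) (conn_univ y0 y) h0 hy hy').2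

theorem GoodSq.mono_env {t t' : Env} {c : V} {r : ℕ} (hg : GoodSq G t c r) (h : ∀ e, t' e ≤ t e) :
    GoodSq G t' c r :=
  fun x y hxy hx hy => (h _).trans (hg x y hxy hx hy)

end Crest.Agent.R151
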