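import Crest.Agent.R151.TES2
import Crest.Agent.R151.TSq

/-! Row 151 toolkit: truncated passage times and their concentration. -/

set_option autoImplicit false

namespace Crest.Agent.R151

open MeasureTheory ProbabilityTheory Crest.ProbabilityR.FirstPassage
open scoped Classical

/-- weights truncated to `[0,K]` -/
noncomputable def trunc (K : ℝ) (t : Env) : Env := fun e => max 0 (min (t e) K)

/-- truncated passage time among paths with at most `m` steps -/
noncomputable def TKm (K : ℝ) (m : ℕ) (t : Env) (x z : V) : ℝ :=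
  sInf {c | ∃ γ : Pth, γ.Joins Set.univ x z ∧ γ.n ≤ m ∧ c = γ.tot (trunc K t)}

/-- truncation level at scale `L` -/
noncomputable def KL (L : ℕ) : ℝ := (L : ℝ) ^ ((1 : ℝ) / 20)

/-- radius of the squares at scale `L` -/
noncomputable def RL (G : Measure ℝ) (L : ℕ) : ℕ := ⌊(KL L / (16 * kap G)) ^ ((1 : ℝ) / 3)⌋₊

theorem trunc_nn (K : ℝ) (t : Env) : NN (trunc K t) := fun _ => le_max_left _ _
theorem trunc_le {t : Env} (ht : NN t) (K : ℝ) (e : Sym2 V) : trunc K t e ≤ t e := max_le (ht e) (min_le_left _ _)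
theorem trunc_le_K {K : ℝ} (hK : 0 ≤ K) (t : Env) (e : Sym2 V) : trunc K t e ≤ K := max_le hK (min_le_right _ _)
theorem trunc_eq {t : Env} (ht : NN t) {K : ℝ} {e : Sym2 V} (h : t e ≤ K) : trunc K t e = t e := by
  unfold trunc
  rw [min_eq_left h, max_eq_right (ht e)]
theorem measurable_trunc (K : ℝ) : Measurable (trunc K) := by
  refine measurable_pi_lambda _ fun e => ?_
  exact measurable_const.max ((measurable_pi_apply e).min measurable_const)
theorem T_trunc_le {t : Env} (ht : NN t) (K : ℝ) (x z : V) : T (trunc K t) x z ≤ T t x z := TD_mono_env (trunc_nn K t) (fun e _ => trunc_le ht K e) x z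
theorem tConc0_kes (G : Measure ℝ) [Law G] {K : ℝ} (hK : h2 G ≤ K) {t : Env} {x : V} {n : ℕ}
    (h : trunc K t ∈ KesBad G x n) : t ∈ KesBad G x n := by
  obtain ⟨γ, h1', h2', h3, h4, h5⟩ := h
  refine ⟨γ, h1', h2', h3, h4, lt_of_le_of_lt ?_ h5⟩
  refine Nat.mul_le_mul_left 2 (Finset.card_le_card fun i hi => ?_)
  rw [Finset.mem_filter] at hi ⊢
  refine ⟨hi.1, ?_⟩
  have e : trunc K t (γ.edge i) = t (γ.edge i) := by
    unfold trunc
    rw [min_eq_left (hi.2.2.trans hK), max_eq_right ((h1_pos G).le.trans hi.2.1)]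
  rw [e]
  exact hi.2
theorem tConc0_le (K : ℝ) {m : ℕ} (t : Env) {x z : V} {γ : Pth} (h : γ.Joins Set.univ x z)
    (hn : γ.n ≤ m) : TKm K m t x z ≤ γ.tot (trunc K t) := by
  refine csInf_le ⟨0, ?_⟩ ⟨γ, h, hn, rfl⟩
  rintro c ⟨δ, -, -, rfl⟩
  exact δ.tot_nonneg (trunc_nn K t)
theorem tConc0_tot_le {K : ℝ} (hK : 0 ≤ K) (t : Env) (γ : Pth) :
    γ.tot (trunc K t) ≤ K * γ.n := by
  unfold Pth.tot Pth.cost
  refine (Finset.sum_le_sum fun i _ => trunc_le_K hK t (γ.edge i)).trans ?_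
  simp [mul_comm]
theorem tConc0_min (K : ℝ) {m : ℕ} (t : Env) {x z : V} (hm : 2 * nrm (z - x) ≤ m) :
    ∃ γ : Pth, γ.Joins Set.univ x z ∧ γ.n ≤ m ∧ γ.SA ∧ TKm K m t x z = γ.tot (trunc K t) := by
  have hfin : {γ : Pth | γ.Joins Set.univ x z ∧ γ.n ≤ m ∧ γ.SA}.Finite := by
    refine (Pth.finite_sa_in (D := box x m) (tk_box_finite x m)).subset ?_
    rintro γ ⟨h1, h2, h3⟩
    refine ⟨h3, ?_⟩
    have := h1.1.in_box
    rw [h1.2.2.1] at this
    exact this.mono (box_mono x h2)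
  have hne : {γ : Pth | γ.Joins Set.univ x z ∧ γ.n ≤ m ∧ γ.SA}.Nonempty := by
    obtain ⟨γ, h1, h2, -, h4, -⟩ := Pth.exists_stair x z
    exact ⟨γ, h2.mono (Set.subset_univ _), h4.trans hm, h1⟩
  obtain ⟨γ, ⟨h1, h2, h3⟩, hmin⟩ :=
    Set.exists_min_image _ (fun γ : Pth => γ.tot (trunc K t)) hfin hne
  refine ⟨γ, h1, h2, h3, le_antisymm (tConc0_le K t h1 h2) ?_⟩
  refine le_csInf ⟨_, γ, h1, h2, rfl⟩ ?_
  rintro c ⟨δ, d1, d2, rfl⟩
  obtain ⟨δ', e1, e2, e3, -, e5⟩ := d1.exists_sa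
  exact (hmin δ' ⟨e1, e3.trans d2, e2⟩).trans (e5 _ (trunc_nn K t))
theorem reg_trunc (G : Measure ℝ) [Law G] {K : ℝ} (hK : h2 G ≤ K) {t : Env} (ht : Reg G t) :
    Reg G (trunc K t) := by
  refine ⟨fun e => ?_, fun x => ?_⟩
  · have h1 : 0 < K := ((h1_pos G).trans_le (h1_le_h2 G)).trans_le hK
    exact lt_max_of_lt_right (lt_min (ht.1 e) h1)
  · obtain ⟨n0, h⟩ := ht.2 x
    exact ⟨n0, fun n hn hb => h n hn (tConc0_kes G hK hb)⟩
theorem kesBad_trunc (G : Measure ℝ) [Law G] {K : ℝ} (hK : h2 G ≤ K) {t : Env} {x : V} {n : ℕ}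
    (h : trunc K t ∈ KesBad G x n) : t ∈ KesBad G x n := tConc0_kes G hK h
theorem measurable_TKm (K : ℝ) (m : ℕ) (x z : V) : Measurable (fun t => TKm K m t x z) := by
  have e : (fun t : Env => TKm K m t x z) =
      fun t => ⨅ γ : {γ : Pth // γ.Joins Set.univ x z ∧ γ.n ≤ m}, γ.1.tot (trunc K t) := by
    funext t
    unfold TKm iInf
    congr 1
    ext c
    constructor
    · rintro ⟨γ, h, h', rfl⟩
      exact ⟨⟨γ, h, h'⟩, rfl⟩
    · rintro ⟨γ, rfl⟩
      exact ⟨γ.1, γ.2.1, γ.2.2, rfl⟩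
  rw [e]
  exact Measurable.iInf fun γ => (measurable_tot γ.1).comp (measurable_trunc K)
theorem TKm_bounds {K : ℝ} (hK : 0 ≤ K) (m : ℕ) (t : Env) (x z : V) :
    0 ≤ TKm K m t x z ∧ TKm K m t x z ≤ K * m := by
  constructor
  · refine Real.sInf_nonneg ?_
    rintro c ⟨γ, -, -, rfl⟩
    exact γ.tot_nonneg (trunc_nn K t)
  · by_cases h : ∃ γ : Pth, γ.Joins Set.univ x z ∧ γ.n ≤ m
    · obtain ⟨γ, h1, h2⟩ := h
      refine (tConc0_le K t h1 h2).trans ((tConc0_tot_le hK t γ).trans ?_)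
      exact mul_le_mul_of_nonneg_left (by exact_mod_cast h2) hK
    · have : {c | ∃ γ : Pth, γ.Joins Set.univ x z ∧ γ.n ≤ m ∧ c = γ.tot (trunc K t)} = ∅ := by
        ext c
        simp only [Set.mem_ofPred_eq, Set.mem_empty_iff_false, iff_false]
        rintro ⟨γ, h1, h2, -⟩
        exact h ⟨γ, h1, h2⟩
      unfold TKm
      rw [this, Real.sInf_empty]
      positivity
theorem TKm_le (K : ℝ) {m : ℕ} (t : Env) {x z : V} {γ : Pth} (h : γ.Joins Set.univ x z)
    (hn : γ.n ≤ m) : TKm K m t x z ≤ γ.tot (trunc K t) := tConc0_le K t h hn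
theorem T_trunc_le_TKm (K : ℝ) {m : ℕ} (t : Env) {x z : V} (hm : 2 * nrm (z - x) ≤ m) :
    T (trunc K t) x z ≤ TKm K m t x z := by
  obtain ⟨γ, h1, h2, -, h4⟩ := tConc0_min K t hm
  rw [h4]
  exact TD_le (trunc_nn K t) h1
theorem RL_spec (G : Measure ℝ) [Law G] {L : ℕ} (hL : 1 ≤ L) :
    8 * kap G * (RL G L : ℝ) ^ 3 < KL L ∧ (2 * RL G L : ℝ) ≤ (L : ℝ) ^ ((1 : ℝ) / 20) := by
  have hk := one_le_kap G
  have hL' : (1 : ℝ) ≤ L := by exact_mod_cast hL
  have hK : 0 < KL L := Real.rpow_pos_of_pos (by linarith) _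
  have hq : 0 ≤ KL L / (16 * kap G) := by positivity
  have h1 : (RL G L : ℝ) ≤ (KL L / (16 * kap G)) ^ ((1 : ℝ) / 3) :=
    Nat.floor_le (Real.rpow_nonneg hq _)
  have h2 : (RL G L : ℝ) ^ 3 ≤ KL L / (16 * kap G) := by
    calc (RL G L : ℝ) ^ 3 ≤ ((KL L / (16 * kap G)) ^ ((1 : ℝ) / 3)) ^ 3 :=
          pow_le_pow_left₀ (Nat.cast_nonneg _) h1 3
      _ = KL L / (16 * kap G) := by
          rw [← Real.rpow_natCast, ← Real.rpow_mul hq]
          norm_num
  have h3 : (RL G L : ℝ) ^ 3 * (16 * kap G) ≤ KL L := (le_div_iff₀ (by positivity)).1 h2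
  refine ⟨by linarith, ?_⟩
  change (2 * RL G L : ℝ) ≤ KL L
  rcases Nat.eq_zero_or_pos (RL G L) with h | h
  · rw [h]; simpa using hK.le
  · have h' : (1 : ℝ) ≤ RL G L := by exact_mod_cast h
    have h4 : (RL G L : ℝ) ≤ (RL G L : ℝ) ^ 3 := le_self_pow₀ h' (by norm_num)
    have h5 : (RL G L : ℝ) ^ 3 * 16 ≤ (RL G L : ℝ) ^ 3 * (16 * kap G) :=
      mul_le_mul_of_nonneg_left (by linarith) (by positivity)
    linarith
/-- for large `L` the thresholds are meaningful and `2^(-RL)` beats every power -/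
theorem RL_large (G : Measure ℝ) [Law G] : ∃ L0 : ℕ, 1 ≤ L0 ∧ ∀ L, L0 ≤ L →
    h2 G ≤ KL L ∧ 1 ≤ RL G L ∧ ((1 : ℝ) / 2) ^ (RL G L) ≤ 1 / (L : ℝ) ^ 120 := by
  have hk := one_le_kap G
  set c : ℝ := (16 * kap G) ^ ((1 : ℝ) / 3) with hc
  have hc0 : 0 < c := Real.rpow_pos_of_pos (by linarith) _
  have t1 : Filter.Tendsto (fun L : ℕ => (L : ℝ) ^ ((1 : ℝ) / 120)) Filter.atTop Filter.atTop :=
    (tendsto_rpow_atTop (by norm_num)).comp tendsto_natCast_atTop_atTop
  have t2 : Filter.Tendsto (fun L : ℕ => (L : ℝ) ^ ((1 : ℝ) / 20)) Filter.atTop Filter.atTop :=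
    (tendsto_rpow_atTop (by norm_num)).comp tendsto_natCast_atTop_atTop
  obtain ⟨L0, hL0⟩ := Filter.eventually_atTop.1
    ((t1.eventually_ge_atTop (max 1 (c * 28802))).and ((t2.eventually_ge_atTop (h2 G)).and
      (Filter.eventually_ge_atTop 1)))
  refine ⟨max L0 1, le_max_right _ _, fun L hL => ?_⟩
  obtain ⟨a1, a2, a3⟩ := hL0 L ((le_max_left _ _).trans hL)
  have hL' : (1 : ℝ) ≤ L := by exact_mod_cast a3
  have hL0' : (0 : ℝ) ≤ L := by linarith
  set y : ℝ := (L : ℝ) ^ ((1 : ℝ) / 120) with hy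
  have y1 : 1 ≤ y := (le_max_left _ _).trans a1
  have y2 : c * 28802 ≤ y := (le_max_right _ _).trans a1
  have e1 : (KL L / (16 * kap G)) ^ ((1 : ℝ) / 3) = y ^ 2 / c := by
    rw [KL, Real.div_rpow (Real.rpow_nonneg hL0' _) (by linarith), ← hc, hy, ← Real.rpow_mul hL0',
      ← Real.rpow_natCast, ← Real.rpow_mul hL0']
    norm_num
  have e2 : y ^ 2 / c < RL G L + 1 := by
    rw [← e1]; exact Nat.lt_floor_add_one _
  have e3 : 28802 * y ≤ y ^ 2 / c := by
    rw [le_div_iff₀ hc0]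
    nlinarith
  have e4 : 28800 * y + 1 ≤ (RL G L : ℝ) := by linarith
  refine ⟨a2, ?_, ?_⟩
  · have : (1 : ℝ) ≤ RL G L := by linarith
    exact_mod_cast this
  · have hlog : Real.log L ≤ 120 * y := by
      have := Real.log_le_rpow_div hL0' (show (0 : ℝ) < 1 / 120 by norm_num)
      rw [← hy] at this
      linarith
    have hl2 : (1 : ℝ) / 2 < Real.log 2 := by have := Real.log_two_gt_d9; linarith
    rw [one_div_pow]
    refine one_div_le_one_div_of_le (by positivity) ?_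
    rw [← Real.log_le_log_iff (by positivity) (by positivity), Real.log_pow, Real.log_pow]
    push_cast
    nlinarith

theorem TKm_concentration : ∃ C : ℝ, 0 < C ∧ ∀ (G : Measure ℝ) [IsProbabilityMeasure G] (K : ℝ)
    (m : ℕ) (x z : V), 0 < K → 1 ≤ m → 2 * nrm (z - x) ≤ m → ∀ u : ℝ, 0 ≤ u →
      Pr G {t | u ≤ |TKm K m t x z - ∫ t', TKm K m t' x z ∂(iidLaw G)|} ≤
        C * Real.exp (-(u / (K * √m))) := by
  obtain ⟨C, hC, H⟩ := es_concentration
  refine ⟨C, hC, fun G _ K m x z hK hm hxz u hu => ?_⟩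
  choose Γ hΓ using fun t : Env => tConc0_min K t hxz
  refine H G (edgesIn (boxF x m)) (fun t => TKm K m t x z) (K * m) K m (fun t => (Γ t).edges)
    (measurable_TKm K m x z) (fun t => ?_) ?_ hK (by exact_mod_cast hm) (fun t => ?_)
    (fun t e s => ?_) u hu
  · have := TKm_bounds hK.le m t x z
    rw [abs_of_nonneg this.1]; exact this.2
  · intro t t' h
    have key : ∀ γ : Pth, γ.Joins Set.univ x z → γ.n ≤ m →
        γ.tot (trunc K t) = γ.tot (trunc K t') := by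
      intro γ h1 h2
      refine γ.cost_congr fun i _ hi => ?_
      have hin : γ.In (box x m) := by
        have := h1.1.in_box
        rw [h1.2.2.1] at this
        exact this.mono (box_mono x h2)
      have he := Pth.edge_mem_LE h1.1 hin hi
      rw [← coe_boxF, ← coe_edgesIn] at he
      unfold trunc
      rw [h _ he]
    change TKm K m t x z = TKm K m t' x z
    unfold TKm
    congr 1
    ext c
    constructor
    · rintro ⟨γ, h1, h2, rfl⟩
      exact ⟨γ, h1, h2, key γ h1 h2⟩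
    · rintro ⟨γ, h1, h2, rfl⟩
      exact ⟨γ, h1, h2, (key γ h1 h2).symm⟩
  · exact_mod_cast (Γ t).card_edges_le.trans (hΓ t).2.1
  · obtain ⟨h1, h2, h3, h4⟩ := hΓ t
    refine (TKm_le K _ h1 h2).trans ?_
    change _ ≤ TKm K m t x z + _
    rw [h4, Pth.tot_eq_sum_edges h1.1 h3, Pth.tot_eq_sum_edges h1.1 h3]
    have : ∀ e' ∈ (Γ t).edges, trunc K (Function.update t e s) e' ≤
        trunc K t e' + if e = e' then K else 0 := by
      intro e' _
      by_cases he : e = e'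
      · rw [if_pos he]
        have := trunc_le_K hK.le (Function.update t e s) e'
        have := trunc_nn K t e'
        linarith
      · rw [if_neg he, add_zero]
        unfold trunc
        rw [Function.update_of_ne (Ne.symm he)]
    refine (Finset.sum_le_sum this).trans ?_
    rw [Finset.sum_add_distrib, Finset.sum_ite_eq]

end Crest.Agent.R151
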