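import Crest.Agent.R151.TConc0

/-! Row 151 toolkit: geodesics of the truncated environment avoid heavy edges (deterministic). -/

set_option autoImplicit false

namespace Crest.Agent.R151

open MeasureTheory ProbabilityTheory Crest.ProbabilityR.FirstPassage
open scoped Classical

variable (G : Measure ℝ) [Law G]

theorem trunc_geo_avoid {t : Env} (ht : NN t) {K : ℝ} {γ : Pth}
    (hγ : IsGeo Set.univ (trunc K t) γ) {i : ℕ} (hi : i < γ.n) {R : ℕ}
    (hR : 8 * kap G * (R : ℝ) ^ 3 < K) (hsq : t ∉ NoSq G (γ.p i) 0 R)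
    (h0 : R ≤ nrm (γ.p 0 - γ.p i)) (h1 : R ≤ nrm (γ.p γ.n - γ.p i)) : t (γ.edge i) < K := by
  have hex : ∃ r, 0 < r ∧ r ≤ R ∧ GoodSq G t (γ.p i) r := by
    by_contra hcon
    push Not at hcon
    exact hsq (fun r h1 h2 => hcon r h1 h2)
  obtain ⟨r, hr0, hrR, hg⟩ := hex
  have hg' : GoodSq G (trunc K t) (γ.p i) r := hg.mono_env G (trunc_le ht K)
  obtain ⟨a, -, ha, hla⟩ := exists_level (fun k => (nrm (γ.p k - γ.p i) : ℤ)) (Nat.zero_le i)
    (fun k _ _ => hγ.1.nrm_step _ k) (r : ℤ) (Or.inr (by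
      simp only [sub_self, nrm_zero]
      exact ⟨by positivity, by exact_mod_cast hrR.trans h0⟩))
  have h1' : nrm (γ.p (i + 1) - γ.p i) = 1 := (hγ.1 i hi).nrm_sub
  obtain ⟨b, hb, hbn, hlb⟩ := exists_level (fun k => (nrm (γ.p k - γ.p i) : ℤ))
    (show i + 1 ≤ γ.n from hi) (fun k _ _ => hγ.1.nrm_step _ k) (r : ℤ) (Or.inl (by
      simp only [h1']
      exact ⟨by exact_mod_cast hr0, by exact_mod_cast hrR.trans h1⟩))
  have hla' : nrm (γ.p a - γ.p i) = r := by exact_mod_cast hla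
  have hlb' : nrm (γ.p b - γ.p i) = r := by exact_mod_cast hlb
  have e1 := hγ.cost_eq (trunc_nn K t) (show a ≤ b by omega) hbn
  have e2 := (GoodSq.TD_arc G (trunc_nn K t) hg' hr0 (Set.subset_univ _) hla' hlb').2
  have e3 : γ.cost (trunc K t) i (i + 1) ≤ γ.cost (trunc K t) a b :=
    γ.cost_mono (trunc_nn K t) ha hb
  rw [γ.cost_succ _ le_rfl, γ.cost_self, zero_add] at e3
  have hk := one_le_kap G
  have e4 : 8 * kap G * (r : ℝ) ^ 3 ≤ 8 * kap G * (R : ℝ) ^ 3 := by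
    have : (r : ℝ) ≤ R := by exact_mod_cast hrR
    gcongr
  have e5 : trunc K t (γ.edge i) < K := by linarith
  unfold trunc at e5
  by_contra hcon
  push Not at hcon
  rw [min_eq_right hcon] at e5
  exact absurd (le_max_right 0 K) (not_le.2 e5)

theorem T_mid_le_trunc {t : Env} (ht : NN t) {K : ℝ} {γ : Pth}
    (hγ : IsGeo Set.univ (trunc K t) γ) {R : ℕ} (hR : 8 * kap G * (R : ℝ) ^ 3 < K)
    (hsq : ∀ i ≤ γ.n, t ∉ NoSq G (γ.p i) 0 R) {a b : ℕ} (hab : a ≤ b) (hb : b ≤ γ.n)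
    (h : ∀ i, a ≤ i → i < b → R ≤ nrm (γ.p i - γ.p 0) ∧ R ≤ nrm (γ.p i - γ.p γ.n)) :
    T t (γ.p a) (γ.p b) ≤ T (trunc K t) (γ.p 0) (γ.p γ.n) := by
  have e1 := T_le_cost ht hγ.1 hab hb
  have e2 : γ.cost t a b = γ.cost (trunc K t) a b := by
    refine γ.cost_congr (fun i hai hib => ?_)
    have hi : i < γ.n := lt_of_lt_of_le hib hb
    have := trunc_geo_avoid G ht hγ hi hR (hsq i hi.le)
      (by rw [nrm_sub_comm]; exact (h i hai hib).1) (by rw [nrm_sub_comm]; exact (h i hai hib).2)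
    exact (trunc_eq ht this.le).symm
  have e3 : γ.cost (trunc K t) a b ≤ γ.tot (trunc K t) :=
    γ.cost_mono (trunc_nn K t) (Nat.zero_le a) hb
  have e4 : γ.tot (trunc K t) = T (trunc K t) (γ.p 0) (γ.p γ.n) := hγ.2.2.2
  linarith

/-- the true passage time exceeds the truncated one only by local costs at the endpoints -/
theorem T_le_trunc {t : Env} (ht : NN t) {K : ℝ} {γ : Pth} (hγ : IsGeo Set.univ (trunc K t) γ)
    {R : ℕ} (hR : 8 * kap G * (R : ℝ) ^ 3 < K) (hsq : ∀ i ≤ γ.n, t ∉ NoSq G (γ.p i) 0 R) :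
    T t (γ.p 0) (γ.p γ.n) ≤ T (trunc K t) (γ.p 0) (γ.p γ.n) +
      ∑ p ∈ boxF (γ.p 0) R, T t (γ.p 0) p + ∑ q ∈ boxF (γ.p γ.n) R, T t q (γ.p γ.n) := by
  have hA : ∃ a, a ≤ γ.n ∧ γ.p a ∈ box (γ.p 0) R ∧
      ∀ k, a < k → k ≤ γ.n → γ.p k ∉ box (γ.p 0) R := by
    refine ⟨Nat.findGreatest (fun k => γ.p k ∈ box (γ.p 0) R) γ.n, Nat.findGreatest_le _,
      Nat.findGreatest_spec (P := fun k => γ.p k ∈ box (γ.p 0) R) (Nat.zero_le _)
        (mem_box_self _ _), fun k hk hkn => ?_⟩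
    exact Nat.findGreatest_is_greatest (P := fun k => γ.p k ∈ box (γ.p 0) R) hk hkn
  obtain ⟨a, han, ha, hlast⟩ := hA
  have hex : ∃ b, a ≤ b ∧ γ.p b ∈ box (γ.p γ.n) R := ⟨γ.n, han, mem_box_self _ _⟩
  have hb := Nat.find_spec hex
  have hbn : Nat.find hex ≤ γ.n := Nat.find_min' hex ⟨han, mem_box_self _ _⟩
  have hmid := T_mid_le_trunc G ht hγ hR hsq hb.1 hbn (fun i hai hib => by
    constructor
    · have h1 := hlast (i + 1) (by omega) (by omega)
      have h2 := hγ.1.nrm_step (γ.p 0) i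
      simp only [box, Set.mem_ofPred_eq, not_le] at h1
      rw [abs_le] at h2
      omega
    · have h1 := Nat.find_min hex hib
      simp only [box, Set.mem_ofPred_eq, not_and, not_le] at h1
      exact (h1 hai).le)
  have s1 : T t (γ.p 0) (γ.p a) ≤ ∑ p ∈ boxF (γ.p 0) R, T t (γ.p 0) p :=
    Finset.single_le_sum (f := fun p => T t (γ.p 0) p) (fun p _ => T_nonneg ht _ _)
      (mem_boxF.2 ha)
  have s2 : T t (γ.p (Nat.find hex)) (γ.p γ.n) ≤ ∑ q ∈ boxF (γ.p γ.n) R, T t q (γ.p γ.n) :=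
    Finset.single_le_sum (f := fun q => T t q (γ.p γ.n)) (fun p _ => T_nonneg ht _ _)
      (mem_boxF.2 hb.2)
  have t1 := T_triangle ht (γ.p 0) (γ.p a) (γ.p γ.n)
  have t2 := T_triangle ht (γ.p a) (γ.p (Nat.find hex)) (γ.p γ.n)
  linarith

/-- between points on good squares around the endpoints -/
theorem T_sq_le_trunc {t : Env} (ht : NN t) {K : ℝ} {γ : Pth} (hγ : IsGeo Set.univ (trunc K t) γ)
    {R : ℕ} (hR : 8 * kap G * (R : ℝ) ^ 3 < K) (hsq : ∀ i ≤ γ.n, t ∉ NoSq G (γ.p i) 0 R)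
    {r r' : ℕ} (hr : R < r) (hr2 : r ≤ 2 * R) (hr' : R < r') (hr2' : r' ≤ 2 * R)
    (g : GoodSq G t (γ.p 0) r) (g' : GoodSq G t (γ.p γ.n) r')
    (hfar : 4 * R < nrm (γ.p γ.n - γ.p 0)) {x z : V} (hx : nrm (x - γ.p 0) = r)
    (hz : nrm (z - γ.p γ.n) = r') :
    T t x z ≤ T (trunc K t) (γ.p 0) (γ.p γ.n) + 128 * kap G * (R : ℝ) ^ 3 := by
  obtain ⟨a, -, han, hla, hlast⟩ := exists_last_level (fun k => (nrm (γ.p k - γ.p 0) : ℤ))
    (Nat.zero_le γ.n) (fun k _ _ => hγ.1.nrm_step _ k) (r : ℤ)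
    (by simp only [sub_self, nrm_zero]; positivity) (by
      have : r ≤ nrm (γ.p γ.n - γ.p 0) := by omega
      exact_mod_cast this)
  have hla' : nrm (γ.p a - γ.p 0) = r := by exact_mod_cast hla
  have htri := nrm_triangle (γ.p 0) (γ.p a) (γ.p γ.n)
  rw [nrm_sub_comm (γ.p γ.n) (γ.p a)] at htri
  obtain ⟨b, hab, hbn, hlb, hfirst⟩ := exists_first_level
    (fun k => -(nrm (γ.p k - γ.p γ.n) : ℤ)) han
    (fun k _ _ => by
      have h := hγ.1.nrm_step (γ.p γ.n) k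
      rw [abs_le] at h ⊢
      constructor <;> omega) (-(r' : ℤ))
    (by omega) (by simp only [sub_self, nrm_zero]; omega)
  have hlb' : nrm (γ.p b - γ.p γ.n) = r' := by omega
  have hmid := T_mid_le_trunc G ht hγ hR hsq hab hbn (fun i hai hib => by
    constructor
    · rcases Nat.eq_or_lt_of_le hai with h | h
      · rw [← h]; omega
      · have := hlast i h (by omega)
        omega
    · have := hfirst i hai hib
      omega)
  have a1 : T t x (γ.p a) ≤ 8 * kap G * (r : ℝ) ^ 3 :=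
    (GoodSq.TD_arc G ht g (by omega) (Set.subset_univ _) hx hla').2
  have a2 : T t (γ.p b) z ≤ 8 * kap G * (r' : ℝ) ^ 3 :=
    (GoodSq.TD_arc G ht g' (by omega) (Set.subset_univ _) hlb' hz).2
  have hk := one_le_kap G
  have b1 : 8 * kap G * (r : ℝ) ^ 3 ≤ 8 * kap G * (2 * R : ℝ) ^ 3 := by
    have : (r : ℝ) ≤ 2 * R := by exact_mod_cast hr2
    gcongr
  have b2 : 8 * kap G * (r' : ℝ) ^ 3 ≤ 8 * kap G * (2 * R : ℝ) ^ 3 := by
    have : (r' : ℝ) ≤ 2 * R := by exact_mod_cast hr2'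
    gcongr
  have t1 := T_triangle ht x (γ.p a) z
  have t2 := T_triangle ht (γ.p a) (γ.p b) z
  have e : 8 * kap G * (2 * R : ℝ) ^ 3 = 64 * kap G * (R : ℝ) ^ 3 := by ring
  linarith

end Crest.Agent.R151
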