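import Crest.Agent.R151.TConc1

/-! Row 151 toolkit: the truncated passage time is `TKm` with overwhelming probability, and the
means are close. -/

set_option autoImplicit false

namespace Crest.Agent.R151

open MeasureTheory ProbabilityTheory Crest.ProbabilityR.FirstPassage
open scoped Classical

variable (G : Measure ℝ) [Law G]

/-- every step of a path is replaced by a geodesic of the box of radius three -/
theorem tc2_detour {t : Env} (ht : NN t) {γ : Pth} (h : γ.Ok) (k : ℕ) (hk : k ≤ γ.n) :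
    ∃ δ : Pth, δ.Joins Set.univ (γ.p 0) (γ.p k) ∧ δ.n ≤ 48 * k ∧
      δ.tot t ≤ ∑ i ∈ Finset.range k, TD (box (γ.p i) 3) t (γ.p i) (γ.p (i + 1)) := by
  induction k with
  | zero =>
    obtain ⟨δ, h1, -, h2, h3⟩ := Pth.exists_triv (γ.p 0)
    exact ⟨δ, h2.mono (Set.subset_univ _), by omega, by simp [h3]⟩
  | succ k ih =>
    obtain ⟨δ, h1, h2, h3⟩ := ih (by omega)
    obtain ⟨ε, e1, e2, e3⟩ := exists_geo_finite (tk_box_finite (γ.p k) 3) ht
      (conn_box (mem_box_self (γ.p k) 3) (tmom_adj_box (h k (by omega))))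
    have e4 : ε.n + 1 ≤ (boxF (γ.p k) 3).card :=
      e1.2.2.1.succ_le_card (by rw [coe_boxF]; exact e1.2.1)
    rw [card_boxF] at e4
    have e5 := e1.joins
    have e6 := e1.2.2.2
    rw [e2, e3] at e5 e6
    refine ⟨δ.app ε, h1.app (e5.mono (Set.subset_univ _)), by rw [Pth.app_n]; omega, ?_⟩
    rw [Pth.app_tot (h1.2.2.2.trans e2.symm), Finset.sum_range_succ, e6]
    linarith

theorem tc2_exp {a : ℝ} (ha : 0 < a) (k : ℕ) :
    ∃ C : ℝ, 0 < C ∧ ∀ w : ℝ, 0 < w → Real.exp (-(w / a)) ≤ C / w ^ k := by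
  refine ⟨k.factorial * a ^ k, by positivity, fun w hw => ?_⟩
  have h := Real.pow_div_factorial_le_exp (w / a) (by positivity) k
  rw [Real.exp_neg, inv_eq_one_div, div_le_div_iff₀ (Real.exp_pos _) (by positivity)]
  rw [div_pow, div_div, div_le_iff₀ (by positivity)] at h
  nlinarith

theorem TKm_mean_le : ∃ C : ℝ, 0 < C ∧ ∀ (K : ℝ) (m : ℕ) (x z : V), 0 < K →
    100 * nrm (z - x) ≤ m → ∫ t, TKm K m t x z ∂(iidLaw G) ≤ C * nrm (z - x) := by
  obtain ⟨C, hC, H⟩ := local_L2 G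
  refine ⟨2 * (1 + C), by positivity, fun K m x z hK hm => ?_⟩
  obtain ⟨γ, hok, h0, hn, hlen, -⟩ := tmom_stair x z
  have hZ := fun i (hi : i ∈ Finset.range γ.n) => H _ _ (hok i (Finset.mem_range.1 hi))
  have hle : ∀ᵐ t ∂(iidLaw G), TKm K m t x z ≤
      ∑ i ∈ Finset.range γ.n, (1 + TD (box (γ.p i) 3) t (γ.p i) (γ.p (i + 1)) ^ 2) := by
    filter_upwards [ae_nn G] with t ht
    obtain ⟨δ, h1, h2, h3⟩ := tc2_detour ht hok γ.n le_rfl
    rw [h0, hn] at h1
    refine (TKm_le K t h1 (by omega)).trans ?_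
    refine (δ.cost_le_cost fun i _ _ => trunc_le ht K _).trans (h3.trans ?_)
    refine Finset.sum_le_sum fun i _ => ?_
    nlinarith [sq_nonneg (TD (box (γ.p i) 3) t (γ.p i) (γ.p (i + 1)) - 1)]
  have hone : ∫ _t, (1 : ℝ) ∂(iidLaw G) = 1 := by
    have := Pr_univ G
    simpa [Pr] using this
  have hfin : IsFiniteMeasure (iidLaw G) := by
    refine ⟨?_⟩
    by_contra h
    have h1 := Pr_univ G
    simp only [Pr, Measure.real, not_lt_top_iff.1 h] at h1
    simp at h1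
  have hint : ∀ i ∈ Finset.range γ.n, Integrable
      (fun t => 1 + TD (box (γ.p i) 3) t (γ.p i) (γ.p (i + 1)) ^ 2) (iidLaw G) :=
    fun i hi => (integrable_const 1).add (hZ i hi).1.integrable_sq
  have hlen' : (γ.n : ℝ) ≤ 2 * nrm (z - x) := by exact_mod_cast hlen
  calc ∫ t, TKm K m t x z ∂(iidLaw G)
      ≤ ∫ t, ∑ i ∈ Finset.range γ.n,
          (1 + TD (box (γ.p i) 3) t (γ.p i) (γ.p (i + 1)) ^ 2) ∂(iidLaw G) :=
        integral_mono_of_nonneg (Filter.Eventually.of_forall fun t => (TKm_bounds hK.le m t x z).1)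
          (integrable_finsetSum _ hint) hle
    _ = ∑ i ∈ Finset.range γ.n, ∫ t,
          (1 + TD (box (γ.p i) 3) t (γ.p i) (γ.p (i + 1)) ^ 2) ∂(iidLaw G) :=
        integral_finsetSum _ hint
    _ ≤ ∑ _i ∈ Finset.range γ.n, (1 + C) := by
        refine Finset.sum_le_sum fun i hi => ?_
        rw [integral_add (integrable_const 1) (hZ i hi).1.integrable_sq, hone]
        linarith [(hZ i hi).2]
    _ = γ.n * (1 + C) := by simp; ring
    _ ≤ 2 * nrm (z - x) * (1 + C) := by gcongr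
    _ = _ := by ring

theorem trunc_geo_short : ∃ (C1 : ℕ) (C : ℝ), 200 ≤ C1 ∧ 0 < C ∧ ∀ L : ℕ, 1 ≤ L → ∀ x z : V,
    nrm (z - x) ≤ 2 * L →
      Pr G {t | ¬ (T (trunc (KL L) t) x z = TKm (KL L) (C1 * L) t x z ∧
        ∀ γ : Pth, IsGeo Set.univ (trunc (KL L) t) γ → γ.p 0 = x → γ.p γ.n = z →
          γ.n ≤ C1 * L)} ≤ C / (L : ℝ) ^ 110 := by
  obtain ⟨C0, hC0, H0⟩ := TKm_mean_le G
  obtain ⟨C2, hC2, H2⟩ := TKm_concentration
  obtain ⟨L0, hL0, H3⟩ := RL_large G
  have hh := h1_pos G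
  obtain ⟨C1, hC1, hC1'⟩ : ∃ C1 : ℕ, 200 ≤ C1 ∧ 2 * C0 + 1 ≤ h1 G * C1 / 2 := by
    obtain ⟨n, hn⟩ := exists_nat_ge ((4 * C0 + 2) / h1 G)
    refine ⟨n + 200, by omega, ?_⟩
    rw [div_le_iff₀ hh] at hn
    push_cast
    nlinarith
  have hC1r : (0 : ℝ) < C1 := by exact_mod_cast (by omega : 0 < C1)
  obtain ⟨C3, hC3, H4⟩ := tc2_exp (Real.sqrt_pos.2 hC1r) (4 * 110)
  refine ⟨C1, C2 * C3 + 1 + (L0 : ℝ) ^ 110, hC1, by positivity, fun L hL x z hxz => ?_⟩
  have hLr : (1 : ℝ) ≤ L := by exact_mod_cast hL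
  have hLp : (0 : ℝ) < L := by linarith
  rcases lt_or_ge L L0 with hlt | hge
  · refine (Pr_le_one G _).trans ?_
    rw [le_div_iff₀ (by positivity), one_mul]
    have : (L : ℝ) ^ 110 ≤ (L0 : ℝ) ^ 110 :=
      pow_le_pow_left₀ hLp.le (by exact_mod_cast hlt.le) _
    have : 0 < C2 * C3 := by positivity
    linarith
  obtain ⟨hK, -, hR⟩ := H3 L hge
  have hKp : 0 < KL L := Real.rpow_pos_of_pos hLp _
  have hm1 : 200 * L ≤ C1 * L := Nat.mul_le_mul_right _ hC1
  have hmean := H0 (KL L) (C1 * L) x z hKp (by omega)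
  have hconc := H2 G (KL L) (C1 * L) x z hKp (by omega) (by omega) L hLp.le
  have hxz' : (nrm (z - x) : ℝ) ≤ 2 * L := by exact_mod_cast hxz
  refine (Pr_le_add_of_ae G (B := {t | (L : ℝ) ≤ |TKm (KL L) (C1 * L) t x z -
    ∫ t', TKm (KL L) (C1 * L) t' x z ∂(iidLaw G)|}) (C := KesBad G x (C1 * L)) ?_).trans ?_
  · filter_upwards [ae_reg G] with t ht hbad
    by_contra hcon
    rw [not_or] at hcon
    obtain ⟨hc1, hc2⟩ := hcon
    apply hbad
    have hc3 : TKm (KL L) (C1 * L) t x z < (2 * C0 + 1) * L := by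
      have h1 := lt_of_not_ge hc1
      have h2 := (abs_lt.1 h1).2
      have h3 : C0 * nrm (z - x) ≤ C0 * (2 * L) := by gcongr
      linarith
    have hT := T_trunc_le_TKm (KL L) (m := C1 * L) t (x := x) (z := z) (by omega)
    have hshort : ∀ γ : Pth, IsGeo Set.univ (trunc (KL L) t) γ → γ.p 0 = x → γ.p γ.n = z →
        γ.n ≤ C1 * L := by
      intro γ hγ g0 g1
      by_contra hlong
      have hb : trunc (KL L) t ∉ KesBad G (γ.p 0) (C1 * L) := by
        rw [g0]; exact fun h => hc2 (kesBad_trunc G hK h)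
      have h1 := cost_ge_of_not_kesBad G (trunc_nn _ t) hγ.1 hγ.2.2.1 (a := 0) (k := C1 * L)
        (by omega) hb
      have h2 : γ.cost (trunc (KL L) t) 0 (0 + C1 * L) ≤ γ.tot (trunc (KL L) t) :=
        γ.cost_mono (trunc_nn _ t) le_rfl (by omega)
      have h3 := hγ.2.2.2
      rw [g0, g1] at h3
      have h4 : (2 * C0 + 1) * L ≤ R151.h1 G * C1 / 2 * L := by gcongr
      push_cast at h1
      unfold T at hT
      linarith
    refine ⟨le_antisymm hT ?_, hshort⟩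
    obtain ⟨γ, hγ, g0, g1⟩ := exists_geo G (reg_trunc G hK ht) (conn_univ x z)
    have h1 := hγ.joins
    have h3 := hγ.2.2.2
    rw [g0, g1] at h1 h3
    exact (TKm_le _ t h1 (hshort γ hγ g0 g1)).trans h3.le
  · have b1 : Pr G (KesBad G x (C1 * L)) ≤ 1 / (L : ℝ) ^ 110 := by
      refine (Pr_kesBad G x _).trans (le_trans ?_ (hR.trans ?_))
      · refine pow_le_pow_of_le_one (by norm_num) (by norm_num) ?_
        have h1 := (RL_spec G hL).2
        have h2 : (L : ℝ) ^ ((1 : ℝ) / 20) ≤ L :=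
          (Real.rpow_le_rpow_of_exponent_le hLr (by norm_num)).trans (Real.rpow_one _).le
        have h3 : 2 * RL G L ≤ L := by exact_mod_cast h1.trans h2
        omega
      · exact one_div_le_one_div_of_le (by positivity) (pow_le_pow_right₀ hLr (by norm_num))
    set w : ℝ := (L : ℝ) ^ ((1 : ℝ) / 4) with hw
    have hwp : 0 < w := Real.rpow_pos_of_pos hLp _
    have hw4 : w ^ 4 = L := by
      rw [hw, ← Real.rpow_natCast, ← Real.rpow_mul hLp.le]; norm_num
    have hKw : KL L ≤ w := Real.rpow_le_rpow_of_exponent_le hLr (by norm_num)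
    have hs : √((C1 * L : ℕ) : ℝ) = √C1 * w ^ 2 := by
      push_cast
      rw [Real.sqrt_mul hC1r.le, ← hw4, show w ^ 4 = (w ^ 2) ^ 2 by ring,
        Real.sqrt_sq (by positivity)]
    have hsp : 0 < √(C1 : ℝ) := Real.sqrt_pos.2 hC1r
    have b2 : Real.exp (-(L / (KL L * √((C1 * L : ℕ) : ℝ)))) ≤ C3 / (L : ℝ) ^ 110 := by
      have h1 := H4 w hwp
      rw [pow_mul, hw4] at h1
      refine le_trans (Real.exp_le_exp.2 (neg_le_neg ?_)) h1
      rw [hs, div_le_div_iff₀ hsp (by positivity)]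
      calc w * (KL L * (√C1 * w ^ 2)) ≤ w * (w * (√C1 * w ^ 2)) := by gcongr
        _ = w ^ 4 * √C1 := by ring
        _ = _ := by rw [hw4]
    calc _ ≤ C2 * (C3 / (L : ℝ) ^ 110) + 1 / (L : ℝ) ^ 110 :=
          add_le_add (hconc.trans (by gcongr)) b1
      _ = (C2 * C3 + 1) / (L : ℝ) ^ 110 := by ring
      _ ≤ _ :=
          div_le_div_of_nonneg_right (le_add_of_nonneg_right (by positivity)) (by positivity)

end Crest.Agent.R151
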