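import Crest.Agent.R151.TConc2

/-! Row 151 toolkit: the good event at scale `L`. -/

set_option autoImplicit false

namespace Crest.Agent.R151

open MeasureTheory ProbabilityTheory Crest.ProbabilityR.FirstPassage
open scoped Classical

/-- the good event for the truncated environment at scale `L` around `o` -/
def GoodK (G : Measure ℝ) (C1 : ℕ) (o : V) (L : ℕ) : Set Env :=
  {t | Reg G t ∧
    (∀ x ∈ box o L, ∀ z ∈ box o L,
      |T (trunc (KL L) t) x z - hm G (z - x)| ≤ (L : ℝ) ^ ((3 : ℝ) / 5) ∧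
      ∀ γ : Pth, IsGeo Set.univ (trunc (KL L) t) γ → γ.p 0 = x → γ.p γ.n = z → γ.n ≤ C1 * L) ∧
    ∀ c ∈ box o ((C1 + 1) * L), t ∉ NoSq G c 0 (RL G L) ∧ t ∉ NoSq G c (RL G L) (2 * RL G L)}

/-- the exceptional event of `trunc_geo_short` -/
def tc3_B (K : ℝ) (m : ℕ) (x z : V) : Set Env :=
  {t | ¬ (T (trunc K t) x z = TKm K m t x z ∧
    ∀ γ : Pth, IsGeo Set.univ (trunc K t) γ → γ.p 0 = x → γ.p γ.n = z → γ.n ≤ m)}

theorem tc3_forall {q : V → Env → Prop} (h : ∀ x, MeasurableSet {t | q x t}) :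
    MeasurableSet {t | ∀ x, q x t} := by
  rw [Set.setOf_forall]
  exact MeasurableSet.iInter h

theorem tc3_exists {q : V → Env → Prop} (h : ∀ x, MeasurableSet {t | q x t}) :
    MeasurableSet {t | ∃ x, q x t} := by
  rw [Set.setOf_exists]
  exact MeasurableSet.iUnion h

theorem tc3_meas_T (K : ℝ) (x z : V) : Measurable fun t => T (trunc K t) x z :=
  (measurable_T x z).comp (measurable_trunc K)

theorem tc3_meas_geo (K : ℝ) (m : ℕ) (x z : V) : MeasurableSet {t : Env |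
    ∀ γ : Pth, IsGeo Set.univ (trunc K t) γ → γ.p 0 = x → γ.p γ.n = z → γ.n ≤ m} :=
  measurableSet_forall_pth fun γ =>
    (measurable_trunc K (measurableSet_isGeo Set.univ γ)).imp (MeasurableSet.const _)

theorem tc3_meas_B (K : ℝ) (m : ℕ) (x z : V) : MeasurableSet (tc3_B K m x z) :=
  ((measurableSet_eq_fun (tc3_meas_T K x z) (measurable_TKm K m x z)).inter
    (tc3_meas_geo K m x z)).compl

theorem tc3_pow {L : ℕ} (k : ℕ) : KL L ^ k = (L : ℝ) ^ ((k : ℝ) / 20) := by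
  rw [KL, ← Real.rpow_natCast, ← Real.rpow_mul (Nat.cast_nonneg L)]
  congr 1
  ring

theorem tc3_one_le {L : ℕ} (hL : 1 ≤ L) : 1 ≤ KL L :=
  Real.one_le_rpow (by exact_mod_cast hL) (by norm_num)

theorem tc3_p20 (L : ℕ) : KL L ^ 20 = L := by
  rw [tc3_pow]
  norm_num

theorem tc3_p4 (L : ℕ) : (L : ℝ) ^ ((1 : ℝ) / 5) = KL L ^ 4 := by
  rw [tc3_pow]
  norm_num

theorem tc3_p12 (L : ℕ) : (L : ℝ) ^ ((3 : ℝ) / 5) = KL L ^ 12 := by
  rw [tc3_pow]
  norm_num

theorem tc3_exp {a : ℝ} (ha : 0 < a) (n : ℕ) : ∃ C : ℝ, 0 < C ∧ ∀ s : ℝ, 0 < s →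
    Real.exp (-(s / a)) ≤ C / s ^ n := by
  refine ⟨n.factorial * a ^ n, by positivity, fun s hs => ?_⟩
  have := Real.pow_div_factorial_le_exp (s / a) (by positivity) n
  rw [Real.exp_neg, inv_le_comm₀ (Real.exp_pos _) (by positivity), inv_div]
  refine le_trans (le_of_eq ?_) this
  rw [div_pow]
  field_simp

theorem tc3_large (a : ℝ) : ∃ L1 : ℕ, ∀ L, L1 ≤ L → a ≤ KL L := by
  have : Filter.Tendsto KL Filter.atTop Filter.atTop :=
    (tendsto_rpow_atTop (by norm_num)).comp tendsto_natCast_atTop_atTop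
  exact Filter.eventually_atTop.1 (this.eventually_ge_atTop a)

theorem tc3_div {L : ℝ} (hL : 1 ≤ L) {C : ℝ} (hC : 0 ≤ C) {a b c : ℕ} (h : a + c ≤ b) :
    L ^ a * (C / L ^ b) ≤ C / L ^ c := by
  have h0 : 0 < L := by linarith
  rw [← mul_div_assoc, div_le_div_iff₀ (by positivity) (by positivity)]
  have : L ^ (a + c) ≤ L ^ b := pow_le_pow_right₀ hL h
  rw [pow_add] at this
  nlinarith

theorem tc3_int (G : Measure ℝ) [IsProbabilityMeasure G] {K : ℝ} (hK : 0 ≤ K) (x z : V) :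
    Integrable (fun t => T (trunc K t) x z) (iidLaw G) :=
  Integrable.of_bound (tc3_meas_T K x z).aestronglyMeasurable (K * (2 * nrm (z - x) : ℕ))
    (Filter.Eventually.of_forall fun t => by
      rw [Real.norm_of_nonneg (T_nonneg (trunc_nn K t) x z)]
      exact (T_trunc_le_TKm K t le_rfl).trans (TKm_bounds hK _ t x z).2)

theorem tc3_int' (G : Measure ℝ) [IsProbabilityMeasure G] {K : ℝ} (hK : 0 ≤ K) (m : ℕ) (x z : V) :
    Integrable (fun t => TKm K m t x z) (iidLaw G) :=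
  Integrable.of_bound (measurable_TKm K m x z).aestronglyMeasurable (K * m)
    (Filter.Eventually.of_forall fun t => by
      rw [Real.norm_of_nonneg (TKm_bounds hK _ t x z).1]
      exact (TKm_bounds hK _ t x z).2)

theorem tc3_mean (G : Measure ℝ) [IsProbabilityMeasure G] {K : ℝ} (hK : 0 ≤ K) {m : ℕ} {x z : V}
    (hm : 2 * nrm (z - x) ≤ m) :
    ∫ t, T (trunc K t) x z ∂(iidLaw G) ≤ ∫ t, TKm K m t x z ∂(iidLaw G) ∧
    ∫ t, TKm K m t x z ∂(iidLaw G) ≤
      ∫ t, T (trunc K t) x z ∂(iidLaw G) + K * m * Pr G (tc3_B K m x z) := by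
  refine ⟨integral_mono (tc3_int G hK x z) (tc3_int' G hK m x z) fun t => T_trunc_le_TKm K t hm, ?_⟩
  have hi : Integrable ((tc3_B K m x z).indicator fun _ => (1 : ℝ)) (iidLaw G) :=
    (integrable_const _).indicator (tc3_meas_B K m x z)
  rw [← integral_indicator_Pr G (tc3_meas_B K m x z), ← integral_const_mul,
    ← integral_add (tc3_int G hK x z) (hi.const_mul _)]
  refine integral_mono (tc3_int' G hK m x z) ((tc3_int G hK x z).add (hi.const_mul _)) fun t => ?_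
  by_cases h : t ∈ tc3_B K m x z
  · simp only [Set.indicator_of_mem h]
    linarith [(TKm_bounds hK m t x z).2, T_nonneg (trunc_nn K t) x z]
  · simp only [Set.indicator_of_notMem h]
    linarith [(not_not.1 h).1]

variable (G : Measure ℝ) [Law G]

theorem measurableSet_goodK (C1 : ℕ) (o : V) (L : ℕ) : MeasurableSet (GoodK G C1 o L) := by
  refine (measurableSet_reg G).inter (MeasurableSet.inter ?_ ?_)
  · refine tc3_forall fun x => (MeasurableSet.const _).imp ?_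
    refine tc3_forall fun z => (MeasurableSet.const _).imp ?_
    exact (measurableSet_le ((tc3_meas_T _ x z).sub_const _).abs measurable_const).inter
      (tc3_meas_geo _ _ x z)
  · refine tc3_forall fun c => (MeasurableSet.const _).imp ?_
    exact (measurableSet_noSq G c _ _).compl.inter (measurableSet_noSq G c _ _).compl

/-- the mean of `T` minus the truncated passage time -/
theorem trunc_mean_close : ∃ C : ℝ, 0 < C ∧ ∀ L : ℕ, 1 ≤ L → ∀ x z : V, nrm (z - x) ≤ 2 * L →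
    Integrable (fun t => T (trunc (KL L) t) x z) (iidLaw G) ∧
    ∫ t, (T t x z - T (trunc (KL L) t) x z) ∂(iidLaw G) ≤ C * (L : ℝ) ^ ((1 : ℝ) / 5) := by
  obtain ⟨C1, C, hC1, hC, hs⟩ := trunc_geo_short G
  obtain ⟨L0, -, hL0⟩ := RL_large G
  obtain ⟨Ch, hCh, hh⟩ := hm_le G
  obtain ⟨C2, hC2, h2⟩ := T_L2 G
  set C3 : ℝ := C + (2 * C1 + 1) ^ 2 with hC3
  refine ⟨4 * Ch + √(4 * C2 * C3) + 2 * Ch * L0, by positivity, fun L hL x z hxz => ?_⟩
  have hK := tc3_one_le hL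
  have hL' : (1 : ℝ) ≤ L := by exact_mod_cast hL
  have hxz' : (nrm (z - x) : ℝ) ≤ 2 * L := by exact_mod_cast hxz
  have iT := tc3_int G (zero_le_one.trans hK) x z
  refine ⟨iT, ?_⟩
  have h4 : 1 ≤ KL L ^ 4 := one_le_pow₀ hK
  rw [tc3_p4]
  by_cases hl : L < L0
  · have h1 : ∫ t, (T t x z - T (trunc (KL L) t) x z) ∂(iidLaw G) ≤ ∫ t, T t x z ∂(iidLaw G) :=
      integral_mono ((integrable_T G x z).sub iT) (integrable_T G x z) fun t =>
        sub_le_self _ (T_nonneg (trunc_nn _ t) x z)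
    rw [integral_T] at h1
    have h3 : (L : ℝ) ≤ L0 := by exact_mod_cast hl.le
    have h5 : hm G (z - x) ≤ 2 * Ch * L0 := (hh _).trans (by nlinarith)
    have h6 : 0 ≤ 4 * Ch + √(4 * C2 * C3) := by positivity
    have h7 : 0 ≤ 2 * Ch * L0 := by positivity
    nlinarith
  obtain ⟨k1, -, k3⟩ := hL0 L (not_lt.1 hl)
  obtain ⟨r1, r2⟩ := RL_spec G hL
  set K := KL L with hKd
  set R := RL G L with hR
  set B : Set Env := tc3_B K (C1 * L) x z ∪ {t | ∃ c ∈ boxF x (C1 * L), t ∈ NoSq G c 0 R} with hB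
  have mB : MeasurableSet B := (tc3_meas_B _ _ _ _).union (tc3_exists fun c =>
    (MeasurableSet.const _).inter (measurableSet_noSq G c _ _))
  have pB : Pr G B ≤ C3 / (L : ℝ) ^ 2 := by
    have a1 : Pr G (tc3_B K (C1 * L) x z) ≤ C / (L : ℝ) ^ 2 :=
      (hs L hL x z hxz).trans (by simpa using tc3_div hL' hC.le (a := 0) (b := 110) (c := 2) (by norm_num))
    have a2 := Pr_noSq_exists G (boxF x (C1 * L)) 0 R
    rw [card_boxF, Nat.sub_zero] at a2
    have a3 := tc3_div hL' (sq_nonneg (2 * C1 + 1 : ℝ)) (a := 2) (b := 120) (c := 2) (by norm_num)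
    have a4 : (((2 * (C1 * L) + 1) ^ 2 : ℕ) : ℝ) ≤ (2 * C1 + 1) ^ 2 * (L : ℝ) ^ 2 := by
      push_cast
      rw [← mul_pow]
      exact pow_le_pow_left₀ (by positivity) (by nlinarith) 2
    have a5 : (((2 * (C1 * L) + 1) ^ 2 : ℕ) : ℝ) * (1 / 2) ^ R ≤
        (2 * C1 + 1) ^ 2 * (L : ℝ) ^ 2 * (1 / (L : ℝ) ^ 120) :=
      mul_le_mul a4 k3 (by positivity) (by positivity)
    refine (Pr_union_le G _ _).trans ?_
    rw [hC3, add_div]
    refine add_le_add a1 (a2.trans (a5.trans (le_trans (le_of_eq ?_) a3)))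
    ring
  have i1 : Integrable (fun t => ∑ p ∈ boxF x R, T t x p) (iidLaw G) :=
    integrable_finsetSum _ fun p _ => integrable_T G x p
  have i2 : Integrable (fun t => ∑ q ∈ boxF z R, T t q z) (iidLaw G) :=
    integrable_finsetSum _ fun q _ => integrable_T G q z
  have i3 : Integrable (B.indicator fun t => |T t x z|) (iidLaw G) :=
    (integrable_T G x z).abs.indicator mB
  have hle : ∫ t, (T t x z - T (trunc K t) x z) ∂(iidLaw G) ≤
      ∫ t, ((∑ p ∈ boxF x R, T t x p + ∑ q ∈ boxF z R, T t q z) +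
        B.indicator (fun t => |T t x z|) t) ∂(iidLaw G) := by
    refine integral_mono_ae ((integrable_T G x z).sub iT) ((i1.add i2).add i3) ?_
    filter_upwards [ae_reg G] with t ht
    have nn := ht.1.nn
    by_cases h : t ∈ B
    · rw [Set.indicator_of_mem h]
      have b1 : 0 ≤ ∑ p ∈ boxF x R, T t x p := Finset.sum_nonneg fun p _ => T_nonneg nn _ _
      have b2 : 0 ≤ ∑ q ∈ boxF z R, T t q z := Finset.sum_nonneg fun p _ => T_nonneg nn _ _
      linarith [le_abs_self (T t x z), T_nonneg (trunc_nn K t) x z]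
    · rw [Set.indicator_of_notMem h]
      obtain ⟨γ, hγ, e0, e1⟩ := exists_geo G (reg_trunc G k1 ht) (conn_univ x z)
      have hn : γ.n ≤ C1 * L := (not_not.1 fun h' => h (Or.inl h')).2 γ hγ e0 e1
      have := T_le_trunc G nn hγ r1 fun i hi hb => h (Or.inr ⟨γ.p i,
        mem_boxF.2 (box_mono x hn (e0 ▸ hγ.1.in_box i hi)), hb⟩)
      rw [e0, e1] at this
      linarith
  have i12 : Integrable (fun t => ∑ p ∈ boxF x R, T t x p + ∑ q ∈ boxF z R, T t q z) (iidLaw G) :=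
    i1.add i2
  rw [integral_add i12 i3, integral_add i1 i2,
    integral_finsetSum _ fun p _ => integrable_T G x p,
    integral_finsetSum _ fun q _ => integrable_T G q z, integral_indicator mB] at hle
  have hsum : ∀ (c : V) (f : V → ℝ), (∀ p, f p ≤ Ch * nrm (p - c)) →
      ∑ p ∈ boxF c R, f p ≤ 2 * Ch * K ^ 4 := by
    intro c f hf
    have := Finset.sum_le_card_nsmul (boxF c R) f (Ch * R) fun p hp => (hf p).trans
      (mul_le_mul_of_nonneg_left (by exact_mod_cast mem_boxF.1 hp) hCh.le)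
    rw [card_boxF, nsmul_eq_mul] at this
    refine this.trans ?_
    have r3 : (2 * R : ℝ) ≤ K := r2
    have c1 : (((2 * R + 1) ^ 2 : ℕ) : ℝ) ≤ (2 * K) ^ 2 := by
      push_cast
      exact pow_le_pow_left₀ (by positivity) (by linarith) 2
    have c2 : K ^ 3 ≤ K ^ 4 := pow_le_pow_right₀ hK (by norm_num)
    calc _ ≤ (2 * K) ^ 2 * (Ch * (K / 2)) :=
          mul_le_mul c1 (mul_le_mul_of_nonneg_left (by linarith) hCh.le) (by positivity)
            (by positivity)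
      _ = 2 * Ch * K ^ 3 := by ring
      _ ≤ _ := mul_le_mul_of_nonneg_left c2 (by positivity)
  have s1 := hsum x (fun p => ∫ t, T t x p ∂(iidLaw G)) fun p => by
    rw [integral_T]
    exact hh _
  have s2 := hsum z (fun q => ∫ t, T t q z ∂(iidLaw G)) fun q => by
    rw [integral_T, nrm_sub_comm]
    exact hh _
  have s3 : ∫ t in B, |T t x z| ∂(iidLaw G) ≤ √(4 * C2 * C3) := by
    refine (setIntegral_le_sqrt G (memLp_T G x z) mB).trans ?_
    have d1 : ∫ t, T t x z ^ 2 ∂(iidLaw G) ≤ C2 * (2 * L) ^ 2 :=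
      (h2 x z Set.univ (Set.subset_univ _)).2.trans
        (mul_le_mul_of_nonneg_left (pow_le_pow_left₀ (by positivity) hxz' 2) hC2.le)
    rw [← Real.sqrt_mul (integral_nonneg fun t => sq_nonneg _)]
    refine Real.sqrt_le_sqrt ((mul_le_mul d1 pB (Pr_nonneg G _) (by positivity)).trans
      (le_of_eq ?_))
    field_simp
    ring
  have h6 : 0 ≤ √(4 * C2 * C3) := by positivity
  have h7 : 0 ≤ 2 * Ch * L0 := by positivity
  nlinarith

theorem Pr_not_goodK : ∃ (C1 : ℕ) (C : ℝ), 1 ≤ C1 ∧ 0 < C ∧ ∀ (o : V) (L : ℕ), 1 ≤ L →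
    Pr G (GoodK G C1 o L)ᶜ ≤ C / (L : ℝ) ^ 100 := by
  obtain ⟨C1, C, hC1, hC, hs⟩ := trunc_geo_short G
  obtain ⟨L0, -, hL0⟩ := RL_large G
  obtain ⟨C3, hC3, h3⟩ := trunc_mean_close G
  obtain ⟨Cc, hCc, hc⟩ := TKm_concentration
  have hC1' : (0 : ℝ) < C1 := by exact_mod_cast (by omega : 0 < C1)
  obtain ⟨C4, hC4, h4⟩ := tc3_exp (a := 2 * √C1) (by positivity) (20 * 110)
  obtain ⟨L1, hL1⟩ := tc3_large (2 * (C3 + C1 * C))
  refine ⟨C1, 81 * (C + Cc * C4) + 2 * (2 * C1 + 3) ^ 2 + (L0 + L1 : ℝ) ^ 100, by omega,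
    by positivity, fun o L hL => ?_⟩
  have hK := tc3_one_le hL
  have hL' : (1 : ℝ) ≤ L := by exact_mod_cast hL
  by_cases hl : L < L0 + L1
  · refine (Pr_le_one G _).trans ?_
    rw [le_div_iff₀ (by positivity), one_mul]
    have : (L : ℝ) ^ 100 ≤ (L0 + L1 : ℝ) ^ 100 :=
      pow_le_pow_left₀ (by positivity) (by exact_mod_cast hl.le) 100
    have : 0 ≤ 81 * (C + Cc * C4) + 2 * (2 * C1 + 3 : ℝ) ^ 2 := by positivity
    linarith
  obtain ⟨-, -, k3⟩ := hL0 L (by omega)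
  have k4 := hL1 L (by omega)
  have e20 := tc3_p20 L
  have e4 := tc3_p4 L
  have e12 := tc3_p12 L
  set K := KL L with hKd
  set R := RL G L with hR
  have hK0 : 0 < K := by linarith
  let E : V × V → Set Env := fun p => tc3_B K (C1 * L) p.1 p.2 ∪ {t | K ^ 12 / 2 ≤
    |TKm K (C1 * L) t p.1 p.2 - ∫ t', TKm K (C1 * L) t' p.1 p.2 ∂(iidLaw G)|}
  have hn : ∀ x ∈ box o L, ∀ z ∈ box o L, nrm (z - x) ≤ 2 * L := fun x hx z hz => by
    have := nrm_triangle x o z
    rw [nrm_sub_comm o x] at this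
    have h1 : nrm (x - o) ≤ L := hx
    have h2 : nrm (z - o) ≤ L := hz
    omega
  have hm2 : ∀ {x z : V}, nrm (z - x) ≤ 2 * L → 2 * nrm (z - x) ≤ C1 * L := fun h => by nlinarith
  have pE : ∀ p ∈ boxF o L ×ˢ boxF o L, Pr G (E p) ≤ (C + Cc * C4) / (L : ℝ) ^ 110 := by
    intro p hp
    rw [Finset.mem_product, mem_boxF, mem_boxF] at hp
    have hxz := hn _ hp.1 _ hp.2
    refine (Pr_union_le G _ _).trans ?_
    rw [add_div]
    refine add_le_add (hs L hL _ _ hxz) ((hc G K (C1 * L) _ _ hK0 (by nlinarith) (hm2 hxz) _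
      (by positivity)).trans ?_)
    have e : K ^ 12 / 2 / (K * √((C1 * L : ℕ) : ℝ)) = K / (2 * √C1) := by
      push_cast
      rw [Real.sqrt_mul hC1'.le, ← e20, show K ^ 20 = (K ^ 10) ^ 2 by ring,
        Real.sqrt_sq (by positivity)]
      field_simp
    rw [e, mul_div_assoc]
    refine mul_le_mul_of_nonneg_left ((h4 K hK0).trans (le_of_eq ?_)) hCc.le
    rw [pow_mul, e20]
  have pN : ∀ a b : ℕ, b - a = R → Pr G {t | ∃ c ∈ boxF o ((C1 + 1) * L), t ∈ NoSq G c a b} ≤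
      (2 * C1 + 3) ^ 2 / (L : ℝ) ^ 100 := by
    intro a b hab
    have a2 := Pr_noSq_exists G (boxF o ((C1 + 1) * L)) a b
    rw [card_boxF, hab] at a2
    have a3 := tc3_div hL' (sq_nonneg (2 * C1 + 3 : ℝ)) (a := 2) (b := 120) (c := 100) (by norm_num)
    have a4 : (((2 * ((C1 + 1) * L) + 1) ^ 2 : ℕ) : ℝ) ≤ (2 * C1 + 3) ^ 2 * (L : ℝ) ^ 2 := by
      push_cast
      rw [← mul_pow]
      exact pow_le_pow_left₀ (by positivity) (by nlinarith) 2
    have a5 : (((2 * ((C1 + 1) * L) + 1) ^ 2 : ℕ) : ℝ) * (1 / 2) ^ R ≤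
        (2 * C1 + 3) ^ 2 * (L : ℝ) ^ 2 * (1 / (L : ℝ) ^ 120) :=
      mul_le_mul a4 k3 (by positivity) (by positivity)
    refine a2.trans (a5.trans (le_trans (le_of_eq ?_) a3))
    ring
  have pU : Pr G (⋃ p ∈ boxF o L ×ˢ boxF o L, E p) ≤ 81 * (C + Cc * C4) / (L : ℝ) ^ 100 := by
    refine (Pr_biUnion_le G _ _).trans ((Finset.sum_le_card_nsmul _ _ _ pE).trans ?_)
    rw [Finset.card_product, card_boxF, nsmul_eq_mul]
    have a3 := tc3_div hL' (by positivity : 0 ≤ 81 * (C + Cc * C4)) (a := 4) (b := 110) (c := 100)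
      (by norm_num)
    have a4 : (((2 * L + 1) ^ 2 * (2 * L + 1) ^ 2 : ℕ) : ℝ) ≤ (3 * L) ^ 4 := by
      push_cast
      rw [← pow_add]
      exact pow_le_pow_left₀ (by positivity) (by linarith) 4
    refine (mul_le_mul_of_nonneg_right a4 (by positivity)).trans (le_trans (le_of_eq ?_) a3)
    ring
  have hsub : Pr G (GoodK G C1 o L)ᶜ ≤ Pr G ((⋃ p ∈ boxF o L ×ˢ boxF o L, E p) ∪
      ({t | ∃ c ∈ boxF o ((C1 + 1) * L), t ∈ NoSq G c 0 R} ∪
        {t | ∃ c ∈ boxF o ((C1 + 1) * L), t ∈ NoSq G c R (2 * R)})) := by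
    refine Pr_mono_ae G ?_
    filter_upwards [ae_reg G] with t ht hg
    by_contra hb
    refine hg ⟨ht, fun x hx z hz => ?_, fun c hc' => ⟨fun h => hb (Or.inr (Or.inl
      ⟨c, mem_boxF.2 hc', h⟩)), fun h => hb (Or.inr (Or.inr ⟨c, mem_boxF.2 hc', h⟩))⟩⟩
    have hE : t ∉ E (x, z) := fun h => hb (Or.inl (Set.mem_biUnion
      (Finset.mem_coe.2 (Finset.mem_product.2 ⟨mem_boxF.2 hx, mem_boxF.2 hz⟩)) h))
    have hxz := hn x hx z hz
    obtain ⟨b1, b2⟩ := not_not.1 fun h' => hE (Or.inl h')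
    refine ⟨?_, b2⟩
    have b3 : |TKm K (C1 * L) t x z - ∫ t', TKm K (C1 * L) t' x z ∂(iidLaw G)| < K ^ 12 / 2 :=
      not_le.1 fun h' => hE (Or.inr h')
    obtain ⟨m1, m2⟩ := tc3_mean G hK0.le (hm2 hxz)
    obtain ⟨iT, m3⟩ := h3 L hL x z hxz
    rw [integral_sub (integrable_T G x z) iT, integral_T, e4] at m3
    have m4 : ∫ t, T (trunc K t) x z ∂(iidLaw G) ≤ hm G (z - x) := by
      rw [← integral_T]
      exact integral_mono_ae iT (integrable_T G x z) ((ae_nn G).mono fun t ht => T_trunc_le ht K x z)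
    have m5 : K * ((C1 * L : ℕ) : ℝ) * Pr G (tc3_B K (C1 * L) x z) ≤ C1 * C := by
      have a1 : K ≤ L := by
        rw [← e20]
        exact le_self_pow₀ hK (by norm_num)
      have a2 := tc3_div hL' hC.le (a := 2) (b := 110) (c := 0) (by norm_num)
      rw [pow_zero, div_one] at a2
      calc _ ≤ L * ((C1 * L : ℕ) : ℝ) * (C / (L : ℝ) ^ 110) :=
            mul_le_mul (mul_le_mul_of_nonneg_right a1 (by positivity)) (hs L hL x z hxz)
              (Pr_nonneg G _) (by positivity)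
        _ = C1 * ((L : ℝ) ^ 2 * (C / (L : ℝ) ^ 110)) := by
            push_cast
            ring
        _ ≤ _ := mul_le_mul_of_nonneg_left a2 hC1'.le
    have n4 : 1 ≤ K ^ 4 := one_le_pow₀ hK
    have n5 : K ^ 5 ≤ K ^ 12 := pow_le_pow_right₀ hK (by norm_num)
    have n6 : 2 * (C3 + C1 * C) * K ^ 4 ≤ K * K ^ 4 :=
      mul_le_mul_of_nonneg_right k4 (by positivity)
    have n7 : C1 * C ≤ C1 * C * K ^ 4 := le_mul_of_one_le_right (by positivity) n4
    have n8 : 0 ≤ C3 * K ^ 4 := by positivity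
    have n9 : 0 ≤ C1 * C := by positivity
    rw [e12, b1, abs_le]
    rw [abs_lt] at b3
    constructor <;> nlinarith
  refine hsub.trans ((Pr_union_le G _ _).trans ((add_le_add pU ((Pr_union_le G _ _).trans
    (add_le_add (pN 0 R rfl) (pN R (2 * R) (by omega))))).trans ?_))
  rw [← add_div, ← add_div]
  refine div_le_div_of_nonneg_right ?_ (by positivity)
  have : 0 ≤ (L0 + L1 : ℝ) ^ 100 := by positivity
  linarith

end Crest.Agent.R151
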