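import Crest.Agent.R151.TKesten

/-! Row 151 toolkit: the monotone coupling that turns high weights into low weights. -/

set_option autoImplicit false

namespace Crest.Agent.R151

open MeasureTheory ProbabilityTheory Crest.ProbabilityR.FirstPassage
open scoped Classical

/-- per-edge randomness: original weight, uniform variable, spare low value, spare high value -/
abbrev Cp : Type := ℝ × ℝ × ℝ × ℝ
abbrev CΩ : Type := Sym2 V → Cp

noncomputable def pLo (G : Measure ℝ) : ℝ := G.real (lo G)
noncomputable def pHi (G : Measure ℝ) : ℝ := G.real (hi G)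
/-- admissible range of the tilt -/
noncomputable def s0 (G : Measure ℝ) : ℝ := min (pLo G) (1 - pHi G) / 2

noncomputable def nuC (G : Measure ℝ) : Measure Cp :=
  G.prod ((volume.restrict (Set.Icc (0 : ℝ) 1)).prod ((G[|lo G]).prod (G[|hi G])))

noncomputable def Qc (G : Measure ℝ) : Measure CΩ := Measure.infinitePi fun _ : Sym2 V => nuC G

/-- the weight at tilt `s`: for `s > 0` mass `s` moves from high to low, for `s < 0` back -/
noncomputable def cpl (G : Measure ℝ) (s : ℝ) (a : Cp) : ℝ :=
  if a.1 ∈ hi G ∧ a.2.1 * pHi G < s then a.2.2.1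
  else if a.1 ∈ lo G ∧ a.2.1 * pLo G < -s then a.2.2.2 else a.1

/-- the environment at tilt `s` on the edges of `U` -/
noncomputable def tS (G : Measure ℝ) (U : Finset (Sym2 V)) (s : ℝ) (ω : CΩ) : Env :=
  fun e => if e ∈ U then cpl G s (ω e) else (ω e).1

/-- spare values lie where they should -/
def GoodC (G : Measure ℝ) (ω : CΩ) : Prop :=
  ∀ e, (ω e).2.1 ∈ Set.Icc (0 : ℝ) 1 ∧ (ω e).2.2.1 ∈ lo G ∧ (ω e).2.2.2 ∈ hi G

/-- density of the tilted one-edge law -/
noncomputable def fS (G : Measure ℝ) (s x : ℝ) : ℝ :=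
  1 + s * ((lo G).indicator (fun _ => 1 / pLo G) x - (hi G).indicator (fun _ => 1 / pHi G) x)

variable (G : Measure ℝ) [Law G]

theorem pLo_pos : 0 < pLo G := lo_pos G
theorem pHi_ge : 999 / 1000 ≤ pHi G := hi_ge G
theorem pLo_add_pHi_le : pLo G + pHi G ≤ 1 := by
  rw [pLo, pHi, ← measureReal_union (disjoint_lo_hi G) (measurableSet_hi G)]
  exact measureReal_le_one
theorem s0_pos : 0 < s0 G := by
  have := pLo_pos G
  have := pLo_add_pHi_le G
  exact half_pos (lt_min (by linarith) (by linarith))
theorem s0_le : s0 G ≤ pLo G / 2 ∧ pHi G + s0 G ≤ 1 ∧ s0 G ≤ 1 / 2000 := by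
  have h1 := min_le_left (pLo G) (1 - pHi G)
  have h2 := min_le_right (pLo G) (1 - pHi G)
  have := pLo_pos G
  have := pLo_add_pHi_le G
  have := pHi_ge G
  unfold s0
  refine ⟨by linarith, by linarith, by linarith⟩

instance tc0_prob_lo : IsProbabilityMeasure (G[|lo G]) :=
  cond_isProbabilityMeasure fun h => (pLo_pos G).ne' (by rw [pLo, Measure.real, h]; rfl)

instance tc0_prob_hi : IsProbabilityMeasure (G[|hi G]) :=
  cond_isProbabilityMeasure fun h => by
    have := pHi_ge G
    rw [pHi, Measure.real, h, ENNReal.toReal_zero] at this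
    norm_num at this

instance tc0_prob_unif : IsProbabilityMeasure (volume.restrict (Set.Icc (0 : ℝ) 1)) :=
  ⟨by simp⟩

instance instProbNuC : IsProbabilityMeasure (nuC G) := by
  unfold nuC
  infer_instance
instance instProbQc : IsProbabilityMeasure (Qc G) := by unfold Qc; infer_instance

omit [Law G] in
theorem measurable_cpl : Measurable (fun q : ℝ × Cp => cpl G q.1 q.2) := by
  unfold cpl
  refine Measurable.ite ?_ (by fun_prop) (Measurable.ite ?_ (by fun_prop) (by fun_prop))
  · exact ((measurableSet_hi G).preimage (f := fun q : ℝ × Cp => q.2.1) (by fun_prop)).inter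
      (measurableSet_lt (f := fun q : ℝ × Cp => q.2.2.1 * pHi G) (by fun_prop) measurable_fst)
  · exact ((measurableSet_lo G).preimage (f := fun q : ℝ × Cp => q.2.1) (by fun_prop)).inter
      (measurableSet_lt (f := fun q : ℝ × Cp => q.2.2.1 * pLo G) (by fun_prop) measurable_fst.neg)
omit [Law G] in
theorem measurable_tS_uncurry (U : Finset (Sym2 V)) :
    Measurable (fun q : ℝ × CΩ => tS G U q.1 q.2) := by
  refine measurable_pi_lambda _ fun e => ?_
  unfold tS
  split_ifs
  · exact (measurable_cpl G).comp (measurable_fst.prodMk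
      ((measurable_pi_apply e).comp measurable_snd))
  · fun_prop
omit [Law G] in
theorem measurable_tS (U : Finset (Sym2 V)) (s : ℝ) : Measurable (tS G U s) := by
  exact (measurable_tS_uncurry G U).comp (measurable_const.prodMk measurable_id)
theorem ae_goodC : ∀ᵐ ω ∂(Qc G), GoodC G ω := by
  refine ae_all_iff.2 fun e => ?_
  have h : ∀ᵐ a ∂(nuC G), a.2.1 ∈ Set.Icc (0 : ℝ) 1 ∧ a.2.2.1 ∈ lo G ∧ a.2.2.2 ∈ hi G := by
    unfold nuC
    refine Measure.quasiMeasurePreserving_snd.ae
      (p := fun b : ℝ × ℝ × ℝ => b.1 ∈ Set.Icc (0 : ℝ) 1 ∧ b.2.1 ∈ lo G ∧ b.2.2 ∈ hi G) ?_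
    refine (Measure.quasiMeasurePreserving_fst.ae (ae_restrict_mem measurableSet_Icc)).and ?_
    refine Measure.quasiMeasurePreserving_snd.ae
      (p := fun b : ℝ × ℝ => b.1 ∈ lo G ∧ b.2 ∈ hi G) ?_
    exact (Measure.quasiMeasurePreserving_fst.ae (ae_cond_mem (measurableSet_lo G))).and
      (Measure.quasiMeasurePreserving_snd.ae (ae_cond_mem (measurableSet_hi G)))
  exact (measurePreserving_eval_infinitePi (fun _ : Sym2 V => nuC G) e).quasiMeasurePreserving.ae h
theorem low_tS (U : Finset (Sym2 V)) {s s' : ℝ} (h : s ≤ s') {ω : CΩ} (hω : GoodC G ω) :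
    Low G U (tS G U s ω) (tS G U s' ω) := by
  intro e
  obtain ⟨-, h2, h3⟩ := hω e
  have hd := Set.disjoint_left.1 (disjoint_lo_hi G)
  unfold tS
  by_cases he : e ∈ U
  swap
  · left; rw [if_neg he, if_neg he]
  rw [if_pos he, if_pos he]
  unfold cpl
  by_cases hH : (ω e).1 ∈ hi G
  · have hL : (ω e).1 ∉ lo G := fun hL => hd hL hH
    simp only [hH, hL, true_and, false_and, if_false]
    split_ifs with a b b
    · left; rfl
    · exact Or.inr ⟨he, hH, h2⟩
    · exact absurd (b.trans_le h) a
    · left; rfl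
  · simp only [hH, false_and, if_false]
    by_cases hL : (ω e).1 ∈ lo G
    · simp only [hL, true_and]
      split_ifs with a b b
      · left; rfl
      · exact absurd (a.trans_le (neg_le_neg h)) b
      · exact Or.inr ⟨he, h3, hL⟩
      · left; rfl
    · simp only [hL, false_and, if_false, true_or]
theorem fS_nonneg {s : ℝ} (hs : |s| ≤ s0 G) (x : ℝ) : 1 / 2 ≤ fS G s x ∧ fS G s x ≤ 2 := by
  have hd := Set.disjoint_left.1 (disjoint_lo_hi G)
  obtain ⟨a1, a2, a3⟩ := s0_le G
  have b1 := pLo_pos G
  have b2 := pHi_ge G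
  obtain ⟨c1, c2⟩ := abs_le.1 hs
  unfold fS
  by_cases hH : x ∈ hi G
  · have hL : x ∉ lo G := fun hL => hd hL hH
    rw [Set.indicator_of_mem hH, Set.indicator_of_notMem hL]
    have e : 1 + s * (0 - 1 / pHi G) = 1 - s / pHi G := by ring
    have h1 : s / pHi G ≤ 1 / 2 := by rw [div_le_iff₀ (by linarith)]; linarith
    have h2 : -1 ≤ s / pHi G := by rw [le_div_iff₀ (by linarith)]; linarith
    rw [e]
    constructor <;> linarith
  · rw [Set.indicator_of_notMem hH]
    by_cases hL : x ∈ lo G
    · rw [Set.indicator_of_mem hL]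
      have e : 1 + s * (1 / pLo G - 0) = 1 + s / pLo G := by ring
      have h1 : s / pLo G ≤ 1 := by rw [div_le_iff₀ b1]; linarith
      have h2 : -(1 / 2) ≤ s / pLo G := by rw [le_div_iff₀ b1]; linarith
      rw [e]
      constructor <;> linarith
    · rw [Set.indicator_of_notMem hL]
      norm_num
omit [Law G] in
theorem tc0_meas_fS (s : ℝ) : Measurable (fS G s) := by
  unfold fS
  exact measurable_const.add (((measurable_const.indicator (measurableSet_lo G)).sub
    (measurable_const.indicator (measurableSet_hi G))).const_mul s)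

/-- the one-edge law at tilt `s` -/
theorem map_cpl {s : ℝ} (hs : |s| ≤ s0 G) :
    (nuC G).map (cpl G s) = G.withDensity (fun x => ENNReal.ofReal (fS G s x)) := by
  have hm : Measurable (cpl G s) := (measurable_cpl G).comp (measurable_const.prodMk measurable_id)
  have hd := Set.disjoint_left.1 (disjoint_lo_hi G)
  obtain ⟨a1, a2, a3⟩ := s0_le G
  have b1 := pLo_pos G
  have b2 := pHi_ge G
  have b3 : 0 < pHi G := by linarith
  obtain ⟨c1, c2⟩ := abs_le.1 hs
  have mH := measurableSet_hi G
  have mL := measurableSet_lo G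
  have hi1 : Integrable (fS G s) G := by
    refine (integrable_const (2 : ℝ)).mono' (tc0_meas_fS G s).aestronglyMeasurable
      (Filter.Eventually.of_forall fun x => ?_)
    have := fS_nonneg G hs x
    rw [Real.norm_eq_abs, abs_le]
    constructor <;> linarith [this.1, this.2]
  ext B hB
  rw [Measure.map_apply hm hB, withDensity_apply _ hB, ← ofReal_integral_eq_lintegral_ofReal
    hi1.integrableOn (Filter.Eventually.of_forall fun x => by
      have := (fS_nonneg G hs x).1
      simp only [Pi.zero_apply]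
      linarith), ← ofReal_measureReal (measure_ne_top _ _)]
  congr 1
  have e1 : ∫ x in B, fS G s x ∂G = G.real B + s * (G.real (lo G ∩ B) / pLo G -
      G.real (hi G ∩ B) / pHi G) := by
    unfold fS
    have i1 : Integrable (fun x => s * ((lo G).indicator (fun _ => 1 / pLo G) x -
        (hi G).indicator (fun _ => 1 / pHi G) x)) (G.restrict B) :=
      (((integrable_const _).indicator mL).sub ((integrable_const _).indicator mH)).const_mul s
    rw [integral_add (integrable_const _) i1, integral_const_mul,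
      integral_sub ((integrable_const _).indicator mL) ((integrable_const _).indicator mH),
      integral_indicator_const _ mL, integral_indicator_const _ mH, measureReal_restrict_apply mL,
      measureReal_restrict_apply mH]
    simp only [integral_const, smul_eq_mul, mul_one, measureReal_restrict_apply_univ]
    ring
  have e2 : G.real B = G.real (hi G ∩ B) + G.real (lo G ∩ B) + G.real ((B \ hi G) \ lo G) := by
    rw [← measureReal_inter_add_sdiff (s := B) mH, ← measureReal_inter_add_sdiff (s := B \ hi G) mL,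
      Set.inter_comm B, add_assoc]
    congr 3
    ext x
    exact ⟨fun h => ⟨h.2, h.1.1⟩, fun h => ⟨⟨h.2, hd h.1⟩, h.1⟩⟩
  have e3 : cpl G s ⁻¹' B =
      (hi G ×ˢ Set.Iio (s / pHi G) ×ˢ B ×ˢ Set.univ ∪
        (hi G ∩ B) ×ˢ (Set.Iio (s / pHi G))ᶜ ×ˢ Set.univ ×ˢ Set.univ) ∪
      ((lo G ×ˢ Set.Iio (-s / pLo G) ×ˢ Set.univ ×ˢ B ∪
        (lo G ∩ B) ×ˢ (Set.Iio (-s / pLo G))ᶜ ×ˢ Set.univ ×ˢ Set.univ) ∪
      ((B \ hi G) \ lo G) ×ˢ Set.univ ×ˢ Set.univ ×ˢ Set.univ) := by
    ext ⟨x, u, y, z⟩
    simp only [Set.mem_preimage, cpl, Set.mem_union, Set.mem_prod, Set.mem_inter_iff,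
      Set.mem_compl_iff, Set.mem_Iio, Set.mem_univ, Set.mem_sdiff, lt_div_iff₀ b1, lt_div_iff₀ b3]
    by_cases hH : x ∈ hi G
    · have hL : x ∉ lo G := fun hL => hd hL hH
      by_cases hu : u * pHi G < s <;> simp [hH, hL, hu]
    · by_cases hL : x ∈ lo G
      · by_cases hu : u * pLo G < -s <;> simp [hH, hL, hu]
      · simp [hH, hL]
  have mI : ∀ c : ℝ, MeasurableSet (Set.Iio c) := fun c => measurableSet_Iio
  have mu : MeasurableSet (Set.univ : Set ℝ) := MeasurableSet.univ
  rw [e3, measureReal_union, measureReal_union, measureReal_union, measureReal_union]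
  rotate_left
  · exact Set.disjoint_left.2 fun a h1 h2 => h2.2.1 h1.2.1
  · exact (mL.inter hB).prod ((mI _).compl.prod (mu.prod mu))
  · exact Set.disjoint_left.2 fun a h1 h2 => h2.1.2 (h1.elim (fun h => h.1) fun h => h.1.1)
  · exact ((hB.diff mH).diff mL).prod (mu.prod (mu.prod mu))
  · exact Set.disjoint_left.2 fun a h1 h2 => h2.2.1 h1.2.1
  · exact (mH.inter hB).prod ((mI _).compl.prod (mu.prod mu))
  · refine Set.disjoint_left.2 fun a h1 h2 => ?_
    have h3 : a.1 ∈ hi G := h1.elim (fun h => h.1) fun h => h.1.1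
    exact h2.elim (fun h => hd (h.elim (fun h => h.1) fun h => h.1.1) h3) fun h => h.1.1.2 h3
  · exact ((mL.prod ((mI _).prod (mu.prod hB))).union
      ((mL.inter hB).prod ((mI _).compl.prod (mu.prod mu)))).union
      (((hB.diff mH).diff mL).prod (mu.prod (mu.prod mu)))
  have u1 : ∀ c : ℝ, c ≤ 1 → (volume.restrict (Set.Icc (0 : ℝ) 1)).real (Set.Iio c) = max c 0 := by
    intro c hc
    rw [measureReal_restrict_apply (mI c)]
    have : Set.Iio c ∩ Set.Icc (0 : ℝ) 1 = Set.Ico 0 c := by
      ext u
      exact ⟨fun h => ⟨h.2.1, h.1⟩, fun h => ⟨h.2, h.1, h.2.le.trans hc⟩⟩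
    rw [this, Real.volume_real_Ico, sub_zero]
  have u2 : ∀ {A : Set ℝ}, MeasurableSet A → (G[|A]).real B = G.real (A ∩ B) / G.real A := by
    intro A hA
    rw [Measure.real, cond_apply hA, ENNReal.toReal_mul, ENNReal.toReal_inv, div_eq_inv_mul]
    rfl
  have v1 : s / pHi G ≤ 1 := by rw [div_le_iff₀ b3]; linarith
  have v2 : -s / pLo G ≤ 1 := by rw [div_le_iff₀ b1]; linarith
  unfold nuC
  simp only [measureReal_prod_prod, probReal_univ, probReal_compl_eq_one_sub (mI _), u1 _ v1,
    u1 _ v2, u2 mH, u2 mL]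
  rw [e1, e2]
  change pHi G * (_ * (_ / pLo G * 1)) + _ + (pLo G * (_ * (1 * (_ / pHi G))) + _ + _) = _
  rcases le_total 0 s with h0 | h0
  · rw [max_eq_left (div_nonneg h0 b3.le),
      max_eq_right (div_nonpos_of_nonpos_of_nonneg (by linarith) b1.le)]
    field_simp
    ring
  · rw [max_eq_right (div_nonpos_of_nonpos_of_nonneg h0 b3.le),
      max_eq_left (div_nonneg (by linarith) b1.le)]
    field_simp
    ring
/-- the law of the tilted environment -/
theorem map_tS (U : Finset (Sym2 V)) {s : ℝ} (hs : |s| ≤ s0 G) :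
    (Qc G).map (tS G U s) =
      (iidLaw G).withDensity (fun t => ENNReal.ofReal (∏ e ∈ U, fS G s (t e))) := by
  have hm : Measurable (cpl G s) := (measurable_cpl G).comp (measurable_const.prodMk measurable_id)
  set g : Sym2 V → Cp → ℝ := fun e a => if e ∈ U then cpl G s a else a.1 with hg
  have hgm : ∀ e, Measurable (g e) := fun e => by
    simp only [hg]
    split_ifs
    · exact hm
    · exact measurable_fst
  have : ∀ e, IsProbabilityMeasure ((nuC G).map (g e)) := fun e =>
    Measure.isProbabilityMeasure_map (hgm e).aemeasurable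
  have e1 : (Qc G).map (tS G U s) = Measure.infinitePi fun e => (nuC G).map (g e) :=
    Measure.infinitePi_map_pi (fun _ : Sym2 V => nuC G) hgm
  set φ : Sym2 V → ℝ → ENNReal := fun e x => if e ∈ U then ENNReal.ofReal (fS G s x) else 1
    with hφ
  have hφm : ∀ e, Measurable (φ e) := fun e => by
    simp only [hφ]
    split_ifs
    · exact (tc0_meas_fS G s).ennreal_ofReal
    · exact measurable_const
  have e2 : ∀ e, (nuC G).map (g e) = G.withDensity (φ e) := fun e => by
    by_cases he : e ∈ U
    · simp only [hg, hφ, he, if_true]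
      exact map_cpl G hs
    · simp only [hg, hφ, he, if_false]
      rw [show (fun _ : ℝ => (1 : ENNReal)) = 1 from rfl, withDensity_one]
      unfold nuC
      exact Measure.fst_prod
  rw [e1]
  refine (Measure.eq_infinitePi _ fun S t ht => ?_).symm
  have hS : MeasurableSet (Set.pi (S : Set (Sym2 V)) t) :=
    MeasurableSet.pi S.countable_toSet fun e _ => ht e
  set ψ : Sym2 V → ℝ → ENNReal := fun e => (if e ∈ S then t e else Set.univ).indicator (φ e)
    with hψ
  have hT : ∀ e, MeasurableSet (if e ∈ S then t e else Set.univ) := fun e => by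
    split_ifs
    · exact ht e
    · exact MeasurableSet.univ
  have hψm : ∀ e, Measurable (ψ e) := fun e => (hφm e).indicator (hT e)
  have e3 : (Set.pi (S : Set (Sym2 V)) t).indicator
      (fun ω : Env => ENNReal.ofReal (∏ e ∈ U, fS G s (ω e))) =
      fun ω => ∏ e ∈ S ∪ U, ψ e (ω e) := by
    funext ω
    by_cases hω : ω ∈ Set.pi (S : Set (Sym2 V)) t
    · rw [Set.indicator_of_mem hω, ENNReal.ofReal_prod_of_nonneg fun e _ => by
        linarith [(fS_nonneg G hs (ω e)).1]]
      have : ∀ e, ψ e (ω e) = φ e (ω e) := fun e => by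
        refine Set.indicator_of_mem ?_ _
        split_ifs with he
        · exact hω e he
        · trivial
      simp only [this, hφ]
      rw [Finset.prod_ite, Finset.prod_const_one, mul_one]
      congr 1
      ext e
      simp only [Finset.mem_filter, Finset.mem_union]
      tauto
    · rw [Set.indicator_of_notMem hω]
      obtain ⟨e, he, he'⟩ : ∃ e ∈ S, ω e ∉ t e := by
        by_contra h
        push Not at h
        exact hω fun e he => h e he
      refine (Finset.prod_eq_zero (Finset.mem_union_left U he) ?_).symm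
      refine Set.indicator_of_notMem ?_ _
      rwa [if_pos he]
  rw [withDensity_apply _ hS, ← lintegral_indicator hS, e3, iidLaw,
    lintegral_prod_eq_prod_lintegral_of_indepFun (S ∪ U) (fun e (ω : Env) => ψ e (ω e))
      (iIndepFun_infinitePi hψm) fun e => (hψm e).comp (measurable_pi_apply e)]
  have e4 : ∀ e, ∫⁻ ω : Env, ψ e (ω e) ∂(Measure.infinitePi fun _ : Sym2 V => G) =
      (nuC G).map (g e) (if e ∈ S then t e else Set.univ) := fun e => by
    rw [(measurePreserving_eval_infinitePi (fun _ : Sym2 V => G) e).lintegral_comp (hψm e), e2,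
      withDensity_apply _ (hT e), ← lintegral_indicator (hT e)]
  simp only [e4]
  refine (Finset.prod_subset Finset.subset_union_left fun e _ he => ?_).symm.trans
    (Finset.prod_congr rfl fun e he => by rw [if_pos he])
  rw [if_neg he, measure_univ]
theorem measurePreserving_tS_zero (U : Finset (Sym2 V)) :
    MeasurePreserving (tS G U 0) (Qc G) (iidLaw G) := by
  refine ⟨measurable_tS G U 0, ?_⟩
  rw [map_tS G U (by rw [abs_zero]; exact (s0_pos G).le)]
  simp [fS]
theorem ae_tS (U : Finset (Sym2 V)) {s : ℝ} (hs : |s| ≤ s0 G) {p : Env → Prop}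
    (h : ∀ᵐ t ∂(iidLaw G), p t) : ∀ᵐ ω ∂(Qc G), p (tS G U s ω) := by
  refine ae_of_ae_map (measurable_tS G U s).aemeasurable ?_
  rw [map_tS G U hs]
  exact (withDensity_absolutelyContinuous _ _).ae_le h

end Crest.Agent.R151
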