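import Crest.Agent.R151.TCoup0

/-! Row 151 toolkit: comparison of the tilted laws with the original law. -/

set_option autoImplicit false

namespace Crest.Agent.R151

open MeasureTheory ProbabilityTheory Crest.ProbabilityR.FirstPassage
open scoped Classical

variable (G : Measure ℝ) [Law G]

/-- the signed density of the tilt -/
noncomputable def tc1_phi (x : ℝ) : ℝ :=
  (lo G).indicator (fun _ => 1 / pLo G) x - (hi G).indicator (fun _ => 1 / pHi G) x

noncomputable def tc1_K : ℝ := 1 / pLo G + 1 / pHi G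

omit [Law G] in
theorem tc1_fS (s x : ℝ) : fS G s x = 1 + s * tc1_phi G x := rfl

theorem tc1_pHi_pos : 0 < pHi G := lt_of_lt_of_le (by norm_num) (pHi_ge G)

theorem tc1_K_pos : 0 < tc1_K G := by
  have := pLo_pos G; have := tc1_pHi_pos G
  unfold tc1_K; positivity

theorem tc1_phi_abs (x : ℝ) : |tc1_phi G x| ≤ tc1_K G := by
  have h1 : 0 < 1 / pLo G := one_div_pos.2 (pLo_pos G)
  have h2 : 0 < 1 / pHi G := one_div_pos.2 (tc1_pHi_pos G)
  unfold tc1_phi tc1_K
  rw [abs_le]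
  by_cases a : x ∈ lo G <;> by_cases b : x ∈ hi G <;>
    simp only [Set.indicator, a, b, if_true, if_false] <;> constructor <;> linarith

theorem tc1_phi_sq (x : ℝ) : tc1_phi G x ^ 2 ≤ tc1_K G ^ 2 := by
  have := tc1_phi_abs G x
  rw [← sq_abs]
  exact pow_le_pow_left₀ (abs_nonneg _) this 2

omit [Law G] in
theorem tc1_phi_meas : Measurable (tc1_phi G) :=
  (measurable_const.indicator (measurableSet_lo G)).sub
    (measurable_const.indicator (measurableSet_hi G))

omit [Law G] in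
theorem tc1_fS_meas (s : ℝ) : Measurable (fS G s) :=
  measurable_const.add (measurable_const.mul (tc1_phi_meas G))

theorem tc1_phi_int : Integrable (tc1_phi G) G :=
  Integrable.of_bound (tc1_phi_meas G).aestronglyMeasurable (tc1_K G)
    (ae_of_all _ fun x => by simpa using tc1_phi_abs G x)

theorem tc1_phi_integral : ∫ x, tc1_phi G x ∂G = 0 := by
  unfold tc1_phi
  rw [integral_sub ((integrable_const _).indicator (measurableSet_lo G))
    ((integrable_const _).indicator (measurableSet_hi G)),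
    integral_indicator_const _ (measurableSet_lo G),
    integral_indicator_const _ (measurableSet_hi G)]
  have h1 := (pLo_pos G).ne'
  have h2 := (tc1_pHi_pos G).ne'
  show pLo G * (1 / pLo G) - pHi G * (1 / pHi G) = 0
  field_simp
  ring

theorem tc1_small {s : ℝ} (hs : |s| ≤ s0 G) (x : ℝ) :
    -(1 / 2) ≤ s * tc1_phi G x ∧ s * tc1_phi G x ≤ 1 / 2 := by
  have h1 := (fS_nonneg G hs x).1
  have h2 := (fS_nonneg G (s := -s) (by rwa [abs_neg]) x).1
  rw [tc1_fS] at h1 h2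
  constructor <;> linarith

theorem tc1_prod_ge {s : ℝ} (hs : |s| ≤ s0 G) (x : ℝ) :
    Real.exp (-(2 * tc1_K G ^ 2 * s ^ 2)) ≤ fS G s x * fS G (-s) x := by
  obtain ⟨h1, h2⟩ := tc1_small G hs x
  have hu : (s * tc1_phi G x) ^ 2 ≤ 1 / 4 := by nlinarith
  have hu0 : 0 ≤ (s * tc1_phi G x) ^ 2 := sq_nonneg _
  have hK : (s * tc1_phi G x) ^ 2 ≤ tc1_K G ^ 2 * s ^ 2 := by
    rw [mul_pow, mul_comm]
    exact mul_le_mul_of_nonneg_right (tc1_phi_sq G x) (sq_nonneg _)
  have e : fS G s x * fS G (-s) x = 1 - (s * tc1_phi G x) ^ 2 := by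
    rw [tc1_fS, tc1_fS]; ring
  rw [e]
  set u := (s * tc1_phi G x) ^ 2
  have h3 : Real.exp (-(2 * tc1_K G ^ 2 * s ^ 2)) ≤ Real.exp (-(2 * u)) :=
    Real.exp_le_exp.2 (by linarith)
  have h4 : 2 * u + 1 ≤ Real.exp (2 * u) := Real.add_one_le_exp _
  have h5 : Real.exp (-(2 * u)) * Real.exp (2 * u) = 1 := by
    rw [← Real.exp_add]; simp
  have h6 : 0 < Real.exp (-(2 * u)) := Real.exp_pos _
  have h7 : Real.exp (-(2 * u)) * (2 * u + 1) ≤ 1 := by nlinarith
  have h8 : 1 ≤ (1 - u) * (2 * u + 1) := by nlinarith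
  have h9 : Real.exp (-(2 * u)) ≤ 1 - u :=
    le_of_mul_le_mul_right (h7.trans h8) (by linarith)
  linarith

theorem tc1_four {s : ℝ} (hs : |s| ≤ s0 G) :
    ∫ x, fS G s x ^ 4 ∂G ≤ Real.exp (9 * tc1_K G ^ 2 * s ^ 2) := by
  have hb : ∀ x, fS G s x ^ 4 ≤ (1 + 9 * tc1_K G ^ 2 * s ^ 2) + 4 * s * tc1_phi G x := by
    intro x
    obtain ⟨h1, h2⟩ := tc1_small G hs x
    have hK : (s * tc1_phi G x) ^ 2 ≤ tc1_K G ^ 2 * s ^ 2 := by
      rw [mul_pow, mul_comm]
      exact mul_le_mul_of_nonneg_right (tc1_phi_sq G x) (sq_nonneg _)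
    rw [tc1_fS]
    have e : 4 * s * tc1_phi G x = 4 * (s * tc1_phi G x) := by ring
    rw [e]
    set u := s * tc1_phi G x
    have hu : u ^ 2 ≤ 1 / 4 := by nlinarith
    have h3 : 0 ≤ u ^ 2 * (3 - 4 * u - u ^ 2) := mul_nonneg (sq_nonneg _) (by linarith)
    nlinarith
  have hi1 : Integrable (fun x => (1 + 9 * tc1_K G ^ 2 * s ^ 2) + 4 * s * tc1_phi G x) G :=
    (integrable_const _).add ((tc1_phi_int G).const_mul _)
  calc ∫ x, fS G s x ^ 4 ∂G
      ≤ ∫ x, (1 + 9 * tc1_K G ^ 2 * s ^ 2) + 4 * s * tc1_phi G x ∂G :=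
        integral_mono_of_nonneg (ae_of_all _ fun x => by positivity) hi1 (ae_of_all _ hb)
    _ = 1 + 9 * tc1_K G ^ 2 * s ^ 2 := by
        rw [integral_add (integrable_const _) ((tc1_phi_int G).const_mul _), integral_const_mul,
          tc1_phi_integral]
        simp
    _ ≤ _ := by
        have := Real.add_one_le_exp (9 * tc1_K G ^ 2 * s ^ 2)
        linarith

/-- the density of the tilted environment -/
noncomputable def tc1_F (U : Finset (Sym2 V)) (s : ℝ) (t : Env) : ℝ := ∏ e ∈ U, fS G s (t e)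

omit [Law G] in
theorem tc1_F_meas (U : Finset (Sym2 V)) (s : ℝ) : Measurable (tc1_F G U s) :=
  Finset.measurable_prod _ fun e _ => (tc1_fS_meas G s).comp (measurable_pi_apply e)

theorem tc1_F_pos (U : Finset (Sym2 V)) {s : ℝ} (hs : |s| ≤ s0 G) (t : Env) :
    0 < tc1_F G U s t :=
  Finset.prod_pos fun e _ => lt_of_lt_of_le (by norm_num) (fS_nonneg G hs (t e)).1

theorem tc1_F_le (U : Finset (Sym2 V)) {s : ℝ} (hs : |s| ≤ s0 G) (t : Env) :
    tc1_F G U s t ≤ 2 ^ U.card := by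
  unfold tc1_F
  rw [← Finset.prod_const]
  exact Finset.prod_le_prod (fun e _ => le_trans (by norm_num) (fS_nonneg G hs (t e)).1)
    (fun e _ => (fS_nonneg G hs (t e)).2)

theorem tc1_prob : IsProbabilityMeasure (iidLaw G) := by unfold iidLaw; infer_instance

theorem tc1_integral (U : Finset (Sym2 V)) {s : ℝ} (hs : |s| ≤ s0 G) {F : Env → ℝ}
    (hF : Measurable F) :
    ∫ ω, F (tS G U s ω) ∂(Qc G) = ∫ t, F t * tc1_F G U s t ∂(iidLaw G) := by
  rw [← integral_map (measurable_tS G U s).aemeasurable hF.aestronglyMeasurable, map_tS G U hs,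
    integral_withDensity_eq_integral_toReal_smul
      (f := fun t : Env => ENNReal.ofReal (∏ e ∈ U, fS G s (t e)))
      (ENNReal.measurable_ofReal.comp (tc1_F_meas G U s))
      (ae_of_all _ fun _ => ENNReal.ofReal_lt_top)]
  refine integral_congr_ae (ae_of_all _ fun t => ?_)
  show (ENNReal.ofReal (tc1_F G U s t)).toReal • F t = F t * tc1_F G U s t
  rw [ENNReal.toReal_ofReal (tc1_F_pos G U hs t).le, smul_eq_mul, mul_comm]

omit [Law G] in
theorem tc1_real (U : Finset (Sym2 V)) (s : ℝ) {A : Set Env} (hA : MeasurableSet A) :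
    (Qc G).real (tS G U s ⁻¹' A) = ∫ ω, A.indicator (fun _ => (1 : ℝ)) (tS G U s ω) ∂(Qc G) := by
  rw [← integral_indicator_one ((measurable_tS G U s) hA)]
  rfl

theorem tc1_F4 (U : Finset (Sym2 V)) {s : ℝ} (hs : |s| ≤ s0 G) :
    ∫ t, tc1_F G U s t ^ 4 ∂(iidLaw G) ≤ Real.exp (9 * tc1_K G ^ 2 * s ^ 2 * U.card) := by
  have h1 : ∫ t, tc1_F G U s t ^ 4 ∂(iidLaw G) = (∫ x, fS G s x ^ 4 ∂G) ^ U.card := by
    have hm : Measurable (fun y : (U → ℝ) => ∏ i : U, fS G s (y i) ^ 4) :=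
      Finset.measurable_prod _ fun e _ =>
        ((tc1_fS_meas G s).comp (measurable_pi_apply e)).pow_const 4
    have := integral_restrict_infinitePi (μ := fun _ : Sym2 V => G) (s := U)
      (f := fun y : (U → ℝ) => ∏ i : U, fS G s (y i) ^ 4) hm.aestronglyMeasurable
    rw [integral_fintype_prod_eq_pow (fun x => fS G s x ^ 4), Fintype.card_coe] at this
    rw [← this]
    refine integral_congr_ae (ae_of_all _ fun t => ?_)
    show tc1_F G U s t ^ 4 = ∏ i : U, fS G s (t i) ^ 4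
    unfold tc1_F
    rw [← Finset.prod_pow, Finset.prod_coe_sort U (fun e => fS G s (t e) ^ 4)]
  rw [h1, mul_comm _ (U.card : ℝ), Real.exp_nat_mul]
  exact pow_le_pow_left₀ (integral_nonneg fun x => by positivity) (tc1_four G hs) _

theorem tc1_FF (U : Finset (Sym2 V)) {s : ℝ} (hs : |s| ≤ s0 G) (t : Env) :
    Real.exp (-(tc1_K G ^ 2 * s ^ 2 * U.card)) ^ 2 ≤ tc1_F G U s t * tc1_F G U (-s) t := by
  unfold tc1_F
  rw [← Finset.prod_mul_distrib, ← Real.exp_nat_mul]
  have : Real.exp (((2 : ℕ) : ℝ) * -(tc1_K G ^ 2 * s ^ 2 * U.card)) =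
      ∏ _e ∈ U, Real.exp (-(2 * tc1_K G ^ 2 * s ^ 2)) := by
    rw [Finset.prod_const, ← Real.exp_nat_mul]
    congr 1
    push_cast
    ring
  rw [this]
  exact Finset.prod_le_prod (fun _ _ => (Real.exp_pos _).le) (fun e _ => tc1_prod_ge G hs (t e))


/-- Mermin-Wagner inequality -/
theorem mw_sq : ∃ C : ℝ, 0 < C ∧ ∀ (U : Finset (Sym2 V)) (s : ℝ), |s| ≤ s0 G →
    ∀ A : Set Env, MeasurableSet A →
      Pr G A ^ 2 ≤ Real.exp (C * s ^ 2 * U.card) *
        ((Qc G).real (tS G U s ⁻¹' A) * (Qc G).real (tS G U (-s) ⁻¹' A)) := by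
  refine ⟨2 * tc1_K G ^ 2, by have := tc1_K_pos G; positivity, fun U s hs A hA => ?_⟩
  have := tc1_prob G
  have hs' : |(-s)| ≤ s0 G := by rwa [abs_neg]
  have hI : Measurable (A.indicator (fun _ => (1 : ℝ))) := measurable_const.indicator hA
  rw [tc1_real G U s hA, tc1_real G U (-s) hA, tc1_integral G U hs hI, tc1_integral G U hs' hI]
  have hint : ∀ r : ℝ, |r| ≤ s0 G →
      Integrable (fun t => A.indicator (fun _ => (1 : ℝ)) t * tc1_F G U r t) (iidLaw G) := by
    intro r hr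
    refine Integrable.of_bound (hI.mul (tc1_F_meas G U r)).aestronglyMeasurable (2 ^ U.card)
      (ae_of_all _ fun t => ?_)
    have h1 := tc1_F_pos G U hr t
    have h2 := tc1_F_le G U hr t
    by_cases h : t ∈ A
    · simp only [Set.indicator_of_mem h, one_mul, Real.norm_eq_abs, abs_of_pos h1]; exact h2
    · simp only [Set.indicator_of_notMem h, zero_mul, norm_zero]; positivity
  have hP : Pr G A = ∫ t, A.indicator (fun _ => (1 : ℝ)) t ∂(iidLaw G) :=
    (integral_indicator_one hA).symm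
  have hiI : Integrable (A.indicator (fun _ => (1 : ℝ))) (iidLaw G) :=
    (integrable_const _).indicator hA
  set a := ∫ t, A.indicator (fun _ => (1 : ℝ)) t * tc1_F G U s t ∂(iidLaw G) with ha
  set b := ∫ t, A.indicator (fun _ => (1 : ℝ)) t * tc1_F G U (-s) t ∂(iidLaw G) with hb
  set m := Real.exp (-(tc1_K G ^ 2 * s ^ 2 * U.card)) with hm
  have hm0 : 0 < m := Real.exp_pos _
  have hq : ∀ l : ℝ, 0 ≤ a * (l * l) + (-(2 * m * Pr G A)) * l + b := by
    intro l
    have e : a * (l * l) + (-(2 * m * Pr G A)) * l + b =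
        ∫ t, ((l * l) * (A.indicator (fun _ => (1 : ℝ)) t * tc1_F G U s t) -
          (2 * m * l) * A.indicator (fun _ => (1 : ℝ)) t) +
          A.indicator (fun _ => (1 : ℝ)) t * tc1_F G U (-s) t ∂(iidLaw G) := by
      have hi3 : Integrable (fun t => (l * l) * (A.indicator (fun _ => (1 : ℝ)) t * tc1_F G U s t) -
          (2 * m * l) * A.indicator (fun _ => (1 : ℝ)) t) (iidLaw G) :=
        ((hint s hs).const_mul _).sub (hiI.const_mul _)
      rw [integral_add hi3 (hint (-s) hs'),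
        integral_sub ((hint s hs).const_mul _) (hiI.const_mul _), integral_const_mul,
        integral_const_mul, ← hP]
      ring
    rw [e]
    refine integral_nonneg fun t => ?_
    by_cases h : t ∈ A
    · simp only [Set.indicator_of_mem h, one_mul, mul_one, Pi.zero_apply]
      have h1 := tc1_F_pos G U hs t
      have h2 := tc1_FF G U hs t
      rw [← hm] at h2
      set x := tc1_F G U s t
      set y := tc1_F G U (-s) t
      have h3 : 0 ≤ x * (l * l * x - 2 * m * l + y) := by nlinarith [sq_nonneg (l * x - m)]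
      exact (mul_nonneg_iff_of_pos_left h1).1 h3
    · simp [Set.indicator_of_notMem h]
  have hd := discrim_le_zero hq
  unfold discrim at hd
  have h1 : m ^ 2 * Pr G A ^ 2 ≤ a * b := by nlinarith
  have h2 : Real.exp (2 * tc1_K G ^ 2 * s ^ 2 * U.card) * m ^ 2 = 1 := by
    rw [hm, ← Real.exp_nat_mul, ← Real.exp_add]
    rw [Real.exp_eq_one_iff]
    push_cast
    ring
  calc Pr G A ^ 2 = Real.exp (2 * tc1_K G ^ 2 * s ^ 2 * U.card) * (m ^ 2 * Pr G A ^ 2) := by
        rw [← mul_assoc, h2, one_mul]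
    _ ≤ _ := mul_le_mul_of_nonneg_left h1 (Real.exp_pos _).le

/-- Hoelder comparison for bounded nonnegative functions -/
theorem holder4 : ∃ C : ℝ, 0 < C ∧ ∀ (U : Finset (Sym2 V)) (s : ℝ), |s| ≤ s0 G →
    ∀ (F : Env → ℝ) (B : ℝ), Measurable F → (∀ t, 0 ≤ F t) → (∀ t, F t ≤ B) →
      ∫ ω, F (tS G U s ω) ∂(Qc G) ≤ Real.exp (C * s ^ 2 * U.card) *
        (∫ t, F t ^ ((4 : ℝ) / 3) ∂(iidLaw G)) ^ ((3 : ℝ) / 4) := by
  refine ⟨9 * tc1_K G ^ 2, by have := tc1_K_pos G; positivity,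
    fun U s hs F B hF hF0 hFB => ?_⟩
  have := tc1_prob G
  rw [tc1_integral G U hs hF]
  have hpq : ((4 : ℝ) / 3).HolderConjugate 4 := by
    rw [Real.holderConjugate_iff]; norm_num
  have h1 := integral_mul_le_Lp_mul_Lq_of_nonneg (μ := iidLaw G) hpq (f := F)
    (g := tc1_F G U s) (ae_of_all _ hF0) (ae_of_all _ fun t => (tc1_F_pos G U hs t).le)
    (MemLp.of_bound hF.aestronglyMeasurable B (ae_of_all _ fun t => by
      rw [Real.norm_of_nonneg (hF0 t)]; exact hFB t))
    (MemLp.of_bound (tc1_F_meas G U s).aestronglyMeasurable (2 ^ U.card) (ae_of_all _ fun t => by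
      rw [Real.norm_of_nonneg (tc1_F_pos G U hs t).le]; exact tc1_F_le G U hs t))
  have e1 : (1 : ℝ) / (4 / 3) = 3 / 4 := by norm_num
  rw [e1] at h1
  refine h1.trans ?_
  rw [mul_comm]
  refine mul_le_mul_of_nonneg_right ?_
    (Real.rpow_nonneg (integral_nonneg fun t => Real.rpow_nonneg (hF0 t) _) _)
  have h2 : ∫ t, tc1_F G U s t ^ (4 : ℝ) ∂(iidLaw G) ≤
      Real.exp (9 * tc1_K G ^ 2 * s ^ 2 * U.card) := by
    have := tc1_F4 G U hs
    have e : ∀ t, tc1_F G U s t ^ (4 : ℝ) = tc1_F G U s t ^ (4 : ℕ) := fun t => by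
      rw [← Real.rpow_natCast]; norm_num
    simp only [e]
    exact this
  have h3 : 1 ≤ Real.exp (9 * tc1_K G ^ 2 * s ^ 2 * U.card) :=
    Real.one_le_exp (by positivity)
  calc (∫ t, tc1_F G U s t ^ (4 : ℝ) ∂(iidLaw G)) ^ ((1 : ℝ) / 4)
      ≤ Real.exp (9 * tc1_K G ^ 2 * s ^ 2 * U.card) ^ ((1 : ℝ) / 4) :=
        Real.rpow_le_rpow (integral_nonneg fun t =>
          Real.rpow_nonneg (tc1_F_pos G U hs t).le _) h2 (by norm_num)
    _ ≤ Real.exp (9 * tc1_K G ^ 2 * s ^ 2 * U.card) ^ (1 : ℝ) :=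
        Real.rpow_le_rpow_of_exponent_le h3 (by norm_num)
    _ = _ := Real.rpow_one _

theorem holder4_set : ∃ C : ℝ, 0 < C ∧ ∀ (U : Finset (Sym2 V)) (s : ℝ), |s| ≤ s0 G →
    ∀ A : Set Env, MeasurableSet A →
      (Qc G).real (tS G U s ⁻¹' A) ≤ Real.exp (C * s ^ 2 * U.card) * Pr G A ^ ((3 : ℝ) / 4) := by
  obtain ⟨C, hC, h⟩ := holder4 G
  refine ⟨C, hC, fun U s hs A hA => ?_⟩
  have h1 := h U s hs (A.indicator (fun _ => (1 : ℝ))) 1 (measurable_const.indicator hA)
    (fun t => by by_cases h : t ∈ A <;> simp [h]) (fun t => by by_cases h : t ∈ A <;> simp [h])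
  rw [tc1_real G U s hA]
  have e : ∀ t, A.indicator (fun _ => (1 : ℝ)) t ^ ((4 : ℝ) / 3) =
      A.indicator (fun _ => (1 : ℝ)) t := fun t => by
    by_cases h : t ∈ A <;> simp [h]
  simp only [e] at h1
  have hP : Pr G A = ∫ t, A.indicator (fun _ => (1 : ℝ)) t ∂(iidLaw G) :=
    (integral_indicator_one hA).symm
  rw [hP]
  exact h1

end Crest.Agent.R151
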