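import Crest.Agent.R151.TResample

/-! Row 151 toolkit: the Efron-Stein inequality for functions of finitely many weights. -/

set_option autoImplicit false

namespace Crest.Agent.R151

open MeasureTheory ProbabilityTheory Crest.ProbabilityR.FirstPassage
open scoped Classical

variable (G : Measure ℝ) [IsProbabilityMeasure G]

/-- bounded and measurable -/
def TesB {α : Type*} [MeasurableSpace α] (f : α → ℝ) : Prop := Measurable f ∧ ∃ B, ∀ x, |f x| ≤ B

section
variable {α β : Type*} [MeasurableSpace α] [MeasurableSpace β] {f g : α → ℝ}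

theorem TesB.int (h : TesB f) (μ : Measure α) [IsFiniteMeasure μ] : Integrable f μ :=
  let ⟨B, hB⟩ := h.2
  Integrable.of_bound h.1.aestronglyMeasurable B (ae_of_all _ hB)

theorem TesB.comp (h : TesB f) {φ : β → α} (hφ : Measurable φ) : TesB fun x => f (φ x) :=
  ⟨h.1.comp hφ, h.2.imp fun _ hB _ => hB _⟩

theorem TesB.sub (h : TesB f) (h' : TesB g) : TesB fun x => f x - g x :=
  let ⟨B, hB⟩ := h.2
  let ⟨B', hB'⟩ := h'.2
  ⟨h.1.sub h'.1, B + B', fun x => (abs_sub _ _).trans (add_le_add (hB x) (hB' x))⟩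

theorem TesB.pos (h : TesB f) : TesB fun x => max (f x) 0 :=
  ⟨h.1.max measurable_const, h.2.imp fun _ hB x => le_trans (by
    rcases le_total (f x) 0 with h | h <;> simp [h]) (hB x)⟩

theorem TesB.sq (h : TesB f) : TesB fun x => f x ^ 2 :=
  let ⟨B, hB⟩ := h.2
  ⟨h.1.pow_const 2, B ^ 2, fun x => by
    rw [abs_pow]; exact pow_le_pow_left₀ (abs_nonneg _) (hB x) 2⟩

theorem TesB.integral {f : α × β → ℝ} (h : TesB f) (ν : Measure β) [IsProbabilityMeasure ν] :
    TesB fun x => ∫ y, f (x, y) ∂ν :=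
  let ⟨B, hB⟩ := h.2
  ⟨h.1.stronglyMeasurable.integral_prod_right'.measurable, B, fun x => by
    simpa using norm_integral_le_of_norm_le_const (μ := ν) (f := fun y => f (x, y)) (C := B)
      (ae_of_all _ fun y => hB _)⟩

theorem tes_var (h : TesB f) (μ : Measure α) [IsProbabilityMeasure μ] :
    ∫ u, ∫ s, max (f s - f u) 0 ^ 2 ∂μ ∂μ = ∫ s, f s ^ 2 ∂μ - (∫ s, f s ∂μ) ^ 2 := by
  have h1 : TesB fun p : α × α => max (f p.2 - f p.1) 0 ^ 2 :=
    ((h.comp measurable_snd).sub (h.comp measurable_fst)).pos.sq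
  have h2 : TesB fun p : α × α => max (f p.1 - f p.2) 0 ^ 2 := h1.comp measurable_swap
  have e1 : ∫ u, ∫ s, max (f s - f u) 0 ^ 2 ∂μ ∂μ = ∫ u, ∫ s, max (f u - f s) 0 ^ 2 ∂μ ∂μ :=
    integral_integral_swap (h1.int _)
  have e0 : ∀ a b : ℝ, ∫ s, f s ^ 2 - a * f s + b ∂μ = ∫ s, f s ^ 2 ∂μ - a * ∫ s, f s ∂μ + b := by
    intro a b
    have := integral_add ((h.sq.int μ).sub ((h.int μ).const_mul a)) (integrable_const b)
    simp only [Pi.sub_apply] at this
    rw [this, integral_sub (h.sq.int μ) ((h.int μ).const_mul _), integral_const_mul]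
    simp
  have e2 : ∀ u, ∫ s, max (f s - f u) 0 ^ 2 ∂μ + ∫ s, max (f u - f s) 0 ^ 2 ∂μ =
      f u ^ 2 - 2 * (∫ s, f s ∂μ) * f u + ∫ s, f s ^ 2 ∂μ := fun u => by
    rw [← integral_add ((h1.comp measurable_prodMk_left).int μ)
      ((h2.comp measurable_prodMk_left).int μ)]
    have : ∀ s, max (f s - f u) 0 ^ 2 + max (f u - f s) 0 ^ 2 =
        f s ^ 2 - 2 * f u * f s + f u ^ 2 := fun s => by
      rcases le_total (f s) (f u) with h | h
      · rw [max_eq_right (sub_nonpos.2 h), max_eq_left (sub_nonneg.2 h)]; ring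
      · rw [max_eq_left (sub_nonneg.2 h), max_eq_right (sub_nonpos.2 h)]; ring
    simp only [this, e0]
    ring
  have e3 := integral_add ((h1.integral μ).int μ) ((h2.integral μ).int μ)
  simp only [e2, e0] at e3
  linarith

theorem tes_jensen (h : TesB f) (μ : Measure α) [IsProbabilityMeasure μ] :
    max (∫ s, f s ∂μ) 0 ^ 2 ≤ ∫ s, max (f s) 0 ^ 2 ∂μ := by
  have h1 : max (∫ s, f s ∂μ) 0 ≤ ∫ s, max (f s) 0 ∂μ :=
    max_le (integral_mono (h.int μ) (h.pos.int μ) fun _ => le_max_left _ _)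
      (integral_nonneg fun _ => le_max_right _ _)
  refine (pow_le_pow_left₀ (le_max_right _ _) h1 2).trans (sub_nonneg.1 ?_)
  rw [← tes_var h.pos μ]
  exact integral_nonneg fun _ => integral_nonneg fun _ => sq_nonneg _

end

theorem tes_meas (e : Sym2 V) : Measurable fun p : Env × ℝ => Function.update p.1 e p.2 :=
  measurable_update'

theorem tes_mp (e : Sym2 V) : MeasurePreserving (fun p : Env × ℝ => Function.update p.1 e p.2)
    ((iidLaw G).prod G) (iidLaw G) := by
  have h1 : MeasurePreserving (fun u : Env => u e) (iidLaw G) G :=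
    measurePreserving_eval_infinitePi (fun _ : Sym2 V => G) e
  have h2 := (MeasurePreserving.id (iidLaw G)).prod h1
  refine ⟨tes_meas e, ?_⟩
  rw [← h2.map_eq, Measure.map_map (tes_meas e) h2.measurable]
  convert (trGlue_mp G {e}).map_eq using 2
  funext p e'
  by_cases h : e' = e
  · simp [trGlue, h]
  · simp [trGlue, h]

theorem tes_upd {F : Env → ℝ} (h : TesB F) (e : Sym2 V) :
    ∫ t, ∫ s, F (Function.update t e s) ∂G ∂(iidLaw G) = ∫ t, F t ∂(iidLaw G) := by
  rw [← integral_prod _ ((h.comp (tes_meas e)).int ((iidLaw G).prod G))]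
  conv_rhs => rw [← (tes_mp G e).map_eq]
  rw [integral_map (tes_meas e).aemeasurable h.1.aestronglyMeasurable]

theorem tes_dif {F : Env → ℝ} (h : TesB F) (e : Sym2 V) :
    TesB fun p : Env × ℝ => max (F (Function.update p.1 e p.2) - F p.1) 0 ^ 2 :=
  ((h.comp (tes_meas e)).sub (h.comp measurable_fst)).pos.sq

theorem tes_one {F : Env → ℝ} (h : TesB F) (e : Sym2 V) :
    ∫ t, (∫ s, max (F (Function.update t e s) - F t) 0 ^ 2 ∂G) ∂(iidLaw G) =
      ∫ t, F t ^ 2 ∂(iidLaw G) - ∫ t, (∫ s, F (Function.update t e s) ∂G) ^ 2 ∂(iidLaw G) := by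
  rw [← tes_upd G ((tes_dif h e).integral G) e, ← tes_upd G h.sq e,
    ← integral_sub (((h.sq.comp (tes_meas e)).integral G).int _)
      (((h.comp (tes_meas e)).integral G).sq.int _)]
  simp only [Function.update_idem]
  exact integral_congr_ae (ae_of_all _ fun t => tes_var (h.comp (measurable_update t)) G)

theorem tes_two {F : Env → ℝ} (h : TesB F) {e e' : Sym2 V} (he : e' ≠ e) :
    ∫ t, (∫ s, max (∫ u, F (Function.update (Function.update t e' s) e u) ∂G -
        ∫ u, F (Function.update t e u) ∂G) 0 ^ 2 ∂G) ∂(iidLaw G) ≤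
      ∫ t, (∫ s, max (F (Function.update t e' s) - F t) 0 ^ 2 ∂G) ∂(iidLaw G) := by
  rw [← tes_upd G ((tes_dif h e').integral G) e]
  refine integral_mono ((tes_dif ((h.comp (tes_meas e)).integral G) e').integral G |>.int _)
    ((((tes_dif h e').integral G).comp (tes_meas e)).integral G |>.int _) fun t => ?_
  have h1 : TesB fun p : ℝ × ℝ => max (F (Function.update (Function.update t e p.1) e' p.2) -
      F (Function.update t e p.1)) 0 ^ 2 :=
    (tes_dif h e').comp (((measurable_update t).comp measurable_fst).prodMk measurable_snd)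
  refine le_trans ?_ (integral_integral_swap (h1.int (G.prod G))).ge
  refine integral_mono (((tes_dif ((h.comp (tes_meas e)).integral G) e').comp
    measurable_prodMk_left).int G) (((h1.comp measurable_swap).integral G).int G) fun s => ?_
  have h2 := h.comp (measurable_update (a := e) (Function.update t e' s))
  have h3 := h.comp (measurable_update (a := e) t)
  simp only [Function.update_comm he.symm]
  rw [← integral_sub (h2.int G) (h3.int G)]
  exact tes_jensen (h2.sub h3) G

theorem tes_main (S : Finset (Sym2 V)) : ∀ {F : Env → ℝ}, TesB F → DepF (S : Set (Sym2 V)) F →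
    ∫ t, F t ^ 2 ∂(iidLaw G) - (∫ t, F t ∂(iidLaw G)) ^ 2 ≤
      ∑ e ∈ S, ∫ t, (∫ s, (max (F (Function.update t e s) - F t) 0) ^ 2 ∂G) ∂(iidLaw G) := by
  induction S using Finset.induction_on with
  | empty =>
    intro F _ dF
    have : F = fun _ => F 0 := funext fun t => dF _ _ (by simp)
    rw [this]
    simp
  | insert e S he ih =>
    intro F h dF
    have h1 := ih ((h.comp (tes_meas e)).integral G) fun t t' ht => by
      refine integral_congr_ae (ae_of_all _ fun s => dF _ _ fun e' he' => ?_)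
      by_cases h : e' = e
      · simp [h]
      · simpa [h] using ht e' (by simpa [h] using he')
    have h2 := Finset.sum_le_sum fun e' (he' : e' ∈ S) =>
      tes_two G h (e := e) (e' := e') (ne_of_mem_of_not_mem he' he)
    rw [Finset.sum_insert he, tes_one G h e]
    rw [tes_upd G h e] at h1
    linarith

theorem efron_stein (S : Finset (Sym2 V)) {F : Env → ℝ} (hF : Measurable F) {B : ℝ}
    (hB : ∀ t, |F t| ≤ B) (dF : DepF (S : Set (Sym2 V)) F) :
    ∫ t, F t ^ 2 ∂(iidLaw G) - (∫ t, F t ∂(iidLaw G)) ^ 2 ≤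
      ∑ e ∈ S, ∫ t, (∫ s, (max (F (Function.update t e s) - F t) 0) ^ 2 ∂G) ∂(iidLaw G) :=
  tes_main G S ⟨hF, B, hB⟩ dF

theorem efron_stein' (S : Finset (Sym2 V)) {F : Env → ℝ} (hF : Measurable F) {B : ℝ}
    (hB : ∀ t, |F t| ≤ B) (dF : DepF (S : Set (Sym2 V)) F) :
    ∫ t, F t ^ 2 ∂(iidLaw G) - (∫ t, F t ∂(iidLaw G)) ^ 2 ≤
      ∑ e ∈ S, ∫ t, (∫ s, (max (F t - F (Function.update t e s)) 0) ^ 2 ∂G) ∂(iidLaw G) := by
  have h := tes_main G S (F := fun t => -F t) ⟨hF.neg, B, fun t => by simpa using hB t⟩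
    fun t t' ht => by simp only [dF t t' ht]
  simpa only [neg_sq, integral_neg, neg_sub_neg] using h

end Crest.Agent.R151
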