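import Crest.Agent.R151.TES1

/-! Row 151 toolkit: exponential concentration from Efron-Stein (Aida-Stroock iteration). -/

set_option autoImplicit false

namespace Crest.Agent.R151

open MeasureTheory ProbabilityTheory Crest.ProbabilityR.FirstPassage
open scoped Classical

theorem TES2_sum (G : Measure ℝ) [IsProbabilityMeasure G] (S : Finset (Sym2 V))
    {E : Env → Finset (Sym2 V)} {m : ℝ} (hE : ∀ t, ((E t).card : ℝ) ≤ m)
    {D : Sym2 V → Env → ℝ → ℝ} (hD : ∀ e, Measurable fun p : Env × ℝ => D e p.1 p.2)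
    (hD0 : ∀ e t s, 0 ≤ D e t s) {w : Env → ℝ} (hw : Integrable w (iidLaw G))
    (hw0 : ∀ t, 0 ≤ w t) (hb : ∀ e t s, D e t s ≤ if e ∈ E t then w t else 0) :
    ∑ e ∈ S, ∫ t, (∫ s, D e t s ∂G) ∂(iidLaw G) ≤ m * ∫ t, w t ∂(iidLaw G) := by
  have h1 : ∀ e t, ∫ s, D e t s ∂G ≤ if e ∈ E t then w t else 0 := by
    intro e t
    have := integral_mono_of_nonneg (μ := G) (ae_of_all _ (hD0 e t))
      (integrable_const (if e ∈ E t then w t else 0)) (ae_of_all _ (hb e t))
    simpa using this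
  have h2 : ∀ e, Integrable (fun t => ∫ s, D e t s ∂G) (iidLaw G) := by
    intro e
    refine hw.mono' ((hD e).stronglyMeasurable.integral_prod_right' (ν := G)).aestronglyMeasurable
      (ae_of_all _ fun t => ?_)
    rw [Real.norm_of_nonneg (integral_nonneg (hD0 e t))]
    refine (h1 e t).trans ?_
    split_ifs
    · exact le_rfl
    · exact hw0 t
  rw [← integral_finsetSum _ fun e _ => h2 e, ← integral_const_mul]
  refine integral_mono (integrable_finsetSum _ fun e _ => h2 e) (hw.const_mul m) fun t => ?_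
  refine (Finset.sum_le_sum fun e _ => h1 e t).trans ?_
  rw [Finset.sum_ite_mem, Finset.sum_const, nsmul_eq_mul]
  refine mul_le_mul_of_nonneg_right (le_trans ?_ (hE t)) (hw0 t)
  exact_mod_cast Finset.card_le_card Finset.inter_subset_right

theorem TES2_int (G : Measure ℝ) [IsProbabilityMeasure G] {Y : Env → ℝ} (hY : Measurable Y) {B : ℝ}
    (hB : ∀ t, |Y t| ≤ B) (l : ℝ) :
    (∀ t, |Real.exp (l * Y t)| ≤ Real.exp (|l| * B)) ∧
      Integrable (fun t => Real.exp (l * Y t)) (iidLaw G) := by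
  have h : ∀ t, |Real.exp (l * Y t)| ≤ Real.exp (|l| * B) := by
    intro t
    rw [abs_of_pos (Real.exp_pos _), Real.exp_le_exp]
    refine (le_abs_self _).trans ?_
    rw [abs_mul]
    exact mul_le_mul_of_nonneg_left (hB t) (abs_nonneg l)
  exact ⟨h, Integrable.of_bound (hY.const_mul l).exp.aestronglyMeasurable _ (ae_of_all _ h)⟩

theorem TES2_sq (l y : ℝ) : Real.exp (l / 2 * y) ^ 2 = Real.exp (l * y) := by
  rw [← Real.exp_nat_mul]
  congr 1
  push_cast
  ring

theorem TES2_var_pos (G : Measure ℝ) [IsProbabilityMeasure G] (S : Finset (Sym2 V))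
    {X : Env → ℝ} (hX : Measurable X) {B : ℝ} (hB : ∀ t, |X t| ≤ B)
    (dX : DepF (S : Set (Sym2 V)) X) {E : Env → Finset (Sym2 V)} {m : ℝ} (hm : 1 ≤ m)
    (hE : ∀ t, ((E t).card : ℝ) ≤ m)
    (hup : ∀ t e s, X (Function.update t e s) ≤ X t + if e ∈ E t then (√m)⁻¹ else 0)
    {l : ℝ} (hl0 : 0 ≤ l) (hl1 : l ≤ 1) :
    ∫ t, Real.exp (l * X t) ∂(iidLaw G) - (∫ t, Real.exp (l / 2 * X t) ∂(iidLaw G)) ^ 2 ≤
      9 / 16 * l ^ 2 * ∫ t, Real.exp (l * X t) ∂(iidLaw G) := by
  have hm0 : 0 < m := by linarith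
  have hsq : 1 ≤ √m := Real.one_le_sqrt.2 hm
  have hk0 : 0 ≤ (√m)⁻¹ := by positivity
  have hk1 : (√m)⁻¹ ≤ 1 := inv_le_one_of_one_le₀ hsq
  have hk2 : (√m)⁻¹ ^ 2 = m⁻¹ := by rw [inv_pow, Real.sq_sqrt hm0.le]
  have h1 := efron_stein G S (F := fun t => Real.exp (l / 2 * X t)) (hX.const_mul _).exp
    (TES2_int G hX hB (l / 2)).1 (fun t t' h => by simp only [dX t t' h])
  simp only [TES2_sq] at h1
  refine h1.trans ((TES2_sum G S hE (w := fun t => 9 / 16 * l ^ 2 * m⁻¹ * Real.exp (l * X t))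
    (fun e => ?_) (fun _ _ _ => sq_nonneg _) ((TES2_int G hX hB l).2.const_mul _)
    (fun t => by positivity) fun e t s => ?_).trans_eq ?_)
  · exact ((((hX.comp measurable_update').const_mul _).exp.sub
      ((hX.comp measurable_fst).const_mul _).exp).max measurable_const).pow_const 2
  · have h2 := hup t e s
    have hg := Real.exp_pos (l / 2 * X t)
    split_ifs at h2 ⊢
    · have h3 : Real.exp (l / 2 * X (Function.update t e s)) ≤
          Real.exp (l / 2 * X t) * Real.exp (l / 2 * (√m)⁻¹) := by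
        rw [← Real.exp_add, Real.exp_le_exp, ← mul_add]
        exact mul_le_mul_of_nonneg_left h2 (by positivity)
      have h4 : 0 ≤ l / 2 * (√m)⁻¹ := by positivity
      have h5 : l / 2 * (√m)⁻¹ ≤ 1 / 2 := by nlinarith
      have h6 := (abs_le.1 (Real.abs_exp_sub_one_sub_id_le (x := l / 2 * (√m)⁻¹)
        (by rw [abs_of_nonneg h4]; linarith))).2
      have h7 : Real.exp (l / 2 * (√m)⁻¹) ≤ 1 + 3 / 4 * l * (√m)⁻¹ := by nlinarith
      have h8 : max (Real.exp (l / 2 * X (Function.update t e s)) - Real.exp (l / 2 * X t)) 0 ≤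
          3 / 4 * l * (√m)⁻¹ * Real.exp (l / 2 * X t) :=
        max_le (by nlinarith) (by positivity)
      refine (pow_le_pow_left₀ (le_max_right _ _) h8 2).trans_eq ?_
      rw [mul_pow, mul_pow, mul_pow, hk2, TES2_sq]
      norm_num
    · rw [add_zero] at h2
      have h3 : Real.exp (l / 2 * X (Function.update t e s)) ≤ Real.exp (l / 2 * X t) :=
        Real.exp_le_exp.2 (mul_le_mul_of_nonneg_left h2 (by positivity))
      rw [max_eq_right (by linarith)]
      norm_num
  · rw [integral_const_mul]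
    field_simp

theorem TES2_var_neg (G : Measure ℝ) [IsProbabilityMeasure G] (S : Finset (Sym2 V))
    {X : Env → ℝ} (hX : Measurable X) {B : ℝ} (hB : ∀ t, |X t| ≤ B)
    (dX : DepF (S : Set (Sym2 V)) X) {E : Env → Finset (Sym2 V)} {m : ℝ} (hm : 1 ≤ m)
    (hE : ∀ t, ((E t).card : ℝ) ≤ m)
    (hup : ∀ t e s, X (Function.update t e s) ≤ X t + if e ∈ E t then (√m)⁻¹ else 0)
    {l : ℝ} (hl0 : 0 ≤ l) :
    ∫ t, Real.exp (l * -X t) ∂(iidLaw G) - (∫ t, Real.exp (l / 2 * -X t) ∂(iidLaw G)) ^ 2 ≤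
      9 / 16 * l ^ 2 * ∫ t, Real.exp (l * -X t) ∂(iidLaw G) := by
  have hm0 : 0 < m := by linarith
  have hk0 : 0 ≤ (√m)⁻¹ := by positivity
  have hk2 : (√m)⁻¹ ^ 2 = m⁻¹ := by rw [inv_pow, Real.sq_sqrt hm0.le]
  have hB' : ∀ t, |-X t| ≤ B := fun t => by rw [abs_neg]; exact hB t
  have h1 := efron_stein' G S (F := fun t => Real.exp (l / 2 * -X t)) (hX.neg.const_mul _).exp
    (TES2_int G hX.neg hB' (l / 2)).1 (fun t t' h => by simp only [dX t t' h])
  simp only [TES2_sq] at h1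
  refine h1.trans ((TES2_sum G S hE (w := fun t => 9 / 16 * l ^ 2 * m⁻¹ * Real.exp (l * -X t))
    (fun e => ?_) (fun _ _ _ => sq_nonneg _) ((TES2_int G hX.neg hB' l).2.const_mul _)
    (fun t => by positivity) fun e t s => ?_).trans_eq ?_)
  · exact ((((hX.comp measurable_fst).neg.const_mul _).exp.sub
      ((hX.comp measurable_update').neg.const_mul _).exp).max measurable_const).pow_const 2
  · have h2 := hup t e s
    have hg := Real.exp_pos (l / 2 * -X t)
    split_ifs at h2 ⊢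
    · have h3 : Real.exp (l / 2 * -X t) * Real.exp (-(l / 2 * (√m)⁻¹)) ≤
          Real.exp (l / 2 * -X (Function.update t e s)) := by
        rw [← Real.exp_add, Real.exp_le_exp]
        nlinarith
      have h4 : 0 ≤ l * (√m)⁻¹ := by positivity
      have h6 := Real.add_one_le_exp (-(l / 2 * (√m)⁻¹))
      have h8 : max (Real.exp (l / 2 * -X t) - Real.exp (l / 2 * -X (Function.update t e s))) 0 ≤
          3 / 4 * l * (√m)⁻¹ * Real.exp (l / 2 * -X t) :=
        max_le (by nlinarith) (by positivity)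
      refine (pow_le_pow_left₀ (le_max_right _ _) h8 2).trans_eq ?_
      rw [mul_pow, mul_pow, mul_pow, hk2, TES2_sq]
      norm_num
    · rw [add_zero] at h2
      have h3 : Real.exp (l / 2 * -X t) ≤ Real.exp (l / 2 * -X (Function.update t e s)) :=
        Real.exp_le_exp.2 (mul_le_mul_of_nonneg_left (by linarith) (by positivity))
      rw [max_eq_right (by linarith)]
      norm_num
  · rw [integral_const_mul]
    field_simp

theorem TES2_tail (G : Measure ℝ) [IsProbabilityMeasure G] {Y : Env → ℝ} (hY : Measurable Y)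
    {B : ℝ} (hB : ∀ t, |Y t| ≤ B) (h0 : ∫ t, Y t ∂(iidLaw G) = 0)
    (hvar : ∀ l : ℝ, 0 ≤ l → l ≤ 1 →
      ∫ t, Real.exp (l * Y t) ∂(iidLaw G) - (∫ t, Real.exp (l / 2 * Y t) ∂(iidLaw G)) ^ 2 ≤
        9 / 16 * l ^ 2 * ∫ t, Real.exp (l * Y t) ∂(iidLaw G)) (u : ℝ) :
    Pr G {t | u ≤ Y t} ≤ Real.exp (11 / 2) * Real.exp (-u) := by
  obtain ⟨A, hA⟩ : ∃ A : ℝ, ∀ l : ℝ, ∫ t, Real.exp (l * Y t) ∂(iidLaw G) ≤ Real.exp (A * l ^ 2) := by
    have h := hasSubgaussianMGF_of_mem_Icc_of_integral_eq_zero (μ := iidLaw G) (a := -B) (b := B)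
      hY.aemeasurable (ae_of_all _ fun t => abs_le.1 (hB t)) h0
    refine ⟨(((‖B - -B‖₊ / 2) ^ 2 : NNReal) : ℝ) / 2, fun l => (h.mgf_le l).trans_eq ?_⟩
    rw [div_mul_eq_mul_div]
  have key : ∀ n : ℕ, ∀ l : ℝ, 0 ≤ l → l ≤ 1 → ∫ t, Real.exp (l * Y t) ∂(iidLaw G) ≤
      Real.exp ((9 / 2 + A * (1 / 2) ^ n) * l ^ 2) := by
    intro n
    induction n with
    | zero =>
      intro l _ _
      refine (hA l).trans (Real.exp_le_exp.2 ?_)
      nlinarith [sq_nonneg l]
    | succ n ih =>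
      intro l hl0 hl1
      have h1 := hvar l hl0 hl1
      have h2 := ih (l / 2) (by linarith) (by linarith)
      have hM : 0 ≤ ∫ t, Real.exp (l * Y t) ∂(iidLaw G) :=
        integral_nonneg fun t => (Real.exp_pos _).le
      have hM' : 0 ≤ ∫ t, Real.exp (l / 2 * Y t) ∂(iidLaw G) :=
        integral_nonneg fun t => (Real.exp_pos _).le
      have h3 := pow_le_pow_left₀ hM' h2 2
      set M := ∫ t, Real.exp (l * Y t) ∂(iidLaw G)
      set N := (∫ t, Real.exp (l / 2 * Y t) ∂(iidLaw G)) ^ 2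
      have hx0 : 0 ≤ l ^ 2 := sq_nonneg l
      have hx1 : l ^ 2 ≤ 1 := by nlinarith
      have h4 : M ≤ (1 + 9 / 4 * l ^ 2) * N := by
        have a1 : (1 - 9 / 16 * l ^ 2) * M ≤ N := by linarith
        have a2 := mul_le_mul_of_nonneg_left a1 (show 0 ≤ 1 + 9 / 4 * l ^ 2 by positivity)
        have a3 : 1 ≤ (1 + 9 / 4 * l ^ 2) * (1 - 9 / 16 * l ^ 2) := by nlinarith
        nlinarith
      have h5 : 1 + 9 / 4 * l ^ 2 ≤ Real.exp (9 / 4 * l ^ 2) := by
        linarith [Real.add_one_le_exp (9 / 4 * l ^ 2)]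
      refine h4.trans ((mul_le_mul h5 h3 (sq_nonneg _) (Real.exp_pos _).le).trans_eq ?_)
      rw [← Real.exp_nat_mul, ← Real.exp_add]
      congr 1
      push_cast
      ring
  have h1 : ∫ t, Real.exp (1 * Y t) ∂(iidLaw G) ≤ Real.exp (11 / 2) := by
    have ht : Filter.Tendsto (fun n : ℕ => A * (1 / 2 : ℝ) ^ n) Filter.atTop (nhds 0) := by
      simpa using (tendsto_pow_atTop_nhds_zero_of_lt_one (r := (1 / 2 : ℝ)) (by norm_num)
        (by norm_num)).const_mul A
    obtain ⟨n, hn⟩ := (ht.eventually (gt_mem_nhds one_pos)).exists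
    refine (key n 1 zero_le_one le_rfl).trans (Real.exp_le_exp.2 ?_)
    linarith
  have h2 := Pr_markov G (TES2_int G hY hB 1).2 (ae_of_all _ fun t => (Real.exp_pos _).le)
    (Real.exp_pos u)
  refine le_trans (Pr_mono G fun t ht => ?_) (h2.trans ?_)
  · show Real.exp u ≤ Real.exp (1 * Y t)
    rw [one_mul]
    exact Real.exp_le_exp.2 ht
  · rw [Real.exp_neg, ← div_eq_mul_inv]
    exact div_le_div_of_nonneg_right h1 (Real.exp_pos u).le

theorem es_concentration : ∃ C : ℝ, 0 < C ∧ ∀ (G : Measure ℝ) [IsProbabilityMeasure G]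
    (S : Finset (Sym2 V)) (F : Env → ℝ) (B K m : ℝ) (E : Env → Finset (Sym2 V)),
    Measurable F → (∀ t, |F t| ≤ B) → DepF (S : Set (Sym2 V)) F → 0 < K → 1 ≤ m →
    (∀ t, ((E t).card : ℝ) ≤ m) →
    (∀ t e s, F (Function.update t e s) ≤ F t + if e ∈ E t then K else 0) →
    ∀ u : ℝ, 0 ≤ u →
      Pr G {t | u ≤ |F t - ∫ t', F t' ∂(iidLaw G)|} ≤ C * Real.exp (-(u / (K * √m))) := by
  refine ⟨2 * Real.exp (11 / 2), by positivity, ?_⟩
  intro G _ S F B K m E hF hB dF hK hm hE hup u hu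
  have hm0 : 0 < m := by linarith
  have hsq : 1 ≤ √m := Real.one_le_sqrt.2 hm
  have hD : 0 < K * √m := by positivity
  set c : ℝ := ∫ t', F t' ∂(iidLaw G) with hc
  set X : Env → ℝ := fun t => (F t - c) / (K * √m) with hX
  have hXm : Measurable X := (hF.sub_const c).div_const _
  have hXb : ∀ t, |X t| ≤ (B + |c|) / (K * √m) := by
    intro t
    rw [hX, abs_div, abs_of_pos hD]
    exact div_le_div_of_nonneg_right ((abs_sub _ _).trans (by linarith [hB t])) hD.le
  have hFi : Integrable F (iidLaw G) :=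
    Integrable.of_bound hF.aestronglyMeasurable B (ae_of_all _ hB)
  have hX0 : ∫ t, X t ∂(iidLaw G) = 0 := by
    simp only [hX]
    rw [integral_div, integral_sub hFi (integrable_const c)]
    simp [hc]
  have dX : DepF (S : Set (Sym2 V)) X := fun t t' h => by simp only [hX, dF t t' h]
  have hXup : ∀ t e s, X (Function.update t e s) ≤ X t + if e ∈ E t then (√m)⁻¹ else 0 := by
    intro t e s
    have h1 := hup t e s
    simp only [hX]
    split_ifs at h1 ⊢
    · have e1 : (F t - c) / (K * √m) + (√m)⁻¹ = (F t + K - c) / (K * √m) := by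
        field_simp
        ring
      rw [e1]
      exact div_le_div_of_nonneg_right (by linarith) hD.le
    · rw [add_zero]
      exact div_le_div_of_nonneg_right (by linarith) hD.le
  have h1 := TES2_tail G hXm hXb hX0 (fun l hl0 hl1 =>
    TES2_var_pos G S hXm hXb dX hm hE hXup hl0 hl1) (u / (K * √m))
  have h2 := TES2_tail G (Y := fun t => -X t) hXm.neg (fun t => by rw [abs_neg]; exact hXb t)
    (by rw [integral_neg, hX0, neg_zero]) (fun l hl0 hl1 =>
    TES2_var_neg G S hXm hXb dX hm hE hXup hl0) (u / (K * √m))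
  refine le_trans (Pr_mono G ?_) ((Pr_union_le G _ _).trans ((add_le_add h1 h2).trans_eq (by ring)))
  intro t ht
  have ht' : u / (K * √m) ≤ |X t| := by
    rw [hX, abs_div, abs_of_pos hD]
    exact div_le_div_of_nonneg_right ht hD.le
  exact le_abs.1 ht'

end Crest.Agent.R151
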