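import Crest.Agent.R151.TKesten1

/-! Row 151 toolkit: high and low weights, Kesten's bound, existence and uniqueness of geodesics. -/

set_option autoImplicit false

namespace Crest.Agent.R151

open MeasureTheory ProbabilityTheory Crest.ProbabilityR.FirstPassage
open scoped Classical

variable (G : Measure ℝ)

theorem tk_short [Law G] {t : Env} (ht : Reg G t) (x : V) (c : ℝ) :
    ∃ N : ℕ, ∀ γ : Pth, γ.Ok → γ.SA → γ.p 0 = x → γ.tot t ≤ c → γ.In (box x N) := by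
  obtain ⟨n0, hn0⟩ := ht.2 x
  refine ⟨max n0 ⌈2 * c / h1 G⌉₊, fun γ ho hs hx hc => ?_⟩
  have hN : γ.n ≤ max n0 ⌈2 * c / h1 G⌉₊ := by
    by_contra hlt
    rw [not_le, max_lt_iff] at hlt
    have h1' := cost_ge_of_not_kesBad G ht.1.nn ho hs (a := 0) (k := γ.n) (by omega)
      (hx ▸ hn0 γ.n hlt.1.le)
    rw [zero_add] at h1'
    have h2 : 2 * c / h1 G < γ.n := Nat.lt_of_ceil_lt hlt.2
    rw [div_lt_iff₀ (h1_pos G)] at h2
    have h3 : γ.cost t 0 γ.n ≤ c := hc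
    linarith
  exact ho.in_box.mono (hx ▸ box_mono _ hN)

theorem tk_box_finite (x : V) (N : ℕ) : (box x N).Finite := by
  rw [← coe_boxF]
  exact Finset.finite_toSet _

theorem tk_null [Law G] {E E' : Finset (Sym2 V)} {e : Sym2 V} (he : e ∈ E) (he' : e ∉ E') (c : ℝ) :
    ∀ᵐ t ∂(iidLaw G), ∑ a ∈ E, t a - ∑ a ∈ E', t a ≠ c := by
  have hm : MeasurableSet {t : Env | ∑ a ∈ E, t a - ∑ a ∈ E', t a = c} :=
    measurableSet_eq_fun (by fun_prop) measurable_const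
  have h0 : Pr G {t : Env | ∑ a ∈ E, t a - ∑ a ∈ E', t a = c} = 0 := by
    refine le_antisymm (le_of_forall_pos_le_add fun ζ hζ => ?_) (Pr_nonneg G _)
    obtain ⟨η, hη, h⟩ := exists_omg_le G hζ
    rw [zero_add]
    refine (Pr_le_omg G e hm fun t ht t' ht' hoff => ?_).trans h
    have h1 : ∑ a ∈ E.erase e, t a = ∑ a ∈ E.erase e, t' a :=
      Finset.sum_congr rfl fun a ha => hoff a (Finset.ne_of_mem_erase ha)
    have h2 : ∑ a ∈ E', t a = ∑ a ∈ E', t' a :=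
      Finset.sum_congr rfl fun a ha => hoff a fun h => he' (h ▸ ha)
    have h3 := Finset.add_sum_erase E t he
    have h4 := Finset.add_sum_erase E t' he
    have h5 : ∑ a ∈ E, t a - ∑ a ∈ E', t a = c := ht
    have h6 : ∑ a ∈ E, t' a - ∑ a ∈ E', t' a = c := ht'
    have h7 : t e - t' e = 0 := by linarith
    rw [h7, abs_zero]
    exact hη.le
  rw [Pr_eq_zero_iff] at h0
  rw [ae_iff]
  simpa only [ne_eq, not_not] using h0

theorem exists_geo [Law G] {t : Env} (ht : Reg G t) {D : Set V} {x z : V} (hc : Conn D x z) :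
    ∃ γ : Pth, IsGeo D t γ ∧ γ.p 0 = x ∧ γ.p γ.n = z := by
  obtain ⟨γ0, h0⟩ := hc
  obtain ⟨δ0, hδ0, sδ0, -⟩ := h0.exists_sa
  obtain ⟨N, hN⟩ := tk_short G ht x (δ0.tot t)
  have hj : ∀ δ : Pth, δ.Joins D x z → δ.SA → δ.tot t ≤ δ0.tot t → δ.Joins (D ∩ box x N) x z :=
    fun δ h s hle => ⟨h.1, fun i hi => ⟨h.2.1 i hi, hN δ h.1 s h.2.2.1 hle i hi⟩, h.2.2⟩
  obtain ⟨γ, hγ, hx, hz⟩ := exists_geo_finite ((tk_box_finite x N).inter_of_right D) ht.1.nn
    ⟨δ0, hj δ0 hδ0 sδ0 le_rfl⟩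
  have h1 : γ.tot t = TD (D ∩ box x N) t x z := by rw [hγ.2.2.2, hx, hz]
  refine ⟨γ, isGeo_of_tot_le ht.1 (x := x) (z := z)
    ⟨hγ.1, hγ.2.1.mono Set.inter_subset_left, hx, hz⟩ ?_, hx, hz⟩
  refine le_TD_of_sa ht.1.nn ⟨γ0, h0⟩ fun δ hδ sδ => ?_
  rw [h1]
  rcases le_total (δ.tot t) (δ0.tot t) with hle | hle
  · exact TD_le ht.1.nn (hj δ hδ sδ hle)
  · exact (TD_le ht.1.nn (hj δ0 hδ0 sδ0 le_rfl)).trans hle

theorem geo_spec [Law G] {t : Env} (ht : Reg G t) (x z : V) :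
    IsGeo Set.univ t (geo t x z) ∧ (geo t x z).p 0 = x ∧ (geo t x z).p (geo t x z).n = z := by
  exact pick_spec (q := fun γ => IsGeo Set.univ t γ ∧ γ.p 0 = x ∧ γ.p γ.n = z)
    (exists_geo G ht (conn_univ x z))

/-- in a regular environment only finitely many points are within a given passage time -/
theorem Reg.finite_ball [Law G] {t : Env} (ht : Reg G t) (x : V) (c : ℝ) :
    {z | T t x z ≤ c}.Finite := by
  obtain ⟨N, hN⟩ := tk_short G ht x c
  refine (tk_box_finite x N).subset fun z hz => ?_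
  obtain ⟨h1, h2, h3⟩ := geo_spec G ht x z
  have h4 := h1.2.2.2
  rw [h2, h3] at h4
  rw [← h3]
  exact hN _ h1.1 h1.2.2.1 h2 (h4.le.trans hz) _ le_rfl

theorem ae_gen [Law G] {C : Set ℝ} (hC : C.Countable) : ∀ᵐ t ∂(iidLaw G), Gen C t := by
  refine ae_all_iff.2 fun γ => ae_all_iff.2 fun δ => ?_
  by_cases h : γ.Ok ∧ γ.SA ∧ δ.Ok ∧ δ.SA ∧ γ.edges ≠ δ.edges
  · obtain ⟨h1, h2, h3, h4, h5⟩ := h
    have key : ∀ c, ∀ᵐ t ∂(iidLaw G), γ.tot t - δ.tot t ≠ c := by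
      intro c
      simp only [Pth.tot_eq_sum_edges h1 h2, Pth.tot_eq_sum_edges h3 h4]
      by_cases hs : γ.edges ⊆ δ.edges
      · have hs' : ¬ δ.edges ⊆ γ.edges := fun h' => h5 (Finset.Subset.antisymm hs h')
        obtain ⟨e, he, he'⟩ := Finset.not_subset.1 hs'
        filter_upwards [tk_null G he he' (-c)] with t ht h
        exact ht (by linarith)
      · obtain ⟨e, he, he'⟩ := Finset.not_subset.1 hs
        exact tk_null G he he' c
    filter_upwards [(ae_ball_iff hC).2 fun c _ => key c] with t ht _ _ _ _ _ hc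
    exact ht _ hc rfl
  · exact Filter.Eventually.of_forall fun t h1 h2 h3 h4 h5 => absurd ⟨h1, h2, h3, h4, h5⟩ h

/-- regular and without ties -/
def Nice (t : Env) : Prop := Reg G t ∧ Gen {0} t

theorem ae_nice [Law G] : ∀ᵐ t ∂(iidLaw G), Nice G t := by
  exact (ae_reg G).and (ae_gen G (Set.countable_singleton 0))
theorem measurableSet_nice : MeasurableSet {t | Nice G t} := by
  exact (measurableSet_reg G).inter (measurableSet_gen (measurableSet_singleton 0))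
theorem Nice.nn {t : Env} (h : Nice G t) : NN t := by
  exact h.1.1.nn
theorem nice_act {σ : V ≃ V} (hσ : IsAut σ) (t : Env) : Nice G (act σ t) ↔ Nice G t := by
  exact and_congr (reg_act hσ G t) (gen_act hσ {0} t)

theorem Nice.eq_geo [Law G] {t : Env} (ht : Nice G t) {γ : Pth} (h : IsGeo Set.univ t γ) :
    γ = geo t (γ.p 0) (γ.p γ.n) := by
  obtain ⟨h1, h2, h3⟩ := geo_spec G ht.1 (γ.p 0) (γ.p γ.n)
  exact IsGeo.unique (Set.mem_singleton 0) ht.2 h h1 h2.symm h3.symm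
theorem geo_act [Law G] {σ : V ≃ V} (hσ : IsAut σ) {t : Env} (ht : Nice G t) (x z : V) :
    (geo (act σ t) x z).map σ = geo t (σ x) (σ z) := by
  obtain ⟨h1, h2, h3⟩ := geo_spec G ((nice_act G hσ t).2 ht).1 x z
  have h4 := Nice.eq_geo G ht ((isGeo_act hσ Set.univ t _).1 h1)
  rwa [Pth.map_p, Pth.map_p, Pth.map_n, h2, h3] at h4
theorem geo_rev [Law G] {t : Env} (ht : Nice G t) (x z : V) : (geo t x z).rev = geo t z x := by
  obtain ⟨h1, h2, h3⟩ := geo_spec G ht.1 x z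
  have h4 := Nice.eq_geo G ht h1.rev
  rwa [Pth.rev_p _ (Nat.zero_le _), Pth.rev_n, Pth.rev_p _ le_rfl, Nat.sub_zero, Nat.sub_self,
    h2, h3] at h4

end Crest.Agent.R151
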