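import Crest.Agent.R151.TResample

/-! Row 151 toolkit: high and low weights, Kesten's bound, existence and uniqueness of geodesics. -/

set_option autoImplicit false

namespace Crest.Agent.R151

open MeasureTheory ProbabilityTheory Crest.ProbabilityR.FirstPassage
open scoped Classical

variable (G : Measure ℝ)

theorem continuous_cdf_law [Law G] : Continuous (cdf G) := by
  rw [continuous_iff_continuousAt]
  intro a
  rw [(monotone_cdf G).continuousAt_iff_leftLim_eq_rightLim, (cdf G).rightLim_eq]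
  have h1 := (cdf G).measure_singleton a
  rw [measure_cdf, measure_singleton] at h1
  have h2 : cdf G a - Function.leftLim (cdf G) a ≤ 0 := ENNReal.ofReal_eq_zero.1 h1.symm
  have h3 : Function.leftLim (cdf G) a ≤ cdf G a := (monotone_cdf G).leftLim_le le_rfl
  linarith

theorem cdf_zero_law [Law G] : cdf G 0 = 0 := by
  rw [cdf_eq_real, Measure.real, ← measure_congr (Iio_ae_eq_Iic (μ := G) (a := (0 : ℝ))),
    Law.nonneg]
  rfl

theorem exists_cdf_eq_law [Law G] {c : ℝ} (h0 : 0 < c) (h1 : c < 1) : ∃ x, cdf G x = c := by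
  have := intermediate_value_univ₂_eventually₂ (l₁ := Filter.atBot) (l₂ := Filter.atTop)
    (continuous_cdf_law G) (continuous_const (y := c))
    ((tendsto_cdf_atBot G).eventually (ge_mem_nhds h0))
    ((tendsto_cdf_atTop G).eventually (le_mem_nhds h1))
  exact this

theorem exists_hlSpec [Law G] : ∃ h, HLSpec G h := by
  obtain ⟨a, ha⟩ := exists_cdf_eq_law G (c := 1 / 8000) (by norm_num) (by norm_num)
  obtain ⟨b, hb⟩ := exists_cdf_eq_law G (c := 1 / 4000) (by norm_num) (by norm_num)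
  obtain ⟨c, hc⟩ := exists_cdf_eq_law G (c := 3999 / 4000) (by norm_num) (by norm_num)
  have hm := monotone_cdf G
  have h0 := cdf_zero_law G
  have ha0 : 0 < a := by
    by_contra h
    have := hm (not_lt.1 h)
    rw [ha, h0] at this
    norm_num at this
  have hab : a < b := by
    by_contra h
    have := hm (not_lt.1 h)
    rw [ha, hb] at this
    norm_num at this
  have hbc : b ≤ c := by
    by_contra h
    have := hm (not_le.1 h).le
    rw [hc, hb] at this
    norm_num at this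
  refine ⟨(a, b, c), ha0, hab, hbc, ?_, ?_⟩
  · have h1 : G.real (Set.Iic a) ≤ G.real (Set.Iic 0) + G.real (Set.Ioc 0 a) := by
      refine le_trans (measureReal_mono ?_) (measureReal_union_le _ _)
      intro x hx
      rcases le_or_gt x 0 with h | h
      · exact Or.inl h
      · exact Or.inr ⟨h, hx⟩
    rw [← cdf_eq_real, ← cdf_eq_real, ha, h0] at h1
    show 0 < G.real (Set.Ioc 0 a)
    linarith
  · have h1 : G.real (Set.Icc b c)ᶜ ≤ G.real (Set.Iic b) + G.real (Set.Iic c)ᶜ := by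
      refine le_trans (measureReal_mono ?_) (measureReal_union_le _ _)
      intro x hx
      rcases le_or_gt x b with h | h
      · exact Or.inl h
      · exact Or.inr (fun h' => hx ⟨h.le, h'⟩)
    rw [probReal_compl_eq_one_sub measurableSet_Iic, ← cdf_eq_real, ← cdf_eq_real, hb, hc] at h1
    show G.real (Set.Icc b c)ᶜ ≤ 1 / 1000
    linarith

theorem hl_spec [Law G] : HLSpec G (hl G) := Classical.epsilon_spec (exists_hlSpec G)
theorem h0_pos [Law G] : 0 < h0 G := (hl_spec G).1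
theorem h0_lt_h1 [Law G] : h0 G < h1 G := (hl_spec G).2.1
theorem h1_le_h2 [Law G] : h1 G ≤ h2 G := (hl_spec G).2.2.1
theorem h1_pos [Law G] : 0 < h1 G := (h0_pos G).trans (h0_lt_h1 G)
theorem lo_pos [Law G] : 0 < G.real (lo G) := (hl_spec G).2.2.2.1
theorem hi_compl_le [Law G] : G.real (hi G)ᶜ ≤ 1 / 1000 := (hl_spec G).2.2.2.2
theorem hi_ge [Law G] : 999 / 1000 ≤ G.real (hi G) := by
  have h := hi_compl_le G
  rw [probReal_compl_eq_one_sub (measurableSet_hi G)] at h
  linarith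
theorem disjoint_lo_hi [Law G] : Disjoint (lo G) (hi G) := by
  rw [Set.disjoint_left]
  intro x hx hx'
  have h1 := hx.2
  have h2 := hx'.1
  have h3 := h0_lt_h1 G
  linarith

theorem kes_num (n k : ℕ) (hk : n ≤ 2 * k) :
    (4 : ℝ) ^ n * 2 ^ n * (1 / 1000) ^ k ≤ (1 / 2) ^ n := by
  have h1 : ((1 : ℝ) / 1000) ^ k ≤ (1 / 16) ^ n := by
    calc ((1 : ℝ) / 1000) ^ k ≤ ((1 / 16) ^ 2) ^ k := by
          apply pow_le_pow_left₀ (by norm_num) (by norm_num)
      _ = (1 / 16) ^ (2 * k) := by rw [← pow_mul]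
      _ ≤ (1 / 16) ^ n := pow_le_pow_of_le_one (by norm_num) (by norm_num) hk
  calc (4 : ℝ) ^ n * 2 ^ n * (1 / 1000) ^ k ≤ 4 ^ n * 2 ^ n * (1 / 16) ^ n := by gcongr
    _ = (1 / 2) ^ n := by rw [← mul_pow, ← mul_pow]; norm_num

theorem Pr_kesBad [Law G] (x : V) (n : ℕ) : Pr G (KesBad G x n) ≤ (1 / 2) ^ n := by
  obtain ⟨S, hS, hSm⟩ := Pth.exists_finset_paths x n
  set k : ℕ := (n + 1) / 2 with hk
  set I : Finset (Pth × Finset ℕ) :=
    (S.filter Pth.SA) ×ˢ ((Finset.range n).powersetCard k) with hI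
  have hcard : (I.card : ℝ) ≤ 4 ^ n * 2 ^ n := by
    have h1 : (S.filter Pth.SA).card ≤ 4 ^ n := (Finset.card_filter_le _ _).trans hS
    have h2 : ((Finset.range n).powersetCard k).card ≤ 2 ^ n := by
      calc _ ≤ (Finset.range n).powerset.card :=
            Finset.card_le_card (fun s hs =>
              Finset.mem_powerset.2 (Finset.mem_powersetCard.1 hs).1)
        _ = 2 ^ n := by rw [Finset.card_powerset, Finset.card_range]
    have : I.card ≤ 4 ^ n * 2 ^ n := by
      rw [hI, Finset.card_product]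
      exact Nat.mul_le_mul h1 h2
    exact_mod_cast this
  have hmain := Pr_le_card_mul G I (A := KesBad G x n)
    (fun q => {t : Env | ∀ e ∈ q.2.image q.1.edge, t e ∈ (hi G)ᶜ}) (p := (1 / 1000) ^ k)
    (Filter.Eventually.of_forall ?_) ?_
  · refine hmain.trans ?_
    refine le_trans ?_ (kes_num n k (by omega))
    gcongr
  · rintro t ⟨γ, hok, hsa, h0, hn, hlt⟩
    have hc : k ≤ ((Finset.range n).filter (fun i => t (γ.edge i) ∉ hi G)).card := by
      have := Finset.card_filter_add_card_filter_not (s := Finset.range n)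
        (fun i => t (γ.edge i) ∈ hi G)
      rw [Finset.card_range] at this
      have h2 : γ.nhi G t 0 n =
          ((Finset.range n).filter (fun i => t (γ.edge i) ∈ hi G)).card := by
        unfold Pth.nhi
        rw [Finset.range_eq_Ico]
      omega
    obtain ⟨J, hJ, hJc⟩ := Finset.exists_subset_card_eq hc
    refine ⟨(γ, J), ?_, ?_⟩
    · rw [hI, Finset.mem_product, Finset.mem_filter, Finset.mem_powersetCard]
      exact ⟨⟨(hSm γ).2 ⟨hok, h0, hn⟩, hsa⟩, hJ.trans (Finset.filter_subset _ _), hJc⟩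
    · intro e he
      obtain ⟨i, hi', rfl⟩ := Finset.mem_image.1 he
      exact (Finset.mem_filter.1 (hJ hi')).2
  · rintro ⟨γ, J⟩ hq
    rw [hI, Finset.mem_product, Finset.mem_filter, Finset.mem_powersetCard] at hq
    obtain ⟨⟨hγ, hsa⟩, hJ, hJc⟩ := hq
    obtain ⟨hok, -, hn⟩ := (hSm γ).1 hγ
    have hinj : (J.image γ.edge).card = k := by
      rw [Finset.card_image_of_injOn, hJc]
      intro i hi' j hj he
      have h1 := Finset.mem_range.1 (hJ hi')
      have h2 := Finset.mem_range.1 (hJ hj)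
      exact Pth.edge_inj hok hsa (by omega) (by omega) he
    show Pr G {t : Env | ∀ e ∈ J.image γ.edge, t e ∈ (hi G)ᶜ} ≤ _
    rw [Pr_forall_eval G _ (measurableSet_hi G).compl, hinj]
    exact pow_le_pow_left₀ measureReal_nonneg (hi_compl_le G) k

/-- some point of `F` starts a self-avoiding path of length `≥ n` with few high steps -/
theorem Pr_kesBad_ge [Law G] (F : Finset V) (n : ℕ) :
    Pr G {t | ∃ x ∈ F, ∃ k, n ≤ k ∧ t ∈ KesBad G x k} ≤ 2 * F.card * (1 / 2) ^ n := by
  have h1 : ∀ x : V, Pr G (⋃ j : ℕ, KesBad G x (n + j)) ≤ 2 * (1 / 2) ^ n := by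
    intro x
    have hs : HasSum (fun j : ℕ => ((1 : ℝ) / 2) ^ (n + j)) ((1 / 2) ^ n * 2) := by
      simp_rw [pow_add]
      exact hasSum_geometric_two.mul_left _
    have := Pr_iUnion_le G (fun j : ℕ => KesBad G x (n + j))
      (a := fun j : ℕ => ((1 : ℝ) / 2) ^ (n + j)) (fun j => Pr_kesBad G x _) hs.summable
    rw [hs.tsum_eq] at this
    linarith
  have := Pr_le_card_mul G F (A := {t | ∃ x ∈ F, ∃ k, n ≤ k ∧ t ∈ KesBad G x k})
    (fun x => ⋃ j : ℕ, KesBad G x (n + j)) (p := 2 * (1 / 2) ^ n)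
    (Filter.Eventually.of_forall ?_) (fun x _ => h1 x)
  · linarith
  · rintro t ⟨x, hx, k, hk, ht⟩
    refine ⟨x, hx, Set.mem_iUnion.2 ⟨k - n, ?_⟩⟩
    rwa [Nat.add_sub_cancel' hk]

theorem nhi_sub {t : Env} (γ : Pth) (a k : ℕ) :
    (γ.sub a (a + k)).nhi G t 0 k = γ.nhi G t a (a + k) := by
  unfold Pth.nhi
  refine Finset.card_bij (fun i _ => a + i) ?_ ?_ ?_
  · intro i hi'
    rw [Finset.mem_filter, Finset.mem_Ico] at hi' ⊢
    rw [Pth.sub_edge γ a (a + k) (by omega)] at hi'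
    exact ⟨⟨by omega, by omega⟩, hi'.2⟩
  · intro i _ j _ h
    omega
  · intro j hj
    rw [Finset.mem_filter, Finset.mem_Ico] at hj
    refine ⟨j - a, ?_, by omega⟩
    rw [Finset.mem_filter, Finset.mem_Ico, Pth.sub_edge γ a (a + k) (by omega),
      show a + (j - a) = j by omega]
    exact ⟨⟨by omega, by omega⟩, hj.2⟩

theorem nhi_ge_of_not_kesBad {t : Env} {γ : Pth} (h : γ.Ok) (hs : γ.SA) {a k : ℕ}
    (hk : a + k ≤ γ.n) (hb : t ∉ KesBad G (γ.p a) k) : k ≤ 2 * γ.nhi G t a (a + k) := by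
  by_contra hlt
  refine hb ⟨γ.sub a (a + k), h.sub a hk, hs.sub (by omega) hk, γ.sub_p_zero _ _, ?_, ?_⟩
  · simp
  · rw [nhi_sub]
    omega

theorem nhi_mul_le_cost {t : Env} (ht : NN t) (γ : Pth) (a b : ℕ) :
    (γ.nhi G t a b : ℝ) * h1 G ≤ γ.cost t a b := by
  unfold Pth.nhi Pth.cost
  calc (((Finset.Ico a b).filter (fun i => t (γ.edge i) ∈ hi G)).card : ℝ) * h1 G
      = ∑ _i ∈ (Finset.Ico a b).filter (fun i => t (γ.edge i) ∈ hi G), h1 G := by
        rw [Finset.sum_const, nsmul_eq_mul]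
    _ ≤ ∑ i ∈ (Finset.Ico a b).filter (fun i => t (γ.edge i) ∈ hi G), t (γ.edge i) :=
        Finset.sum_le_sum (fun i hi' => (Finset.mem_filter.1 hi').2.1)
    _ ≤ ∑ i ∈ Finset.Ico a b, t (γ.edge i) :=
        Finset.sum_le_sum_of_subset_of_nonneg (Finset.filter_subset _ _) (fun i _ _ => ht _)

theorem cost_ge_of_not_kesBad [Law G] {t : Env} (ht : NN t) {γ : Pth} (h : γ.Ok) (hs : γ.SA)
    {a k : ℕ} (hk : a + k ≤ γ.n) (hb : t ∉ KesBad G (γ.p a) k) :
    h1 G * k / 2 ≤ γ.cost t a (a + k) := by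
  have h1' : (k : ℝ) ≤ 2 * γ.nhi G t a (a + k) := by
    exact_mod_cast nhi_ge_of_not_kesBad G h hs hk hb
  have h2 := nhi_mul_le_cost G ht γ a (a + k)
  have h3 := h1_pos G
  nlinarith

/-- the high edges among the steps `a ≤ i < b` as a set of edges -/
theorem card_hi_edges {t : Env} {γ : Pth} (h : γ.Ok) (hs : γ.SA) {a b : ℕ} (hb : b ≤ γ.n) :
    (((Finset.Ico a b).image γ.edge).filter (fun e => t e ∈ hi G)).card = γ.nhi G t a b := by
  unfold Pth.nhi
  rw [Finset.filter_image, Finset.card_image_of_injOn]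
  intro i hi' j hj he
  have h1' := Finset.mem_Ico.1 (Finset.mem_filter.1 (Finset.mem_coe.1 hi')).1
  have h2' := Finset.mem_Ico.1 (Finset.mem_filter.1 (Finset.mem_coe.1 hj)).1
  exact Pth.edge_inj h hs (by omega) (by omega) he

theorem ae_reg [Law G] : ∀ᵐ t ∂(iidLaw G), Reg G t := by
  have h2 : ∀ x : V, ∀ᵐ t ∂(iidLaw G), ∀ᶠ n in Filter.atTop, t ∉ KesBad G x n := by
    intro x
    apply ae_eventually_notMem
    have hle : ∀ n : ℕ, iidLaw G (KesBad G x n) ≤ ENNReal.ofReal ((1 / 2) ^ n) := by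
      intro n
      rw [← ofReal_measureReal]
      exact ENNReal.ofReal_le_ofReal (Pr_kesBad G x n)
    refine ne_top_of_le_ne_top ?_ (ENNReal.tsum_le_tsum hle)
    rw [← ENNReal.ofReal_tsum_of_nonneg (fun n => by positivity) summable_geometric_two]
    exact ENNReal.ofReal_ne_top
  filter_upwards [ae_pos G, ae_all_iff.2 h2] with t hp hk
  exact ⟨hp, fun x => Filter.eventually_atTop.1 (hk x)⟩

end Crest.Agent.R151
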