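import Crest.Agent.R151.TMeas1

/-! Row 151 toolkit: measurability, dependence on edge sets, measurable selection, `Pr`. -/

set_option autoImplicit false

namespace Crest.Agent.R151

open MeasureTheory ProbabilityTheory Crest.ProbabilityR.FirstPassage
open scoped Classical

section Pr
variable (G : Measure ℝ) [IsProbabilityMeasure G]

theorem Pr_nonneg (A : Set Env) : 0 ≤ Pr G A := by
  exact measureReal_nonneg

theorem Pr_le_one (A : Set Env) : Pr G A ≤ 1 := by
  exact measureReal_le_one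

theorem Pr_empty : Pr G ∅ = 0 := by
  simp [Pr]

theorem Pr_univ : Pr G Set.univ = 1 := by
  simp [Pr]

theorem Pr_mono {A B : Set Env} (h : A ⊆ B) : Pr G A ≤ Pr G B := by
  exact measureReal_mono h

theorem Pr_mono_ae {A B : Set Env} (h : ∀ᵐ t ∂(iidLaw G), t ∈ A → t ∈ B) : Pr G A ≤ Pr G B := by
  unfold Pr Measure.real
  exact ENNReal.toReal_mono (measure_ne_top _ _) (measure_mono_ae h)

theorem Pr_union_le (A B : Set Env) : Pr G (A ∪ B) ≤ Pr G A + Pr G B := by
  exact measureReal_union_le A B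

theorem Pr_le_add_of_ae {A B C : Set Env} (h : ∀ᵐ t ∂(iidLaw G), t ∈ A → t ∈ B ∨ t ∈ C) :
    Pr G A ≤ Pr G B + Pr G C := by
  exact (Pr_mono_ae G (B := B ∪ C) h).trans (Pr_union_le G B C)

theorem Pr_compl {A : Set Env} (hA : MeasurableSet A) : Pr G Aᶜ = 1 - Pr G A := by
  unfold Pr
  rw [measureReal_compl hA]
  simp

theorem one_sub_Pr_le_compl (A : Set Env) : 1 - Pr G A ≤ Pr G Aᶜ := by
  have h := Pr_union_le G A Aᶜ
  rw [Set.union_compl_self, Pr_univ] at h
  linarith

theorem Pr_sub_le_inter_compl (A B : Set Env) : Pr G A - Pr G B ≤ Pr G (A ∩ Bᶜ) := by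
  have h := Pr_le_add_of_ae G (A := A) (B := B) (C := A ∩ Bᶜ)
    (Filter.Eventually.of_forall fun t ht => by
      by_cases hB : t ∈ B
      · exact Or.inl hB
      · exact Or.inr ⟨ht, hB⟩)
  linarith

theorem Pr_biUnion_le {ι : Type*} (s : Finset ι) (A : ι → Set Env) :
    Pr G (⋃ i ∈ s, A i) ≤ ∑ i ∈ s, Pr G (A i) := by
  exact measureReal_biUnion_finset_le s A

theorem Pr_le_sum_of_ae {ι : Type*} (s : Finset ι) {A : Set Env} (B : ι → Set Env)
    (h : ∀ᵐ t ∂(iidLaw G), t ∈ A → ∃ i ∈ s, t ∈ B i) : Pr G A ≤ ∑ i ∈ s, Pr G (B i) := by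
  refine (Pr_mono_ae G (B := ⋃ i ∈ s, B i) ?_).trans (Pr_biUnion_le G s B)
  filter_upwards [h] with t ht hA
  simpa using ht hA

theorem Pr_le_card_mul {ι : Type*} (s : Finset ι) {A : Set Env} (B : ι → Set Env) {p : ℝ}
    (h : ∀ᵐ t ∂(iidLaw G), t ∈ A → ∃ i ∈ s, t ∈ B i) (hp : ∀ i ∈ s, Pr G (B i) ≤ p) :
    Pr G A ≤ s.card * p := by
  refine (Pr_le_sum_of_ae G s B h).trans ?_
  simpa using Finset.sum_le_card_nsmul s _ p hp

theorem Pr_iUnion_le {ι : Type*} [Countable ι] (A : ι → Set Env) {a : ι → ℝ}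
    (ha : ∀ i, Pr G (A i) ≤ a i) (hs : Summable a) : Pr G (⋃ i, A i) ≤ ∑' i, a i := by
  have h0 : ∀ i, 0 ≤ a i := fun i => (Pr_nonneg G _).trans (ha i)
  have h1 : iidLaw G (⋃ i, A i) ≤ ENNReal.ofReal (∑' i, a i) := by
    rw [ENNReal.ofReal_tsum_of_nonneg h0 hs]
    refine (measure_iUnion_le A).trans (ENNReal.tsum_le_tsum fun i => ?_)
    rw [← ofReal_measureReal (measure_ne_top _ _)]
    exact ENNReal.ofReal_le_ofReal (ha i)
  exact ENNReal.toReal_le_of_le_ofReal (tsum_nonneg h0) h1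

theorem Pr_iUnion_disjoint {ι : Type*} [Countable ι] {A : ι → Set Env}
    (hm : ∀ i, MeasurableSet (A i)) (hd : Pairwise (fun i j => Disjoint (A i) (A j))) :
    HasSum (fun i => Pr G (A i)) (Pr G (⋃ i, A i)) := by
  have h1 : iidLaw G (⋃ i, A i) = ∑' i, iidLaw G (A i) := measure_iUnion hd hm
  unfold Pr Measure.real
  rw [h1]
  have h2 : ∑' i, iidLaw G (A i) ≠ ⊤ := by rw [← h1]; exact measure_ne_top _ _
  rw [ENNReal.tsum_toReal_eq (fun i => measure_ne_top _ _)]
  exact (ENNReal.summable_toReal h2).hasSum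

theorem Pr_eq_zero_iff (A : Set Env) : Pr G A = 0 ↔ iidLaw G A = 0 := by
  exact measureReal_eq_zero_iff (measure_ne_top _ _)

theorem integral_indicator_Pr {A : Set Env} (hA : MeasurableSet A) :
    ∫ t, A.indicator (fun _ => (1 : ℝ)) t ∂(iidLaw G) = Pr G A := by
  rw [integral_indicator hA]
  simp [Pr]

theorem integral_card_filter {ι : Type*} (s : Finset ι) {A : ι → Set Env}
    (hA : ∀ i, MeasurableSet (A i)) :
    Integrable (fun t => ((s.filter (fun i => t ∈ A i)).card : ℝ)) (iidLaw G) ∧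
    ∫ t, ((s.filter (fun i => t ∈ A i)).card : ℝ) ∂(iidLaw G) = ∑ i ∈ s, Pr G (A i) := by
  have e : (fun t => ((s.filter (fun i => t ∈ A i)).card : ℝ))
      = fun t => ∑ i ∈ s, (A i).indicator (fun _ => (1 : ℝ)) t := by
    funext t
    rw [Finset.card_filter]
    push_cast
    refine Finset.sum_congr rfl fun i _ => ?_
    by_cases h : t ∈ A i <;> simp [h]
  have hi : ∀ i ∈ s, Integrable ((A i).indicator (fun _ => (1 : ℝ))) (iidLaw G) :=
    fun i _ => (integrable_const (1 : ℝ)).indicator (hA i)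
  rw [e]
  refine ⟨integrable_finsetSum s hi, ?_⟩
  rw [integral_finsetSum s hi]
  exact Finset.sum_congr rfl fun i _ => integral_indicator_Pr G (hA i)

/-- sum of probabilities of arbitrary events, bounded by the mean of any dominating count -/
theorem sum_Pr_le_integral {ι : Type*} (s : Finset ι) {A : ι → Set Env}
    (hA : ∀ i, MeasurableSet (A i)) {F : Env → ℝ} (hF : Integrable F (iidLaw G))
    (h : ∀ᵐ t ∂(iidLaw G), ((s.filter (fun i => t ∈ A i)).card : ℝ) ≤ F t) :
    ∑ i ∈ s, Pr G (A i) ≤ ∫ t, F t ∂(iidLaw G) := by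
  obtain ⟨h1, h2⟩ := integral_card_filter G s hA
  rw [← h2]
  exact integral_mono_ae h1 hF h

/-- Markov -/
theorem Pr_markov {F : Env → ℝ} (hF : Integrable F (iidLaw G)) (h0 : ∀ᵐ t ∂(iidLaw G), 0 ≤ F t)
    {lam : ℝ} (hlam : 0 < lam) : Pr G {t | lam ≤ F t} ≤ (∫ t, F t ∂(iidLaw G)) / lam := by
  rw [le_div_iff₀ hlam, mul_comm]
  exact mul_meas_ge_le_integral_of_nonneg h0 hF lam

/-- Cauchy-Schwarz on an event -/
theorem setIntegral_le_sqrt {F : Env → ℝ} (hF : MemLp F 2 (iidLaw G)) {A : Set Env}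
    (hA : MeasurableSet A) :
    ∫ t in A, |F t| ∂(iidLaw G) ≤ √(∫ t, F t ^ 2 ∂(iidLaw G)) * √(Pr G A) := by
  have hg : MemLp (A.indicator (fun _ => (1 : ℝ))) (ENNReal.ofReal 2) (iidLaw G) :=
    (memLp_const (1 : ℝ)).indicator hA
  have hf : MemLp F (ENNReal.ofReal 2) (iidLaw G) := by simpa using hF
  have h := integral_mul_norm_le_Lp_mul_Lq Real.HolderConjugate.two_two hf hg
  have e1 : ∫ t in A, |F t| ∂(iidLaw G)
      = ∫ t, ‖F t‖ * ‖A.indicator (fun _ => (1 : ℝ)) t‖ ∂(iidLaw G) := by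
    rw [← integral_indicator hA]
    refine integral_congr_ae (Filter.Eventually.of_forall fun t => ?_)
    by_cases ht : t ∈ A <;> simp [ht]
  have e2 : ∫ t, ‖F t‖ ^ (2 : ℝ) ∂(iidLaw G) = ∫ t, F t ^ 2 ∂(iidLaw G) := by
    refine integral_congr_ae (Filter.Eventually.of_forall fun t => ?_)
    simp
  have e3 : ∫ t, ‖A.indicator (fun _ => (1 : ℝ)) t‖ ^ (2 : ℝ) ∂(iidLaw G) = Pr G A := by
    rw [← integral_indicator_Pr G hA]
    refine integral_congr_ae (Filter.Eventually.of_forall fun t => ?_)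
    by_cases ht : t ∈ A <;> simp [ht]
  rw [e2, e3] at h
  rw [e1, Real.sqrt_eq_rpow, Real.sqrt_eq_rpow]
  exact h

/-- a dyadic tail bound gives integrability and a bound on the mean -/
theorem integral_le_of_tail {F : Env → ℝ} (hF : Measurable F) (h0 : ∀ᵐ t ∂(iidLaw G), 0 ≤ F t)
    {a : ℝ} (ha : 0 < a) {b : ℕ → ℝ} (hb : ∀ k : ℕ, Pr G {t | a * 2 ^ k < F t} ≤ b k)
    (hs : Summable (fun k : ℕ => 2 ^ k * b k)) :
    Integrable F (iidLaw G) ∧ ∫ t, F t ∂(iidLaw G) ≤ a + 2 * a * ∑' k : ℕ, 2 ^ k * b k := by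
  have hb0 : ∀ k, 0 ≤ b k := fun k => (Pr_nonneg G _).trans (hb k)
  have hm : ∀ k : ℕ, MeasurableSet {t | a * 2 ^ k < F t} :=
    fun k => measurableSet_lt measurable_const hF
  have hpt : ∀ t, ENNReal.ofReal (F t) ≤ ENNReal.ofReal a +
      ∑' k : ℕ, {t | a * 2 ^ k < F t}.indicator (fun _ => ENNReal.ofReal (2 * a * 2 ^ k)) t := by
    intro t
    have hex : ∃ k : ℕ, F t ≤ a * 2 ^ k := by
      obtain ⟨k, hk⟩ := pow_unbounded_of_one_lt (F t / a) (by norm_num : (1 : ℝ) < 2)
      refine ⟨k, ?_⟩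
      rw [div_lt_iff₀ ha] at hk
      linarith
    have hspec := Nat.find_spec hex
    rcases hK : Nat.find hex with _ | K
    · rw [hK] at hspec
      exact le_add_right (ENNReal.ofReal_le_ofReal (by simpa using hspec))
    · rw [hK] at hspec
      have hmin : ¬ F t ≤ a * 2 ^ K := Nat.find_min hex (by omega)
      refine le_add_left (le_trans ?_ (ENNReal.le_tsum K))
      rw [Set.indicator_of_mem (by simpa using hmin)]
      refine ENNReal.ofReal_le_ofReal (hspec.trans (le_of_eq ?_))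
      ring
  have hs' : Summable (fun k : ℕ => 2 * a * (2 ^ k * b k)) := hs.mul_left _
  have hT : 0 ≤ ∑' k : ℕ, 2 ^ k * b k := tsum_nonneg fun k => mul_nonneg (by positivity) (hb0 k)
  have hl : ∫⁻ t, ENNReal.ofReal (F t) ∂(iidLaw G)
      ≤ ENNReal.ofReal (a + 2 * a * ∑' k : ℕ, 2 ^ k * b k) := by
    refine (lintegral_mono hpt).trans ?_
    rw [lintegral_add_left measurable_const, lintegral_const, measure_univ, mul_one,
      lintegral_tsum (fun k => (measurable_const.indicator (hm k)).aemeasurable),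
      ENNReal.ofReal_add ha.le (by positivity), ← tsum_mul_left,
      ENNReal.ofReal_tsum_of_nonneg
        (fun k => mul_nonneg (by positivity) (mul_nonneg (by positivity) (hb0 k))) hs']
    refine add_le_add le_rfl (ENNReal.tsum_le_tsum fun k => ?_)
    rw [lintegral_indicator_const (hm k), ← mul_assoc,
      ENNReal.ofReal_mul (p := 2 * a * 2 ^ k) (by positivity), ← ofReal_measureReal (measure_ne_top (iidLaw G) _)]
    exact mul_le_mul_right (ENNReal.ofReal_le_ofReal (hb k)) _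
  refine ⟨⟨hF.aestronglyMeasurable, ?_⟩, ?_⟩
  · rw [hasFiniteIntegral_iff_ofReal h0]
    exact hl.trans_lt ENNReal.ofReal_lt_top
  · rw [integral_eq_lintegral_of_nonneg_ae h0 hF.aestronglyMeasurable]
    exact ENNReal.toReal_le_of_le_ofReal (by positivity) hl

/-- continuity from above along a sequence of measurable events with empty limsup -/
theorem Pr_tendsto_zero {A : ℕ → Set Env} (hA : ∀ n, MeasurableSet (A n))
    (h : ∀ᵐ t ∂(iidLaw G), ∀ᶠ n in Filter.atTop, t ∉ A n) :
    Filter.Tendsto (fun n => Pr G (A n)) Filter.atTop (nhds 0) := by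
  have h1 := tendsto_integral_of_dominated_convergence (μ := iidLaw G)
    (F := fun n => (A n).indicator (fun _ => (1 : ℝ))) (f := fun _ => (0 : ℝ)) (fun _ => (1 : ℝ))
    (fun n => (measurable_const.indicator (hA n)).aestronglyMeasurable) (integrable_const _)
    (fun n => Filter.Eventually.of_forall fun t => by by_cases ht : t ∈ A n <;> simp [ht])
    (by
      filter_upwards [h] with t ht
      refine tendsto_const_nhds.congr' ?_
      filter_upwards [ht] with n hn
      simp [hn])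
  simp only [integral_indicator_Pr G (hA _), integral_zero] at h1
  exact h1

/-- tightness of a single real random variable -/
theorem exists_Pr_gt_le {F : Env → ℝ} (hF : Measurable F) {ζ : ℝ} (hζ : 0 < ζ) :
    ∃ K : ℝ, 0 < K ∧ Pr G {t | K < F t} ≤ ζ := by
  have h := Pr_tendsto_zero G (A := fun n : ℕ => {t | (n : ℝ) + 1 < F t})
    (fun n => measurableSet_lt measurable_const hF)
    (Filter.Eventually.of_forall fun t => by
      obtain ⟨N, hN⟩ := exists_nat_ge (F t)
      filter_upwards [Filter.eventually_ge_atTop N] with n hn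
      have : (N : ℝ) ≤ n := by exact_mod_cast hn
      show ¬ ((n : ℝ) + 1 < F t)
      linarith)
  obtain ⟨n, hn⟩ := (h.eventually (ge_mem_nhds hζ)).exists
  exact ⟨n + 1, by positivity, hn⟩

theorem Pr_eval (e : Sym2 V) {B : Set ℝ} (hB : MeasurableSet B) :
    Pr G {t | t e ∈ B} = G.real B := by
  have h : MeasurePreserving (fun t : Env => t e) (iidLaw G) G :=
    measurePreserving_eval_infinitePi (fun _ : Sym2 (ℤ × ℤ) => G) e
  exact h.measureReal_preimage hB.nullMeasurableSet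

theorem Pr_forall_eval (F : Finset (Sym2 V)) {B : Set ℝ} (hB : MeasurableSet B) :
    Pr G {t | ∀ e ∈ F, t e ∈ B} = G.real B ^ F.card := by
  have e : {t : Env | ∀ e ∈ F, t e ∈ B} = Set.pi (F : Set (Sym2 V)) (fun _ => B) := by
    ext t
    simp
  unfold Pr Measure.real iidLaw
  rw [e, Measure.infinitePi_pi (fun _ : Sym2 (ℤ × ℤ) => G) (fun _ _ => hB), Finset.prod_const,
    ENNReal.toReal_pow]

theorem measurePreserving_eval' (e : Sym2 V) :
    MeasurePreserving (fun t : Env => t e) (iidLaw G) G := by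
  exact measurePreserving_eval_infinitePi (fun _ : Sym2 (ℤ × ℤ) => G) e


end Pr

theorem ae_pos (G : Measure ℝ) [Law G] : ∀ᵐ t ∂(iidLaw G), Pos t := by
  unfold Pos
  rw [ae_all_iff]
  intro e
  have h : ∀ᵐ x ∂G, 0 < x := by
    rw [ae_iff]
    have e : {a : ℝ | ¬ 0 < a} = Set.Iio 0 ∪ {0} := by
      ext x
      simp [le_iff_lt_or_eq]
    rw [e]
    exact measure_union_null Law.nonneg (measure_singleton _)
  exact (measurePreserving_eval' G e).quasiMeasurePreserving.ae h

theorem ae_nn (G : Measure ℝ) [Law G] : ∀ᵐ t ∂(iidLaw G), NN t := by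
  filter_upwards [ae_pos G] with t ht e
  exact (ht e).le


end Crest.Agent.R151
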