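import Crest.Agent.R151.TPath3

/-! Row 151 toolkit: measurability, dependence on edge sets, measurable selection, `Pr`. -/

set_option autoImplicit false

namespace Crest.Agent.R151

open MeasureTheory ProbabilityTheory Crest.ProbabilityR.FirstPassage
open scoped Classical

instance instProbIid (G : Measure ℝ) [IsProbabilityMeasure G] : IsProbabilityMeasure (iidLaw G) := by
  unfold iidLaw; infer_instance

/-- the value of `F` is decided by the weights in `S` -/
def DepF {α : Type*} (S : Set (Sym2 V)) (F : Env → α) : Prop :=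
  ∀ t t' : Env, (∀ e ∈ S, t e = t' e) → F t = F t'

theorem Dep.mono {S S' : Set (Sym2 V)} {A : Set Env} (h : Dep S A) (hS : S ⊆ S') : Dep S' A :=
  fun t t' he ht => h t t' (fun e hs => he e (hS hs)) ht
theorem Dep.compl {S : Set (Sym2 V)} {A : Set Env} (h : Dep S A) : Dep S Aᶜ :=
  fun t t' he ht ht' => ht (h t' t (fun e hs => (he e hs).symm) ht')
theorem Dep.inter {S : Set (Sym2 V)} {A B : Set Env} (h : Dep S A) (h' : Dep S B) :
    Dep S (A ∩ B) :=
  fun t t' he ht => ⟨h t t' he ht.1, h' t t' he ht.2⟩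
theorem Dep.union {S : Set (Sym2 V)} {A B : Set Env} (h : Dep S A) (h' : Dep S B) :
    Dep S (A ∪ B) :=
  fun t t' he ht => ht.imp (h t t' he) (h' t t' he)
theorem Dep.iUnion {ι : Sort*} {S : Set (Sym2 V)} {A : ι → Set Env} (h : ∀ i, Dep S (A i)) :
    Dep S (⋃ i, A i) :=
  fun t t' he ht => by
  obtain ⟨i, hi⟩ := Set.mem_iUnion.1 ht
  exact Set.mem_iUnion.2 ⟨i, h i t t' he hi⟩
theorem Dep.iInter {ι : Sort*} {S : Set (Sym2 V)} {A : ι → Set Env} (h : ∀ i, Dep S (A i)) :
    Dep S (⋂ i, A i) :=
  fun t t' he ht =>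
  Set.mem_iInter.2 fun i => h i t t' he (Set.mem_iInter.1 ht i)
theorem DepF.mono {α : Type*} {S S' : Set (Sym2 V)} {F : Env → α} (h : DepF S F) (hS : S ⊆ S') :
    DepF S' F :=
  fun t t' he => h t t' fun e hs => he e (hS hs)
theorem DepF.preimage {α : Type*} {S : Set (Sym2 V)} {F : Env → α} (h : DepF S F) (B : Set α) :
    Dep S (F ⁻¹' B) :=
  fun t t' he ht => by
  rw [Set.mem_preimage, ← h t t' he]
  exact ht
theorem depF_TD (D : Set V) (x z : V) : DepF (LE D) (fun t => TD D t x z) :=
  fun _ _ he => TD_congr he x z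
theorem depF_tot {γ : Pth} {D : Set V} (h : γ.Ok) (hD : γ.In D) : DepF (LE D) (fun t => γ.tot t) :=
  fun _ _ he => Finset.sum_congr rfl fun _ hi =>
    he _ (Pth.edge_mem_LE h hD (Finset.mem_Ico.1 hi).2)
theorem dep_kesBad (G : Measure ℝ) (x : V) (n : ℕ) : Dep (LE (box x n)) (KesBad G x n) := by
  rintro t t' he ⟨γ, h1, h2, rfl, rfl, h5⟩
  refine ⟨γ, h1, h2, rfl, rfl, ?_⟩
  have : γ.nhi G t' 0 γ.n = γ.nhi G t 0 γ.n := by
    unfold Pth.nhi
    congr 1
    refine Finset.filter_congr fun i hi => ?_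
    rw [he _ (Pth.edge_mem_LE h1 h1.in_box (Finset.mem_Ico.1 hi).2)]
  rwa [this]
theorem dep_noSq (G : Measure ℝ) (c : V) (a b : ℕ) : Dep (LE (box c b)) (NoSq G c a b) := by
  intro t t' he ht r h1 h2 hg
  refine ht r h1 h2 fun x y hxy hx hy => ?_
  rw [he _ ⟨x, y, hx.trans_le h2, hy.trans_le h2, hxy, rfl⟩]
  exact hg x y hxy hx hy
theorem dep_goodSq (G : Measure ℝ) (c : V) (r : ℕ) :
    Dep (LE {x | nrm (x - c) = r}) {t | GoodSq G t c r} := by
  intro t t' he ht x y hxy hx hy
  rw [← he _ ⟨x, y, hx, hy, hxy, rfl⟩]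
  exact ht x y hxy hx hy

theorem tMeas1_card {ι : Type*} (s : Finset ι) {A : ι → Set Env}
    (hA : ∀ i, MeasurableSet (A i)) :
    Measurable (fun t : Env => (s.filter (fun i => t ∈ A i)).card) := by
  simp only [Finset.card_filter]
  exact Finset.measurable_fun_sum _ fun i _ =>
    Measurable.ite (hA i) measurable_const measurable_const

theorem measurable_cost (γ : Pth) (a b : ℕ) : Measurable (fun t : Env => γ.cost t a b) :=
  Finset.measurable_fun_sum _ fun i _ => measurable_pi_apply (γ.edge i)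
theorem measurable_tot (γ : Pth) : Measurable (fun t : Env => γ.tot t) :=
  measurable_cost γ 0 γ.n
theorem measurable_TD (D : Set V) (x z : V) : Measurable (fun t : Env => TD D t x z) := by
  have e : (fun t : Env => TD D t x z) =
      fun t => ⨅ γ : {γ : Pth // γ.Joins D x z}, γ.1.tot t := by
    funext t
    unfold TD iInf
    congr 1
    ext c
    constructor
    · rintro ⟨γ, h, rfl⟩
      exact ⟨⟨γ, h⟩, rfl⟩
    · rintro ⟨γ, rfl⟩
      exact ⟨γ.1, γ.2, rfl⟩
  rw [e]
  exact Measurable.iInf fun γ => measurable_tot γ.1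
theorem measurable_T (x z : V) : Measurable (fun t : Env => T t x z) :=
  measurable_TD _ x z
theorem measurableSet_lo (G : Measure ℝ) : MeasurableSet (lo G) :=
  measurableSet_Ioc
theorem measurableSet_hi (G : Measure ℝ) : MeasurableSet (hi G) :=
  measurableSet_Icc
theorem measurable_nhi (γ : Pth) (G : Measure ℝ) (a b : ℕ) :
    Measurable (fun t : Env => γ.nhi G t a b) :=
  tMeas1_card _ (A := fun i => {t : Env | t (γ.edge i) ∈ hi G}) fun i =>
    measurable_pi_apply (γ.edge i) (measurableSet_hi G)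
theorem measurable_nbad (γ : Pth) (ℓ : ℕ) {A : V → Set Env} (hA : ∀ c, MeasurableSet (A c)) :
    Measurable (fun t : Env => γ.nbad ℓ A t) :=
  tMeas1_card _ hA
theorem measurable_card_filter {ι : Type*} (s : Finset ι) {A : ι → Set Env}
    (hA : ∀ i, MeasurableSet (A i)) :
    Measurable (fun t : Env => (s.filter (fun i => t ∈ A i)).card) :=
  tMeas1_card s hA
theorem measurableSet_nn : MeasurableSet {t : Env | NN t} := by
  simp only [NN, Set.ofPred_forall]
  exact MeasurableSet.iInter fun e => measurableSet_le measurable_const (measurable_pi_apply e)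
theorem measurableSet_pos : MeasurableSet {t : Env | Pos t} := by
  simp only [Pos, Set.ofPred_forall]
  exact MeasurableSet.iInter fun e => measurableSet_lt measurable_const (measurable_pi_apply e)
theorem measurableSet_isGeo (D : Set V) (γ : Pth) : MeasurableSet {t : Env | IsGeo D t γ} := by
  simp only [IsGeo, Set.ofPred_and]
  exact (MeasurableSet.const _).inter ((MeasurableSet.const _).inter ((MeasurableSet.const _).inter
    (measurableSet_eq_fun (measurable_tot γ) (measurable_TD _ _ _))))
theorem measurableSet_goodSq (G : Measure ℝ) (c : V) (r : ℕ) :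
    MeasurableSet {t : Env | GoodSq G t c r} := by
  simp only [GoodSq, Set.ofPred_forall]
  exact MeasurableSet.iInter fun x => MeasurableSet.iInter fun y => MeasurableSet.iInter fun _ =>
    MeasurableSet.iInter fun _ => MeasurableSet.iInter fun _ =>
      measurableSet_le (measurable_pi_apply _) measurable_const
theorem measurableSet_noSq (G : Measure ℝ) (c : V) (a b : ℕ) : MeasurableSet (NoSq G c a b) := by
  simp only [NoSq, Set.ofPred_forall]
  exact MeasurableSet.iInter fun r => MeasurableSet.iInter fun _ => MeasurableSet.iInter fun _ =>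
    (measurableSet_goodSq G c r).compl
theorem measurableSet_kesBad (G : Measure ℝ) (x : V) (n : ℕ) : MeasurableSet (KesBad G x n) := by
  simp only [KesBad, Set.ofPred_exists, Set.ofPred_and]
  exact MeasurableSet.iUnion fun γ => (MeasurableSet.const _).inter ((MeasurableSet.const _).inter
    ((MeasurableSet.const _).inter ((MeasurableSet.const _).inter
      (measurable_nhi γ G 0 n (t := {k | 2 * k < n}) trivial))))
theorem measurableSet_reg (G : Measure ℝ) : MeasurableSet {t : Env | Reg G t} := by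
  simp only [Reg, Set.ofPred_and, Set.ofPred_forall, Set.ofPred_exists]
  exact measurableSet_pos.inter (MeasurableSet.iInter fun x => MeasurableSet.iUnion fun n0 =>
    MeasurableSet.iInter fun n => MeasurableSet.iInter fun _ => (measurableSet_kesBad G x n).compl)
theorem measurableSet_gen {C : Set ℝ} (hC : MeasurableSet C) : MeasurableSet {t : Env | Gen C t} := by
  simp only [Gen, Set.ofPred_forall]
  exact MeasurableSet.iInter fun γ => MeasurableSet.iInter fun δ => MeasurableSet.iInter fun _ =>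
    MeasurableSet.iInter fun _ => MeasurableSet.iInter fun _ => MeasurableSet.iInter fun _ =>
      MeasurableSet.iInter fun _ => (((measurable_tot γ).sub (measurable_tot δ)) hC).compl
/-- existential quantification over paths -/
theorem measurableSet_exists_pth {q : Env → Pth → Prop} (hq : ∀ γ, MeasurableSet {t | q t γ}) :
    MeasurableSet {t | ∃ γ, q t γ} := by
  rw [Set.ofPred_exists]
  exact MeasurableSet.iUnion hq
theorem measurableSet_forall_pth {q : Env → Pth → Prop} (hq : ∀ γ, MeasurableSet {t | q t γ}) :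
    MeasurableSet {t | ∀ γ, q t γ} := by
  rw [Set.ofPred_forall]
  exact MeasurableSet.iInter hq

theorem pick_spec {q : Pth → Prop} (h : ∃ γ, q γ) : q (pick q) := by
  have h' : ∃ n, q (enumP n) := by
    obtain ⟨γ, hγ⟩ := h
    obtain ⟨n, rfl⟩ := Classical.choose_spec (exists_surjective_nat Pth) γ
    exact ⟨n, hγ⟩
  rw [pick, dif_pos h']
  exact Nat.find_spec h'
theorem pick_of_not {q : Pth → Prop} (h : ¬ ∃ γ, q γ) : pick q = default := by
  rw [pick, dif_neg fun ⟨n, hn⟩ => h ⟨enumP n, hn⟩]
theorem measurableSet_pick_eq {q : Env → Pth → Prop} (hq : ∀ γ, MeasurableSet {t | q t γ})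
    (γ0 : Pth) : MeasurableSet {t | pick (q t) = γ0} := by
  have e : {t | pick (q t) = γ0} =
      (⋃ n, {_t | enumP n = γ0} ∩ ({t | q t (enumP n)} ∩ ⋂ m, ⋂ _ : m < n, {t | q t (enumP m)}ᶜ)) ∪
        ((⋂ n, {t | q t (enumP n)}ᶜ) ∩ {_t | default = γ0}) := by
    ext t
    simp only [Set.mem_ofPred_eq, Set.mem_union, Set.mem_iUnion, Set.mem_inter_iff, Set.mem_iInter,
      Set.mem_compl_iff]
    unfold pick
    split_ifs with h
    · constructor
      · intro h1
        exact Or.inl ⟨Nat.find h, h1, Nat.find_spec h, fun m hm => Nat.find_min h hm⟩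
      · rintro (⟨n, h1, h2, h3⟩ | ⟨h1, -⟩)
        · rw [(Nat.find_eq_iff h).2 ⟨h2, h3⟩, h1]
        · obtain ⟨n, hn⟩ := h
          exact absurd hn (h1 n)
    · constructor
      · intro h1
        exact Or.inr ⟨fun n hn => h ⟨n, hn⟩, h1⟩
      · rintro (⟨n, -, h2, -⟩ | ⟨-, h1⟩)
        · exact absurd ⟨n, h2⟩ h
        · exact h1
  rw [e]
  exact (MeasurableSet.iUnion fun n => (MeasurableSet.const _).inter ((hq _).inter
    (MeasurableSet.iInter fun m => MeasurableSet.iInter fun _ => (hq _).compl))).union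
    ((MeasurableSet.iInter fun n => (hq _).compl).inter (MeasurableSet.const _))
/-- a random path whose fibres are measurable -/
def MeasP (Γ : Env → Pth) : Prop := ∀ γ0, MeasurableSet {t | Γ t = γ0}
theorem measP_pick {q : Env → Pth → Prop} (hq : ∀ γ, MeasurableSet {t | q t γ}) :
    MeasP (fun t => pick (q t)) :=
  measurableSet_pick_eq hq
theorem measP_geo (x z : V) : MeasP (fun t => geo t x z) :=
  measP_pick (q := fun t γ => IsGeo Set.univ t γ ∧ γ.p 0 = x ∧ γ.p γ.n = z) fun γ =>
    (measurableSet_isGeo Set.univ γ).inter (MeasurableSet.const _)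
theorem MeasP.measurable {β : Type*} [MeasurableSpace β] {Γ : Env → Pth} (hΓ : MeasP Γ)
    {F : Env → Pth → β} (hF : ∀ γ, Measurable (fun t => F t γ)) :
    Measurable (fun t => F t (Γ t)) := by
  intro B hB
  have e : (fun t => F t (Γ t)) ⁻¹' B = ⋃ γ, {t | Γ t = γ} ∩ (fun t => F t γ) ⁻¹' B := by
    ext t
    simp
  rw [e]
  exact MeasurableSet.iUnion fun γ => (hΓ γ).inter (hF γ hB)
theorem MeasP.measurableSet {Γ : Env → Pth} (hΓ : MeasP Γ) {q : Env → Pth → Prop}
    (hq : ∀ γ, MeasurableSet {t | q t γ}) : MeasurableSet {t | q t (Γ t)} := by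
  have e : {t | q t (Γ t)} = ⋃ γ, {t | Γ t = γ} ∩ {t | q t γ} := by
    ext t
    simp
  rw [e]
  exact MeasurableSet.iUnion fun γ => (hΓ γ).inter (hq γ)
theorem MeasP.comp {Γ : Env → Pth} (hΓ : MeasP Γ) {φ : Env → Env} (hφ : Measurable φ)
    (g : Pth → Pth) : MeasP (fun t => g (Γ (φ t))) :=
  fun γ0 =>
  hφ (hΓ.measurableSet (q := fun _ γ => g γ = γ0) fun _ => MeasurableSet.const _)
theorem depF_pick {S : Set (Sym2 V)} {q : Env → Pth → Prop} (hq : ∀ γ, Dep S {t | q t γ}) :
    DepF S (fun t => pick (q t)) :=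
  fun t t' he => by
  have : q t = q t' := funext fun γ =>
    propext ⟨hq γ t t' he, hq γ t' t fun e hs => (he e hs).symm⟩
  beta_reduce
  rw [this]

end Crest.Agent.R151
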