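import Crest.Agent.R151.TKesten

/-! Row 151 toolkit: tails of the weights, local moves, moments of passage times. -/

set_option autoImplicit false

namespace Crest.Agent.R151

open MeasureTheory ProbabilityTheory Crest.ProbabilityR.FirstPassage
open scoped Classical

/-- the path `x + L 0, x + L 1, …` -/
def mom1_pl (x : V) (L : List V) : Pth := Pth.of (L.length - 1) (fun i => x + L.getD i 0)

/-- decidable adjacency -/
def mom1_adj (x y : V) : Prop :=
  (x.1 = y.1 ∧ (y.2 = x.2 + 1 ∨ x.2 = y.2 + 1)) ∨ (x.2 = y.2 ∧ (y.1 = x.1 + 1 ∨ x.1 = y.1 + 1))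

instance mom1_adj_dec (x y : V) : Decidable (mom1_adj x y) := by
  unfold mom1_adj; exact instDecidableOr

/-- one path of a system -/
def mom1_one (L : List V) (d : V) (lo hi : ℤ) : Prop :=
  L.length ≤ 10 ∧ L.getD 0 0 = 0 ∧ L.getD (L.length - 1) 0 = d ∧
    (∀ j < L.length - 1, mom1_adj (L.getD j 0) (L.getD (j + 1) 0)) ∧
    ∀ j ≤ L.length - 1, lo ≤ (L.getD j 0).1 ∧ (L.getD j 0).1 ≤ hi ∧ nrm (L.getD j 0) ≤ 3

instance mom1_one_dec (L : List V) (d : V) (lo hi : ℤ) : Decidable (mom1_one L d lo hi) := by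
  unfold mom1_one
  exact @instDecidableAnd _ _ (Nat.decLe _ _) (@instDecidableAnd _ _ (instDecidableEqProd _ _)
    (@instDecidableAnd _ _ (instDecidableEqProd _ _) (@instDecidableAnd _ _
      (Nat.decidableBallLT _ _) (Nat.decidableBallLE _ _))))

/-- two paths have no common edge -/
def mom1_dis (L M : List V) : Prop :=
  ∀ j < L.length - 1, ∀ k < M.length - 1,
    ¬ ((L.getD j 0 = M.getD k 0 ∧ L.getD (j + 1) 0 = M.getD (k + 1) 0) ∨
      (L.getD j 0 = M.getD (k + 1) 0 ∧ L.getD (j + 1) 0 = M.getD k 0))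

instance mom1_dis_dec (L M : List V) : Decidable (mom1_dis L M) := by
  unfold mom1_dis
  exact Nat.decidableBallLT _ _

/-- a system of `k` edge-disjoint short paths from `0` to `d` -/
def mom1_sys {k : ℕ} (P : Fin k → List V) (d : V) (lo hi : ℤ) : Prop :=
  (∀ i, mom1_one (P i) d lo hi) ∧ ∀ i j, i ≠ j → mom1_dis (P i) (P j)

instance mom1_sys_dec {k : ℕ} (P : Fin k → List V) (d : V) (lo hi : ℤ) :
    Decidable (mom1_sys P d lo hi) := by
  unfold mom1_sys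
  exact @instDecidableAnd _ _ (Nat.decidableForallFin _) (@Nat.decidableForallFin _ _
    (fun _ => Nat.decidableForallFin _))

theorem mom1_joins {L : List V} {d : V} {lo hi : ℤ} (h : mom1_one L d lo hi) (x : V) {D : Set V}
    (hD : ∀ v : V, lo ≤ v.1 → v.1 ≤ hi → nrm v ≤ 3 → x + v ∈ D) :
    (mom1_pl x L).Joins D x (x + d) := by
  obtain ⟨_, h0, h1, h2, h3⟩ := h
  refine ⟨?_, ?_, ?_, ?_⟩
  · intro i hi'
    simp only [mom1_pl, Pth.of_n] at hi'
    unfold mom1_pl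
    rw [Pth.of_p _ _ hi'.le, Pth.of_p _ _ (Nat.succ_le_of_lt hi'), add_comm x, add_comm x]
    exact Adj.add_right ((adj_iff _ _).2 (h2 i hi')) x
  · intro i hi'
    simp only [mom1_pl, Pth.of_n] at hi'
    unfold mom1_pl
    rw [Pth.of_p _ _ hi']
    exact hD _ (h3 i hi').1 (h3 i hi').2.1 (h3 i hi').2.2
  · unfold mom1_pl
    rw [Pth.of_p _ _ (Nat.zero_le _), h0, add_zero]
  · unfold mom1_pl
    rw [Pth.of_n, Pth.of_p _ _ le_rfl, h1]

theorem mom1_edge (x : V) (L : List V) {i : ℕ} (hi : i < L.length - 1) :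
    (mom1_pl x L).edge i = s(x + L.getD i 0, x + L.getD (i + 1) 0) := by
  unfold Pth.edge mom1_pl
  rw [Pth.of_p _ _ hi.le, Pth.of_p _ _ (Nat.succ_le_of_lt hi)]

theorem mom1_disjoint {L M : List V} (h : mom1_dis L M) (x : V) :
    Disjoint ((mom1_pl x L).edges : Set (Sym2 V)) ((mom1_pl x M).edges : Set (Sym2 V)) := by
  rw [Set.disjoint_left]
  intro e he he'
  obtain ⟨j, hj, rfl⟩ := Pth.mem_edges.1 (Finset.mem_coe.1 he)
  obtain ⟨k, hk, hjk⟩ := Pth.mem_edges.1 (Finset.mem_coe.1 he')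
  have hj' : j < L.length - 1 := hj
  have hk' : k < M.length - 1 := hk
  rw [mom1_edge x M hk', mom1_edge x L hj', Sym2.eq_iff] at hjk
  simp only [add_right_inj] at hjk
  apply h j hj' k hk'
  rcases hjk with ⟨a, b⟩ | ⟨a, b⟩
  · exact Or.inl ⟨a.symm, b.symm⟩
  · exact Or.inr ⟨b.symm, a.symm⟩

theorem mom1_sys4 {d : V} (hd : mom1_adj 0 d) :
    ∃ P : Fin 4 → List V, mom1_sys P d (-3) 3 := by
  obtain ⟨d1, d2⟩ := d
  have : (d1 = 0 ∧ d2 = 1) ∨ (d1 = 0 ∧ d2 = -1) ∨ (d1 = 1 ∧ d2 = 0) ∨ (d1 = -1 ∧ d2 = 0) := by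
    simp only [mom1_adj, Prod.fst_zero, Prod.snd_zero] at hd
    omega
  rcases this with ⟨rfl, rfl⟩ | ⟨rfl, rfl⟩ | ⟨rfl, rfl⟩ | ⟨rfl, rfl⟩
  · exact ⟨![[(0, 0), (0, 1)], [(0, 0), (1, 0), (1, 1), (0, 1)], [(0, 0), (-1, 0), (-1, 1), (0, 1)],
      [(0, 0), (0, -1), (1, -1), (2, -1), (2, 0), (2, 1), (2, 2), (1, 2), (0, 2), (0, 1)]],
      by decide⟩
  · exact ⟨![[(0, 0), (0, -1)], [(0, 0), (1, 0), (1, -1), (0, -1)],
      [(0, 0), (-1, 0), (-1, -1), (0, -1)],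
      [(0, 0), (0, 1), (1, 1), (2, 1), (2, 0), (2, -1), (2, -2), (1, -2), (0, -2), (0, -1)]],
      by decide⟩
  · exact ⟨![[(0, 0), (1, 0)], [(0, 0), (0, 1), (1, 1), (1, 0)], [(0, 0), (0, -1), (1, -1), (1, 0)],
      [(0, 0), (-1, 0), (-1, 1), (-1, 2), (0, 2), (1, 2), (2, 2), (2, 1), (2, 0), (1, 0)]],
      by decide⟩
  · exact ⟨![[(0, 0), (-1, 0)], [(0, 0), (0, 1), (-1, 1), (-1, 0)],
      [(0, 0), (0, -1), (-1, -1), (-1, 0)],
      [(0, 0), (1, 0), (1, 1), (1, 2), (0, 2), (-1, 2), (-2, 2), (-2, 1), (-2, 0), (-1, 0)]],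
      by decide⟩

theorem mom1_sys3 {a b : ℤ} (hab : a + 2 ≤ b) {d : V} (hd : mom1_adj 0 d) (ha : a ≤ 0)
    (hb : 0 ≤ b) (ha' : a ≤ d.1) (hb' : d.1 ≤ b) :
    ∃ (P : Fin 3 → List V) (lo hi : ℤ), a ≤ lo ∧ hi ≤ b ∧ mom1_sys P d lo hi := by
  obtain ⟨d1, d2⟩ := d
  have : (d1 = 0 ∧ d2 = 1) ∨ (d1 = 0 ∧ d2 = -1) ∨ (d1 = 1 ∧ d2 = 0) ∨ (d1 = -1 ∧ d2 = 0) := by
    simp only [mom1_adj, Prod.fst_zero, Prod.snd_zero] at hd
    omega
  have hc : (a ≤ -1 ∧ 1 ≤ b) ∨ (a ≤ 0 ∧ 2 ≤ b) ∨ (a ≤ -2 ∧ 0 ≤ b) := by omega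
  rcases this with ⟨rfl, rfl⟩ | ⟨rfl, rfl⟩ | ⟨rfl, rfl⟩ | ⟨rfl, rfl⟩
  · rcases hc with hc | hc | hc
    · exact ⟨![[(0, 0), (0, 1)], [(0, 0), (1, 0), (1, 1), (0, 1)],
        [(0, 0), (-1, 0), (-1, 1), (0, 1)]], -1, 1, hc.1, hc.2, by decide⟩
    · exact ⟨![[(0, 0), (0, 1)], [(0, 0), (1, 0), (1, 1), (0, 1)],
        [(0, 0), (0, -1), (1, -1), (2, -1), (2, 0), (2, 1), (2, 2), (1, 2), (0, 2), (0, 1)]],
        0, 2, hc.1, hc.2, by decide⟩
    · exact ⟨![[(0, 0), (0, 1)], [(0, 0), (-1, 0), (-1, 1), (0, 1)],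
        [(0, 0), (0, -1), (-1, -1), (-2, -1), (-2, 0), (-2, 1), (-2, 2), (-1, 2), (0, 2), (0, 1)]],
        -2, 0, hc.1, hc.2, by decide⟩
  · rcases hc with hc | hc | hc
    · exact ⟨![[(0, 0), (0, -1)], [(0, 0), (1, 0), (1, -1), (0, -1)],
        [(0, 0), (-1, 0), (-1, -1), (0, -1)]], -1, 1, hc.1, hc.2, by decide⟩
    · exact ⟨![[(0, 0), (0, -1)], [(0, 0), (1, 0), (1, -1), (0, -1)],
        [(0, 0), (0, 1), (1, 1), (2, 1), (2, 0), (2, -1), (2, -2), (1, -2), (0, -2), (0, -1)]],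
        0, 2, hc.1, hc.2, by decide⟩
    · exact ⟨![[(0, 0), (0, -1)], [(0, 0), (-1, 0), (-1, -1), (0, -1)],
        [(0, 0), (0, 1), (-1, 1), (-2, 1), (-2, 0), (-2, -1), (-2, -2), (-1, -2), (0, -2),
          (0, -1)]], -2, 0, hc.1, hc.2, by decide⟩
  · exact ⟨![[(0, 0), (1, 0)], [(0, 0), (0, 1), (1, 1), (1, 0)],
      [(0, 0), (0, -1), (1, -1), (1, 0)]], 0, 1, ha, hb', by decide⟩
  · exact ⟨![[(0, 0), (-1, 0)], [(0, 0), (0, 1), (-1, 1), (-1, 0)],
      [(0, 0), (0, -1), (-1, -1), (-1, 0)]], -1, 0, ha', hb, by decide⟩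

theorem mom1_adj_sub {x y : V} (h : Adj x y) : mom1_adj 0 (y - x) := by
  rw [adj_iff] at h
  simp only [mom1_adj, Prod.fst_zero, Prod.snd_zero, Prod.fst_sub, Prod.snd_sub]
  omega

/-- comparison of second moments from a comparison of tails -/
theorem mom1_layer {Ω Ω' : Type*} [MeasurableSpace Ω] [MeasurableSpace Ω'] (μ : Measure Ω)
    (ν : Measure Ω') {f : Ω → ℝ} {g : Ω' → ℝ} (f0 : 0 ≤ᵐ[μ] f) (g0 : 0 ≤ᵐ[ν] g)
    (fm : AEMeasurable f μ) (gm : AEMeasurable g ν) {K : ENNReal} (hK : K ≠ ⊤)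
    (h : ∀ s : ℝ, 0 < s → μ {a | s < f a} ≤ K * ν {a | s < g a}) :
    ∫⁻ a, ENNReal.ofReal (f a ^ 2) ∂μ ≤ K * ∫⁻ a, ENNReal.ofReal (g a ^ 2) ∂ν := by
  have e1 := lintegral_rpow_eq_lintegral_meas_lt_mul μ f0 fm (p := 2) two_pos
  have e2 := lintegral_rpow_eq_lintegral_meas_lt_mul ν g0 gm (p := 2) two_pos
  simp only [Real.rpow_two] at e1 e2
  rw [e1, e2, mul_left_comm, ← lintegral_const_mul' _ _ hK]
  refine mul_le_mul_right (setLIntegral_mono' measurableSet_Ioi (fun s hs => ?_)) _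
  rw [← mul_assoc]
  exact mul_le_mul_left (h s hs) _

variable (G : Measure ℝ) [Law G]

theorem mom1_tail_sys {k : ℕ} {P : Fin k → List V} {d : V} {lo hi : ℤ} (h : mom1_sys P d lo hi)
    (x : V) {D : Set V} (hD : ∀ v : V, lo ≤ v.1 → v.1 ≤ hi → nrm v ≤ 3 → x + v ∈ D) {s : ℝ}
    (hs : 0 ≤ s) :
    Pr G {t | 9 * s < TD D t x (x + d)} ≤ (9 * G.real (Set.Ioi s)) ^ k := by
  set A : Fin k → Set Env := fun i => ⋃ e ∈ (mom1_pl x (P i)).edges, {t | t e ∈ Set.Ioi s} with hA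
  have hmeas : ∀ i, MeasurableSet (A i) := fun i =>
    Finset.measurableSet_biUnion _ (fun e _ => measurable_pi_apply e measurableSet_Ioi)
  have hdep : ∀ i, Dep ((mom1_pl x (P i)).edges : Set (Sym2 V)) (A i) := by
    intro i t t' htt ht
    simp only [hA, Set.mem_iUnion] at ht ⊢
    obtain ⟨e, he, hte⟩ := ht
    refine ⟨e, he, ?_⟩
    have := htt e (Finset.mem_coe.2 he)
    show t' e ∈ Set.Ioi s
    rw [← this]; exact hte
  have hn : ∀ i, (mom1_pl x (P i)).n ≤ 9 := fun i => by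
    have := (h.1 i).1
    simp only [mom1_pl, Pth.of_n]; omega
  have hPr : ∀ i, Pr G (A i) ≤ 9 * G.real (Set.Ioi s) := by
    intro i
    refine (Pr_biUnion_le G _ _).trans ?_
    rw [Finset.sum_congr rfl (fun e _ => Pr_eval G e measurableSet_Ioi), Finset.sum_const,
      nsmul_eq_mul]
    refine mul_le_mul_of_nonneg_right ?_ measureReal_nonneg
    exact_mod_cast (Pth.card_edges_le _).trans (hn i)
  calc Pr G {t | 9 * s < TD D t x (x + d)} ≤ Pr G (⋂ i ∈ Finset.univ, A i) := by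
        refine Pr_mono_ae G ?_
        filter_upwards [ae_nn G] with t ht hlt
        simp only [Set.mem_iInter]
        intro i _
        by_contra hc
        simp only [hA, Set.mem_iUnion, not_exists] at hc
        have h1 := TD_le ht (mom1_joins (h.1 i) x hD)
        have h2 : (mom1_pl x (P i)).tot t ≤ (mom1_pl x (P i)).n * s := by
          unfold Pth.tot Pth.cost
          refine (Finset.sum_le_card_nsmul _ _ s (fun j hj => ?_)).trans ?_
          · have := hc _ (Pth.mem_edges.2 ⟨j, (Finset.mem_Ico.1 hj).2, rfl⟩)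
            exact not_lt.1 this
          · simp
        have h3 : ((mom1_pl x (P i)).n : ℝ) ≤ 9 := by exact_mod_cast hn i
        have h4 : 9 * s < TD D t x (x + d) := hlt
        nlinarith
    _ = ∏ i, Pr G (A i) :=
        Pr_biInter_of_dep G Finset.univ
          (S := fun i => ((mom1_pl x (P i)).edges : Set (Sym2 V)))
          (fun i _ j _ hij => mom1_disjoint (h.2 i j hij) x) (fun i _ => hmeas i)
          (fun i _ => hdep i)
    _ ≤ ∏ _i : Fin k, 9 * G.real (Set.Ioi s) :=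
        Finset.prod_le_prod (fun i _ => Pr_nonneg G _) (fun i _ => hPr i)
    _ = (9 * G.real (Set.Ioi s)) ^ k := by simp

theorem mom1_pi (s : ℝ) :
    G (Set.Ioi s) ^ 4 ≤ (Measure.pi fun _ : Fin 4 => G) {w | s < |⨅ i, w i|} := by
  have : G (Set.Ioi s) ^ 4 =
      (Measure.pi fun _ : Fin 4 => G) (Set.univ.pi fun _ => Set.Ioi s) := by
    rw [Measure.pi_pi]; simp
  rw [this]
  refine measure_mono (fun w hw => ?_)
  obtain ⟨i, hi⟩ := exists_eq_ciInf_of_finite (f := w)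
  show s < |⨅ i, w i|
  rw [← hi]
  exact lt_of_lt_of_le (hw i (Set.mem_univ i)) (le_abs_self _)

theorem mom1_meas : Measurable (fun w : Fin 4 → ℝ => |⨅ i, w i|) :=
  (Measurable.iInf (fun i => measurable_pi_apply i)).abs

theorem tail_bound : ∃ C : ℝ, 0 < C ∧ ∀ x : ℝ, 0 < x → G.real (Set.Ioi x) ≤ C / √x := by
  set M := ∫⁻ x, ENNReal.ofReal ((⨅ i, x i) ^ 2) ∂(Measure.pi fun _ : Fin 4 => G) with hM
  have hMt : M ≠ ⊤ := (Law.mom (G := G)).ne
  refine ⟨M.toReal + 1, by positivity, fun x hx => ?_⟩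
  have h1 : ENNReal.ofReal (x ^ 2) * G (Set.Ioi x) ^ 4 ≤ M := by
    refine (mul_le_mul_right (mom1_pi G x) _).trans ?_
    have hS : MeasurableSet {w : Fin 4 → ℝ | x < |⨅ i, w i|} :=
      measurableSet_lt measurable_const mom1_meas
    rw [← setLIntegral_const]
    refine le_trans (setLIntegral_mono' hS (fun w hw => ?_)) (setLIntegral_le_lintegral _ _)
    refine ENNReal.ofReal_le_ofReal ?_
    have hw' : x < |⨅ i, w i| := hw
    rw [← sq_abs (⨅ i, w i)]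
    exact pow_le_pow_left₀ hx.le hw'.le 2
  have h2 : x ^ 2 * G.real (Set.Ioi x) ^ 4 ≤ M.toReal := by
    have := ENNReal.toReal_mono hMt h1
    rwa [ENNReal.toReal_mul, ENNReal.toReal_ofReal (by positivity), ENNReal.toReal_pow] at this
  have hs : 0 < √x := Real.sqrt_pos.2 hx
  have hM0 : 0 ≤ M.toReal := ENNReal.toReal_nonneg
  rw [le_div_iff₀ hs]
  refine le_of_pow_le_pow_left₀ (n := 4) (by norm_num) (by positivity) ?_
  have h3 : √x ^ 4 = x ^ 2 := by
    rw [show (4 : ℕ) = 2 * 2 from rfl, pow_mul, Real.sq_sqrt hx.le]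
  rw [mul_pow, h3, mul_comm]
  refine h2.trans ?_
  have : M.toReal + 1 ≤ (M.toReal + 1) ^ 4 := le_self_pow₀ (by linarith) (by norm_num)
  linarith

theorem kap_spec : KapSpec G (kap G) := by
  obtain ⟨C, hC, h⟩ := tail_bound G
  refine Classical.epsilon_spec (p := KapSpec G) ⟨(16 * C + 1) ^ 2, ?_, fun r hr => ?_⟩
  · exact one_le_pow₀ (by linarith)
  · have hr' : (0 : ℝ) < r := by exact_mod_cast hr
    refine (h _ (by positivity)).trans ?_
    rw [← mul_pow, Real.sqrt_sq (by positivity), div_le_div_iff₀ (by positivity) (by positivity)]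
    nlinarith

theorem one_le_kap : 1 ≤ kap G := (kap_spec G).1

/-- four edge-disjoint paths of length at most nine between neighbours: second moment -/
theorem local_L2 : ∃ C : ℝ, 0 < C ∧ ∀ x y : V, Adj x y →
    MemLp (fun t => TD (box x 3) t x y) 2 (iidLaw G) ∧
      ∫ t, TD (box x 3) t x y ^ 2 ∂(iidLaw G) ≤ C := by
  set M := ∫⁻ x, ENNReal.ofReal ((⨅ i, x i) ^ 2) ∂(Measure.pi fun _ : Fin 4 => G) with hM
  have hMt : M ≠ ⊤ := (Law.mom (G := G)).ne
  refine ⟨81 * (9 ^ 4 * M.toReal) + 1, by positivity, fun x y hxy => ?_⟩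
  obtain ⟨P, hP⟩ := mom1_sys4 (mom1_adj_sub hxy)
  have hD : ∀ v : V, (-3 : ℤ) ≤ v.1 → v.1 ≤ 3 → nrm v ≤ 3 → x + v ∈ box x 3 := by
    intro v _ _ hv
    show nrm (x + v - x) ≤ 3
    rwa [add_sub_cancel_left]
  have hy : x + (y - x) = y := add_sub_cancel x y
  have hm : Measurable (fun t : Env => TD (box x 3) t x y / 9) :=
    (measurable_TD _ _ _).div_const 9
  have key := mom1_layer (iidLaw G) (Measure.pi fun _ : Fin 4 => G)
    (f := fun t => TD (box x 3) t x y / 9) (g := fun w => |⨅ i, w i|)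
    (by filter_upwards [ae_nn G] with t ht
        exact div_nonneg (TD_nonneg ht _ _ _) (by norm_num))
    (ae_of_all _ (fun w => abs_nonneg _)) hm.aemeasurable mom1_meas.aemeasurable
    (K := 9 ^ 4) (by norm_num) (by
      intro s hs
      have h1 := mom1_tail_sys G hP x hD hs.le
      rw [hy] at h1
      have e : {t : Env | s < TD (box x 3) t x y / 9} = {t | 9 * s < TD (box x 3) t x y} := by
        ext t; simp only [Set.mem_ofPred_eq]; rw [lt_div_iff₀ (by norm_num), mul_comm]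
      rw [e]
      refine le_trans ?_ (mul_le_mul_right (mom1_pi G s) _)
      rw [← ENNReal.ofReal_toReal (measure_ne_top (iidLaw G) _)]
      refine (ENNReal.ofReal_le_ofReal h1).trans (le_of_eq ?_)
      rw [mul_pow, ENNReal.ofReal_mul (by norm_num), ENNReal.ofReal_pow measureReal_nonneg,
        ofReal_measureReal, ENNReal.ofReal_pow (by norm_num)]
      norm_num)
  simp only [sq_abs] at key
  rw [← hM] at key
  have hfin : (9 : ENNReal) ^ 4 * M ≠ ⊤ := ENNReal.mul_ne_top (by norm_num) hMt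
  have hm2 : AEStronglyMeasurable (fun t : Env => (TD (box x 3) t x y / 9) ^ 2) (iidLaw G) :=
    (hm.pow_const 2).aestronglyMeasurable
  have h0 : 0 ≤ᵐ[iidLaw G] (fun t : Env => (TD (box x 3) t x y / 9) ^ 2) :=
    ae_of_all _ (fun t => sq_nonneg _)
  have hint : Integrable (fun t : Env => (TD (box x 3) t x y / 9) ^ 2) (iidLaw G) :=
    (lintegral_ofReal_ne_top_iff_integrable hm2 h0).1 (ne_top_of_le_ne_top hfin key)
  have hle : ∫ t, (TD (box x 3) t x y / 9) ^ 2 ∂(iidLaw G) ≤ 9 ^ 4 * M.toReal := by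
    rw [integral_eq_lintegral_of_nonneg_ae h0 hm2]
    refine (ENNReal.toReal_mono hfin key).trans (le_of_eq ?_)
    rw [ENNReal.toReal_mul, ENNReal.toReal_pow]
    norm_num
  have e : (fun t : Env => TD (box x 3) t x y ^ 2) =
      fun t => 81 * (TD (box x 3) t x y / 9) ^ 2 := by
    funext t; ring
  refine ⟨(memLp_two_iff_integrable_sq (measurable_TD _ _ _).aestronglyMeasurable).2 ?_, ?_⟩
  · rw [e]; exact hint.const_mul 81
  · rw [e, integral_const_mul]; linarith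

/-- three edge-disjoint paths inside any strip with at least three columns: tail `λ^(-3/2)` -/
theorem local_strip_tail : ∃ C : ℝ, 0 < C ∧ ∀ a b : ℤ, a + 2 ≤ b → ∀ x y : V, Adj x y →
    x ∈ strip a b → y ∈ strip a b → ∀ lam : ℝ, 0 < lam →
      Pr G {t | lam < TD (strip a b ∩ box x 3) t x y} ≤ C / (lam * √lam) := by
  obtain ⟨C, hC, h⟩ := tail_bound G
  refine ⟨(27 * C) ^ 3, by positivity, fun a b hab x y hxy hx hy lam hlam => ?_⟩
  obtain ⟨hx1, hx2⟩ := hx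
  obtain ⟨hy1, hy2⟩ := hy
  obtain ⟨P, lo, hi, hlo, hhi, hP⟩ := mom1_sys3 (a := a - x.1) (b := b - x.1) (by omega)
    (mom1_adj_sub hxy) (by omega) (by omega) (by rw [Prod.fst_sub]; omega)
    (by rw [Prod.fst_sub]; omega)
  have hD : ∀ v : V, lo ≤ v.1 → v.1 ≤ hi → nrm v ≤ 3 → x + v ∈ strip a b ∩ box x 3 := by
    intro v h1 h2 hv
    refine ⟨⟨?_, ?_⟩, ?_⟩
    · rw [Prod.fst_add]; omega
    · rw [Prod.fst_add]; omega
    · show nrm (x + v - x) ≤ 3
      rwa [add_sub_cancel_left]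
  have h1 := mom1_tail_sys G hP x hD (s := lam / 9) (by positivity)
  rw [add_sub_cancel, show 9 * (lam / 9) = lam by ring] at h1
  refine h1.trans ?_
  have h2 := h (lam / 9) (by positivity)
  have hs : 0 < √lam := Real.sqrt_pos.2 hlam
  have h3 : √(lam / 9) = √lam / 3 := by
    rw [Real.sqrt_div hlam.le, show (9 : ℝ) = 3 ^ 2 by norm_num, Real.sqrt_sq (by norm_num)]
  rw [h3] at h2
  have h4 : 9 * G.real (Set.Ioi (lam / 9)) ≤ 27 * C / √lam := by
    have : 27 * C / √lam = 9 * (C / (√lam / 3)) := by field_simp; norm_num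
    rw [this]; linarith
  refine (pow_le_pow_left₀ (by positivity) h4 3).trans (le_of_eq ?_)
  rw [div_pow, show √lam ^ 3 = √lam ^ 2 * √lam by ring, Real.sq_sqrt hlam.le]

end Crest.Agent.R151
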