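import Crest.Agent.R151.Defs

/-! Row 151 toolkit: lattice geometry and the operations on `Pth`. -/

set_option autoImplicit false

namespace Crest.Agent.R151

open MeasureTheory Crest.ProbabilityR.FirstPassage
open scoped Classical

theorem adj_iff (x y : V) : Adj x y ↔
    (x.1 = y.1 ∧ (y.2 = x.2 + 1 ∨ x.2 = y.2 + 1)) ∨ (x.2 = y.2 ∧ (y.1 = x.1 + 1 ∨ x.1 = y.1 + 1)) := by
  obtain ⟨a, b⟩ := x
  obtain ⟨c, d⟩ := y
  simp only [Adj, squareLattice, SimpleGraph.fromRel_adj, ne_eq, Prod.mk.injEq]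
  omega

theorem Adj.symm {x y : V} (h : Adj x y) : Adj y x := SimpleGraph.Adj.symm h
theorem Adj.ne {x y : V} (h : Adj x y) : x ≠ y := SimpleGraph.Adj.ne h
theorem Adj.nrm_sub {x y : V} (h : Adj x y) : nrm (y - x) = 1 := by
  rw [adj_iff] at h
  simp only [nrm, Prod.fst_sub, Prod.snd_sub]
  omega
theorem Adj.add_right {x y : V} (h : Adj x y) (v : V) : Adj (x + v) (y + v) := by
  rw [adj_iff] at h ⊢
  simp only [Prod.fst_add, Prod.snd_add]
  omega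

theorem nrm_zero : nrm 0 = 0 := by simp [nrm]
theorem nrm_eq_zero {x : V} : nrm x = 0 ↔ x = 0 := by
  obtain ⟨a, b⟩ := x
  simp only [nrm, Prod.mk_eq_zero]
  omega
theorem nrm_neg (x : V) : nrm (-x) = nrm x := by simp [nrm]
theorem nrm_sub_comm (x y : V) : nrm (x - y) = nrm (y - x) := by
  rw [← nrm_neg, neg_sub]
theorem nrm_add_le (x y : V) : nrm (x + y) ≤ nrm x + nrm y := by
  simp only [nrm, Prod.fst_add, Prod.snd_add]
  omega
theorem nrm_triangle (x y z : V) : nrm (z - x) ≤ nrm (y - x) + nrm (z - y) := by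
  have := nrm_add_le (y - x) (z - y)
  rwa [show y - x + (z - y) = z - x by abel] at this
theorem nrm_le_iff (x : V) (r : ℕ) : nrm x ≤ r ↔ |x.1| ≤ r ∧ |x.2| ≤ r := by
  simp only [nrm, abs_le]
  omega
theorem abs_fst_le_nrm (x : V) : |x.1| ≤ (nrm x : ℤ) := ((nrm_le_iff x _).1 le_rfl).1
theorem abs_snd_le_nrm (x : V) : |x.2| ≤ (nrm x : ℤ) := ((nrm_le_iff x _).1 le_rfl).2
theorem nrm_smul (k : ℕ) (x : V) : nrm ((k : ℤ) • x) = k * nrm x := by
  simp only [nrm, Prod.smul_fst, Prod.smul_snd, smul_eq_mul, Int.natAbs_mul, Int.natAbs_natCast]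
  exact (Nat.mul_max_mul_left k _ _)

theorem rv_zero : rv 0 = 0 := by simp [rv]
theorem rv_add (x y : V) : rv (x + y) = rv x + rv y := by simp [rv]
theorem rv_sub (x y : V) : rv (x - y) = rv x - rv y := by simp [rv]
theorem rv_neg (x : V) : rv (-x) = -rv x := by simp [rv]
theorem rv_smul (k : ℤ) (x : V) : rv (k • x) = (k : ℝ) • rv x := by simp [rv]
theorem norm_rv (x : V) : ‖rv x‖ = nrm x := by
  simp only [rv, nrm, Prod.norm_def, Real.norm_eq_abs, Nat.cast_max, Nat.cast_natAbs, Int.cast_abs]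

theorem dot_add (ρ v w : ℝ × ℝ) : dot ρ (v + w) = dot ρ v + dot ρ w := by
  simp only [dot, Prod.fst_add, Prod.snd_add]; ring
theorem dot_sub (ρ v w : ℝ × ℝ) : dot ρ (v - w) = dot ρ v - dot ρ w := by
  simp only [dot, Prod.fst_sub, Prod.snd_sub]; ring
theorem dot_smul (ρ : ℝ × ℝ) (c : ℝ) (v : ℝ × ℝ) : dot ρ (c • v) = c * dot ρ v := by
  simp only [dot, Prod.smul_fst, Prod.smul_snd, smul_eq_mul]; ring
theorem abs_dot_le (ρ v : ℝ × ℝ) : |dot ρ v| ≤ 2 * ‖ρ‖ * ‖v‖ := by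
  have h1 : |ρ.1| ≤ ‖ρ‖ := norm_fst_le ρ
  have h2 : |ρ.2| ≤ ‖ρ‖ := norm_snd_le ρ
  have h3 : |v.1| ≤ ‖v‖ := norm_fst_le v
  have h4 : |v.2| ≤ ‖v‖ := norm_snd_le v
  have h5 : |ρ.1| * |v.1| ≤ ‖ρ‖ * ‖v‖ := mul_le_mul h1 h3 (abs_nonneg _) (norm_nonneg _)
  have h6 : |ρ.2| * |v.2| ≤ ‖ρ‖ * ‖v‖ := mul_le_mul h2 h4 (abs_nonneg _) (norm_nonneg _)
  calc |dot ρ v| ≤ |ρ.1 * v.1| + |ρ.2 * v.2| := abs_add_le _ _
    _ = |ρ.1| * |v.1| + |ρ.2| * |v.2| := by rw [abs_mul, abs_mul]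
    _ ≤ 2 * ‖ρ‖ * ‖v‖ := by linarith

theorem mem_box_self (c : V) (r : ℕ) : c ∈ box c r := by
  simp [box, nrm_zero]
theorem box_mono (c : V) {r r' : ℕ} (h : r ≤ r') : box c r ⊆ box c r' :=
  fun _ hx => le_trans hx h
theorem box_subset_box {c c' : V} {r r' : ℕ} (h : nrm (c - c') + r ≤ r') : box c r ⊆ box c' r' := by
  intro x hx
  have h1 : nrm (x - c) ≤ r := hx
  have h2 := nrm_triangle c' c x
  show nrm (x - c') ≤ r'
  omega
theorem disjoint_box {c c' : V} {r r' : ℕ} (h : r + r' < nrm (c - c')) :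
    Disjoint (box c r) (box c' r') := by
  rw [Set.disjoint_left]
  intro x hx hx'
  have h1 : nrm (x - c) ≤ r := hx
  have h2 : nrm (x - c') ≤ r' := hx'
  have h3 := nrm_triangle c' x c
  rw [nrm_sub_comm c x] at h3
  omega
theorem box_eq_rect (c : V) (r : ℕ) :
    box c r = rect (c.1 - r) (c.1 + r) (c.2 - r) (c.2 + r) := by
  ext x
  simp only [box, rect, nrm, Set.mem_ofPred_eq, Prod.fst_sub, Prod.snd_sub]
  omega
theorem mem_boxF {c x : V} {r : ℕ} : x ∈ boxF c r ↔ x ∈ box c r := by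
  rw [box_eq_rect]
  simp only [boxF, rect, Finset.mem_product, Finset.mem_Icc, Set.mem_ofPred_eq]
  tauto
theorem coe_boxF (c : V) (r : ℕ) : (boxF c r : Set V) = box c r := by
  ext x
  rw [Finset.mem_coe, mem_boxF]
theorem card_boxF (c : V) (r : ℕ) : (boxF c r).card = (2 * r + 1) ^ 2 := by
  simp only [boxF, Finset.card_product, Int.card_Icc]
  have h1 : (c.1 + r + 1 - (c.1 - r)).toNat = 2 * r + 1 := by omega
  have h2 : (c.2 + r + 1 - (c.2 - r)).toNat = 2 * r + 1 := by omega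
  rw [h1, h2, sq]
theorem finite_rect (a b c d : ℤ) : (rect a b c d).Finite := by
  refine ((Set.finite_Icc a b).prod (Set.finite_Icc c d)).subset ?_
  rintro x ⟨h1, h2, h3, h4⟩
  exact ⟨⟨h1, h2⟩, ⟨h3, h4⟩⟩
theorem mem_ED {D : Set V} {x y : V} : s(x, y) ∈ ED D ↔ x ∈ D ∧ y ∈ D := by
  simp only [ED, Set.mem_ofPred_eq, Sym2.mem_iff]
  constructor
  · intro h
    exact ⟨h x (Or.inl rfl), h y (Or.inr rfl)⟩
  · rintro ⟨h1, h2⟩ z (rfl | rfl)
    · exact h1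
    · exact h2
theorem ED_mono {D D' : Set V} (h : D ⊆ D') : ED D ⊆ ED D' :=
  fun _ he x hx => h (he x hx)
theorem disjoint_ED {D D' : Set V} (h : Disjoint D D') : Disjoint (ED D) (ED D') := by
  rw [Set.disjoint_left] at h ⊢
  intro e he he'
  induction e using Sym2.ind with
  | _ x y => exact h (mem_ED.1 he).1 (mem_ED.1 he').1
theorem mem_edgesIn {D : Finset V} {e : Sym2 V} :
    e ∈ edgesIn D ↔ ∃ x y, x ∈ D ∧ y ∈ D ∧ Adj x y ∧ e = s(x, y) := by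
  simp only [edgesIn, Finset.mem_image, Finset.mem_filter, Finset.mem_product]
  constructor
  · rintro ⟨⟨x, y⟩, ⟨⟨hx, hy⟩, hxy⟩, rfl⟩
    exact ⟨x, y, hx, hy, hxy, rfl⟩
  · rintro ⟨x, y, hx, hy, hxy, rfl⟩
    exact ⟨(x, y), ⟨⟨hx, hy⟩, hxy⟩, rfl⟩
theorem card_edgesIn_le (D : Finset V) : (edgesIn D).card ≤ 4 * D.card := by
  have hsub : edgesIn D ⊆ (D ×ˢ ({(1, 0), (-1, 0), (0, 1), (0, -1)} : Finset V)).image
      (fun p => s(p.1, p.1 + p.2)) := by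
    intro e he
    obtain ⟨x, y, hx, -, hxy, rfl⟩ := mem_edgesIn.1 he
    refine Finset.mem_image.2 ⟨(x, y - x), ?_, by simp⟩
    refine Finset.mem_product.2 ⟨hx, ?_⟩
    rw [adj_iff] at hxy
    simp only [Finset.mem_insert, Finset.mem_singleton, Prod.ext_iff, Prod.fst_sub, Prod.snd_sub]
    omega
  refine (Finset.card_le_card hsub).trans (Finset.card_image_le.trans ?_)
  rw [Finset.card_product, mul_comm]
  exact Nat.mul_le_mul_right _ Finset.card_le_four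

/-- a point is within `ℓ` of the corner of its cell -/
theorem nrm_sub_cell {ℓ : ℕ} (hℓ : 1 ≤ ℓ) (x : V) : nrm (x - (ℓ : ℤ) • cell ℓ x) < ℓ := by
  have hl : (0 : ℤ) < ℓ := by exact_mod_cast hℓ
  have a1 := Int.emod_nonneg x.1 hl.ne'
  have a2 := Int.emod_lt_of_pos x.1 hl
  have a3 := Int.mul_ediv_add_emod x.1 ℓ
  have b1 := Int.emod_nonneg x.2 hl.ne'
  have b2 := Int.emod_lt_of_pos x.2 hl
  have b3 := Int.mul_ediv_add_emod x.2 ℓ
  simp only [nrm, cell, Prod.fst_sub, Prod.snd_sub, Prod.smul_fst, Prod.smul_snd, smul_eq_mul]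
  generalize (ℓ : ℤ) * (x.1 / ℓ) = u at *
  generalize (ℓ : ℤ) * (x.2 / ℓ) = v at *
  omega

theorem tp0_ediv_le {ℓ : ℤ} (hl : 0 < ℓ) {a b k : ℤ} (h : a ≤ b + k * ℓ) : a / ℓ ≤ b / ℓ + k := by
  rw [← Int.add_mul_ediv_right b k hl.ne']
  exact Int.ediv_le_ediv hl h

theorem nrm_cell_sub {ℓ : ℕ} (hℓ : 1 ≤ ℓ) (x y : V) (k : ℕ) (h : nrm (x - y) ≤ k * ℓ) :
    nrm (cell ℓ x - cell ℓ y) ≤ k := by
  have hl : (0 : ℤ) < ℓ := by exact_mod_cast hℓ
  rw [nrm_le_iff] at h ⊢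
  simp only [cell, Prod.fst_sub, Prod.snd_sub, abs_le, Nat.cast_mul] at h ⊢
  obtain ⟨⟨h1, h2⟩, h3, h4⟩ := h
  have a1 := tp0_ediv_le hl (a := x.1) (b := y.1) (k := k) (by linarith)
  have a2 := tp0_ediv_le hl (a := y.1) (b := x.1) (k := k) (by linarith)
  have a3 := tp0_ediv_le hl (a := x.2) (b := y.2) (k := k) (by linarith)
  have a4 := tp0_ediv_le hl (a := y.2) (b := x.2) (k := k) (by linarith)
  refine ⟨⟨?_, ?_⟩, ?_, ?_⟩ <;> linarith
theorem card_filter_cell_le {ℓ : ℕ} (hℓ : 1 ≤ ℓ) (c : V) (F : Finset V) :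
    (F.filter (fun x => cell ℓ x = c)).card ≤ ℓ ^ 2 := by
  have hl : (0 : ℤ) < ℓ := by exact_mod_cast hℓ
  have hsub : F.filter (fun x => cell ℓ x = c) ⊆
      Finset.Ico ((ℓ : ℤ) * c.1) (ℓ * c.1 + ℓ) ×ˢ Finset.Ico ((ℓ : ℤ) * c.2) (ℓ * c.2 + ℓ) := by
    intro x hx
    obtain ⟨-, rfl⟩ := Finset.mem_filter.1 hx
    have a1 := Int.emod_nonneg x.1 hl.ne'
    have a2 := Int.emod_lt_of_pos x.1 hl
    have a3 := Int.mul_ediv_add_emod x.1 ℓ
    have b1 := Int.emod_nonneg x.2 hl.ne'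
    have b2 := Int.emod_lt_of_pos x.2 hl
    have b3 := Int.mul_ediv_add_emod x.2 ℓ
    simp only [cell, Finset.mem_product, Finset.mem_Ico]
    refine ⟨⟨?_, ?_⟩, ?_, ?_⟩ <;> linarith
  refine (Finset.card_le_card hsub).trans ?_
  simp [Finset.card_product, sq]

end Crest.Agent.R151
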