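import Crest.Agent.R151.TPath0

/-! Row 151 toolkit: lattice geometry and the operations on `Pth`. -/

set_option autoImplicit false

namespace Crest.Agent.R151

open MeasureTheory Crest.ProbabilityR.FirstPassage
open scoped Classical

namespace Pth

@[simp] theorem of_n (n : ℕ) (q : ℕ → V) : (of n q).n = n := rfl
theorem of_p (n : ℕ) (q : ℕ → V) {i : ℕ} (h : i ≤ n) : (of n q).p i = q i := by
  simp only [p, of, min_eq_left h]
theorem p_of_ge (γ : Pth) {i : ℕ} (h : γ.n ≤ i) : γ.p i = γ.p γ.n := by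
  simp only [p, min_eq_right h, min_self]
theorem ext' {γ δ : Pth} (hn : γ.n = δ.n) (h : ∀ i ≤ γ.n, γ.p i = δ.p i) : γ = δ := by
  obtain ⟨n, f⟩ := γ
  obtain ⟨m, g⟩ := δ
  obtain rfl : n = m := hn
  congr 1
  funext i
  have h1 := h i (Nat.le_of_lt_succ i.2)
  simpa only [p, min_eq_left (Nat.le_of_lt_succ i.2)] using h1
theorem mem_edges {γ : Pth} {e : Sym2 V} : e ∈ γ.edges ↔ ∃ i < γ.n, γ.edge i = e := by
  simp only [edges, Finset.mem_image, Finset.mem_range]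
theorem card_edges_le (γ : Pth) : γ.edges.card ≤ γ.n := by
  exact Finset.card_image_le.trans (Finset.card_range _).le
theorem In.mono {γ : Pth} {D D' : Set V} (h : γ.In D) (hD : D ⊆ D') : γ.In D' := by
  exact fun i hi => hD (h i hi)
theorem In.edge_mem {γ : Pth} {D : Set V} (h : γ.In D) {i : ℕ} (hi : i < γ.n) :
    γ.edge i ∈ ED D := by
  exact mem_ED.2 ⟨h i hi.le, h (i + 1) hi⟩
theorem in_univ (γ : Pth) : γ.In Set.univ := by
  exact fun _ _ => Set.mem_univ _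

theorem cost_self (γ : Pth) (t : Env) (a : ℕ) : γ.cost t a a = 0 := by
  simp [cost]
theorem cost_succ (γ : Pth) (t : Env) {a b : ℕ} (h : a ≤ b) :
    γ.cost t a (b + 1) = γ.cost t a b + t (γ.edge b) := by
  exact Finset.sum_Ico_succ_top h _
theorem cost_add (γ : Pth) (t : Env) {a b c : ℕ} (hab : a ≤ b) (hbc : b ≤ c) :
    γ.cost t a b + γ.cost t b c = γ.cost t a c := by
  exact Finset.sum_Ico_consecutive _ hab hbc
theorem cost_nonneg (γ : Pth) {t : Env} (ht : NN t) (a b : ℕ) : 0 ≤ γ.cost t a b := by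
  exact Finset.sum_nonneg fun _ _ => ht _
theorem cost_mono (γ : Pth) {t : Env} (ht : NN t) {a a' b b' : ℕ} (ha : a' ≤ a) (hb : b ≤ b') :
    γ.cost t a b ≤ γ.cost t a' b' := by
  exact Finset.sum_le_sum_of_subset_of_nonneg (Finset.Ico_subset_Ico ha hb) fun _ _ _ => ht _
theorem cost_congr (γ : Pth) {t t' : Env} {a b : ℕ}
    (h : ∀ i, a ≤ i → i < b → t (γ.edge i) = t' (γ.edge i)) : γ.cost t a b = γ.cost t' a b := by
  exact Finset.sum_congr rfl fun i hi => h i (Finset.mem_Ico.1 hi).1 (Finset.mem_Ico.1 hi).2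
theorem cost_le_cost (γ : Pth) {t t' : Env} {a b : ℕ}
    (h : ∀ i, a ≤ i → i < b → t (γ.edge i) ≤ t' (γ.edge i)) : γ.cost t a b ≤ γ.cost t' a b := by
  exact Finset.sum_le_sum fun i hi => h i (Finset.mem_Ico.1 hi).1 (Finset.mem_Ico.1 hi).2
theorem tot_nonneg (γ : Pth) {t : Env} (ht : NN t) : 0 ≤ γ.tot t := by
  exact γ.cost_nonneg ht _ _

@[simp] theorem sub_n (γ : Pth) (a b : ℕ) : (γ.sub a b).n = b - a := rfl
theorem sub_p (γ : Pth) (a b : ℕ) {i : ℕ} (hi : i ≤ b - a) : (γ.sub a b).p i = γ.p (a + i) := by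
  exact of_p _ _ hi
theorem sub_p_zero (γ : Pth) (a b : ℕ) : (γ.sub a b).p 0 = γ.p a := by
  exact γ.sub_p a b (Nat.zero_le _)
theorem sub_p_last (γ : Pth) {a b : ℕ} (h : a ≤ b) : (γ.sub a b).p (γ.sub a b).n = γ.p b := by
  rw [sub_n, γ.sub_p a b le_rfl, Nat.add_sub_cancel' h]
theorem sub_edge (γ : Pth) (a b : ℕ) {i : ℕ} (hi : i < b - a) :
    (γ.sub a b).edge i = γ.edge (a + i) := by
  rw [edge, γ.sub_p a b hi.le, γ.sub_p a b hi, edge, add_assoc]
theorem sub_cost (γ : Pth) (t : Env) (a b : ℕ) {i j : ℕ} (hj : j ≤ b - a) :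
    (γ.sub a b).cost t i j = γ.cost t (a + i) (a + j) := by
  rw [cost, cost, add_comm a i, add_comm a j, ← Finset.sum_Ico_add']
  refine Finset.sum_congr rfl fun l hl => ?_
  rw [γ.sub_edge a b ((Finset.mem_Ico.1 hl).2.trans_le hj), add_comm]
theorem sub_tot (γ : Pth) (t : Env) {a b : ℕ} (h : a ≤ b) : (γ.sub a b).tot t = γ.cost t a b := by
  rw [tot, sub_n, γ.sub_cost t a b le_rfl, add_zero, Nat.add_sub_cancel' h]
theorem Ok.sub {γ : Pth} (h : γ.Ok) (a : ℕ) {b : ℕ} (hb : b ≤ γ.n) : (γ.sub a b).Ok := by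
  intro i hi
  rw [sub_n] at hi
  rw [γ.sub_p a b hi.le, γ.sub_p a b hi]
  exact h (a + i) (by omega)
theorem SA.sub {γ : Pth} (h : γ.SA) {a b : ℕ} (hab : a ≤ b) (hb : b ≤ γ.n) : (γ.sub a b).SA := by
  intro i hi j hj hij
  rw [sub_n] at hi hj
  rw [γ.sub_p a b hi, γ.sub_p a b hj] at hij
  have := h _ (by omega) _ (by omega) hij
  omega
theorem sub_in {γ : Pth} {D : Set V} {a b : ℕ} (hab : a ≤ b)
    (h : ∀ i, a ≤ i → i ≤ b → γ.p i ∈ D) : (γ.sub a b).In D := by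
  intro i hi
  rw [sub_n] at hi
  rw [γ.sub_p a b hi]
  exact h _ (by omega) (by omega)
theorem In.sub {γ : Pth} {D : Set V} (h : γ.In D) (a b : ℕ) : (γ.sub a b).In D := by
  intro i hi
  rw [γ.sub_p a b hi]
  rcases le_total (a + i) γ.n with h1 | h1
  · exact h _ h1
  · rw [γ.p_of_ge h1]; exact h _ le_rfl
theorem sub_edges_subset {γ : Pth} (a : ℕ) {b : ℕ} (hb : b ≤ γ.n) :
    (γ.sub a b).edges ⊆ γ.edges := by
  intro e he
  obtain ⟨i, hi, rfl⟩ := mem_edges.1 he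
  rw [sub_n] at hi
  exact mem_edges.2 ⟨a + i, by omega, (γ.sub_edge a b hi).symm⟩
theorem sub_full (γ : Pth) : γ.sub 0 γ.n = γ := by
  exact ext' rfl fun i hi => by rw [γ.sub_p 0 γ.n hi, zero_add]
theorem sub_joins {γ : Pth} (h : γ.Ok) {D : Set V} {a b : ℕ} (hab : a ≤ b) (hb : b ≤ γ.n)
    (hD : ∀ i, a ≤ i → i ≤ b → γ.p i ∈ D) : (γ.sub a b).Joins D (γ.p a) (γ.p b) := by
  exact ⟨h.sub a hb, sub_in hab hD, γ.sub_p_zero a b, γ.sub_p_last hab⟩

@[simp] theorem rev_n (γ : Pth) : γ.rev.n = γ.n := rfl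
theorem rev_p (γ : Pth) {i : ℕ} (hi : i ≤ γ.n) : γ.rev.p i = γ.p (γ.n - i) := by
  exact of_p _ _ hi
theorem rev_rev (γ : Pth) : γ.rev.rev = γ := by
  refine ext' rfl fun i hi => ?_
  have hi' : i ≤ γ.n := hi
  rw [γ.rev.rev_p hi', rev_n, γ.rev_p (Nat.sub_le _ _), Nat.sub_sub_self hi']
theorem rev_edge (γ : Pth) {i : ℕ} (hi : i < γ.n) : γ.rev.edge i = γ.edge (γ.n - 1 - i) := by
  rw [edge, edge, γ.rev_p hi.le, γ.rev_p hi, Sym2.eq_swap,
    show γ.n - (i + 1) = γ.n - 1 - i by omega, show γ.n - i = γ.n - 1 - i + 1 by omega]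
theorem rev_edges (γ : Pth) : γ.rev.edges = γ.edges := by
  ext e
  rw [mem_edges, mem_edges, rev_n]
  constructor
  · rintro ⟨i, hi, rfl⟩
    exact ⟨γ.n - 1 - i, by omega, (γ.rev_edge hi).symm⟩
  · rintro ⟨i, hi, rfl⟩
    refine ⟨γ.n - 1 - i, by omega, ?_⟩
    rw [γ.rev_edge (by omega), show γ.n - 1 - (γ.n - 1 - i) = i by omega]
theorem rev_cost (γ : Pth) (t : Env) {a b : ℕ} (hb : b ≤ γ.n) :
    γ.rev.cost t a b = γ.cost t (γ.n - b) (γ.n - a) := by
  refine Finset.sum_bij' (fun i _ => γ.n - 1 - i) (fun i _ => γ.n - 1 - i) ?_ ?_ ?_ ?_ ?_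
  all_goals
    intro i hi
    rw [Finset.mem_Ico] at hi
  · rw [Finset.mem_Ico]; omega
  · rw [Finset.mem_Ico]; omega
  · omega
  · omega
  · rw [γ.rev_edge (by omega)]
theorem rev_tot (γ : Pth) (t : Env) : γ.rev.tot t = γ.tot t := by
  rw [tot, rev_n, γ.rev_cost t le_rfl, Nat.sub_self, Nat.sub_zero, tot]
theorem Ok.rev {γ : Pth} (h : γ.Ok) : γ.rev.Ok := by
  intro i hi
  rw [rev_n] at hi
  rw [γ.rev_p hi.le, γ.rev_p hi, show γ.n - i = γ.n - (i + 1) + 1 by omega]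
  exact (h _ (by omega)).symm
theorem SA.rev {γ : Pth} (h : γ.SA) : γ.rev.SA := by
  intro i hi j hj hij
  rw [rev_n] at hi hj
  rw [γ.rev_p hi, γ.rev_p hj] at hij
  have := h _ (Nat.sub_le _ _) _ (Nat.sub_le _ _) hij
  omega
theorem In.rev {γ : Pth} {D : Set V} (h : γ.In D) : γ.rev.In D := by
  intro i hi
  rw [γ.rev_p hi]
  exact h _ (Nat.sub_le _ _)
theorem Joins.rev {γ : Pth} {D : Set V} {x z : V} (h : γ.Joins D x z) : γ.rev.Joins D z x := by
  refine ⟨h.1.rev, h.2.1.rev, ?_, ?_⟩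
  · rw [γ.rev_p (Nat.zero_le _), Nat.sub_zero, h.2.2.2]
  · rw [rev_n, γ.rev_p le_rfl, Nat.sub_self, h.2.2.1]

@[simp] theorem app_n (γ δ : Pth) : (γ.app δ).n = γ.n + δ.n := rfl
theorem app_p_left (γ δ : Pth) {i : ℕ} (hi : i ≤ γ.n) : (γ.app δ).p i = γ.p i := by
  rw [app, of_p _ _ (hi.trans (Nat.le_add_right _ _)), if_pos hi]
theorem app_p_right {γ δ : Pth} (h : γ.p γ.n = δ.p 0) (j : ℕ) : (γ.app δ).p (γ.n + j) = δ.p j := by
  have key : ∀ j ≤ δ.n, (γ.app δ).p (γ.n + j) = δ.p j := by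
    intro j hj
    rw [app, of_p _ _ (Nat.add_le_add_left hj _)]
    split_ifs with h1
    · obtain rfl : j = 0 := by omega
      exact h
    · rw [Nat.add_sub_cancel_left]
  rcases le_total j δ.n with h1 | h1
  · exact key j h1
  · rw [δ.p_of_ge h1, (γ.app δ).p_of_ge (Nat.add_le_add_left h1 _), app_n, key _ le_rfl]
theorem app_edge_left (γ δ : Pth) {i : ℕ} (hi : i < γ.n) : (γ.app δ).edge i = γ.edge i := by
  rw [edge, edge, app_p_left _ _ hi.le, app_p_left _ _ hi]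
theorem app_edge_right {γ δ : Pth} (h : γ.p γ.n = δ.p 0) (j : ℕ) :
    (γ.app δ).edge (γ.n + j) = δ.edge j := by
  rw [edge, edge, app_p_right h, add_assoc, app_p_right h]
theorem app_edges {γ δ : Pth} (h : γ.p γ.n = δ.p 0) : (γ.app δ).edges = γ.edges ∪ δ.edges := by
  ext e
  rw [Finset.mem_union, mem_edges, mem_edges, mem_edges, app_n]
  constructor
  · rintro ⟨i, hi, rfl⟩
    rcases lt_or_ge i γ.n with h1 | h1
    · exact Or.inl ⟨i, h1, (app_edge_left _ _ h1).symm⟩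
    · obtain ⟨j, rfl⟩ := Nat.exists_eq_add_of_le h1
      exact Or.inr ⟨j, by omega, (app_edge_right h j).symm⟩
  · rintro (⟨i, hi, rfl⟩ | ⟨j, hj, rfl⟩)
    · exact ⟨i, by omega, app_edge_left _ _ hi⟩
    · exact ⟨γ.n + j, by omega, app_edge_right h j⟩
theorem app_tot {γ δ : Pth} (h : γ.p γ.n = δ.p 0) (t : Env) :
    (γ.app δ).tot t = γ.tot t + δ.tot t := by
  simp only [tot, cost, app_n, ← Finset.range_eq_Ico]
  rw [Finset.sum_range_add]
  congr 1
  · exact Finset.sum_congr rfl fun i hi => by rw [app_edge_left _ _ (Finset.mem_range.1 hi)]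
  · exact Finset.sum_congr rfl fun i _ => by rw [app_edge_right h]
theorem Ok.app {γ δ : Pth} (hγ : γ.Ok) (hδ : δ.Ok) (h : γ.p γ.n = δ.p 0) : (γ.app δ).Ok := by
  intro i hi
  rw [app_n] at hi
  rcases lt_or_ge i γ.n with h1 | h1
  · rw [app_p_left _ _ h1.le, app_p_left _ _ h1]
    exact hγ i h1
  · obtain ⟨j, rfl⟩ := Nat.exists_eq_add_of_le h1
    rw [app_p_right h, add_assoc, app_p_right h]
    exact hδ j (by omega)
theorem In.app {γ δ : Pth} {D : Set V} (hγ : γ.In D) (hδ : δ.In D) : (γ.app δ).In D := by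
  intro i hi
  rw [app_n] at hi
  rw [Pth.app, of_p _ _ hi]
  split_ifs with h1
  · exact hγ i h1
  · exact hδ _ (by omega)
theorem SA.app {γ δ : Pth} (hγ : γ.SA) (hδ : δ.SA) (h : γ.p γ.n = δ.p 0)
    (hd : ∀ i ≤ γ.n, ∀ j ≤ δ.n, γ.p i = δ.p j → j = 0) : (γ.app δ).SA := by
  intro i hi j hj hij
  rw [app_n] at hi hj
  rcases le_or_gt i γ.n with h1 | h1 <;> rcases le_or_gt j γ.n with h2 | h2
  · rw [app_p_left _ _ h1, app_p_left _ _ h2] at hij
    exact hγ i h1 j h2 hij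
  · obtain ⟨l, rfl⟩ := Nat.exists_eq_add_of_le h2.le
    rw [app_p_left _ _ h1, app_p_right h] at hij
    have := hd i h1 l (by omega) hij
    omega
  · obtain ⟨l, rfl⟩ := Nat.exists_eq_add_of_le h1.le
    rw [app_p_left _ _ h2, app_p_right h] at hij
    have := hd j h2 l (by omega) hij.symm
    omega
  · obtain ⟨l, rfl⟩ := Nat.exists_eq_add_of_le h1.le
    obtain ⟨m, rfl⟩ := Nat.exists_eq_add_of_le h2.le
    rw [app_p_right h, app_p_right h] at hij
    rw [hδ l (by omega) m (by omega) hij]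
theorem Joins.app {γ δ : Pth} {D : Set V} {x y z : V} (hγ : γ.Joins D x y) (hδ : δ.Joins D y z) :
    (γ.app δ).Joins D x z := by
  have h : γ.p γ.n = δ.p 0 := hγ.2.2.2.trans hδ.2.2.1.symm
  refine ⟨hγ.1.app hδ.1 h, hγ.2.1.app hδ.2.1, ?_, ?_⟩
  · rw [app_p_left _ _ (Nat.zero_le _), hγ.2.2.1]
  · rw [app_n, app_p_right h, hδ.2.2.2]
theorem Joins.mono {γ : Pth} {D D' : Set V} {x z : V} (h : γ.Joins D x z) (hD : D ⊆ D') :
    γ.Joins D' x z := by
  exact ⟨h.1, h.2.1.mono hD, h.2.2⟩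

@[simp] theorem map_n (σ : V → V) (γ : Pth) : (γ.map σ).n = γ.n := rfl
theorem map_p (σ : V → V) (γ : Pth) (i : ℕ) : (γ.map σ).p i = σ (γ.p i) := by
  rcases le_total i γ.n with h | h
  · exact of_p _ _ h
  · rw [γ.p_of_ge h, (γ.map σ).p_of_ge h]
    exact of_p _ _ le_rfl
theorem map_edge (σ : V → V) (γ : Pth) (i : ℕ) : (γ.map σ).edge i = Sym2.map σ (γ.edge i) := by
  rw [edge, edge, map_p, map_p, Sym2.map_mk]
theorem map_map (σ τ : V → V) (γ : Pth) : (γ.map σ).map τ = γ.map (τ ∘ σ) := by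
  exact ext' rfl fun i _ => by rw [map_p, map_p, map_p]; rfl
theorem map_id (γ : Pth) : γ.map id = γ := by
  exact ext' rfl fun i _ => by rw [map_p]; rfl
theorem map_sub (σ : V → V) (γ : Pth) (a b : ℕ) : (γ.sub a b).map σ = (γ.map σ).sub a b := by
  exact ext' rfl fun i hi => by rw [map_p, γ.sub_p a b hi, (γ.map σ).sub_p a b hi, map_p]
theorem map_rev (σ : V → V) (γ : Pth) : γ.rev.map σ = (γ.map σ).rev := by
  exact ext' rfl fun i hi => by rw [map_p, γ.rev_p hi, (γ.map σ).rev_p hi, map_p, map_n]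

/-- the one-step path -/
theorem exists_step {x y : V} (h : Adj x y) :
    ∃ γ : Pth, γ.n = 1 ∧ γ.SA ∧ γ.Joins {x, y} x y ∧ ∀ t : Env, γ.tot t = t s(x, y) := by
  have h0 : (of 1 fun i => if i = 0 then x else y).p 0 = x := of_p _ _ (Nat.zero_le _)
  have h1 : (of 1 fun i => if i = 0 then x else y).p 1 = y := of_p _ _ le_rfl
  refine ⟨of 1 fun i => if i = 0 then x else y, rfl, ?_, ⟨?_, ?_, h0, h1⟩, fun t => ?_⟩
  · intro i hi j hj hij
    rw [of_n] at hi hj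
    interval_cases i <;> interval_cases j
    · rfl
    · rw [h0, h1] at hij; exact absurd hij h.ne
    · rw [h0, h1] at hij; exact absurd hij.symm h.ne
    · rfl
  · intro i hi
    rw [of_n] at hi
    interval_cases i
    rw [h0, zero_add, h1]; exact h
  · intro i hi
    rw [of_n] at hi
    interval_cases i
    · rw [h0]; exact Or.inl rfl
    · rw [h1]; exact Or.inr rfl
  · rw [tot, of_n, cost, Nat.Ico_zero_eq_range, Finset.sum_range_one, edge, h0, zero_add, h1]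

/-- the trivial path -/
theorem exists_triv (x : V) :
    ∃ γ : Pth, γ.n = 0 ∧ γ.SA ∧ γ.Joins {x} x x ∧ ∀ t : Env, γ.tot t = 0 := by
  refine ⟨of 0 fun _ => x, rfl, ?_, ⟨?_, fun _ _ => rfl, rfl, rfl⟩, fun t => cost_self _ _ _⟩
  · intro i hi j hj _
    rw [of_n] at hi hj
    omega
  · intro i hi
    exact absurd hi (Nat.not_lt_zero _)

end Pth

end Crest.Agent.R151
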