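import Crest.Agent.R151.TPath1

/-! Row 151 toolkit: discrete intermediate values, self-avoiding paths, loop erasure, staircases. -/

set_option autoImplicit false

namespace Crest.Agent.R151

open MeasureTheory Crest.ProbabilityR.FirstPassage
open scoped Classical

namespace Pth

theorem TPath2_step {γ : Pth} (h : γ.Ok) (k : ℕ) :
    γ.p (k + 1) = γ.p k ∨ Adj (γ.p k) (γ.p (k + 1)) := by
  rcases lt_or_ge k γ.n with hk | hk
  · exact Or.inr (h k hk)
  · exact Or.inl (by rw [γ.p_of_ge hk, γ.p_of_ge (i := k + 1) (by omega)])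

theorem TPath2_nrm_step {γ : Pth} (h : γ.Ok) (k : ℕ) : nrm (γ.p (k + 1) - γ.p k) ≤ 1 := by
  rcases TPath2_step h k with h1 | h1
  · rw [h1, sub_self, nrm_zero]; omega
  · exact h1.nrm_sub.le

theorem TPath2_first (f : ℕ → ℤ) {i j : ℕ} (hij : i ≤ j)
    (hf : ∀ k, i ≤ k → k < j → |f (k + 1) - f k| ≤ 1) (c : ℤ) (h1 : f i ≤ c) (h2 : c ≤ f j) :
    ∃ k, i ≤ k ∧ k ≤ j ∧ f k = c ∧ ∀ k', i ≤ k' → k' < k → f k' < c := by
  have hex : ∃ k, i ≤ k ∧ c ≤ f k := ⟨j, hij, h2⟩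
  have hk := Nat.find_spec hex
  have hkj : Nat.find hex ≤ j := Nat.find_min' hex ⟨hij, h2⟩
  have hlt : ∀ k', i ≤ k' → k' < Nat.find hex → f k' < c := fun k' h3 h4 =>
    not_le.1 fun h5 => Nat.find_min hex h4 ⟨h3, h5⟩
  refine ⟨Nat.find hex, hk.1, hkj, le_antisymm ?_ hk.2, hlt⟩
  generalize Nat.find hex = k at *
  rcases hk.1.eq_or_lt with h3 | h3
  · exact h3 ▸ h1
  · obtain ⟨k, rfl⟩ : ∃ k', k = k' + 1 := ⟨k - 1, by omega⟩
    have h4 := hlt k (by omega) (by omega)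
    have h5 := abs_le.1 (hf k (by omega) (by omega))
    omega

theorem TPath2_prefix {γ δ : Pth} (sγ : γ.SA) (sδ : δ.SA)
    (h0 : γ.p 0 = δ.p 0) {k : ℕ} (hk : k ≤ γ.n) (he : ∀ i < k, γ.edge i ∈ δ.edges) :
    k ≤ δ.n ∧ ∀ i ≤ k, γ.p i = δ.p i := by
  induction k with
  | zero => exact ⟨Nat.zero_le _, fun i hi => by rw [Nat.le_zero.1 hi, h0]⟩
  | succ k ih =>
    obtain ⟨h1, h2⟩ := ih (by omega) fun i hi => he i (by omega)
    obtain ⟨j, hj, hj'⟩ := mem_edges.1 (he k (by omega))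
    rcases Sym2.eq_iff.1 hj' with ⟨h3, h4⟩ | ⟨h3, h4⟩
    · obtain rfl : j = k := sδ j hj.le k h1 (h3.trans (h2 k le_rfl))
      refine ⟨hj, fun i hi => ?_⟩
      rcases hi.eq_or_lt with rfl | hi
      · exact h4.symm
      · exact h2 i (by omega)
    · obtain rfl : j + 1 = k := sδ (j + 1) hj k h1 (h4.trans (h2 k le_rfl))
      have := sγ j (by omega) (j + 1 + 1) hk ((h2 j (by omega)).trans h3)
      omega

theorem TPath2_stair (a b : ℕ) : ∃ u v : ℕ → ℕ, (∀ i, u i + v i = i) ∧ Monotone u ∧ Monotone v ∧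
    u (a + b) = a ∧ ∀ i ≤ a + b, ∃ s : ℝ, 0 ≤ s ∧ s ≤ 1 ∧ |(u i : ℝ) - s * a| ≤ 1 ∧
      |(v i : ℝ) - s * b| ≤ 1 := by
  have h1 : ∀ i, i * a / (a + b) ≤ i := fun i =>
    Nat.div_le_of_le_mul (by nlinarith [Nat.zero_le (b * i)])
  refine ⟨fun i => i * a / (a + b), fun i => i - i * a / (a + b),
    fun i => Nat.add_sub_cancel' (h1 i),
    fun i j hij => Nat.div_le_div_right (Nat.mul_le_mul_right a hij),
    monotone_nat_of_le_succ fun i => ?_, ?_, fun i hi => ?_⟩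
  · have h2 : (i + 1) * a / (a + b) ≤ i * a / (a + b) + 1 := by
      rcases Nat.eq_zero_or_pos (a + b) with h | h
      · simp [h]
      · rw [← Nat.add_div_right _ h]
        exact Nat.div_le_div_right (by nlinarith)
    have := h1 i
    omega
  · rcases Nat.eq_zero_or_pos (a + b) with h | h
    · simp only [h]; omega
    · exact Nat.mul_div_cancel_left a h
  · rcases Nat.eq_zero_or_pos (a + b) with h | h
    · obtain rfl : i = 0 := by omega
      exact ⟨0, le_rfl, zero_le_one, by simp, by simp⟩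
    · have hN : (0 : ℝ) < (a : ℝ) + b := by exact_mod_cast h
      have h2 : ((a : ℝ) + b) * (i * a / (a + b) : ℕ) ≤ i * a := by
        exact_mod_cast Nat.mul_div_le (i * a) (a + b)
      have h3 : (i : ℝ) * a < ((a : ℝ) + b) * ((i * a / (a + b) : ℕ) + 1) := by
        exact_mod_cast Nat.lt_mul_div_succ (i * a) h
      have h4 : (i : ℝ) ≤ a + b := by exact_mod_cast hi
      have h5 : ((i * a / (a + b) : ℕ) : ℝ) ≤ i / (a + b) * a := by
        rw [div_mul_eq_mul_div, le_div_iff₀ hN]; linarith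
      have h6 : (i : ℝ) / (a + b) * a ≤ (i * a / (a + b) : ℕ) + 1 := by
        rw [div_mul_eq_mul_div, div_le_iff₀ hN]; linarith
      have h7 : (i : ℝ) / (a + b) * b = i - i / (a + b) * a := by
        field_simp; ring
      refine ⟨i / (a + b), by positivity, (div_le_one hN).2 h4, abs_le.2 ⟨by linarith, by linarith⟩,
        ?_⟩
      rw [Nat.cast_sub (h1 i), h7]
      exact abs_le.2 ⟨by linarith, by linarith⟩

theorem Ok.nrm_sub_le {γ : Pth} (h : γ.Ok) {i j : ℕ} (hij : i ≤ j) :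
    nrm (γ.p j - γ.p i) ≤ j - i := by
  induction j, hij using Nat.le_induction with
  | base => rw [sub_self, nrm_zero]; omega
  | succ j hij ih =>
    have h1 := nrm_triangle (γ.p i) (γ.p j) (γ.p (j + 1))
    have h2 := TPath2_nrm_step h j
    omega

theorem Ok.in_box {γ : Pth} (h : γ.Ok) : γ.In (box (γ.p 0) γ.n) := by
  intro i hi
  exact (h.nrm_sub_le (Nat.zero_le i)).trans (by omega)

/-- discrete intermediate value theorem for an integer sequence with steps in `[-1,1]` -/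
theorem _root_.Crest.Agent.R151.exists_level (f : ℕ → ℤ) {i j : ℕ} (hij : i ≤ j)
    (hf : ∀ k, i ≤ k → k < j → |f (k + 1) - f k| ≤ 1) (c : ℤ)
    (hc : (f i ≤ c ∧ c ≤ f j) ∨ (f j ≤ c ∧ c ≤ f i)) : ∃ k, i ≤ k ∧ k ≤ j ∧ f k = c := by
  rcases hc with hc | hc
  · obtain ⟨k, h1, h2, h3, -⟩ := TPath2_first f hij hf c hc.1 hc.2
    exact ⟨k, h1, h2, h3⟩
  · obtain ⟨k, h1, h2, h3, -⟩ := TPath2_first (fun k => -f k) hij
      (fun k h1 h2 => by have := abs_le.1 (hf k h1 h2); exact abs_le.2 ⟨by omega, by omega⟩) (-c)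
      (neg_le_neg hc.2) (neg_le_neg hc.1)
    exact ⟨k, h1, h2, neg_injective h3⟩

/-- first time the level `c` is reached going up -/
theorem _root_.Crest.Agent.R151.exists_first_level (f : ℕ → ℤ) {i j : ℕ} (hij : i ≤ j)
    (hf : ∀ k, i ≤ k → k < j → |f (k + 1) - f k| ≤ 1) (c : ℤ) (h1 : f i ≤ c) (h2 : c ≤ f j) :
    ∃ k, i ≤ k ∧ k ≤ j ∧ f k = c ∧ ∀ k', i ≤ k' → k' < k → f k' < c := by
  exact TPath2_first f hij hf c h1 h2

/-- last time the level `c` is visited going up -/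
theorem _root_.Crest.Agent.R151.exists_last_level (f : ℕ → ℤ) {i j : ℕ} (hij : i ≤ j)
    (hf : ∀ k, i ≤ k → k < j → |f (k + 1) - f k| ≤ 1) (c : ℤ) (h1 : f i ≤ c) (h2 : c ≤ f j) :
    ∃ k, i ≤ k ∧ k ≤ j ∧ f k = c ∧ ∀ k', k < k' → k' ≤ j → c < f k' := by
  have h3 : i ≤ Nat.findGreatest (fun k => f k ≤ c) j := Nat.le_findGreatest hij h1
  have h4 : Nat.findGreatest (fun k => f k ≤ c) j ≤ j := Nat.findGreatest_le j
  have h5 : f (Nat.findGreatest (fun k => f k ≤ c) j) ≤ c :=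
    Nat.findGreatest_spec (P := fun k => f k ≤ c) hij h1
  have h6 : ∀ k', Nat.findGreatest (fun k => f k ≤ c) j < k' → k' ≤ j → c < f k' :=
    fun k' h7 h8 => not_le.1 (Nat.findGreatest_is_greatest (P := fun k => f k ≤ c) h7 h8)
  refine ⟨_, h3, h4, le_antisymm h5 ?_, h6⟩
  generalize Nat.findGreatest (fun k => f k ≤ c) j = k at *
  rcases h4.eq_or_lt with h7 | h7
  · exact h7 ▸ h2
  · have h8 := h6 (k + 1) (by omega) h7
    have h9 := abs_le.1 (hf k h3 h7)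
    omega

theorem Ok.col_step {γ : Pth} (h : γ.Ok) (k : ℕ) : |(γ.p (k + 1)).1 - (γ.p k).1| ≤ 1 := by
  have h1 := ((nrm_le_iff _ 1).1 (TPath2_nrm_step h k)).1
  simpa using h1
theorem Ok.row_step {γ : Pth} (h : γ.Ok) (k : ℕ) : |(γ.p (k + 1)).2 - (γ.p k).2| ≤ 1 := by
  have h1 := ((nrm_le_iff _ 1).1 (TPath2_nrm_step h k)).2
  simpa using h1
theorem Ok.nrm_step {γ : Pth} (h : γ.Ok) (c : V) (k : ℕ) :
    |(nrm (γ.p (k + 1) - c) : ℤ) - (nrm (γ.p k - c) : ℤ)| ≤ 1 := by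
  have h1 := nrm_triangle c (γ.p k) (γ.p (k + 1))
  have h2 := nrm_triangle c (γ.p (k + 1)) (γ.p k)
  have h3 := TPath2_nrm_step h k
  rw [nrm_sub_comm (γ.p k) (γ.p (k + 1))] at h2
  exact abs_le.2 ⟨by omega, by omega⟩

theorem SA.succ_le_card {γ : Pth} (h : γ.SA) {F : Finset V} (hF : γ.In (F : Set V)) :
    γ.n + 1 ≤ F.card := by
  rw [← Finset.card_range (γ.n + 1)]
  exact Finset.card_le_card_of_injOn γ.p
    (fun i hi => hF i (Nat.lt_succ_iff.1 (Finset.mem_range.1 hi)))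
    fun i hi j hj => h i (Nat.lt_succ_iff.1 (Finset.mem_range.1 hi)) j
      (Nat.lt_succ_iff.1 (Finset.mem_range.1 hj))

/-- the times in `[a,b]` spent in a finite set -/
theorem SA.card_times_le {γ : Pth} (h : γ.SA) (F : Finset V) :
    ((Finset.range (γ.n + 1)).filter (fun i => γ.p i ∈ F)).card ≤ F.card := by
  exact Finset.card_le_card_of_injOn γ.p (fun i hi => (Finset.mem_filter.1 hi).2)
    fun i hi j hj => h i (Nat.lt_succ_iff.1 (Finset.mem_range.1 (Finset.mem_filter.1 hi).1)) j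
      (Nat.lt_succ_iff.1 (Finset.mem_range.1 (Finset.mem_filter.1 hj).1))

theorem edge_inj {γ : Pth} (h : γ.Ok) (hs : γ.SA) {i j : ℕ} (hi : i < γ.n) (hj : j < γ.n)
    (he : γ.edge i = γ.edge j) : i = j := by
  rcases Sym2.eq_iff.1 he with ⟨h1, -⟩ | ⟨h1, h2⟩
  · exact hs i hi.le j hj.le h1
  · have h3 := hs i hi.le (j + 1) hj h1
    have h4 := hs (i + 1) hi j hj.le h2
    omega

theorem card_edges {γ : Pth} (h : γ.Ok) (hs : γ.SA) : γ.edges.card = γ.n := by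
  rw [edges, Finset.card_image_of_injOn fun i hi j hj =>
    edge_inj h hs (Finset.mem_range.1 hi) (Finset.mem_range.1 hj), Finset.card_range]

theorem tot_eq_sum_edges {γ : Pth} (h : γ.Ok) (hs : γ.SA) (t : Env) :
    γ.tot t = ∑ e ∈ γ.edges, t e := by
  rw [edges, Finset.sum_image fun i hi j hj =>
    edge_inj h hs (Finset.mem_range.1 hi) (Finset.mem_range.1 hj), tot, cost, Finset.range_eq_Ico]

/-- a self-avoiding lattice path is determined by its starting point and its edge set -/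
theorem eq_of_edges_eq {γ δ : Pth} (hγ : γ.Ok) (sγ : γ.SA) (hδ : δ.Ok) (sδ : δ.SA)
    (h0 : γ.p 0 = δ.p 0) (he : γ.edges = δ.edges) : γ = δ := by
  obtain ⟨h1, h2⟩ := TPath2_prefix sγ sδ h0 le_rfl fun i hi => he ▸ mem_edges.2 ⟨i, hi, rfl⟩
  obtain ⟨h3, -⟩ := TPath2_prefix sδ sγ h0.symm le_rfl
    fun i hi => he.symm ▸ mem_edges.2 ⟨i, hi, rfl⟩
  exact ext' (le_antisymm h1 h3) h2

/-- if all edges of an initial portion of `γ` are edges of `δ` (same start, both self-avoiding),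
the two paths agree on that portion -/
theorem prefix_eq_of_edges {γ δ : Pth} (hγ : γ.Ok) (sγ : γ.SA) (hδ : δ.Ok) (sδ : δ.SA)
    (h0 : γ.p 0 = δ.p 0) {k : ℕ} (hk : k ≤ γ.n) (he : ∀ i < k, γ.edge i ∈ δ.edges) :
    k ≤ δ.n ∧ ∀ i ≤ k, γ.p i = δ.p i := by
  exact TPath2_prefix sγ sδ h0 hk he

/-- loop erasure: `φ i` is the last visit of `γ` to the `i`-th point of `δ` -/
theorem exists_loop_erase {γ : Pth} (h : γ.Ok) :
    ∃ (δ : Pth) (φ : ℕ → ℕ), δ.Ok ∧ δ.SA ∧ δ.p 0 = γ.p 0 ∧ δ.p δ.n = γ.p γ.n ∧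
      (∀ i j, i < j → j ≤ δ.n → φ i < φ j) ∧ φ δ.n = γ.n ∧
      (∀ i ≤ δ.n, δ.p i = γ.p (φ i)) ∧ (∀ i < δ.n, δ.edge i = γ.edge (φ i)) := by
  obtain ⟨L, hL⟩ : ∃ L : ℕ → ℕ, ∀ k, L k ≤ γ.n ∧ (k ≤ γ.n → k ≤ L k ∧ γ.p (L k) = γ.p k) ∧
      ∀ k', L k < k' → k' ≤ γ.n → γ.p k' ≠ γ.p k :=
    ⟨fun k => Nat.findGreatest (fun k' => γ.p k' = γ.p k) γ.n, fun k =>
      ⟨Nat.findGreatest_le _, fun hk => ⟨Nat.le_findGreatest hk rfl,
        Nat.findGreatest_spec (P := fun k' => γ.p k' = γ.p k) hk rfl⟩,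
        fun k' h1 h2 => Nat.findGreatest_is_greatest (P := fun k' => γ.p k' = γ.p k) h1 h2⟩⟩
  obtain ⟨φ, hφ0, hφ⟩ : ∃ φ : ℕ → ℕ, φ 0 = L 0 ∧ ∀ i, φ (i + 1) = L (φ i + 1) :=
    ⟨fun i => Nat.rec (L 0) (fun _ k => L (k + 1)) i, rfl, fun _ => rfl⟩
  have hle : ∀ i, φ i ≤ γ.n := fun i => by
    cases i with
    | zero => rw [hφ0]; exact (hL _).1
    | succ i => rw [hφ]; exact (hL _).1
  have hstep : ∀ i, φ i < γ.n → φ i < φ (i + 1) ∧ γ.p (φ (i + 1)) = γ.p (φ i + 1) :=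
    fun i hi => by rw [hφ]; exact (hL _).2.1 hi
  have hex : ∃ i, φ i = γ.n := by
    by_contra hne
    have h1 : ∀ i, φ i < γ.n := fun i => lt_of_le_of_ne (hle i) fun h2 => hne ⟨i, h2⟩
    have h2 : StrictMono φ := strictMono_nat_of_lt_succ fun i => (hstep i (h1 i)).1
    exact absurd (h1 γ.n) (not_lt.2 h2.le_apply)
  obtain ⟨N, hN, hN'⟩ : ∃ N, φ N = γ.n ∧ ∀ i < N, φ i < γ.n :=
    ⟨Nat.find hex, Nat.find_spec hex, fun i hi => lt_of_le_of_ne (hle i) (Nat.find_min hex hi)⟩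
  have hmono : ∀ i j, i < j → j ≤ N → φ i < φ j := fun i j hij => by
    induction j, hij using Nat.le_induction with
    | base => exact fun hj => (hstep i (hN' i hj)).1
    | succ j hij ih => exact fun hj => (ih (by omega)).trans (hstep j (hN' j hj)).1
  have hlast : ∀ i ≤ N, ∀ k, φ i < k → k ≤ γ.n → γ.p k ≠ γ.p (φ i) := fun i hi k h1 h2 => by
    cases i with
    | zero =>
      rw [hφ0] at h1 ⊢
      rw [((hL 0).2.1 (Nat.zero_le _)).2]
      exact (hL 0).2.2 k h1 h2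
    | succ i =>
      rw [(hstep i (hN' i hi)).2]
      rw [hφ] at h1
      exact (hL _).2.2 k h1 h2
  have hp : ∀ i ≤ N, (of N fun i => γ.p (φ i)).p i = γ.p (φ i) := fun i hi => of_p N _ hi
  refine ⟨of N fun i => γ.p (φ i), φ, fun i hi => ?_, fun i hi j hj hij => ?_, ?_, ?_, hmono, hN,
    hp, fun i hi => ?_⟩
  · rw [hp i hi.le, hp (i + 1) hi, (hstep i (hN' i hi)).2]
    exact h _ (hN' i hi)
  · rw [hp i hi, hp j hj] at hij
    rcases lt_trichotomy i j with h1 | h1 | h1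
    · exact (hlast i hi _ (hmono i j h1 hj) (hle j) hij.symm).elim
    · exact h1
    · exact (hlast j hj _ (hmono j i h1 hi) (hle i) hij).elim
  · rw [hp 0 (Nat.zero_le _), hφ0]
    exact ((hL 0).2.1 (Nat.zero_le _)).2
  · rw [of_n, hp N le_rfl, hN]
  · rw [edge, edge, hp i hi.le, hp (i + 1) hi, (hstep i (hN' i hi)).2]

theorem Joins.exists_sa {γ : Pth} {D : Set V} {x z : V} (h : γ.Joins D x z) :
    ∃ δ : Pth, δ.Joins D x z ∧ δ.SA ∧ δ.n ≤ γ.n ∧ δ.edges ⊆ γ.edges ∧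
      ∀ t : Env, NN t → δ.tot t ≤ γ.tot t := by
  obtain ⟨δ, φ, h1, h2, h3, h4, h5, h6, h7, h8⟩ := exists_loop_erase h.1
  have hlt : ∀ i < δ.n, φ i < γ.n := fun i hi => h6 ▸ h5 i δ.n hi le_rfl
  have hge : ∀ i ≤ δ.n, i ≤ φ i := fun i hi => by
    induction i with
    | zero => exact Nat.zero_le _
    | succ i ih => exact (ih (by omega)).trans_lt (h5 i (i + 1) (by omega) hi)
  refine ⟨δ, ⟨h1, fun i hi => ?_, h3.trans h.2.2.1, h4.trans h.2.2.2⟩, h2, h6 ▸ hge _ le_rfl,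
    fun e he => ?_, fun t ht => ?_⟩
  · rw [h7 i hi]
    refine h.2.1 _ ?_
    rcases hi.eq_or_lt with rfl | hi
    · exact h6.le
    · exact (hlt i hi).le
  · obtain ⟨i, hi, rfl⟩ := mem_edges.1 he
    exact mem_edges.2 ⟨φ i, hlt i hi, (h8 i hi).symm⟩
  · have hinj : Set.InjOn φ (Finset.range δ.n : Set ℕ) := fun i hi j hj hij => by
      have hi' := Finset.mem_range.1 hi
      have hj' := Finset.mem_range.1 hj
      rcases lt_trichotomy i j with h9 | h9 | h9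
      · exact absurd hij (h5 i j h9 hj'.le).ne
      · exact h9
      · exact absurd hij (h5 j i h9 hi'.le).ne'
    rw [tot, tot, cost, cost, ← Finset.range_eq_Ico, ← Finset.range_eq_Ico,
      Finset.sum_congr rfl fun i hi => congrArg t (h8 i (Finset.mem_range.1 hi)),
      ← Finset.sum_image (f := fun k => t (γ.edge k)) hinj]
    refine Finset.sum_le_sum_of_subset_of_nonneg (fun k hk => ?_) fun _ _ _ => ht _
    obtain ⟨i, hi, rfl⟩ := Finset.mem_image.1 hk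
    exact Finset.mem_range.2 (hlt i (Finset.mem_range.1 hi))

/-- the lattice paths from `x` with `n` steps form a finset with at most `4^n` elements -/
theorem exists_finset_paths (x : V) (n : ℕ) :
    ∃ S : Finset Pth, S.card ≤ 4 ^ n ∧ ∀ γ : Pth, γ ∈ S ↔ γ.Ok ∧ γ.p 0 = x ∧ γ.n = n := by
  let dir : Fin 4 → V := ![(0, 1), (0, -1), (1, 0), (-1, 0)]
  let Φ : (Fin n → Fin 4) → Pth := fun w =>
    of n fun i => x + ∑ k ∈ Finset.range i, if h : k < n then dir (w ⟨k, h⟩) else 0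
  refine ⟨(Finset.univ.image Φ).filter fun γ => γ.Ok ∧ γ.p 0 = x ∧ γ.n = n,
    (Finset.card_filter_le _ _).trans (Finset.card_image_le.trans (by simp)),
    fun γ => ⟨fun h => (Finset.mem_filter.1 h).2, fun h => Finset.mem_filter.2 ⟨?_, h⟩⟩⟩
  obtain ⟨h1, h2, h3⟩ := h
  have h4 : ∀ k : Fin n, ∃ d : Fin 4, γ.p (k + 1) = γ.p k + dir d := fun k => by
    rcases (adj_iff _ _).1 (h1 k (h3 ▸ k.2)) with ⟨h5, h6 | h6⟩ | ⟨h5, h6 | h6⟩
    · exact ⟨0, Prod.ext (by simp [dir, h5]) (by simp [dir, h6])⟩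
    · exact ⟨1, Prod.ext (by simp [dir, h5]) (by simp [dir, h6])⟩
    · exact ⟨2, Prod.ext (by simp [dir, h6]) (by simp [dir, h5])⟩
    · exact ⟨3, Prod.ext (by simp [dir, h6]) (by simp [dir, h5])⟩
  choose w hw using h4
  refine Finset.mem_image.2 ⟨w, Finset.mem_univ _, ext' h3.symm fun i hi => ?_⟩
  have hi' : i ≤ n := hi
  rw [of_p n _ hi']
  clear hi
  induction i with
  | zero => simp [h2]
  | succ i ih =>
    rw [Finset.sum_range_succ, ← add_assoc, ih (by omega), dif_pos (by omega : i < n)]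
    exact (hw ⟨i, hi'⟩).symm

theorem finite_sa_in {D : Set V} (hD : D.Finite) : {γ : Pth | γ.SA ∧ γ.In D}.Finite := by
  refine ((Set.finite_Iio hD.toFinset.card).biUnion fun n _ =>
    (Set.Finite.pi' fun _ : Fin (n + 1) => hD).image (Pth.mk n)).subset ?_
  rintro γ ⟨h1, h2⟩
  refine Set.mem_biUnion (x := γ.n) (h1.succ_le_card (by simpa using h2)) ⟨γ.f, fun i => ?_, rfl⟩
  have h3 := h2 i (Nat.lt_succ_iff.1 i.2)
  simpa only [p, min_eq_left (Nat.lt_succ_iff.1 i.2)] using h3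

/-- a monotone staircase from `x` to `z` that stays within distance `1` of the segment -/
theorem exists_stair (x z : V) :
    ∃ γ : Pth, γ.SA ∧ γ.Joins (rect (min x.1 z.1) (max x.1 z.1) (min x.2 z.2) (max x.2 z.2)) x z ∧
      γ.n = (z.1 - x.1).natAbs + (z.2 - x.2).natAbs ∧ γ.n ≤ 2 * nrm (z - x) ∧
      (∀ i ≤ γ.n, ∃ s : ℝ, 0 ≤ s ∧ s ≤ 1 ∧ ‖rv (γ.p i) - (rv x + s • (rv z - rv x))‖ ≤ 1) ∧
      (x.1 ≤ z.1 → ∀ i j, i ≤ j → (γ.p i).1 ≤ (γ.p j).1) := by
  obtain ⟨u, v, huv, hu, hv, hN, hs⟩ := TPath2_stair (z.1 - x.1).natAbs (z.2 - x.2).natAbs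
  obtain ⟨σ, hσ, hσ', hσ''⟩ : ∃ σ : ℤ, (σ = 1 ∨ σ = -1) ∧ z.1 - x.1 = σ * (z.1 - x.1).natAbs ∧
      (x.1 ≤ z.1 → σ = 1) := by
    rcases le_or_gt x.1 z.1 with h | h
    · exact ⟨1, Or.inl rfl, by omega, fun _ => rfl⟩
    · exact ⟨-1, Or.inr rfl, by omega, fun h' => by omega⟩
  obtain ⟨τ, hτ, hτ'⟩ : ∃ τ : ℤ, (τ = 1 ∨ τ = -1) ∧ z.2 - x.2 = τ * (z.2 - x.2).natAbs := by
    rcases le_or_gt x.2 z.2 with h | h
    · exact ⟨1, Or.inl rfl, by omega⟩
    · exact ⟨-1, Or.inr rfl, by omega⟩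
  have hn : (z.1 - x.1).natAbs + (z.2 - x.2).natAbs ≤ 2 * nrm (z - x) := by
    simp only [nrm, Prod.fst_sub, Prod.snd_sub]; omega
  generalize (z.1 - x.1).natAbs = a at *
  generalize (z.2 - x.2).natAbs = b at *
  have hN' : v (a + b) = b := by have := huv (a + b); omega
  have hp : ∀ i ≤ a + b, (of (a + b) fun i => (x.1 + σ * u i, x.2 + τ * v i)).p i =
      (x.1 + σ * u i, x.2 + τ * v i) := fun i hi => of_p _ _ hi
  refine ⟨of (a + b) fun i => (x.1 + σ * u i, x.2 + τ * v i), fun i hi j hj hij => ?_,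
    ⟨fun i hi => ?_, fun i hi => ?_, ?_, ?_⟩, rfl, hn, fun i hi => ?_, fun h i j hij => ?_⟩
  · rw [hp i hi, hp j hj, Prod.mk.injEq] at hij
    have h1 := huv i
    have h2 := huv j
    rcases hσ with rfl | rfl <;> rcases hτ with rfl | rfl <;> omega
  · rw [hp i hi.le, hp (i + 1) hi, adj_iff]
    have h1 := huv i
    have h2 := huv (i + 1)
    have h3 := hu (Nat.le_succ i)
    have h4 := hv (Nat.le_succ i)
    simp only [Nat.succ_eq_add_one] at h3 h4 ⊢
    rcases hσ with rfl | rfl <;> rcases hτ with rfl | rfl <;> omega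
  · rw [hp i hi]
    have h1 := hu (show i ≤ a + b from hi)
    have h2 := hv (show i ≤ a + b from hi)
    simp only [rect, Set.mem_setOf_eq]
    rcases hσ with rfl | rfl <;> rcases hτ with rfl | rfl <;> omega
  · rw [hp 0 (Nat.zero_le _)]
    have h1 := huv 0
    exact Prod.ext (by simp [show u 0 = 0 by omega]) (by simp [show v 0 = 0 by omega])
  · rw [of_n, hp _ le_rfl, hN, hN']
    exact Prod.ext (by simp only; omega) (by simp only; omega)
  · obtain ⟨s, h1, h2, h3, h4⟩ := hs i hi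
    refine ⟨s, h1, h2, ?_⟩
    have e1 : (z.1 : ℝ) - x.1 = σ * a := by exact_mod_cast hσ'
    have e2 : (z.2 : ℝ) - x.2 = τ * b := by exact_mod_cast hτ'
    rw [hp i hi, Prod.norm_def]
    simp only [rv, Prod.fst_sub, Prod.snd_sub, Prod.fst_add, Prod.snd_add, Prod.smul_fst,
      Prod.smul_snd, smul_eq_mul, Real.norm_eq_abs, e1, e2]
    rw [abs_le] at h3 h4
    refine max_le (abs_le.2 ?_) (abs_le.2 ?_)
    · rcases hσ with rfl | rfl <;> push_cast <;> constructor <;> linarith [h3.1, h3.2]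
    · rcases hτ with rfl | rfl <;> push_cast <;> constructor <;> linarith [h4.1, h4.2]
  · have h1 := hu (min_le_min_right (a + b) hij)
    change x.1 + σ * u (min i (a + b)) ≤ x.1 + σ * u (min j (a + b))
    rw [hσ'' h]
    omega

end Pth

end Crest.Agent.R151
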