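import Crest.Agent.R151.TPeierls1

/-! Row 151 toolkit: bad cells visited by lattice paths (K9b). -/

set_option autoImplicit false

namespace Crest.Agent.R151

open MeasureTheory ProbabilityTheory Crest.ProbabilityR.FirstPassage
open scoped Classical

/-- offsets of the nine cells around a cell, the centre first -/
def tp2_off (k : ℕ) : V := ((((k + 4) % 9 % 3 : ℕ) : ℤ) - 1, (((k + 4) % 9 / 3 : ℕ) : ℤ) - 1)

theorem tp2_off_nrm (k : ℕ) : nrm (tp2_off k) ≤ 1 := by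
  simp only [nrm, tp2_off]
  omega

theorem tp2_off_zero : tp2_off 0 = 0 := by decide

theorem tp2_off_surj {d : V} (hd : nrm d ≤ 1) : ∃ k < 9, tp2_off k = d := by
  obtain ⟨a, b⟩ := d
  simp only [nrm] at hd
  have ha : -1 ≤ a ∧ a ≤ 1 := by omega
  have hb : -1 ≤ b ∧ b ≤ 1 := by omega
  obtain ⟨ha1, ha2⟩ := ha
  obtain ⟨hb1, hb2⟩ := hb
  interval_cases a <;> interval_cases b <;> decide

theorem tp2_block {ℓ : ℕ} (hℓ : 1 ≤ ℓ) {γ : Pth} (hγ : γ.Ok) {i j : ℕ} (h1 : j * ℓ ≤ i)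
    (h2 : i ≤ (j + 1) * ℓ) : nrm (cell ℓ (γ.p i) - cell ℓ (γ.p (j * ℓ))) ≤ 1 := by
  refine nrm_cell_sub hℓ _ _ 1 ((hγ.nrm_sub_le h1).trans ?_)
  rw [add_mul] at h2
  omega

theorem tp2_block' {ℓ : ℕ} (hℓ : 1 ≤ ℓ) {γ : Pth} (hγ : γ.Ok) (i : ℕ) :
    nrm (cell ℓ (γ.p i) - cell ℓ (γ.p (i / ℓ * ℓ))) ≤ 1 := by
  refine tp2_block hℓ hγ (Nat.div_mul_le_self _ _) ?_
  have := Nat.lt_div_mul_add (a := i) (b := ℓ) hℓ
  rw [add_mul]
  omega

theorem tp2_nbad_le (ℓ : ℕ) (A : V → Set Env) (t : Env) (γ : Pth) : γ.nbad ℓ A t ≤ γ.n + 1 :=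
  (Finset.card_filter_le _ _).trans (Finset.card_image_le.trans (Finset.card_range _).le)

/-- the cells visited by a path are covered by a chain of small total variation -/
theorem exists_cell_chain {ℓ : ℕ} (hℓ : 1 ≤ ℓ) {γ : Pth} (hγ : γ.Ok) :
    ∃ (n : ℕ) (c : ℕ → V), c 0 = cell ℓ (γ.p 0) ∧
      ∑ j ∈ Finset.range n, nrm (c (j + 1) - c j) ≤ 20 * (γ.n / ℓ + 1) ∧
      ∀ i ≤ γ.n, ∃ j ≤ n, c j = cell ℓ (γ.p i) := by
  refine ⟨9 * (γ.n / ℓ + 1), fun m => cell ℓ (γ.p (m / 9 * ℓ)) + tp2_off (m % 9), ?_, ?_, ?_⟩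
  · simp [tp2_off_zero]
  · have hstep : ∀ m : ℕ, nrm ((cell ℓ (γ.p ((m + 1) / 9 * ℓ)) + tp2_off ((m + 1) % 9)) -
        (cell ℓ (γ.p (m / 9 * ℓ)) + tp2_off (m % 9))) ≤ 2 := by
      intro m
      by_cases hm : (m + 1) % 9 = 0
      · have e : (m + 1) / 9 = m / 9 + 1 := by omega
        rw [hm, tp2_off_zero, e]
        have h1 := tp2_block hℓ hγ (i := (m / 9 + 1) * ℓ) (j := m / 9)
          (Nat.mul_le_mul_right _ (Nat.le_succ _)) le_rfl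
        have h2 := tp2_off_nrm (m % 9)
        have h3 := nrm_add_le (cell ℓ (γ.p ((m / 9 + 1) * ℓ)) - cell ℓ (γ.p (m / 9 * ℓ)))
          (-tp2_off (m % 9))
        rw [nrm_neg] at h3
        rw [show cell ℓ (γ.p ((m / 9 + 1) * ℓ)) + 0 - (cell ℓ (γ.p (m / 9 * ℓ)) + tp2_off (m % 9)) =
          cell ℓ (γ.p ((m / 9 + 1) * ℓ)) - cell ℓ (γ.p (m / 9 * ℓ)) + -tp2_off (m % 9) by abel]
        omega
      · have e : (m + 1) / 9 = m / 9 := by omega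
        rw [e]
        have h1 := tp2_off_nrm ((m + 1) % 9)
        have h2 := tp2_off_nrm (m % 9)
        have h3 := nrm_add_le (tp2_off ((m + 1) % 9)) (-tp2_off (m % 9))
        rw [nrm_neg] at h3
        rw [show cell ℓ (γ.p (m / 9 * ℓ)) + tp2_off ((m + 1) % 9) -
          (cell ℓ (γ.p (m / 9 * ℓ)) + tp2_off (m % 9)) =
          tp2_off ((m + 1) % 9) + -tp2_off (m % 9) by abel]
        omega
    refine (Finset.sum_le_card_nsmul _ _ 2 fun m _ => hstep m).trans ?_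
    rw [Finset.card_range, smul_eq_mul]
    omega
  · intro i hi
    obtain ⟨k, hk, hk'⟩ := tp2_off_surj (tp2_block' hℓ hγ i)
    have hj : i / ℓ ≤ γ.n / ℓ := Nat.div_le_div_right hi
    refine ⟨9 * (i / ℓ) + k, by omega, ?_⟩
    have e1 : (9 * (i / ℓ) + k) / 9 = i / ℓ := by omega
    have e2 : (9 * (i / ℓ) + k) % 9 = k := by omega
    simp only [e1, e2, hk']
    abel

/-- number of cells visited -/
theorem card_cells_le {ℓ : ℕ} (hℓ : 1 ≤ ℓ) {γ : Pth} (hγ : γ.Ok) :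
    ((Finset.range (γ.n + 1)).image (fun i => cell ℓ (γ.p i))).card ≤ 9 * (γ.n / ℓ + 1) := by
  have hsub : (Finset.range (γ.n + 1)).image (fun i => cell ℓ (γ.p i)) ⊆
      (Finset.range (γ.n / ℓ + 1)).biUnion (fun j => boxF (cell ℓ (γ.p (j * ℓ))) 1) := by
    intro c hc
    obtain ⟨i, hi, rfl⟩ := Finset.mem_image.1 hc
    have hj : i / ℓ ≤ γ.n / ℓ := Nat.div_le_div_right (Nat.lt_succ_iff.1 (Finset.mem_range.1 hi))
    exact Finset.mem_biUnion.2 ⟨i / ℓ, Finset.mem_range.2 (by omega),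
      mem_boxF.2 (tp2_block' hℓ hγ i)⟩
  refine (Finset.card_le_card hsub).trans ((Finset.card_biUnion_le_card_mul _ _ 9 fun j _ => ?_).trans ?_)
  · rw [card_boxF]
    norm_num
  · rw [Finset.card_range, mul_comm]

theorem nbad_le {ℓ : ℕ} (hℓ : 1 ≤ ℓ) {γ : Pth} (hγ : γ.Ok) (A : V → Set Env) (t : Env) :
    γ.nbad ℓ A t ≤ 9 * (γ.n / ℓ + 1) := by
  exact (Finset.card_filter_le _ _).trans (card_cells_le hℓ hγ)

/-- times spent by a self-avoiding path in bad cells -/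
theorem card_bad_times_le {ℓ : ℕ} (hℓ : 1 ≤ ℓ) {γ : Pth} (hs : γ.SA) (A : V → Set Env) (t : Env) :
    ((Finset.range (γ.n + 1)).filter (fun i => t ∈ A (cell ℓ (γ.p i)))).card ≤
      ℓ ^ 2 * γ.nbad ℓ A t := by
  set P := (Finset.range (γ.n + 1)).image γ.p with hP
  set B := ((Finset.range (γ.n + 1)).image (fun i => cell ℓ (γ.p i))).filter (fun c => t ∈ A c)
    with hB
  have hsub : (Finset.range (γ.n + 1)).filter (fun i => t ∈ A (cell ℓ (γ.p i))) ⊆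
      (Finset.range (γ.n + 1)).filter
        (fun i => γ.p i ∈ B.biUnion (fun c => P.filter (fun x => cell ℓ x = c))) := by
    intro i hi
    obtain ⟨h1, h2⟩ := Finset.mem_filter.1 hi
    refine Finset.mem_filter.2 ⟨h1, Finset.mem_biUnion.2 ⟨cell ℓ (γ.p i), ?_, ?_⟩⟩
    · exact Finset.mem_filter.2 ⟨Finset.mem_image.2 ⟨i, h1, rfl⟩, h2⟩
    · exact Finset.mem_filter.2 ⟨Finset.mem_image.2 ⟨i, h1, rfl⟩, rfl⟩
  refine (Finset.card_le_card hsub).trans ?_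
  refine le_trans (by convert hs.card_times_le _) ?_
  refine (Finset.card_biUnion_le_card_mul _ _ (ℓ ^ 2) fun c _ => ?_).trans ?_
  · convert card_filter_cell_le hℓ c P
  · rw [mul_comm]
    rfl

theorem peierls_path (G : Measure ℝ) [IsProbabilityMeasure G] {ℓ K : ℕ} (hℓ : 1 ≤ ℓ) {p : ℝ}
    {A : V → Set Env} (hA : LocFam G ℓ K p A) (x : V) (n r : ℕ) (hr : 1 ≤ r) :
    Pr G {t | ∃ γ : Pth, γ.Ok ∧ γ.p 0 = x ∧ γ.n ≤ n ∧ (2 * K + 1) ^ 2 * r ≤ γ.nbad ℓ A t} ≤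
      (100000 * ((n : ℝ) / ℓ + 1) ^ 2 * p / (r : ℝ) ^ 2) ^ r := by
  have hp : 0 ≤ p := (Pr_nonneg G _).trans (hA 0).2.2
  have h := peierls_chain G (A := A) (S := fun c => ED (box ((ℓ : ℤ) • c) (K * ℓ))) (R := 2 * K)
    (p := p) (fun c => (hA c).1) (fun c => (hA c).2.1) (fun c c' hc => by
      refine disjoint_ED (disjoint_box ?_)
      rw [← smul_sub, nrm_smul]
      nlinarith) (fun c => (hA c).2.2) (cell ℓ x) (20 * (n / ℓ + 1)) r hr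
  refine le_trans (Pr_mono G ?_) (h.trans ?_)
  · rintro t ⟨γ, hγ, h0, hn, hb⟩
    obtain ⟨m, c, c0, c1, c2⟩ := exists_cell_chain hℓ hγ
    have hj : γ.n / ℓ ≤ n / ℓ := Nat.div_le_div_right hn
    refine ⟨m, c, by rw [c0, h0], c1.trans (by omega), hb.trans (Finset.card_le_card ?_)⟩
    intro a ha
    obtain ⟨h1, h2⟩ := Finset.mem_filter.1 ha
    obtain ⟨i, hi, rfl⟩ := Finset.mem_image.1 h1
    obtain ⟨j, hj, hj'⟩ := c2 i (Nat.lt_succ_iff.1 (Finset.mem_range.1 hi))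
    exact Finset.mem_filter.2 ⟨Finset.mem_image.2 ⟨j, Finset.mem_range.2 (by omega), hj'⟩, h2⟩
  · have h1 : ((n / ℓ : ℕ) : ℝ) ≤ (n : ℝ) / ℓ := Nat.cast_div_le
    have h2 : (0 : ℝ) ≤ ((n / ℓ : ℕ) : ℝ) := Nat.cast_nonneg _
    have h3 : (((20 * (n / ℓ + 1) : ℕ) : ℝ) + 1) ≤ 21 * ((n : ℝ) / ℓ + 1) := by
      push_cast
      linarith
    have h4 : (((20 * (n / ℓ + 1) : ℕ) : ℝ) + 1) ^ 2 ≤ (21 * ((n : ℝ) / ℓ + 1)) ^ 2 :=
      pow_le_pow_left₀ (by positivity) h3 2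
    refine pow_le_pow_left₀ (by positivity) ?_ r
    refine div_le_div_of_nonneg_right (mul_le_mul_of_nonneg_right ?_ hp) (by positivity)
    nlinarith [sq_nonneg ((n : ℝ) / ℓ + 1)]

/-- the largest number of bad cells visited by a path from `x` with at most `n` steps -/
noncomputable def maxbad (ℓ : ℕ) (A : V → Set Env) (x : V) (n : ℕ) (t : Env) : ℕ :=
  sSup {k | ∃ γ : Pth, γ.Ok ∧ γ.p 0 = x ∧ γ.n ≤ n ∧ k = γ.nbad ℓ A t}

theorem tp2_bdd (ℓ : ℕ) (A : V → Set Env) (x : V) (n : ℕ) (t : Env) :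
    BddAbove {k | ∃ γ : Pth, γ.Ok ∧ γ.p 0 = x ∧ γ.n ≤ n ∧ k = γ.nbad ℓ A t} := by
  refine ⟨n + 1, ?_⟩
  rintro _ ⟨γ, -, -, h, rfl⟩
  exact (tp2_nbad_le ℓ A t γ).trans (by omega)

theorem nbad_le_maxbad (ℓ : ℕ) (A : V → Set Env) {x : V} {n : ℕ} (t : Env) {γ : Pth} (hγ : γ.Ok)
    (h0 : γ.p 0 = x) (hn : γ.n ≤ n) : γ.nbad ℓ A t ≤ maxbad ℓ A x n t := by
  exact le_csSup (tp2_bdd ℓ A x n t) ⟨γ, hγ, h0, hn, rfl⟩
theorem exists_nbad_eq_maxbad (ℓ : ℕ) (A : V → Set Env) (x : V) (n : ℕ) (t : Env) :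
    ∃ γ : Pth, γ.Ok ∧ γ.p 0 = x ∧ γ.n ≤ n ∧ maxbad ℓ A x n t = γ.nbad ℓ A t := by
  refine Nat.sSup_mem (s := {k | ∃ γ : Pth, γ.Ok ∧ γ.p 0 = x ∧ γ.n ≤ n ∧ k = γ.nbad ℓ A t}) ?_
    (tp2_bdd ℓ A x n t)
  exact ⟨_, Pth.of 0 (fun _ => x), fun i hi => absurd hi (Nat.not_lt_zero _),
    Pth.of_p 0 _ le_rfl, Nat.zero_le _, rfl⟩
theorem maxbad_le (ℓ : ℕ) (A : V → Set Env) (x : V) (n : ℕ) (t : Env) :
    maxbad ℓ A x n t ≤ n + 1 := by
  obtain ⟨γ, -, -, h, he⟩ := exists_nbad_eq_maxbad ℓ A x n t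
  rw [he]
  exact (tp2_nbad_le ℓ A t γ).trans (by omega)
theorem measurable_maxbad (ℓ : ℕ) {A : V → Set Env} (hA : ∀ c, MeasurableSet (A c)) (x : V) (n : ℕ) :
    Measurable (maxbad ℓ A x n) := by
  refine measurable_to_countable' fun k => ?_
  have e : maxbad ℓ A x n ⁻¹' {k} =
      {t | ∃ γ : Pth, (γ.Ok ∧ γ.p 0 = x ∧ γ.n ≤ n) ∧ γ.nbad ℓ A t = k} ∩
        {t | ∀ γ : Pth, (γ.Ok ∧ γ.p 0 = x ∧ γ.n ≤ n) → γ.nbad ℓ A t ≤ k} := by
    ext t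
    simp only [Set.mem_preimage, Set.mem_singleton_iff, Set.mem_inter_iff, Set.mem_ofPred_eq]
    constructor
    · rintro rfl
      obtain ⟨γ, h1, h2, h3, he⟩ := exists_nbad_eq_maxbad ℓ A x n t
      exact ⟨⟨γ, ⟨h1, h2, h3⟩, he.symm⟩, fun δ h => nbad_le_maxbad ℓ A t h.1 h.2.1 h.2.2⟩
    · rintro ⟨⟨γ, h, rfl⟩, h'⟩
      obtain ⟨δ, h1, h2, h3, he⟩ := exists_nbad_eq_maxbad ℓ A x n t
      exact le_antisymm (he ▸ h' δ ⟨h1, h2, h3⟩) (nbad_le_maxbad ℓ A t h.1 h.2.1 h.2.2)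
  rw [e]
  refine (measurableSet_exists_pth fun γ => ?_).inter (measurableSet_forall_pth fun γ => ?_)
  · by_cases h : γ.Ok ∧ γ.p 0 = x ∧ γ.n ≤ n
    · simp only [h, true_and, and_self]
      exact measurable_nbad γ ℓ hA (measurableSet_singleton k)
    · simp only [h, false_and, Set.ofPred_false, MeasurableSet.empty]
  · by_cases h : γ.Ok ∧ γ.p 0 = x ∧ γ.n ≤ n
    · simp only [h, and_self, forall_const]
      exact measurable_nbad γ ℓ hA (MeasurableSet.of_discrete (s := {m | m ≤ k}))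
    · simp only [h, false_imp_iff, Set.ofPred_true, MeasurableSet.univ]

end Crest.Agent.R151
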