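import Crest.Agent.R151.TIndep

/-! Row 151 toolkit: resampling finitely many edges, one-coordinate sections. -/

set_option autoImplicit false

namespace Crest.Agent.R151

open MeasureTheory ProbabilityTheory Crest.ProbabilityR.FirstPassage
open scoped Classical

variable (G : Measure ℝ) [IsProbabilityMeasure G]

/-- take the weights of `F` from the second environment -/
noncomputable def trGlue (F : Finset (Sym2 V)) (p : Env × Env) : Env :=
  fun e => if e ∈ F then p.2 e else p.1 e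

theorem measurable_trGlue (F : Finset (Sym2 V)) : Measurable (trGlue F) := by
  refine measurable_pi_lambda _ fun e => ?_
  unfold trGlue
  split_ifs <;> fun_prop

theorem trGlue_mp (F : Finset (Sym2 V)) :
    MeasurePreserving (trGlue F) ((iidLaw G).prod (iidLaw G)) (iidLaw G) := by
  refine ⟨measurable_trGlue F, ?_⟩
  conv_rhs => unfold iidLaw
  apply Measure.eq_infinitePi
  intro s t ht
  rw [Measure.map_apply (measurable_trGlue F) (.pi s.countable_toSet fun i _ => ht i)]
  have : trGlue F ⁻¹' (Set.pi s t) = (Set.pi (s.filter fun e => ¬ e ∈ F) t) ×ˢ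
      (Set.pi (s.filter fun e => e ∈ F) t) := by
    ext p
    simp only [Set.mem_preimage, Set.mem_pi, Finset.mem_coe, Set.mem_prod, Finset.mem_filter, trGlue]
    constructor
    · intro h
      exact ⟨fun e he => by simpa [he.2] using h e he.1, fun e he => by simpa [he.2] using h e he.1⟩
    · intro h e he
      split_ifs with hF
      · exact h.2 e ⟨he, hF⟩
      · exact h.1 e ⟨he, hF⟩
  rw [this, Measure.prod_prod]
  unfold iidLaw
  rw [Measure.infinitePi_pi _ fun i _ => ht i, Measure.infinitePi_pi _ fun i _ => ht i, mul_comm,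
    Finset.prod_filter_mul_prod_filter_not]

/-- resampling the edges of `F` into the set `L`; `Ω0` is a full-measure set of nice environments -/
theorem resample (F : Finset (Sym2 V)) {L : Set ℝ} (hL : MeasurableSet L) {A B Ω0 : Set Env}
    (hA : MeasurableSet A) (hB : MeasurableSet B) (hΩ : MeasurableSet Ω0)
    (hΩ1 : ∀ᵐ t ∂(iidLaw G), t ∈ Ω0)
    (h : ∀ t ∈ A, ∀ t' ∈ Ω0, (∀ e, e ∉ F → t' e = t e) → (∀ e ∈ F, t' e ∈ L) → t' ∈ B) :
    G.real L ^ F.card * Pr G A ≤ Pr G B := by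
  have h1 : Pr G (B ∪ Ω0ᶜ) ≤ Pr G B :=
    Pr_mono_ae G (hΩ1.mono fun t ht h' => h'.resolve_right fun h'' => h'' ht)
  refine le_trans ?_ h1
  rw [← Pr_forall_eval G F hL, mul_comm]
  unfold Pr
  rw [← (trGlue_mp G F).measureReal_preimage (hB.union hΩ.compl).nullMeasurableSet,
    ← measureReal_prod_prod]
  refine measureReal_mono fun p hp => ?_
  by_cases hp0 : trGlue F p ∈ Ω0
  · exact Or.inl (h p.1 hp.1 _ hp0 (fun e he => if_neg he) fun e he => by
      rw [trGlue, if_pos he]; exact hp.2 e he)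
  · exact Or.inr hp0

/-- lowering all high edges of `F` -/
theorem resample_hi (F : Finset (Sym2 V)) {A B Ω0 : Set Env}
    (hA : MeasurableSet A) (hB : MeasurableSet B) (hΩ : MeasurableSet Ω0)
    (hΩ1 : ∀ᵐ t ∂(iidLaw G), t ∈ Ω0)
    (h : ∀ t ∈ A, ∀ t' ∈ Ω0, (∀ e, (e ∉ F ∨ t e ∉ hi G) → t' e = t e) →
      (∀ e ∈ F, t e ∈ hi G → t' e ∈ lo G) → t' ∈ B) :
    (G.real (lo G) / 2) ^ F.card * Pr G A ≤ Pr G B := by
  have h0 : 0 ≤ G.real (lo G) := measureReal_nonneg
  have h1 : G.real (lo G) ≤ 1 := measureReal_le_one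
  have key : ∀ S ∈ F.powerset, G.real (lo G) ^ F.card *
      Pr G (A ∩ {t | ∀ e ∈ F, t e ∈ hi G ↔ e ∈ S}) ≤ Pr G B := by
    intro S hS
    rw [Finset.mem_powerset] at hS
    have hm : MeasurableSet {t : Env | ∀ e ∈ F, t e ∈ hi G ↔ e ∈ S} := by
      simp only [Set.ofPred_forall]
      refine MeasurableSet.iInter fun e => MeasurableSet.iInter fun _ => ?_
      have := (measurable_pi_apply (X := fun _ : Sym2 V => ℝ) e) (measurableSet_hi G)
      by_cases he : e ∈ S
      · simp only [he, iff_true]; exact this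
      · simp only [he, iff_false]; exact this.compl
    refine le_trans ?_ (resample G S (measurableSet_lo G) (hA.inter hm) hB hΩ hΩ1 ?_)
    · exact mul_le_mul_of_nonneg_right (pow_le_pow_of_le_one h0 h1 (Finset.card_le_card hS))
        (Pr_nonneg G _)
    · intro t ht t' ht' e1 e2
      refine h t ht.1 t' ht' (fun e he => e1 e fun heS => ?_) fun e he hh => e2 e ((ht.2 e he).1 hh)
      rcases he with he | he
      · exact he (hS heS)
      · exact he ((ht.2 e (hS heS)).2 heS)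
  have h2 : Pr G A ≤ ∑ S ∈ F.powerset, Pr G (A ∩ {t | ∀ e ∈ F, t e ∈ hi G ↔ e ∈ S}) :=
    Pr_le_sum_of_ae G _ _ (Filter.Eventually.of_forall fun t ht =>
      ⟨F.filter fun e => t e ∈ hi G, Finset.mem_powerset.2 (Finset.filter_subset _ _), ht,
        fun e he => by simp [he]⟩)
  have h3 := Finset.sum_le_card_nsmul _ _ _ key
  rw [← Finset.mul_sum, Finset.card_powerset, nsmul_eq_mul] at h3
  have h4 := mul_le_mul_of_nonneg_left h2 (pow_nonneg h0 F.card)
  rw [div_pow, div_mul_eq_mul_div, div_le_iff₀ (by positivity)]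
  push_cast at h3
  linarith

/-- summed form: a countable family `(A i, F i, B i)`; the number of `B i` that occur is
dominated by `N` -/
theorem resample_hi_sum {ι : Type*} [Countable ι] (F : ι → Finset (Sym2 V)) (m : ℕ)
    (hm : ∀ i, (F i).card ≤ m) {A B : ι → Set Env} {Ω0 : Set Env}
    (hA : ∀ i, MeasurableSet (A i)) (hB : ∀ i, MeasurableSet (B i)) (hΩ : MeasurableSet Ω0)
    (hΩ1 : ∀ᵐ t ∂(iidLaw G), t ∈ Ω0)
    (h : ∀ i, ∀ t ∈ A i, ∀ t' ∈ Ω0, (∀ e, (e ∉ F i ∨ t e ∉ hi G) → t' e = t e) →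
      (∀ e ∈ F i, t e ∈ hi G → t' e ∈ lo G) → t' ∈ B i)
    {N : Env → ℝ} (hN : Integrable N (iidLaw G))
    (hcount : ∀ᵐ t ∂(iidLaw G), ∀ s : Finset ι, (∀ i ∈ s, t ∈ B i) → (s.card : ℝ) ≤ N t)
    {M : Env → ℝ} (hM : Integrable M (iidLaw G))
    (hcountA : ∀ᵐ t ∂(iidLaw G), ∃ s : Finset ι, (∀ i ∈ s, t ∈ A i) ∧ M t ≤ (s.card : ℝ)) :
    (G.real (lo G) / 2) ^ m * ∫ t, M t ∂(iidLaw G) ≤ ∫ t, N t ∂(iidLaw G) := by
  have h0 : 0 ≤ G.real (lo G) / 2 := by positivity
  have h1 : G.real (lo G) / 2 ≤ 1 := by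
    have : G.real (lo G) ≤ 1 := measureReal_le_one
    linarith
  set c := (G.real (lo G) / 2) ^ m with hc
  have hc0 : 0 ≤ c := pow_nonneg h0 m
  have key : ∀ i, c * Pr G (A i) ≤ Pr G (B i) := fun i =>
    (mul_le_mul_of_nonneg_right (pow_le_pow_of_le_one h0 h1 (hm i)) (Pr_nonneg G _)).trans
      (resample_hi G (F i) (hA i) (hB i) hΩ hΩ1 (h i))
  have hN0 : 0 ≤ ∫ t, N t ∂(iidLaw G) :=
    integral_nonneg_of_ae (hcount.mono fun t ht => by simpa using ht ∅ (by simp))
  have hBs : ∑' i, iidLaw G (B i) ≤ ENNReal.ofReal (∫ t, N t ∂(iidLaw G)) := by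
    rw [ENNReal.tsum_eq_iSup_sum]
    refine iSup_le fun s => ?_
    have := sum_Pr_le_integral G s hB hN
      (hcount.mono fun t ht => ht _ fun i hi => (Finset.mem_filter.1 hi).2)
    refine le_trans (le_of_eq ?_) (ENNReal.ofReal_le_ofReal this)
    rw [ENNReal.ofReal_sum_of_nonneg fun i _ => Pr_nonneg G _]
    exact Finset.sum_congr rfl fun i _ => (ofReal_measureReal).symm
  have hAs : ENNReal.ofReal (∫ t, max (M t) 0 ∂(iidLaw G)) ≤ ∑' i, iidLaw G (A i) := by
    rw [ofReal_integral_eq_lintegral_ofReal hM.pos_part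
      (Filter.Eventually.of_forall fun t => le_max_right _ _)]
    calc _ ≤ ∫⁻ t, ∑' i, (A i).indicator 1 t ∂(iidLaw G) := by
          refine lintegral_mono_ae (hcountA.mono fun t ⟨s, hs, hle⟩ => ?_)
          refine le_trans ?_ (ENNReal.sum_le_tsum s)
          rw [Finset.sum_congr rfl fun i hi => Set.indicator_of_mem (hs i hi) _]
          simp only [Pi.one_apply, Finset.sum_const, nsmul_eq_mul, mul_one]
          rw [← ENNReal.ofReal_natCast]
          exact ENNReal.ofReal_le_ofReal (max_le hle (Nat.cast_nonneg _))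
      _ = ∑' i, iidLaw G (A i) := by
          rw [lintegral_tsum fun i => (measurable_one.indicator (hA i)).aemeasurable]
          exact tsum_congr fun i => lintegral_indicator_one (hA i)
  have h2 : ENNReal.ofReal (c * ∫ t, max (M t) 0 ∂(iidLaw G)) ≤
      ENNReal.ofReal (∫ t, N t ∂(iidLaw G)) := by
    rw [ENNReal.ofReal_mul hc0]
    refine (mul_le_mul_right hAs _).trans (le_trans ?_ hBs)
    rw [← ENNReal.tsum_mul_left]
    refine ENNReal.tsum_le_tsum fun i => ?_
    have := ENNReal.ofReal_le_ofReal (key i)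
    rwa [ENNReal.ofReal_mul hc0, Pr, Pr, ofReal_measureReal, ofReal_measureReal] at this
  refine le_trans (mul_le_mul_of_nonneg_left ?_ hc0) ((ENNReal.ofReal_le_ofReal_iff hN0).1 h2)
  exact integral_mono hM hM.pos_part fun t => le_max_left _ _

theorem omg_nonneg (η : ℝ) : 0 ≤ omg G η := by
  exact Real.iSup_nonneg fun _ => measureReal_nonneg
theorem omg_mono {η η' : ℝ} (h : η ≤ η') : omg G η ≤ omg G η' := by
  refine ciSup_mono ⟨1, ?_⟩ fun a => measureReal_mono (Set.Icc_subset_Icc (by linarith) (by linarith))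
  rintro _ ⟨a, rfl⟩
  exact measureReal_le_one
theorem real_Icc_le_omg (η a : ℝ) : G.real (Set.Icc (a - η) (a + η)) ≤ omg G η := by
  refine le_ciSup (f := fun a : ℝ => G.real (Set.Icc (a - η) (a + η))) ⟨1, ?_⟩ a
  rintro _ ⟨a, rfl⟩
  exact measureReal_le_one
theorem exists_omg_le [NullSingletonClass G] {ζ : ℝ} (hζ : 0 < ζ) :
    ∃ η : ℝ, 0 < η ∧ omg G η ≤ ζ := by
  have hζ' : 0 < ENNReal.ofReal ζ := ENNReal.ofReal_pos.2 hζ
  obtain ⟨K, -, hK, hKc⟩ := MeasurableSet.univ.exists_isCompact_sdiff_lt (μ := G)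
    (measure_ne_top _ _) hζ'.ne'
  have hU : ∀ x : ℝ, ∃ U ⊇ {x}, IsOpen U ∧ G U < ENNReal.ofReal ζ := fun x =>
    Set.exists_isOpen_lt_of_lt _ _ (by rwa [measure_singleton])
  choose U hxU hUo hUm using hU
  obtain ⟨δ, hδ, hball⟩ := lebesgue_number_lemma_of_metric hK hUo
    fun x _ => Set.mem_iUnion.2 ⟨x, hxU x rfl⟩
  refine ⟨δ / 3, by positivity, ciSup_le fun a => ?_⟩
  apply ENNReal.toReal_le_of_le_ofReal hζ.le
  by_cases hne : ∃ x ∈ Set.Icc (a - δ / 3) (a + δ / 3), x ∈ K
  · obtain ⟨x, hx, hxK⟩ := hne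
    obtain ⟨y, hy⟩ := hball x hxK
    refine le_trans (measure_mono fun z hz => hy ?_) (hUm y).le
    rw [Metric.mem_ball, Real.dist_eq, abs_lt]
    constructor <;> linarith [hx.1, hx.2, hz.1, hz.2]
  · push Not at hne
    exact le_trans (measure_mono (t := Set.univ \ K) fun z hz => ⟨trivial, hne z hz⟩) hKc.le

theorem trPr_le_omg (e : Sym2 V) {A : Set Env} (hA : MeasurableSet A) {η : ℝ}
    (h : ∀ t : Env, ∃ a : ℝ, ∀ u : Env, trGlue {e} (t, u) ∈ A → u e ∈ Set.Icc (a - η) (a + η)) :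
    Pr G A ≤ omg G η := by
  apply ENNReal.toReal_le_of_le_ofReal (omg_nonneg G η)
  rw [← (trGlue_mp G {e}).measure_preimage hA.nullMeasurableSet,
    Measure.prod_apply (measurable_trGlue {e} hA)]
  refine le_trans (lintegral_mono (g := fun _ => ENNReal.ofReal (omg G η)) fun t => ?_) (by simp)
  obtain ⟨a, ha⟩ := h t
  refine le_trans (measure_mono (t := {u : Env | u e ∈ Set.Icc (a - η) (a + η)}) ha) ?_
  rw [← ofReal_measureReal]
  exact ENNReal.ofReal_le_ofReal ((Pr_eval G e measurableSet_Icc).le.trans (real_Icc_le_omg G η a))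

/-- an event whose sections in the coordinate `e` have diameter at most `η` -/
theorem Pr_le_omg (e : Sym2 V) {A : Set Env} (hA : MeasurableSet A) {η : ℝ}
    (h : ∀ t ∈ A, ∀ t' ∈ A, (∀ e', e' ≠ e → t e' = t' e') → |t e - t' e| ≤ η) :
    Pr G A ≤ omg G η := by
  refine trPr_le_omg G e hA fun t => ?_
  by_cases hne : ∃ u, trGlue {e} (t, u) ∈ A
  · obtain ⟨u0, hu0⟩ := hne
    refine ⟨u0 e, fun u hu => ?_⟩
    have := h _ hu _ hu0 fun e' he' => by simp [trGlue, he']
    simp only [trGlue, Finset.mem_singleton, if_true, abs_le] at this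
    constructor <;> linarith [this.1, this.2]
  · exact ⟨0, fun u hu => absurd ⟨u, hu⟩ hne⟩

/-- near ties: `t e + F t` is `η`-close to `H t` where `F, H` do not read `e` -/
theorem Pr_near_tie (e : Sym2 V) {F : Env → ℝ} (hF : Measurable F) (dF : DepF {e}ᶜ F) (η : ℝ) :
    Pr G {t | |t e - F t| ≤ η} ≤ omg G η := by
  refine trPr_le_omg G e (measurableSet_le (by fun_prop) measurable_const) fun t =>
    ⟨F t, fun u hu => ?_⟩
  have h1 : F (trGlue {e} (t, u)) = F t := dF _ _ fun e' he' => by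
    have : e' ≠ e := he'
    simp [trGlue, this]
  have h2 : trGlue {e} (t, u) e = u e := by simp [trGlue]
  rw [Set.mem_ofPred_eq, h1, h2, abs_le] at hu
  constructor <;> linarith [hu.1, hu.2]

end Crest.Agent.R151
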