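import Crest.Agent.R151.TMeas

/-! Row 151 toolkit: lattice symmetries and shears preserve the law. -/

set_option autoImplicit false

namespace Crest.Agent.R151

open MeasureTheory ProbabilityTheory Crest.ProbabilityR.FirstPassage
open scoped Classical

/-- translation by `v` -/
def tr (v : V) : V ≃ V := Equiv.addRight v
/-- `(x,y) ↦ (y,x)` -/
def swp : V ≃ V := Equiv.prodComm ℤ ℤ
/-- `x ↦ -x` -/
def ngt : V ≃ V := Equiv.neg V

@[simp] theorem tr_apply (v x : V) : tr v x = x + v := rfl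
@[simp] theorem swp_apply (x : V) : swp x = (x.2, x.1) := rfl
@[simp] theorem ngt_apply (x : V) : ngt x = -x := rfl
@[simp] theorem reflX_apply (x : V) : reflX x = (-x.1, x.2) := rfl
@[simp] theorem reflY_apply (x : V) : reflY x = (x.1, -x.2) := rfl

theorem isAut_refl : IsAut (Equiv.refl V) := fun _ _ => Iff.rfl
theorem isAut_tr (v : V) : IsAut (tr v) := by
  intro x y
  simp only [adj_iff, tr_apply, Prod.fst_add, Prod.snd_add]
  omega
theorem isAut_swp : IsAut swp := by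
  intro x y
  simp only [adj_iff, swp_apply]
  omega
theorem isAut_ngt : IsAut ngt := by
  intro x y
  simp only [adj_iff, ngt_apply, Prod.fst_neg, Prod.snd_neg]
  omega
theorem isAut_reflX : IsAut reflX := by
  intro x y
  simp only [adj_iff, reflX_apply]
  omega
theorem isAut_reflY : IsAut reflY := by
  intro x y
  simp only [adj_iff, reflY_apply]
  omega
theorem IsAut.symm {σ : V ≃ V} (h : IsAut σ) : IsAut σ.symm := by
  intro x y
  have := h (σ.symm x) (σ.symm y)
  simpa using this.symm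
theorem IsAut.trans {σ τ : V ≃ V} (h : IsAut σ) (h' : IsAut τ) : IsAut (σ.trans τ) := by
  intro x y
  exact (h' (σ x) (σ y)).trans (h x y)

theorem act_act (σ τ : V ≃ V) (t : Env) : act σ (act τ t) = act (σ.trans τ) t := by
  funext e
  simp only [act, Sym2.map_map]
  rfl
theorem act_refl (t : Env) : act (Equiv.refl V) t = t := by
  funext e
  show t (Sym2.map id e) = t e
  rw [Sym2.map_id]; rfl
theorem act_symm_act (σ : V ≃ V) (t : Env) : act σ.symm (act σ t) = t := by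
  rw [act_act, Equiv.symm_trans_self, act_refl]
theorem act_act_symm (σ : V ≃ V) (t : Env) : act σ (act σ.symm t) = t := by
  rw [act_act, Equiv.self_trans_symm, act_refl]
theorem act_tr_tr (v w : V) (t : Env) : act (tr v) (act (tr w) t) = act (tr (v + w)) t := by
  rw [act_act]
  congr 1
  ext x <;> simp [add_assoc]
theorem act_tr_iterate (v : V) (j : ℕ) (t : Env) :
    (act (tr v))^[j] t = act (tr ((j : ℤ) • v)) t := by
  induction j with
  | zero =>
    have : tr (((0 : ℕ) : ℤ) • v) = Equiv.refl V := by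
      ext x <;> simp
    rw [this, act_refl]
    rfl
  | succ j ih =>
    rw [Function.iterate_succ_apply', ih, act_tr_tr]
    congr 2
    push_cast
    rw [add_smul, one_smul, add_comm]
theorem act_mk (σ : V ≃ V) (t : Env) (x y : V) : act σ t s(x, y) = t s(σ x, σ y) := rfl
theorem measurable_act (σ : V ≃ V) : Measurable (act σ) :=
  measurable_pi_lambda _ (fun e => measurable_pi_apply (Sym2.map σ e))
theorem nn_act (σ : V ≃ V) (t : Env) : NN (act σ t) ↔ NN t := by
  constructor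
  · intro h e
    have := h (Sym2.map σ.symm e)
    simpa [act, Sym2.map_map] using this
  · intro h e
    exact h _
theorem pos_act (σ : V ≃ V) (t : Env) : Pos (act σ t) ↔ Pos t := by
  constructor
  · intro h e
    have := h (Sym2.map σ.symm e)
    simpa [act, Sym2.map_map] using this
  · intro h e
    exact h _

theorem Pth.map_cost (σ : V ≃ V) (γ : Pth) (t : Env) (a b : ℕ) :
    (γ.map σ).cost t a b = γ.cost (act σ t) a b := by
  unfold Pth.cost
  refine Finset.sum_congr rfl (fun i _ => ?_)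
  simp only [Pth.edge, Pth.map_p, act_mk]
theorem Pth.map_tot (σ : V ≃ V) (γ : Pth) (t : Env) : (γ.map σ).tot t = γ.tot (act σ t) := by
  unfold Pth.tot
  rw [Pth.map_cost, Pth.map_n]
theorem Pth.map_nhi (σ : V ≃ V) (γ : Pth) (G : Measure ℝ) (t : Env) (a b : ℕ) :
    (γ.map σ).nhi G t a b = γ.nhi G (act σ t) a b := by
  unfold Pth.nhi
  congr 1
  refine Finset.filter_congr (fun i _ => ?_)
  simp only [Pth.edge, Pth.map_p, act_mk]
theorem Pth.map_ok {σ : V ≃ V} (hσ : IsAut σ) (γ : Pth) : (γ.map σ).Ok ↔ γ.Ok := by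
  unfold Pth.Ok
  simp only [Pth.map_p, Pth.map_n, hσ _ _]
theorem Pth.map_sa (σ : V ≃ V) (γ : Pth) : (γ.map σ).SA ↔ γ.SA := by
  unfold Pth.SA
  simp only [Pth.map_p, Pth.map_n, EmbeddingLike.apply_eq_iff_eq]
theorem Pth.map_in (σ : V ≃ V) (γ : Pth) (D : Set V) : (γ.map σ).In D ↔ γ.In (σ ⁻¹' D) := by
  unfold Pth.In
  simp only [Pth.map_p, Pth.map_n, Set.mem_preimage]
theorem Pth.map_joins {σ : V ≃ V} (hσ : IsAut σ) (γ : Pth) (D : Set V) (x z : V) :
    (γ.map σ).Joins D (σ x) (σ z) ↔ γ.Joins (σ ⁻¹' D) x z := by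
  unfold Pth.Joins
  simp only [Pth.map_ok hσ, Pth.map_in, Pth.map_p, Pth.map_n, EmbeddingLike.apply_eq_iff_eq]
theorem Pth.map_symm_map (σ : V ≃ V) (γ : Pth) : (γ.map σ).map σ.symm = γ := by
  refine Pth.ext' rfl (fun i _ => ?_)
  simp only [Pth.map_p, Equiv.symm_apply_apply]
theorem Pth.map_map_symm (σ : V ≃ V) (γ : Pth) : (γ.map σ.symm).map σ = γ := by
  refine Pth.ext' rfl (fun i _ => ?_)
  simp only [Pth.map_p, Equiv.apply_symm_apply]
theorem Pth.map_edges (σ : V ≃ V) (γ : Pth) :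
    (γ.map σ).edges = γ.edges.image (Sym2.map σ) := by
  unfold Pth.edges
  rw [Finset.image_image, Pth.map_n]
  refine Finset.image_congr (fun i _ => ?_)
  simp only [Pth.edge, Pth.map_p, Function.comp, Sym2.map_mk]
theorem conn_act {σ : V ≃ V} (hσ : IsAut σ) (D : Set V) (x z : V) :
    Conn D (σ x) (σ z) ↔ Conn (σ ⁻¹' D) x z := by
  constructor
  · rintro ⟨γ, hγ⟩
    refine ⟨γ.map σ.symm, (Pth.map_joins hσ _ D x z).1 ?_⟩
    rw [Pth.map_map_symm]
    exact hγ
  · rintro ⟨γ, hγ⟩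
    exact ⟨γ.map σ, (Pth.map_joins hσ _ D x z).2 hγ⟩
theorem TD_act {σ : V ≃ V} (hσ : IsAut σ) (D : Set V) (t : Env) (x z : V) :
    TD (σ ⁻¹' D) (act σ t) x z = TD D t (σ x) (σ z) := by
  unfold TD
  congr 1
  ext c
  constructor
  · rintro ⟨γ, hγ, rfl⟩
    exact ⟨γ.map σ, (Pth.map_joins hσ _ D x z).2 hγ, (Pth.map_tot σ γ t).symm⟩
  · rintro ⟨γ, hγ, rfl⟩
    refine ⟨γ.map σ.symm, (Pth.map_joins hσ _ D x z).1 ?_, ?_⟩
    · rw [Pth.map_map_symm]
      exact hγ
    · rw [← Pth.map_tot, Pth.map_map_symm]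
theorem T_act {σ : V ≃ V} (hσ : IsAut σ) (t : Env) (x z : V) :
    T (act σ t) x z = T t (σ x) (σ z) := by
  unfold T
  rw [← TD_act hσ, Set.preimage_univ]
theorem isGeo_act {σ : V ≃ V} (hσ : IsAut σ) (D : Set V) (t : Env) (γ : Pth) :
    IsGeo (σ ⁻¹' D) (act σ t) γ ↔ IsGeo D t (γ.map σ) := by
  unfold IsGeo
  rw [Pth.map_ok hσ, Pth.map_in, Pth.map_sa, Pth.map_tot, Pth.map_p, Pth.map_p, Pth.map_n,
    TD_act hσ]
theorem kesBad_act {σ : V ≃ V} (hσ : IsAut σ) (G : Measure ℝ) (x : V) (n : ℕ) (t : Env) :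
    act σ t ∈ KesBad G x n ↔ t ∈ KesBad G (σ x) n := by
  constructor
  · rintro ⟨γ, h1, h2, h3, h4, h5⟩
    refine ⟨γ.map σ, (Pth.map_ok hσ γ).2 h1, (Pth.map_sa σ γ).2 h2, ?_, h4, ?_⟩
    · rw [Pth.map_p, h3]
    · rw [Pth.map_nhi]
      exact h5
  · rintro ⟨γ, h1, h2, h3, h4, h5⟩
    refine ⟨γ.map σ.symm, (Pth.map_ok hσ.symm γ).2 h1, (Pth.map_sa σ.symm γ).2 h2, ?_, h4, ?_⟩
    · rw [Pth.map_p, h3, Equiv.symm_apply_apply]
    · rw [Pth.map_nhi, act_symm_act]
      exact h5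
theorem goodSq_tr (G : Measure ℝ) (v c : V) (r : ℕ) (t : Env) :
    GoodSq G (act (tr v) t) c r ↔ GoodSq G t (c + v) r := by
  constructor
  · intro h x y hxy hx hy
    have := h (x - v) (y - v) ((isAut_tr v _ _).1 (by simpa using hxy))
      (by rw [← hx]; congr 1; abel) (by rw [← hy]; congr 1; abel)
    simpa [act_mk] using this
  · intro h x y hxy hx hy
    rw [act_mk]
    exact h _ _ ((isAut_tr v _ _).2 hxy) (by rw [← hx]; congr 1; simp)
      (by rw [← hy]; congr 1; simp)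
theorem noSq_tr (G : Measure ℝ) (v c : V) (a b : ℕ) (t : Env) :
    act (tr v) t ∈ NoSq G c a b ↔ t ∈ NoSq G (c + v) a b := by
  simp only [NoSq, Set.mem_ofPred_eq, goodSq_tr]
theorem reg_act {σ : V ≃ V} (hσ : IsAut σ) (G : Measure ℝ) (t : Env) :
    Reg G (act σ t) ↔ Reg G t := by
  unfold Reg
  rw [pos_act]
  refine and_congr Iff.rfl ⟨fun h x => ?_, fun h x => ?_⟩
  · obtain ⟨n0, h0⟩ := h (σ.symm x)
    refine ⟨n0, fun n hn hb => h0 n hn ?_⟩
    rw [kesBad_act hσ, Equiv.apply_symm_apply]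
    exact hb
  · obtain ⟨n0, h0⟩ := h (σ x)
    exact ⟨n0, fun n hn hb => h0 n hn ((kesBad_act hσ G x n t).1 hb)⟩
theorem gen_act {σ : V ≃ V} (hσ : IsAut σ) (C : Set ℝ) (t : Env) : Gen C (act σ t) ↔ Gen C t := by
  have key : ∀ {τ : V ≃ V}, IsAut τ → ∀ s : Env, Gen C s → Gen C (act τ s) := by
    intro τ hτ s h γ δ h1 h2 h3 h4 h5
    rw [← Pth.map_tot, ← Pth.map_tot]
    refine h _ _ ((Pth.map_ok hτ γ).2 h1) ((Pth.map_sa τ γ).2 h2) ((Pth.map_ok hτ δ).2 h3)
      ((Pth.map_sa τ δ).2 h4) ?_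
    rw [Pth.map_edges, Pth.map_edges]
    intro he
    exact h5 (Finset.image_injective (Sym2.map.injective τ.injective) he)
  refine ⟨fun h => ?_, key hσ t⟩
  have := key hσ.symm _ h
  rwa [act_symm_act] at this
theorem preimage_tr_strip (v : V) (a b : ℤ) : tr v ⁻¹' strip a b = strip (a - v.1) (b - v.1) := by
  ext x
  simp only [strip, Set.mem_preimage, Set.mem_ofPred_eq, tr_apply, Prod.fst_add]
  omega
theorem preimage_tr_box (v c : V) (r : ℕ) : tr v ⁻¹' box c r = box (c - v) r := by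
  ext x
  simp only [box, Set.mem_preimage, Set.mem_ofPred_eq, tr_apply]
  rw [show x + v - c = x - (c - v) by abel]
theorem preimage_tr_rect (v : V) (a b c d : ℤ) :
    tr v ⁻¹' rect a b c d = rect (a - v.1) (b - v.1) (c - v.2) (d - v.2) := by
  ext x
  simp only [rect, Set.mem_preimage, Set.mem_ofPred_eq, tr_apply, Prod.fst_add, Prod.snd_add]
  omega
theorem preimage_reflX_strip (a b : ℤ) : reflX ⁻¹' strip a b = strip (-b) (-a) := by
  ext x
  simp only [strip, Set.mem_preimage, Set.mem_ofPred_eq, reflX_apply]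
  omega
theorem preimage_reflY_rect (a b c d : ℤ) : reflY ⁻¹' rect a b c d = rect a b (-d) (-c) := by
  ext x
  simp only [rect, Set.mem_preimage, Set.mem_ofPred_eq, reflY_apply]
  omega
theorem Dep.act {σ : V ≃ V} {D : Set V} {A : Set Env} (h : Dep (ED (σ ⁻¹' D)) A) :
    Dep (ED D) (act σ ⁻¹' A) := by
  intro t t' htt' ht
  refine h (R151.act σ t) (R151.act σ t') (fun e he => htt' _ ?_) ht
  intro x hx
  obtain ⟨y, hy, rfl⟩ := Sym2.mem_map.1 hx
  exact he y hy
theorem Dep.act_LE {σ : V ≃ V} (hσ : IsAut σ) {D : Set V} {A : Set Env}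
    (h : Dep (LE (σ ⁻¹' D)) A) : Dep (LE D) (R151.act σ ⁻¹' A) := by
  intro t t' htt' ht
  refine h (R151.act σ t) (R151.act σ t') (fun e he => htt' _ ?_) ht
  obtain ⟨x, y, hx, hy, hxy, rfl⟩ := he
  exact ⟨σ x, σ y, hx, hy, (hσ x y).2 hxy, rfl⟩
theorem DepF.act {α : Type*} {σ : V ≃ V} {D : Set V} {F : Env → α} (h : DepF (ED (σ ⁻¹' D)) F) :
    DepF (ED D) (fun t => F (act σ t)) := by
  intro t t' htt'
  refine h (R151.act σ t) (R151.act σ t') (fun e he => htt' _ ?_)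
  intro x hx
  obtain ⟨y, hy, rfl⟩ := Sym2.mem_map.1 hx
  exact he y hy

end Crest.Agent.R151
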