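import Crest.Agent.R151.TSym1

/-! Row 151 toolkit: lattice symmetries and shears preserve the law. -/

set_option autoImplicit false

namespace Crest.Agent.R151

open MeasureTheory ProbabilityTheory Crest.ProbabilityR.FirstPassage
open scoped Classical

theorem ts2_mk (σ η : ℤ → ℤ) (x1 x2 z1 z2 : ℤ) : shearE σ η s((x1, x2), (z1, z2)) =
    if x1 = z1 then s((x1, x2 - σ x1), (z1, z2 - σ z1))
    else if x2 = z2 ∧ (z1 = x1 + 1 ∨ x1 = z1 + 1) then
      s((x1, x2 - η (min x1 z1)), (z1, z2 - η (min x1 z1)))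
    else s((x1, x2), (z1, z2)) := by
  unfold shearE
  rw [Sym2.lift_mk]

theorem ts2_lip_nat {σ : ℤ → ℤ} (hσ : ∀ c, |σ (c + 1) - σ c| ≤ 1) (a : ℤ) (n : ℕ) :
    |σ (a + n) - σ a| ≤ n := by
  induction n with
  | zero => simp
  | succ n ih =>
    have h1 := abs_le.1 (hσ (a + n))
    have h2 := abs_le.1 ih
    rw [show a + ((n + 1 : ℕ) : ℤ) = a + n + 1 by push_cast; ring, abs_le]
    push_cast
    omega

theorem ts2_lip {σ : ℤ → ℤ} (hσ : ∀ c, |σ (c + 1) - σ c| ≤ 1) (a b : ℤ) :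
    |σ b - σ a| ≤ ((b - a).natAbs : ℤ) := by
  rcases le_total a b with h | h
  · have := ts2_lip_nat hσ a (b - a).natAbs
    rwa [show a + ((b - a).natAbs : ℤ) = b by omega] at this
  · have := ts2_lip_nat hσ b (b - a).natAbs
    rwa [show b + ((b - a).natAbs : ℤ) = a by omega, abs_sub_comm] at this

theorem shearE_shearE (σ η : ℤ → ℤ) (e : Sym2 V) :
    shearE σ η (shearE (fun c => -σ c) (fun c => -η c) e) = e := by
  induction e using Sym2.ind with
  | _ x z =>
    obtain ⟨x1, x2⟩ := x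
    obtain ⟨z1, z2⟩ := z
    rw [ts2_mk (fun c => -σ c)]
    split_ifs with h1 h2
    · rw [ts2_mk, if_pos h1]; simp
    · rw [ts2_mk, if_neg h1, if_pos ⟨by rw [h2.1], h2.2⟩]; simp
    · rw [ts2_mk, if_neg h1, if_neg h2]
theorem shearE_shearE' (σ η : ℤ → ℤ) (e : Sym2 V) :
    shearE (fun c => -σ c) (fun c => -η c) (shearE σ η e) = e := by
  have := shearE_shearE (fun c => -σ c) (fun c => -η c) e
  simpa only [neg_neg] using this
theorem shear_shear (σ η : ℤ → ℤ) (t : Env) :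
    shear (fun c => -σ c) (fun c => -η c) (shear σ η t) = t := by
  funext e
  simp only [shear, shearE_shearE]
theorem measurable_shear (σ η : ℤ → ℤ) : Measurable (shear σ η) := by
  exact measurable_pi_lambda _ fun e => measurable_pi_apply _
theorem nn_shear (σ η : ℤ → ℤ) (t : Env) : NN (shear σ η t) ↔ NN t := by
  refine ⟨fun h e => ?_, fun h e => h _⟩
  have := h (shearE (fun c => -σ c) (fun c => -η c) e)
  simpa only [shear, shearE_shearE] using this
/-- vertical pairs are carried along by the shear -/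
theorem shear_vert (σ η : ℤ → ℤ) (t : Env) {x y : V} (h : x.1 = y.1) :
    shear σ η t s(shV σ x, shV σ y) = t s(x, y) := by
  obtain ⟨x1, x2⟩ := x
  obtain ⟨y1, y2⟩ := y
  simp only [shear, shV]
  rw [ts2_mk, if_pos h]
  simp
/-- the horizontal edge between columns `c, c+1` at height `y` is moved to height `y + η c` -/
theorem shear_horiz (σ η : ℤ → ℤ) (t : Env) (c y : ℤ) :
    shear σ η t s((c, y + η c), (c + 1, y + η c)) = t s((c, y), (c + 1, y)) := by
  simp only [shear]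
  rw [ts2_mk, if_neg (by omega), if_pos ⟨rfl, Or.inl rfl⟩, min_eq_left (by omega)]
  simp
/-- a lattice step that does not cross a cut is carried along with its weight -/
theorem shear_step (σ η : ℤ → ℤ) (t : Env) {x y : V} (h : Adj x y)
    (hc : x.1 = y.1 ∨ (σ x.1 = σ y.1 ∧ η (min x.1 y.1) = σ x.1)) :
    Adj (shV σ x) (shV σ y) ∧ shear σ η t s(shV σ x, shV σ y) = t s(x, y) := by
  obtain ⟨x1, x2⟩ := x
  obtain ⟨y1, y2⟩ := y
  have h' := (adj_iff _ _).1 h
  simp only at h' hc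
  by_cases h1 : x1 = y1
  · refine ⟨(adj_iff _ _).2 ?_, shear_vert σ η t h1⟩
    subst h1
    dsimp only [shV]
    omega
  · obtain ⟨h2, h3⟩ := hc.resolve_left h1
    refine ⟨(adj_iff _ _).2 ?_, ?_⟩
    · dsimp only [shV]
      omega
    · simp only [shear, shV]
      rw [ts2_mk, if_neg h1, if_pos (by omega), h3, ← h2]
      simp
theorem nrm_shV_step {σ : ℤ → ℤ} (hσ : ∀ c, |σ (c + 1) - σ c| ≤ 1) {x y : V} (h : Adj x y) :
    nrm (shV σ y - shV σ x) ≤ 1 := by
  have h1 := abs_le.1 ((ts2_lip hσ x.1 y.1))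
  have h' := (adj_iff _ _).1 h
  simp only [nrm, shV, Prod.fst_sub, Prod.snd_sub]
  by_cases h2 : x.1 = y.1
  · rw [h2]
    omega
  · omega
theorem nrm_shV_le {σ : ℤ → ℤ} (hσ : ∀ c, |σ (c + 1) - σ c| ≤ 1) (x y : V) :
    nrm (shV σ y - shV σ x) ≤ 2 * nrm (y - x) ∧ nrm (y - x) ≤ 2 * nrm (shV σ y - shV σ x) := by
  have h1 := abs_le.1 ((ts2_lip hσ x.1 y.1))
  simp only [nrm, shV, Prod.fst_sub, Prod.snd_sub]
  omega
/-- local events of the sheared environment are local events of the original one -/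
theorem Dep.shear {σ η : ℤ → ℤ} (hσ : ∀ c, |σ (c + 1) - σ c| ≤ 1)
    (hη : ∀ c, η c = σ c ∨ η c = σ (c + 1)) (y : V) (b : ℕ) {A : Set Env}
    (h : Dep (LE (box (shV σ y) b)) A) : Dep (LE (box y (2 * b + 1))) (shear σ η ⁻¹' A) := by
  intro t t' htt' ht
  refine h _ _ ?_ ht
  rintro e ⟨⟨u1, u2⟩, ⟨w1, w2⟩, hu, hw, huw, rfl⟩
  refine htt' _ ?_
  have h' := (adj_iff _ _).1 huw
  have l1 := abs_le.1 ((ts2_lip hσ y.1 u1))
  have l2 := abs_le.1 ((ts2_lip hσ y.1 w1))
  have l3 := abs_le.1 (hσ (min u1 w1))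
  have l4 := hη (min u1 w1)
  simp only [box, Set.mem_ofPred_eq, nrm, shV, Prod.fst_sub, Prod.snd_sub] at hu hw h'
  rw [ts2_mk]
  by_cases h1 : u1 = w1
  · rw [if_pos h1]
    subst h1
    refine ⟨_, _, ?_, ?_, (adj_iff _ _).2 ?_, rfl⟩
    · simp only [box, Set.mem_ofPred_eq, nrm, Prod.fst_sub, Prod.snd_sub]
      omega
    · simp only [box, Set.mem_ofPred_eq, nrm, Prod.fst_sub, Prod.snd_sub]
      omega
    · dsimp only
      clear hu hw l1 l2 l3 l4
      omega
  · rw [if_neg h1, if_pos (by omega)]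
    have l5 : (σ (min u1 w1) = σ u1 ∧ σ (min u1 w1 + 1) = σ w1) ∨
        (σ (min u1 w1) = σ w1 ∧ σ (min u1 w1 + 1) = σ u1) := by
      rcases lt_or_gt_of_ne h1 with h2 | h2
      · left
        rw [min_eq_left h2.le, show u1 + 1 = w1 by omega]
        exact ⟨rfl, rfl⟩
      · right
        rw [min_eq_right h2.le, show w1 + 1 = u1 by omega]
        exact ⟨rfl, rfl⟩
    generalize η (min u1 w1) = a at *
    generalize σ (min u1 w1) = a1 at *
    generalize σ (min u1 w1 + 1) = a2 at *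
    refine ⟨_, _, ?_, ?_, (adj_iff _ _).2 ?_, rfl⟩
    · simp only [box, Set.mem_ofPred_eq, nrm, Prod.fst_sub, Prod.snd_sub]
      omega
    · simp only [box, Set.mem_ofPred_eq, nrm, Prod.fst_sub, Prod.snd_sub]
      omega
    · dsimp only
      clear hu hw l1 l2 l3 l4 l5
      omega

end Crest.Agent.R151
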