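import Crest.Agent.R151.TTess

/-! Row 151 toolkit: uniform upper bounds between points on good squares. -/

set_option autoImplicit false

namespace Crest.Agent.R151

open MeasureTheory ProbabilityTheory Crest.ProbabilityR.FirstPassage
open scoped Classical

/-- every centre in `box o L` has a small square such that passage times between points of
these squares are at most the norm plus `C L^(3/4)` -/
def Up (G : Measure ℝ) (C : ℝ) (o : V) (L : ℕ) : Set Env :=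
  {t | ∃ r : V → ℕ, (∀ c ∈ box o L, 1 ≤ r c ∧ (r c : ℝ) ≤ (L : ℝ) ^ ((1 : ℝ) / 10)) ∧
    ∀ c ∈ box o L, ∀ c' ∈ box o L, ∀ x z : V, nrm (x - c) = r c → nrm (z - c') = r c' →
      T t x z ≤ mu G (rv (c' - c)) + C * (L : ℝ) ^ ((3 : ℝ) / 4)}

/-- the same towards one fixed point `z` -/
def UpTo (G : Measure ℝ) (C : ℝ) (o : V) (L : ℕ) (z : V) : Set Env :=
  {t | ∃ r : V → ℕ, (∀ c ∈ box o L, 1 ≤ r c ∧ (r c : ℝ) ≤ (L : ℝ) ^ ((1 : ℝ) / 10)) ∧
    ∀ c ∈ box o L, ∀ x : V, nrm (x - c) = r c →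
      T t x z ≤ mu G (rv (z - c)) + C * (L : ℝ) ^ ((3 : ℝ) / 4)}

theorem tup_meas_exists (o : V) (L : ℕ) (P : (V → ℕ) → Env → Prop)
    (hP : ∀ r, MeasurableSet {t | P r t})
    (hc : ∀ r r' : V → ℕ, (∀ c ∈ box o L, r c = r' c) → ∀ t, P r t → P r' t) :
    MeasurableSet {t | ∃ r, P r t} := by
  have he : {t | ∃ r, P r t} = ⋃ s : (boxF o L → ℕ),
      {t | P (fun c => if h : c ∈ boxF o L then s ⟨c, h⟩ else 0) t} := by
    ext t
    simp only [Set.mem_ofPred_eq, Set.mem_iUnion]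
    constructor
    · rintro ⟨r, hr⟩
      refine ⟨fun c => r c, hc r _ (fun c hc' => ?_) t hr⟩
      simp only [mem_boxF.2 hc', dif_pos]
    · rintro ⟨s, hs⟩
      exact ⟨_, hs⟩
  rw [he]
  exact MeasurableSet.iUnion (fun s => hP _)

theorem tup_meas_le (x z : V) (a : ℝ) : Measurable (fun t : Env => T t x z ≤ a) :=
  measurableSet_setOfPred.1 (measurableSet_le (measurable_T x z) measurable_const)

theorem measurableSet_up (G : Measure ℝ) (C : ℝ) (o : V) (L : ℕ) : MeasurableSet (Up G C o L) := by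
  refine tup_meas_exists o L _ (fun r => ?_) ?_
  · refine measurableSet_setOfPred.2 (Measurable.and measurable_const ?_)
    refine Measurable.forall fun c => Measurable.imp measurable_const ?_
    refine Measurable.forall fun c' => Measurable.imp measurable_const ?_
    refine Measurable.forall fun x => Measurable.forall fun z => ?_
    exact Measurable.imp measurable_const (Measurable.imp measurable_const (tup_meas_le _ _ _))
  · rintro r r' hr t ⟨h1, h2⟩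
    refine ⟨fun c hc => hr c hc ▸ h1 c hc, fun c hc c' hc' x z hx hz => ?_⟩
    exact h2 c hc c' hc' x z (by rw [hr c hc]; exact hx) (by rw [hr c' hc']; exact hz)

theorem measurableSet_upTo (G : Measure ℝ) (C : ℝ) (o : V) (L : ℕ) (z : V) :
    MeasurableSet (UpTo G C o L z) := by
  refine tup_meas_exists o L _ (fun r => ?_) ?_
  · refine measurableSet_setOfPred.2 (Measurable.and measurable_const ?_)
    refine Measurable.forall fun c => Measurable.imp measurable_const ?_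
    refine Measurable.forall fun x => ?_
    exact Measurable.imp measurable_const (tup_meas_le _ _ _)
  · rintro r r' hr t ⟨h1, h2⟩
    refine ⟨fun c hc => hr c hc ▸ h1 c hc, fun c hc x hx => ?_⟩
    exact h2 c hc x (by rw [hr c hc]; exact hx)

variable (G : Measure ℝ) [Law G]

theorem tup_rpow_le {L : ℕ} (hL : 1 ≤ L) {a b : ℝ} (hab : a ≤ b) :
    (L : ℝ) ^ a ≤ (L : ℝ) ^ b :=
  Real.rpow_le_rpow_of_exponent_le (by exact_mod_cast hL) hab

theorem tup_nrm_box {o c c' : V} {L : ℕ} (hc : c ∈ box o L) (hc' : c' ∈ box o L) :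
    nrm (c' - c) ≤ 2 * L := by
  have h1 := nrm_triangle c o c'
  have h2 : nrm (o - c) ≤ L := by rw [nrm_sub_comm]; exact hc
  have h3 : nrm (c' - o) ≤ L := hc'
  omega

theorem tup_nrm_axis (c : V) (k : ℤ) : nrm (c + (k, 0) - c) = k.natAbs := by
  simp [nrm]

theorem tup_third {o c c' : V} {L R : ℕ} (hc : c ∈ box o L) (hR : 9 * R ≤ L) (hR1 : 1 ≤ R)
    (hcc : nrm (c' - c) ≤ 4 * R) : ∃ d ∈ box o L, 4 * R < nrm (d - c) ∧ nrm (d - c) ≤ 13 * R ∧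
      4 * R < nrm (c' - d) ∧ nrm (c' - d) ≤ 13 * R := by
  have key : ∀ d : V, nrm (d - c) = 9 * R → 4 * R < nrm (d - c) ∧ nrm (d - c) ≤ 13 * R ∧
      4 * R < nrm (c' - d) ∧ nrm (c' - d) ≤ 13 * R := by
    intro d hd
    have h1 := nrm_triangle c c' d
    have h2 := nrm_triangle d c c'
    rw [nrm_sub_comm d c'] at h1
    rw [nrm_sub_comm c d] at h2
    omega
  have hc' : nrm (c - o) ≤ L := hc
  rw [nrm_le_iff] at hc'
  simp only [Prod.fst_sub, Prod.snd_sub, abs_le] at hc'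
  by_cases h : c.1 ≤ o.1
  · refine ⟨c + (((9 * R : ℕ) : ℤ), 0), ?_, key _ (by rw [tup_nrm_axis]; simp [Int.natAbs_mul])⟩
    show nrm _ ≤ L
    rw [nrm_le_iff]
    simp only [Prod.fst_sub, Prod.snd_sub, Prod.fst_add, Prod.snd_add, abs_le]
    omega
  · refine ⟨c + (-((9 * R : ℕ) : ℤ), 0), ?_, key _ (by rw [tup_nrm_axis]; simp [Int.natAbs_mul])⟩
    show nrm _ ≤ L
    rw [nrm_le_iff]
    simp only [Prod.fst_sub, Prod.snd_sub, Prod.fst_add, Prod.snd_add, abs_le]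
    omega

omit [Law G] in
theorem tup_mono {C C' : ℝ} (h : C ≤ C') (o : V) (L : ℕ) : Up G C o L ⊆ Up G C' o L := by
  rintro t ⟨r, h1, h2⟩
  refine ⟨r, h1, fun c hc c' hc' x z hx hz => (h2 c hc c' hc' x z hx hz).trans ?_⟩
  have : (0 : ℝ) ≤ (L : ℝ) ^ ((3 : ℝ) / 4) := Real.rpow_nonneg (Nat.cast_nonneg _) _
  nlinarith

/-- far centres -/
theorem tup_far : ∃ C : ℝ, 0 < C ∧ ∀ (C1 : ℕ) (o : V) (L : ℕ), 1 ≤ L → h2 G ≤ KL L →
    ∀ t ∈ GoodK G C1 o L, ∀ c ∈ box o L, ∀ c' ∈ box o L, 4 * RL G L < nrm (c' - c) →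
      ∀ r r' : ℕ, RL G L < r → r ≤ 2 * RL G L → RL G L < r' → r' ≤ 2 * RL G L →
      GoodSq G t c r → GoodSq G t c' r' → ∀ x z : V, nrm (x - c) = r → nrm (z - c') = r' →
      T t x z ≤ mu G (rv (c' - c)) + C * (L : ℝ) ^ ((3 : ℝ) / 4) := by
  obtain ⟨A, hA, hAm⟩ := hm_le_mu G
  refine ⟨2 * A + 17, by positivity, ?_⟩
  intro C1 o L hL hK t ht c hc c' hc' hfar r r' hr hr2 hr' hr2' g g' x z hx hz
  obtain ⟨hreg, hT, hsq⟩ := ht
  obtain ⟨γ, hγ, h0, h1⟩ := exists_geo G (reg_trunc G hK hreg) (conn_univ c c')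
  obtain ⟨hT1, hT2⟩ := hT c hc c' hc'
  have hn := hT2 γ hγ h0 h1
  have hin : ∀ i ≤ γ.n, γ.p i ∈ box o ((C1 + 1) * L) := by
    intro i hi
    have e1 : nrm (γ.p i - γ.p 0) ≤ γ.n := hγ.1.in_box i hi
    have e2 := nrm_triangle o c (γ.p i)
    have e3 : nrm (c - o) ≤ L := hc
    rw [h0] at e1
    show nrm _ ≤ _
    rw [Nat.add_mul]
    omega
  have hspec := RL_spec G hL
  have key := T_sq_le_trunc G hreg.1.nn hγ hspec.1 (fun i hi => (hsq _ (hin i hi)).1) hr hr2 hr' hr2'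
    (by rw [h0]; exact g) (by rw [h1]; exact g') (by rw [h0, h1]; exact hfar)
    (by rw [h0]; exact hx) (by rw [h1]; exact hz)
  rw [h0, h1] at key
  have e1 := (abs_le.1 hT1).2
  have e2 := hAm (c' - c)
  have e3 : (nrm (c' - c) : ℝ) ^ ((3 : ℝ) / 4) ≤ 2 * (L : ℝ) ^ ((3 : ℝ) / 4) := by
    have a1 : (nrm (c' - c) : ℝ) ≤ 2 * L := by exact_mod_cast tup_nrm_box hc hc'
    calc (nrm (c' - c) : ℝ) ^ ((3 : ℝ) / 4) ≤ (2 * (L : ℝ)) ^ ((3 : ℝ) / 4) :=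
          Real.rpow_le_rpow (Nat.cast_nonneg _) a1 (by norm_num)
      _ = (2 : ℝ) ^ ((3 : ℝ) / 4) * (L : ℝ) ^ ((3 : ℝ) / 4) :=
          Real.mul_rpow (by norm_num) (Nat.cast_nonneg _)
      _ ≤ 2 * (L : ℝ) ^ ((3 : ℝ) / 4) := by
          refine mul_le_mul_of_nonneg_right ?_ (Real.rpow_nonneg (Nat.cast_nonneg _) _)
          calc (2 : ℝ) ^ ((3 : ℝ) / 4) ≤ (2 : ℝ) ^ (1 : ℝ) :=
                Real.rpow_le_rpow_of_exponent_le (by norm_num) (by norm_num)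
            _ = 2 := Real.rpow_one _
  have e4 : (L : ℝ) ^ ((3 : ℝ) / 5) ≤ (L : ℝ) ^ ((3 : ℝ) / 4) := tup_rpow_le hL (by norm_num)
  have e5 : KL L ≤ (L : ℝ) ^ ((3 : ℝ) / 4) := tup_rpow_le hL (by norm_num)
  have e6 := mul_le_mul_of_nonneg_left e3 hA.le
  have e7 := hspec.1
  nlinarith

theorem tup_good : ∃ C : ℝ, 0 < C ∧ ∀ (C1 : ℕ) (o : V) (L : ℕ), 1 ≤ L → h2 G ≤ KL L →
    1 ≤ RL G L → GoodK G C1 o L ⊆ Up G C o L := by
  obtain ⟨A, hA, hfar⟩ := tup_far G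
  obtain ⟨B, hB, hBm⟩ := (mu_ok G).upper
  refine ⟨2 * A + 13 * B, by positivity, ?_⟩
  intro C1 o L hL hK hR1 t ht
  have hspec := RL_spec G hL
  have hex : ∀ c : V, ∃ r : ℕ, c ∈ box o L → RL G L < r ∧ r ≤ 2 * RL G L ∧ GoodSq G t c r := by
    intro c
    by_cases hc : c ∈ box o L
    · have h1 : c ∈ box o ((C1 + 1) * L) := box_mono o (by rw [Nat.add_mul]; omega) hc
      have h2 := (ht.2.2 c h1).2
      simp only [NoSq, Set.mem_ofPred_eq] at h2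
      push Not at h2
      obtain ⟨r, hr⟩ := h2
      exact ⟨r, fun _ => hr⟩
    · exact ⟨0, fun h => absurd h hc⟩
  choose r hr using hex
  have hP : (0 : ℝ) ≤ (L : ℝ) ^ ((3 : ℝ) / 4) := Real.rpow_nonneg (Nat.cast_nonneg _) _
  have hRL : (2 * RL G L : ℝ) ≤ (L : ℝ) ^ ((3 : ℝ) / 4) :=
    hspec.2.trans (tup_rpow_le hL (by norm_num))
  refine ⟨r, fun c hc => ⟨by have := (hr c hc).1; omega, ?_⟩, ?_⟩
  · have a1 : (r c : ℝ) ≤ 2 * RL G L := by exact_mod_cast (hr c hc).2.1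
    exact a1.trans (hspec.2.trans (tup_rpow_le hL (by norm_num)))
  intro c hc c' hc' x z hx hz
  have F : ∀ c ∈ box o L, ∀ c' ∈ box o L, 4 * RL G L < nrm (c' - c) → ∀ x z : V,
      nrm (x - c) = r c → nrm (z - c') = r c' →
      T t x z ≤ mu G (rv (c' - c)) + A * (L : ℝ) ^ ((3 : ℝ) / 4) :=
    fun c hc c' hc' h x z hx hz => hfar C1 o L hL hK t ht c hc c' hc' h _ _ (hr c hc).1
      (hr c hc).2.1 (hr c' hc').1 (hr c' hc').2.1 (hr c hc).2.2 (hr c' hc').2.2 x z hx hz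
  by_cases hd : 4 * RL G L < nrm (c' - c)
  · have := F c hc c' hc' hd x z hx hz
    nlinarith [mul_nonneg hA.le hP, mul_nonneg hB.le hP]
  · have h9 : 9 * RL G L ≤ L := by
      have a1 : KL L ≤ (L : ℝ) ^ (1 : ℝ) := tup_rpow_le hL (by norm_num)
      rw [Real.rpow_one] at a1
      have a2 := one_le_kap G
      have a3 : (0 : ℝ) ≤ (RL G L : ℝ) ^ 3 := by positivity
      have a4 : (8 * (RL G L : ℝ) ^ 3) < L := by nlinarith [hspec.1]
      have a5 : 8 * RL G L ^ 3 < L := by exact_mod_cast a4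
      rcases Nat.eq_or_lt_of_le hR1 with h | h
      · rw [← h] at a5 ⊢
        omega
      · have : RL G L ^ 3 = RL G L * (RL G L * RL G L) := by ring
        nlinarith [Nat.mul_le_mul h h]
    obtain ⟨d, hdb, d1, d2, d3, d4⟩ := tup_third hc h9 hR1 (not_lt.1 hd)
    have hy : nrm (d + ((r d : ℤ), 0) - d) = r d := by rw [tup_nrm_axis]; simp
    have a1 := F c hc d hdb d1 x _ hx hy
    have a2 := F d hdb c' hc' d3 _ z hy hz
    have a3 := T_triangle ht.1.1.nn x (d + ((r d : ℤ), 0)) z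
    have a4 := hBm (rv (d - c))
    have a5 := hBm (rv (c' - d))
    rw [norm_rv] at a4 a5
    have a6 : (nrm (d - c) : ℝ) ≤ 13 * RL G L := by exact_mod_cast d2
    have a7 : (nrm (c' - d) : ℝ) ≤ 13 * RL G L := by exact_mod_cast d4
    have a8 := (mu_ok G).nonneg (rv (c' - c))
    have a9 := mul_le_mul_of_nonneg_left a6 hB.le
    have a10 := mul_le_mul_of_nonneg_left a7 hB.le
    have a11 := mul_le_mul_of_nonneg_left hRL hB.le
    nlinarith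

theorem Pr_not_up : ∃ C : ℝ, 0 < C ∧ ∀ (o : V) (L : ℕ), 1 ≤ L →
    Pr G (Up G C o L)ᶜ ≤ C / (L : ℝ) ^ 100 := by
  obtain ⟨A, hA, hgood⟩ := tup_good G
  obtain ⟨C1, B, -, hB, hPr⟩ := Pr_not_goodK G
  obtain ⟨L0, hL0, hlarge⟩ := RL_large G
  have hL0' : (0 : ℝ) ≤ (L0 : ℝ) ^ 100 := by positivity
  refine ⟨A + B + (L0 : ℝ) ^ 100, by positivity, fun o L hL => ?_⟩
  have hLp : (0 : ℝ) < (L : ℝ) ^ 100 := by
    have : (0 : ℝ) < L := by exact_mod_cast hL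
    positivity
  by_cases h : L0 ≤ L
  · obtain ⟨h1, h2, -⟩ := hlarge L h
    have hs : (Up G (A + B + (L0 : ℝ) ^ 100) o L)ᶜ ⊆ (GoodK G C1 o L)ᶜ :=
      Set.compl_subset_compl.2 ((hgood C1 o L hL h1 h2).trans (tup_mono G (by linarith) o L))
    refine (Pr_mono G hs).trans ((hPr o L hL).trans ?_)
    exact div_le_div_of_nonneg_right (by linarith) hLp.le
  · refine (Pr_le_one G _).trans ?_
    rw [le_div_iff₀ hLp, one_mul]
    have h1 : (L : ℝ) ≤ L0 := by exact_mod_cast (not_le.1 h).le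
    have h2 : (L : ℝ) ^ 100 ≤ (L0 : ℝ) ^ 100 := pow_le_pow_left₀ (Nat.cast_nonneg _) h1 _
    linarith

theorem Pr_not_upTo : ∃ C : ℝ, 0 < C ∧ ∀ (o : V) (L : ℕ), 1 ≤ L → ∀ z ∈ box o L,
    Pr G (UpTo G C o L z)ᶜ ≤ C / (L : ℝ) ^ ((1 : ℝ) / 4) := by
  obtain ⟨A, hA, hup⟩ := Pr_not_up G
  obtain ⟨B, hB, hBm⟩ := hm_le G
  refine ⟨A + B + 1, by positivity, fun o L hL z hz => ?_⟩
  have hL0 : (0 : ℝ) < L := by exact_mod_cast hL
  have hL1 : (1 : ℝ) ≤ L := by exact_mod_cast hL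
  have hP : (0 : ℝ) < (L : ℝ) ^ ((3 : ℝ) / 4) := Real.rpow_pos_of_pos hL0 _
  have hQ : (0 : ℝ) < (L : ℝ) ^ ((1 : ℝ) / 10) := Real.rpow_pos_of_pos hL0 _
  have hS : (0 : ℝ) < (L : ℝ) ^ ((1 : ℝ) / 4) := Real.rpow_pos_of_pos hL0 _
  obtain ⟨M, hM⟩ : ∃ M, M = ⌊(L : ℝ) ^ ((1 : ℝ) / 10)⌋₊ := ⟨_, rfl⟩
  have hMle : (M : ℝ) ≤ (L : ℝ) ^ ((1 : ℝ) / 10) := by rw [hM]; exact Nat.floor_le hQ.le
  obtain ⟨E, hE⟩ : ∃ E : Set Env, E = {t | ∃ k ∈ Finset.Icc 1 M,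
      (L : ℝ) ^ ((3 : ℝ) / 4) ≤ T t (z + ((k : ℤ), 0)) z} := ⟨_, rfl⟩
  have h1 : Pr G (UpTo G (A + B + 1) o L z)ᶜ ≤ Pr G (Up G A o L)ᶜ + Pr G E := by
    refine Pr_le_add_of_ae G ?_
    filter_upwards [ae_nn G] with t ht hn
    by_contra hcon
    push Not at hcon
    obtain ⟨hc1, hc2⟩ := hcon
    rw [Set.notMem_compl_iff] at hc1
    obtain ⟨r, hr1, hr2⟩ := hc1
    refine hn ⟨r, hr1, fun c hc x hx => ?_⟩
    have hy : nrm (z + ((r z : ℤ), 0) - z) = r z := by rw [tup_nrm_axis]; simp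
    have a1 := hr2 c hc z hz x _ hx hy
    have a2 : T t (z + ((r z : ℤ), 0)) z < (L : ℝ) ^ ((3 : ℝ) / 4) := by
      by_contra a
      refine hc2 ?_
      rw [hE]
      refine ⟨r z, Finset.mem_Icc.2 ⟨(hr1 z hz).1, ?_⟩, not_lt.1 a⟩
      rw [hM]
      exact Nat.le_floor (hr1 z hz).2
    have a3 := T_triangle ht x (z + ((r z : ℤ), 0)) z
    nlinarith [mul_pos hB hP]
  have h2 : Pr G E ≤ (Finset.Icc 1 M).card *
      (B * (L : ℝ) ^ ((1 : ℝ) / 10) / (L : ℝ) ^ ((3 : ℝ) / 4)) := by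
    refine Pr_le_card_mul G (Finset.Icc 1 M)
      (fun k => {t | (L : ℝ) ^ ((3 : ℝ) / 4) ≤ T t (z + ((k : ℤ), 0)) z}) ?_ ?_
    · refine Filter.Eventually.of_forall fun t ht => ?_
      rw [hE] at ht
      exact ht
    · intro k hk
      refine (Pr_markov G (integrable_T G _ _) ?_ hP).trans ?_
      · filter_upwards [ae_nn G] with t ht using T_nonneg ht _ _
      · rw [integral_T]
        refine div_le_div_of_nonneg_right ((hBm _).trans ?_) hP.le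
        rw [nrm_sub_comm, tup_nrm_axis]
        refine mul_le_mul_of_nonneg_left ?_ hB.le
        have : (k : ℝ) ≤ M := by exact_mod_cast (Finset.mem_Icc.1 hk).2
        simpa using this.trans hMle
  have h3 : Pr G E ≤ B / (L : ℝ) ^ ((1 : ℝ) / 4) := by
    refine h2.trans ?_
    have a1 : ((Finset.Icc 1 M).card : ℝ) ≤ (L : ℝ) ^ ((1 : ℝ) / 10) := by
      simpa using hMle
    have a2 : (L : ℝ) ^ ((1 : ℝ) / 10) * (L : ℝ) ^ ((1 : ℝ) / 10) * (L : ℝ) ^ ((1 : ℝ) / 4) ≤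
        (L : ℝ) ^ ((3 : ℝ) / 4) := by
      rw [← Real.rpow_add hL0, ← Real.rpow_add hL0]
      exact tup_rpow_le hL (by norm_num)
    calc _ ≤ (L : ℝ) ^ ((1 : ℝ) / 10) *
          (B * (L : ℝ) ^ ((1 : ℝ) / 10) / (L : ℝ) ^ ((3 : ℝ) / 4)) :=
          mul_le_mul_of_nonneg_right a1 (by positivity)
      _ ≤ _ := by
          rw [← mul_div_assoc, div_le_div_iff₀ hP hS]
          nlinarith [mul_le_mul_of_nonneg_left a2 hB.le]
  have h4 : A / (L : ℝ) ^ 100 ≤ A / (L : ℝ) ^ ((1 : ℝ) / 4) := by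
    refine div_le_div_of_nonneg_left hA.le hS ?_
    have := tup_rpow_le hL (show (1 : ℝ) / 4 ≤ ((100 : ℕ) : ℝ) by norm_num)
    rwa [Real.rpow_natCast] at this
  have h5 := hup o L hL
  have h6 : (0 : ℝ) ≤ 1 / (L : ℝ) ^ ((1 : ℝ) / 4) := by positivity
  rw [add_div, add_div]
  linarith

theorem tup_level {γ : Pth} (hγ : γ.Ok) (c : V) {i j r : ℕ} (hij : i ≤ j)
    (h : (nrm (γ.p i - c) ≤ r ∧ r ≤ nrm (γ.p j - c)) ∨ (nrm (γ.p j - c) ≤ r ∧ r ≤ nrm (γ.p i - c))) :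
    ∃ k, i ≤ k ∧ k ≤ j ∧ nrm (γ.p k - c) = r := by
  obtain ⟨k, h1, h2, h3⟩ := exists_level (fun k => (nrm (γ.p k - c) : ℤ)) hij
    (fun k _ _ => hγ.nrm_step c k) (r : ℤ) (by exact_mod_cast h)
  exact ⟨k, h1, h2, by exact_mod_cast h3⟩

/-- along a geodesic that starts and ends far from two of its points in the box, the cost between
them obeys the upper bound -/
theorem Up.geo_cost {C : ℝ} {o : V} {L : ℕ} {t : Env} (ht : NN t) (h : t ∈ Up G C o L) {γ : Pth}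
    (hγ : IsGeo Set.univ t γ) {i j : ℕ} (hij : i ≤ j) (hj : j ≤ γ.n) (bi : γ.p i ∈ box o L)
    (bj : γ.p j ∈ box o L) (h0 : (L : ℝ) ^ ((1 : ℝ) / 10) ≤ nrm (γ.p 0 - γ.p i))
    (h1 : (L : ℝ) ^ ((1 : ℝ) / 10) ≤ nrm (γ.p γ.n - γ.p j)) :
    γ.cost t i j ≤ mu G (rv (γ.p j - γ.p i)) + C * (L : ℝ) ^ ((3 : ℝ) / 4) := by
  obtain ⟨r, hr1, hr2⟩ := h
  have a0 : r (γ.p i) ≤ nrm (γ.p 0 - γ.p i) := by exact_mod_cast (hr1 _ bi).2.trans h0
  have a1 : r (γ.p j) ≤ nrm (γ.p γ.n - γ.p j) := by exact_mod_cast (hr1 _ bj).2.trans h1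
  obtain ⟨i', -, hi', ei⟩ := tup_level hγ.1 (γ.p i) (Nat.zero_le i)
    (Or.inr ⟨by rw [sub_self, nrm_zero]; exact Nat.zero_le _, a0⟩)
  obtain ⟨j', hj', hjn, ej⟩ := tup_level hγ.1 (γ.p j) hj
    (Or.inl ⟨by rw [sub_self, nrm_zero]; exact Nat.zero_le _, a1⟩)
  have b1 := γ.cost_mono ht hi' hj'
  have b2 := hγ.cost_eq ht (hi'.trans (hij.trans hj')) hjn
  have b3 := hr2 _ bi _ bj _ _ ei ej
  rw [b2] at b1
  exact b1.trans b3

/-- an earlier point of the path from which `z` is reached fast -/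
theorem UpTo.exists_earlier {C : ℝ} {o : V} {L : ℕ} {z : V} {t : Env} (h : t ∈ UpTo G C o L z)
    {γ : Pth} (hγ : γ.Ok) {i : ℕ} (hi : i ≤ γ.n) (bi : γ.p i ∈ box o L)
    (h0 : (L : ℝ) ^ ((1 : ℝ) / 10) ≤ nrm (γ.p 0 - γ.p i)) :
    ∃ i' ≤ i, T t (γ.p i') z ≤ mu G (rv (z - γ.p i)) + C * (L : ℝ) ^ ((3 : ℝ) / 4) := by
  obtain ⟨r, hr1, hr2⟩ := h
  have a0 : r (γ.p i) ≤ nrm (γ.p 0 - γ.p i) := by exact_mod_cast (hr1 _ bi).2.trans h0
  obtain ⟨i', -, hi', ei⟩ := tup_level hγ (γ.p i) (Nat.zero_le i)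
    (Or.inr ⟨by rw [sub_self, nrm_zero]; exact Nat.zero_le _, a0⟩)
  exact ⟨i', hi', hr2 _ bi _ ei⟩

end Crest.Agent.R151
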